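import Vale.Agent.P042.SS.Spec

set_option autoImplicit false

/-!
Block MT part b: `PihatStmt`, `ThStmt`, `ThEnStmt`.
General lemmas on full period sums (`perSum_*`), multiplicativity of `ph` (`ph_mul`, `ph_mul_zero`),
Parseval (`ph_parseval`).
-/

namespace Vale.Agent.P042.SS

open Polynomial Finset

/-! ### full period sums -/

lemma per_emod {α : Type*} (f : ℤ → α) (D : ℕ) (hf : ∀ n, f (n + D) = f n) (n : ℤ) :
    f (n % D) = f n := by
  have h : Function.Periodic f (D : ℤ) := hf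
  have h1 := h.int_mul (n / D) (n % D)
  have h2 : n % (D : ℤ) + (n / D) * D = n := by
    rw [mul_comm]; exact Int.emod_add_mul_ediv n D
  simp only [Int.cast_id] at h1
  rw [h2] at h1
  exact h1.symm

lemma per_mul {α : Type*} (f : ℤ → α) (D : ℕ) (hf : ∀ n, f (n + D) = f n) (m : ℕ) (n : ℤ) :
    f (n + (D * m : ℕ)) = f n := by
  rw [← per_emod f D hf (n + (D * m : ℕ)), ← per_emod f D hf n]
  congr 1
  push_cast
  exact Int.add_mul_emod_self_left n D m

/-- a full period sum as a sum over `ZMod D` -/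
lemma perSum_zmod (f : ℤ → ℂ) (D : ℕ) [NeZero D] :
    ∑ x ∈ range D, f x = ∑ z : ZMod D, f (z.val : ℤ) := by
  refine Finset.sum_bij' (fun x _ => (x : ZMod D)) (fun x _ => x.val) ?_ ?_ ?_ ?_ ?_
  · intro x _; exact mem_univ _
  · intro x _; rw [Finset.mem_range]; exact ZMod.val_lt x
  · intro x hx
    rw [Finset.mem_range] at hx
    exact ZMod.val_cast_of_lt hx
  · intro x _; exact ZMod.natCast_zmod_val x
  · intro x hx
    rw [Finset.mem_range] at hx
    rw [ZMod.val_cast_of_lt hx]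

lemma val_intCast_eq (D : ℕ) [NeZero D] (n : ℤ) : (((n : ZMod D).val : ℕ) : ℤ) = n % D :=
  ZMod.val_intCast n

/-- translation invariance of full period sums -/
lemma perSum_translate (f : ℤ → ℂ) (D : ℕ) (hD : 1 ≤ D) (hf : ∀ n, f (n + D) = f n) (M : ℤ) :
    ∑ x ∈ range D, f ((x : ℤ) + M) = ∑ x ∈ range D, f (x : ℤ) := by
  have : NeZero D := ⟨by omega⟩
  rw [perSum_zmod (fun n => f (n + M)) D, perSum_zmod f D]
  refine Fintype.sum_equiv (Equiv.addRight (M : ZMod D)) _ _ fun z => ?_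
  have h1 : (Equiv.addRight (M : ZMod D)) z = (((z.val : ℤ) + M : ℤ) : ZMod D) := by
    push_cast
    rw [ZMod.natCast_zmod_val]
    rfl
  rw [h1, val_intCast_eq, per_emod f D hf]

/-- CRT for full period sums -/
lemma perSum_mul (f g : ℤ → ℂ) (D1 D2 : ℕ) (h1 : 1 ≤ D1) (h2 : 1 ≤ D2) (hc : Nat.Coprime D1 D2)
    (hf : ∀ n, f (n + D1) = f n) (hg : ∀ n, g (n + D2) = g n) :
    ∑ x ∈ range (D1 * D2), f x * g x = (∑ x ∈ range D1, f x) * ∑ x ∈ range D2, g x := by
  have : NeZero D1 := ⟨by omega⟩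
  have : NeZero D2 := ⟨by omega⟩
  have : NeZero (D1 * D2) := ⟨(Nat.mul_pos h1 h2).ne'⟩
  rw [perSum_zmod (fun n => f n * g n) (D1 * D2), perSum_zmod f D1, perSum_zmod g D2,
    Finset.sum_mul_sum, ← Fintype.sum_prod_type']
  refine Fintype.sum_equiv (ZMod.chineseRemainder hc).toEquiv _ _ fun x => ?_
  obtain ⟨n, rfl⟩ := ZMod.intCast_surjective x
  have h2 : (ZMod.chineseRemainder hc).toEquiv (n : ZMod (D1 * D2)) =
      ((n : ZMod D1), (n : ZMod D2)) := by
    show (ZMod.chineseRemainder hc) (n : ZMod (D1 * D2)) = _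
    rw [map_intCast]
    rfl
  rw [h2]
  simp only
  rw [val_intCast_eq, val_intCast_eq, val_intCast_eq, per_emod f D1 hf, per_emod g D2 hg]
  congr 1
  · have hf' : ∀ n, f (n + (D1 * D2 : ℕ)) = f n := fun n => per_mul f D1 hf D2 n
    exact per_emod f (D1 * D2) hf' n
  · have hg' : ∀ n, g (n + (D1 * D2 : ℕ)) = g n := by
      intro n
      rw [mul_comm D1 D2]
      exact per_mul g D2 hg D1 n
    exact per_emod g (D1 * D2) hg' n

/-! ### the characters -/

lemma e_add_int (x : ℝ) (n : ℤ) : e (x + n) = e x := by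
  rw [e_add, e_int, mul_one]

lemma e_int_add (n : ℤ) (x : ℝ) : e (n + x) = e x := by
  rw [e_add, e_int, one_mul]

/-- `x ↦ e (-(x * (c / D)))` is `D`-periodic -/
lemma echar_per (D : ℕ) (hD : 1 ≤ D) (c : ℤ) (n : ℤ) :
    e (-(((n + D : ℤ) : ℝ) * ((c : ℝ) / D))) = e (-((n : ℝ) * ((c : ℝ) / D))) := by
  have hD' : (D : ℝ) ≠ 0 := by positivity
  have h : -(((n + D : ℤ) : ℝ) * ((c : ℝ) / D)) = -((n : ℝ) * ((c : ℝ) / D)) + ((-c : ℤ) : ℝ) := by
    push_cast
    field_simp
    ring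
  rw [h, e_add_int]

/-- shifting the frequency by an integer does not change `ph` -/
lemma ph_add_int (ψ : ℤ → ℝ) (D : ℕ) (θ : ℝ) (n : ℤ) : ph ψ D (θ + n) = ph ψ D θ := by
  unfold ph
  congr 1
  refine Finset.sum_congr rfl fun x _ => ?_
  congr 1
  have h : -((x : ℝ) * (θ + n)) = -((x : ℝ) * θ) + ((-(x * n) : ℤ) : ℝ) := by
    push_cast; ring
  rw [h, e_add_int]

/-- multiplicativity of `ph` under the Chinese remainder theorem -/
lemma ph_mul (ψ1 ψ2 : ℤ → ℝ) (D1 D2 : ℕ) (h1 : 1 ≤ D1) (h2 : 1 ≤ D2) (hc : Nat.Coprime D1 D2)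
    (hψ1 : ∀ n, ψ1 (n + D1) = ψ1 n) (hψ2 : ∀ n, ψ2 (n + D2) = ψ2 n) (c1 c2 : ℤ) :
    ph (fun n => ψ1 n * ψ2 n) (D1 * D2) ((c1 : ℝ) / D1 + (c2 : ℝ) / D2) =
      ph ψ1 D1 ((c1 : ℝ) / D1) * ph ψ2 D2 ((c2 : ℝ) / D2) := by
  unfold ph
  have h := perSum_mul (fun n => (ψ1 n : ℂ) * e (-((n : ℝ) * ((c1 : ℝ) / D1))))
    (fun n => (ψ2 n : ℂ) * e (-((n : ℝ) * ((c2 : ℝ) / D2)))) D1 D2 h1 h2 hc
    (fun n => by rw [hψ1, echar_per D1 h1]) (fun n => by rw [hψ2, echar_per D2 h2])
  simp only [Int.cast_natCast] at h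
  rw [div_mul_div_comm, ← h]
  push_cast
  congr 1
  refine Finset.sum_congr rfl fun x _ => ?_
  have h3 : -((x : ℝ) * ((c1 : ℝ) / D1 + (c2 : ℝ) / D2)) =
      -((x : ℝ) * ((c1 : ℝ) / D1)) + -((x : ℝ) * ((c2 : ℝ) / D2)) := by ring
  rw [h3, e_add]
  ring

/-- the second factor has frequency zero -/
lemma ph_mul_zero (ψ1 ψ2 : ℤ → ℝ) (D1 D2 : ℕ) (h1 : 1 ≤ D1) (h2 : 1 ≤ D2)
    (hc : Nat.Coprime D1 D2)
    (hψ1 : ∀ n, ψ1 (n + D1) = ψ1 n) (hψ2 : ∀ n, ψ2 (n + D2) = ψ2 n) (c : ℤ) :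
    ph (fun n => ψ1 n * ψ2 n) (D1 * D2) ((c : ℝ) / D1) =
      ph ψ1 D1 ((c : ℝ) / D1) * ph ψ2 D2 0 := by
  have h := ph_mul ψ1 ψ2 D1 D2 h1 h2 hc hψ1 hψ2 c 0
  simp only [Int.cast_zero, zero_div, add_zero] at h
  exact h

lemma ph_one_zero (D : ℕ) (hD : 1 ≤ D) : ph (fun _ => 1) D 0 = 1 := by
  unfold ph
  have hD' : (D : ℂ) ≠ 0 := by exact_mod_cast (by omega : D ≠ 0)
  simp [e_zero, hD']

lemma ph_zero_of_mean (ψ : ℤ → ℝ) (p : ℕ) (hp : 1 ≤ p) (h : ∑ x ∈ range p, ψ x = p) :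
    ph ψ p 0 = 1 := by
  unfold ph
  have hp' : (p : ℂ) ≠ 0 := by exact_mod_cast (by omega : p ≠ 0)
  have h1 : ∑ x ∈ range p, (ψ x : ℂ) * e (-((x : ℝ) * 0)) = p := by
    have h2 : ∀ x ∈ range p, (ψ x : ℂ) * e (-((x : ℝ) * 0)) = ((ψ x : ℝ) : ℂ) := by
      intro x _
      rw [mul_zero, neg_zero, e_zero, mul_one]
    rw [Finset.sum_congr rfl h2, ← Complex.ofReal_sum, h]
    simp
  rw [h1, div_self hp']

/-! ### products over sets of primes -/

lemma psi_per (ν : ℕ → ℤ → ℝ) (S : Finset ℕ) (hper : ∀ p ∈ S, ∀ n, ν p (n + p) = ν p n) (n : ℤ) :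
    psi ν S (n + (∏ p ∈ S, p : ℕ)) = psi ν S n := by
  unfold psi
  refine Finset.prod_congr rfl fun p hp => ?_
  obtain ⟨m, hm⟩ := Finset.dvd_prod_of_mem (fun p : ℕ => p) hp
  rw [hm]
  exact per_mul (ν p) p (hper p hp) m n

lemma psi_per_mul (ν : ℕ → ℤ → ℝ) (S : Finset ℕ) (hper : ∀ p ∈ S, ∀ n, ν p (n + p) = ν p n)
    (m : ℕ) (n : ℤ) :
    psi ν S (n + ((∏ p ∈ S, p) * m : ℕ)) = psi ν S n :=
  per_mul (psi ν S) (∏ p ∈ S, p) (psi_per ν S hper) m n

/-- the mean of a product weight over a full period is one -/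
lemma ph_psi_zero (ν : ℕ → ℤ → ℝ) (S : Finset ℕ) (hS : ∀ p ∈ S, p.Prime)
    (hper : ∀ p ∈ S, ∀ n, ν p (n + p) = ν p n) (hmean : ∀ p ∈ S, ∑ x ∈ range p, ν p x = p)
    (r : ℕ) (hr : 1 ≤ r) (hc : ∀ p ∈ S, Nat.Coprime p r) :
    ph (psi ν S) (r * ∏ p ∈ S, p) 0 = 1 := by
  classical
  induction S using Finset.induction_on with
  | empty =>
    have h : psi ν ∅ = fun _ => 1 := by
      funext n; simp [psi]
    rw [h]
    simp only [Finset.prod_empty, mul_one]
    exact ph_one_zero r hr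
  | @insert p S hpS ih =>
    have hp : p.Prime := hS p (Finset.mem_insert_self p S)
    have hS' : ∀ l ∈ S, l.Prime := fun l hl => hS l (Finset.mem_insert_of_mem hl)
    have hper' : ∀ l ∈ S, ∀ n, ν l (n + l) = ν l n :=
      fun l hl => hper l (Finset.mem_insert_of_mem hl)
    have ih' := ih hS' hper' (fun l hl => hmean l (Finset.mem_insert_of_mem hl))
      (fun l hl => hc l (Finset.mem_insert_of_mem hl))
    have h : psi ν (insert p S) = fun n => psi ν S n * ν p n := by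
      funext n
      unfold psi
      rw [Finset.prod_insert hpS, mul_comm]
    rw [h, Finset.prod_insert hpS]
    have h2 : r * (p * ∏ l ∈ S, l) = (r * ∏ l ∈ S, l) * p := by ring
    rw [h2]
    have hpos : 1 ≤ ∏ l ∈ S, l := Finset.prod_pos fun l hl => (hS' l hl).pos
    have hcop : Nat.Coprime (r * ∏ l ∈ S, l) p := by
      apply Nat.Coprime.mul_left
      · exact (hc p (Finset.mem_insert_self p S)).symm
      · apply Nat.Coprime.prod_left
        intro l hl
        rw [Nat.coprime_primes (hS' l hl) hp]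
        rintro rfl
        exact hpS hl
    have h3 := ph_mul_zero (psi ν S) (ν p) (r * ∏ l ∈ S, l) p (Nat.mul_pos hr hpos) hp.one_lt.le
      hcop (fun n => by rw [mul_comm r]; exact psi_per_mul ν S hper' r n)
      (hper p (Finset.mem_insert_self p S)) 0
    simp only [Int.cast_zero, zero_div] at h3
    rw [h3, ih', ph_zero_of_mean (ν p) p hp.one_lt.le (hmean p (Finset.mem_insert_self p S)),
      one_mul]

lemma squarefree_prod_primes (S : Finset ℕ) (hS : ∀ p ∈ S, p.Prime) :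
    Squarefree (∏ p ∈ S, p) := by
  classical
  induction S using Finset.induction_on with
  | empty => simp
  | @insert p S hpS ih =>
    rw [Finset.prod_insert hpS, Nat.squarefree_mul_iff]
    refine ⟨?_, (hS p (Finset.mem_insert_self p S)).prime.squarefree,
      ih fun l hl => hS l (Finset.mem_insert_of_mem hl)⟩
    apply Nat.Coprime.prod_right
    intro l hl
    rw [Nat.coprime_primes (hS p (Finset.mem_insert_self p S))
      (hS l (Finset.mem_insert_of_mem hl))]
    rintro rfl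
    exact hpS hl

theorem pihat_holds : PihatStmt := by
  intro W ν hW hwts S r q a hSW hr hcr hq hqd hqa
  have hS : ∀ p ∈ S, p.Prime := fun p hp => hW p (hSW hp)
  have hper : ∀ p ∈ S, ∀ n, ν p (n + p) = ν p n := fun p hp => hwts.per p (hSW hp)
  have hMpos : 1 ≤ ∏ p ∈ S, p := Finset.prod_pos fun l hl => (hS l hl).pos
  unfold pihat
  split_ifs with hcond
  · obtain ⟨hsq, hpf⟩ := hcond
    -- `q` divides the product over `S`
    have hqr : Nat.Coprime q r := by
      rw [← Nat.disjoint_primeFactors (by omega) (by omega), Finset.disjoint_left]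
      intro l hl hl'
      have h1 := hcr l (hpf hl)
      have h2 := Nat.dvd_of_mem_primeFactors hl'
      have h3 := (Nat.prime_of_mem_primeFactors hl)
      have h4 : l ∣ Nat.gcd l r := Nat.dvd_gcd dvd_rfl h2
      rw [Nat.Coprime] at h1
      rw [h1] at h4
      exact h3.one_lt.ne' (Nat.dvd_one.1 h4)
    have hqM : q ∣ ∏ p ∈ S, p := hqr.dvd_of_dvd_mul_left hqd
    have hpfS : q.primeFactors ⊆ S := by
      intro l hl
      have h1 := (Nat.prime_of_mem_primeFactors hl)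
      have h2 := (Nat.dvd_of_mem_primeFactors hl).trans hqM
      obtain ⟨p, hp, hlp⟩ := (h1.prime.dvd_finsetProd_iff _).1 h2
      rw [(Nat.prime_dvd_prime_iff_eq h1 (hS p hp)).1 hlp]
      exact hp
    have hqprod : ∏ p ∈ q.primeFactors, p = q := Nat.prod_primeFactors_of_squarefree hsq
    -- split off the other coordinates
    have hpsi : psi ν S = fun n => psi ν q.primeFactors n * psi ν (S \ q.primeFactors) n := by
      funext n
      unfold psi
      rw [mul_comm, Finset.prod_sdiff hpfS]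
    have hprodS : ∏ p ∈ S, p = q * ∏ p ∈ S \ q.primeFactors, p := by
      rw [← Finset.prod_sdiff hpfS, hqprod, mul_comm]
    have hD : r * ∏ p ∈ S, p = q * (r * ∏ p ∈ S \ q.primeFactors, p) := by
      rw [hprodS]; ring
    have hSd : ∀ p ∈ S \ q.primeFactors, p ∈ S := fun p hp => (Finset.mem_sdiff.1 hp).1
    have hMpos' : 1 ≤ ∏ p ∈ S \ q.primeFactors, p :=
      Finset.prod_pos fun l hl => (hS l (hSd l hl)).pos
    have hcop : Nat.Coprime q (r * ∏ p ∈ S \ q.primeFactors, p) := by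
      apply Nat.Coprime.mul_right hqr
      apply Nat.Coprime.prod_right
      intro l hl
      rw [Nat.coprime_comm, (hS l (hSd l hl)).coprime_iff_not_dvd]
      intro hd
      exact (Finset.mem_sdiff.1 hl).2
        (Nat.mem_primeFactors.2 ⟨hS l (hSd l hl), hd, by omega⟩)
    have h := ph_mul_zero (psi ν q.primeFactors) (psi ν (S \ q.primeFactors)) q
      (r * ∏ p ∈ S \ q.primeFactors, p) hq (Nat.mul_pos hr hMpos') hcop
      (fun n => by
        have h1 := psi_per ν q.primeFactors (fun p hp => hper p (hpfS hp)) n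
        rwa [hqprod] at h1)
      (fun n => by
        rw [mul_comm r]
        exact psi_per_mul ν (S \ q.primeFactors) (fun p hp => hper p (hSd p hp)) r n) a
    rw [hpsi, hD]
    simp only [Int.cast_natCast] at h ⊢
    rw [h, ph_psi_zero ν (S \ q.primeFactors) (fun p hp => hS p (hSd p hp))
      (fun p hp => hper p (hSd p hp)) (fun p hp => hwts.mean p (hSW (hSd p hp))) r hr
      (fun p hp => hcr p (hSW (hSd p hp))), mul_one]
  · -- `q` does not divide the product over `S`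
    have hnd : ¬ q ∣ ∏ p ∈ S, p := by
      intro hd
      apply hcond
      refine ⟨(squarefree_prod_primes S hS).squarefree_of_dvd hd, ?_⟩
      intro l hl
      have h1 := (Nat.prime_of_mem_primeFactors hl)
      have h2 := (Nat.dvd_of_mem_primeFactors hl).trans hd
      obtain ⟨p, hp, hlp⟩ := (h1.prime.dvd_finsetProd_iff _).1 h2
      rw [(Nat.prime_dvd_prime_iff_eq h1 (hS p hp)).1 hlp]
      exact hSW hp
    set M : ℕ := ∏ p ∈ S, p with hM
    have hq' : (q : ℝ) ≠ 0 := by positivity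
    -- the sum over a full period is invariant under translation by `M`
    obtain ⟨m, hm⟩ := hqd
    have hper1 : ∀ n : ℤ, psi ν S (n + (r * M : ℕ)) = psi ν S n := fun n => by
      rw [mul_comm r]; exact psi_per_mul ν S hper r n
    have hper2 : ∀ n : ℤ, e (-(((n + (r * M : ℕ) : ℤ) : ℝ) * ((a : ℝ) / q))) =
        e (-((n : ℝ) * ((a : ℝ) / q))) := by
      intro n
      have h : -(((n + (r * M : ℕ) : ℤ) : ℝ) * ((a : ℝ) / q)) =
          -((n : ℝ) * ((a : ℝ) / q)) + ((-((m : ℤ) * a) : ℤ) : ℝ) := by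
        rw [hm]
        push_cast
        field_simp
        ring
      rw [h, e_add_int]
    have htr := perSum_translate (fun n => (psi ν S n : ℂ) * e (-((n : ℝ) * ((a : ℝ) / q))))
      (r * M) (Nat.mul_pos hr hMpos) (fun n => by simp only [hper1, hper2]) (M : ℤ)
    simp only [Int.cast_natCast] at htr
    have hshift : ∀ x : ℕ, (psi ν S ((x : ℤ) + (M : ℤ)) : ℂ) *
        e (-((((x : ℤ) + (M : ℤ) : ℤ) : ℝ) * ((a : ℝ) / q))) =
        e (-((M : ℝ) * ((a : ℝ) / q))) * ((psi ν S (x : ℤ) : ℂ) * e (-((x : ℝ) * ((a : ℝ) / q)))) := by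
      intro x
      have h1 := psi_per ν S hper (x : ℤ)
      rw [← hM] at h1
      rw [h1]
      have h : -((((x : ℤ) + (M : ℤ) : ℤ) : ℝ) * ((a : ℝ) / q)) =
          -((M : ℝ) * ((a : ℝ) / q)) + -((x : ℝ) * ((a : ℝ) / q)) := by
        push_cast; ring
      rw [h, e_add]
      ring
    simp only [hshift] at htr
    rw [← Finset.mul_sum] at htr
    have hne : e (-((M : ℝ) * ((a : ℝ) / q))) ≠ 1 := by
      intro h1
      rw [e_eq_one_iff] at h1
      obtain ⟨n, hn⟩ := h1
      apply hnd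
      have h2 : ((M * a : ℕ) : ℤ) = q * (-n) := by
        have h3 : (M : ℝ) * a = q * (-n) := by
          have : (M : ℝ) * (a / q) * q = -n * q := by
            rw [← hn]; ring
          field_simp at this
          linarith
        exact_mod_cast h3
      have h4 : (q : ℤ) ∣ ((M * a : ℕ) : ℤ) := ⟨-n, h2⟩
      rw [Int.natCast_dvd_natCast] at h4
      exact hqa.dvd_of_dvd_mul_right h4
    unfold ph
    have hzero : ∑ x ∈ range (r * M), (psi ν S (x : ℤ) : ℂ) * e (-((x : ℝ) * ((a : ℝ) / q))) = 0 := by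
      have h1 : (e (-((M : ℝ) * ((a : ℝ) / q))) - 1) *
          ∑ x ∈ range (r * M), (psi ν S (x : ℤ) : ℂ) * e (-((x : ℝ) * ((a : ℝ) / q))) = 0 := by
        rw [sub_mul, one_mul, htr, sub_self]
      rcases mul_eq_zero.1 h1 with h2 | h2
      · exact absurd (sub_eq_zero.1 h2) hne
      · exact h2
    rw [hzero, zero_div]

/-! ### Parseval -/

/-- orthogonality of the characters mod `D` -/
lemma echar_orth (D : ℕ) (hD : 1 ≤ D) (m : ℤ) :
    ∑ a ∈ range D, e ((m : ℝ) * ((a : ℝ) / D)) = if (D : ℤ) ∣ m then (D : ℂ) else 0 := by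
  have hD' : (D : ℝ) ≠ 0 := by positivity
  split_ifs with h
  · obtain ⟨c, rfl⟩ := h
    have h1 : ∀ a ∈ range D, e ((((D : ℤ) * c : ℤ) : ℝ) * ((a : ℝ) / D)) = 1 := by
      intro a _
      have h2 : (((D : ℤ) * c : ℤ) : ℝ) * ((a : ℝ) / D) = ((c * a : ℤ) : ℝ) := by
        push_cast; field_simp
      rw [h2, e_int]
    rw [Finset.sum_congr rfl h1]
    simp
  · have h1 : ∀ a ∈ range D, e ((m : ℝ) * ((a : ℝ) / D)) = e ((m : ℝ) / D) ^ a := by
      intro a _
      rw [← e_nat_mul]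
      congr 1
      ring
    rw [Finset.sum_congr rfl h1]
    have hne : e ((m : ℝ) / D) ≠ 1 := by
      intro h2
      rw [e_eq_one_iff] at h2
      obtain ⟨n, hn⟩ := h2
      apply h
      refine ⟨n, ?_⟩
      have : (m : ℝ) = D * n := by rw [← hn]; field_simp
      exact_mod_cast this
    have h3 := geom_sum_eq hne D
    rw [h3, ← e_nat_mul]
    have h4 : (D : ℝ) * ((m : ℝ) / D) = ((m : ℤ) : ℝ) := by field_simp
    rw [h4, e_int, sub_self, zero_div]

/-- Parseval for `ph` -/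
lemma ph_parseval (ψ : ℤ → ℝ) (D : ℕ) (hD : 1 ≤ D) :
    ∑ a ∈ range D, ‖ph ψ D ((a : ℝ) / D)‖ ^ 2 = (∑ x ∈ range D, ψ x ^ 2) / D := by
  have hD' : (D : ℝ) ≠ 0 := by positivity
  have hDc : (D : ℂ) ≠ 0 := by exact_mod_cast (by omega : D ≠ 0)
  have key : ((∑ a ∈ range D, ‖ph ψ D ((a : ℝ) / D)‖ ^ 2 : ℝ) : ℂ) =
      (((∑ x ∈ range D, ψ x ^ 2) / D : ℝ) : ℂ) := by
    have h1 : ∀ a ∈ range D, ((‖ph ψ D ((a : ℝ) / D)‖ ^ 2 : ℝ) : ℂ) =
        (∑ x ∈ range D, ∑ y ∈ range D, (ψ x : ℂ) * ψ y *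
          e ((((y : ℤ) - x : ℤ) : ℝ) * ((a : ℝ) / D))) / (D ^ 2 : ℂ) := by
      intro a _
      have h2 : ((‖ph ψ D ((a : ℝ) / D)‖ ^ 2 : ℝ) : ℂ) =
          ph ψ D ((a : ℝ) / D) * (starRingEnd ℂ) (ph ψ D ((a : ℝ) / D)) := by
        rw [Complex.mul_conj, Complex.normSq_eq_norm_sq]
      rw [h2]
      unfold ph
      rw [map_div₀, map_sum, Complex.conj_natCast, div_mul_div_comm, ← sq]
      congr 1
      rw [Finset.sum_mul_sum]
      refine Finset.sum_congr rfl fun x _ => Finset.sum_congr rfl fun y _ => ?_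
      rw [map_mul, Complex.conj_ofReal, conj_e]
      have h3 : (((y : ℤ) - x : ℤ) : ℝ) * ((a : ℝ) / D) =
          -((x : ℝ) * ((a : ℝ) / D)) + -(-((y : ℝ) * ((a : ℝ) / D))) := by
        push_cast; ring
      rw [h3, e_add]
      ring
    rw [Complex.ofReal_sum, Finset.sum_congr rfl h1, ← Finset.sum_div]
    have h4 : ∑ a ∈ range D, ∑ x ∈ range D, ∑ y ∈ range D, (ψ x : ℂ) * ψ y *
          e ((((y : ℤ) - x : ℤ) : ℝ) * ((a : ℝ) / D)) =
        ∑ x ∈ range D, (ψ x : ℂ) ^ 2 * D := by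
      rw [Finset.sum_comm]
      refine Finset.sum_congr rfl fun x hx => ?_
      rw [Finset.sum_comm]
      have h5 : ∀ y ∈ range D, ∑ a ∈ range D, (ψ x : ℂ) * ψ y *
          e ((((y : ℤ) - x : ℤ) : ℝ) * ((a : ℝ) / D)) =
          if y = x then (ψ x : ℂ) ^ 2 * D else 0 := by
        intro y hy
        rw [← Finset.mul_sum, echar_orth D hD]
        rw [Finset.mem_range] at hx hy
        by_cases hxy : y = x
        · subst hxy
          simp only [sub_self, dvd_zero, if_true]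
          ring
        · rw [if_neg hxy, if_neg, mul_zero]
          intro hd
          apply hxy
          have h6 : (y : ℤ) - x = 0 := by
            apply Int.eq_zero_of_abs_lt_dvd hd
            rw [abs_lt]
            constructor <;> omega
          omega
      rw [Finset.sum_congr rfl h5, Finset.sum_ite_eq' (range D) x, if_pos hx]
    rw [h4, ← Finset.sum_mul]
    push_cast
    field_simp
  exact_mod_cast key

theorem th_holds : ThStmt := by
  intro p ν b hp hnn hper hmean hb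
  have hp1 : 1 ≤ p := hp.one_lt.le
  have hp' : (0 : ℝ) < p := by exact_mod_cast hp.pos
  refine ⟨Finset.sum_nonneg fun a _ => by positivity, ?_⟩
  have h1 := ph_parseval (ν p) p hp1
  have h2 : ∑ a ∈ range p, ‖ph (ν p) p ((a : ℝ) / p)‖ ^ 2 = 1 + th ν p := by
    unfold th
    rw [Finset.range_eq_Ico, Finset.sum_eq_sum_Ico_succ_bot hp.pos]
    simp only [Nat.cast_zero, zero_div]
    rw [ph_zero_of_mean (ν p) p hp1 hmean]
    simp
  have h3 : ∑ x ∈ range p, ν p x ^ 2 ≤ b * p := by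
    rw [← hmean, Finset.mul_sum]
    refine Finset.sum_le_sum fun x _ => ?_
    rw [sq]
    exact mul_le_mul_of_nonneg_right (hb x) (hnn x)
  have h4 : (∑ x ∈ range p, ν p x ^ 2) / p ≤ b := by
    rw [div_le_iff₀ hp']
    exact h3
  linarith

theorem thEn_holds : ThEnStmt := by
  intro k N' Nmin W τ η Φ G ν hP p hpW
  have hp : p.Prime := hP.prime p hpW
  have hp1 : 1 ≤ p := hp.one_lt.le
  have hp' : (p : ℝ) ≠ 0 := by exact_mod_cast hp.ne_zero
  have hF : ∀ a : ℕ, Fw G 0 N' ((a : ℝ) / p) = ((N' * Φ : ℝ) : ℂ) * ph (ν p) p ((a : ℝ) / p) := by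
    intro a
    unfold Fw ph
    have hmem : ∀ n ∈ Ioc (0 : ℤ) (0 + N'), (n % (p : ℤ)).toNat ∈ range p := by
      intro n _
      rw [Finset.mem_range]
      have h1 := Int.emod_nonneg n (by exact_mod_cast hp.ne_zero : (p : ℤ) ≠ 0)
      have h2 := Int.emod_lt_of_pos n (by exact_mod_cast hp.pos : (0 : ℤ) < p)
      omega
    rw [← Finset.sum_fiberwise_of_maps_to hmem, mul_div_assoc', Finset.mul_sum, Finset.sum_div]
    refine Finset.sum_congr rfl fun x hx => ?_
    rw [Finset.mem_range] at hx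
    have hm := hP.marg p hpW x
    unfold mass at hm
    have h1 : ∑ n ∈ (Ioc (0 : ℤ) (0 + N')).filter (fun n => (n % (p : ℤ)).toNat = x),
        (G n : ℂ) * e (-((n : ℝ) * ((a : ℝ) / p))) =
        ∑ n ∈ (Ioc (0 : ℤ) (0 + N')).filter (fun n : ℤ => n ≡ (x : ℤ) [ZMOD (p : ℕ)]),
          (G n : ℂ) * e (-((x : ℝ) * ((a : ℝ) / p))) := by
      have hfilt : (Ioc (0 : ℤ) (0 + N')).filter (fun n => (n % (p : ℤ)).toNat = x) =
          (Ioc (0 : ℤ) (0 + N')).filter (fun n : ℤ => n ≡ (x : ℤ) [ZMOD (p : ℕ)]) := by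
        apply Finset.filter_congr
        intro n _
        have h1 := Int.emod_nonneg n (by exact_mod_cast hp.ne_zero : (p : ℤ) ≠ 0)
        have h3 : (x : ℤ) % (p : ℤ) = x := Int.emod_eq_of_lt (by omega) (by exact_mod_cast hx)
        unfold Int.ModEq
        rw [h3]
        omega
      rw [hfilt]
      refine Finset.sum_congr rfl fun n hn => ?_
      rw [Finset.mem_filter] at hn
      congr 1
      obtain ⟨c, hc⟩ := (Int.modEq_iff_dvd.1 hn.2)
      have h4 : -((n : ℝ) * ((a : ℝ) / p)) = -((x : ℝ) * ((a : ℝ) / p)) + ((c * a : ℤ) : ℝ) := by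
        have h5 : (n : ℝ) = x - p * c := by
          have : n = x - p * c := by omega
          rw [this]; push_cast; ring
        rw [h5]
        push_cast
        field_simp
        ring
      rw [h4, e_add_int]
    rw [h1, ← Finset.sum_mul, ← Complex.ofReal_sum, hm]
    push_cast
    ring
  unfold enG th
  rw [Finset.mul_sum]
  have hset : (range p).filter (Nat.Coprime p) = Ico 1 p := by
    ext a
    simp only [Finset.mem_filter, Finset.mem_range, Finset.mem_Ico]
    constructor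
    · rintro ⟨h1, h2⟩
      refine ⟨?_, h1⟩
      rcases Nat.eq_zero_or_pos a with h0 | h0
      · subst h0
        rw [Nat.coprime_zero_right] at h2
        exact absurd h2 hp.ne_one
      · exact h0
    · rintro ⟨h1, h2⟩
      refine ⟨h2, ?_⟩
      rw [hp.coprime_iff_not_dvd]
      exact Nat.not_dvd_of_pos_of_lt h1 h2
  rw [hset]
  refine Finset.sum_congr rfl fun a _ => ?_
  rw [hF, norm_mul, mul_pow, Complex.norm_real, Real.norm_eq_abs, sq_abs]

end Vale.Agent.P042.SS
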