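import Vale.Agent.P042.SS.Spec

set_option autoImplicit false

/-!
Scalar part of the main term (block MT): Euler products and the Rankin tail.
-/

namespace Vale.Agent.P042.SS

open Polynomial Finset

lemma one_sub_ge_exp (t : ℝ) (h0 : 0 ≤ t) (h1 : t ≤ 1 / 2) : Real.exp (-(2 * t)) ≤ 1 - t := by
  rw [Real.exp_neg, inv_le_comm₀ (Real.exp_pos _) (by linarith)]
  have h2 := Real.add_one_le_exp (2 * t)
  refine le_trans ?_ h2
  rw [inv_eq_one_div, div_le_iff₀ (by linarith)]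
  nlinarith

/-- lower bound of the full Euler product -/
lemma euler_lower (W : Finset ℕ) (c t : ℕ → ℝ) (C0 : ℝ)
    (hc : ∀ p ∈ W, |c p| ≤ t p) (ht : ∀ p ∈ W, t p ≤ 1 / 2) (hC : ∑ p ∈ W, t p ≤ C0) :
    Real.exp (-(2 * C0)) ≤ ∑ T ∈ W.powerset, ∏ p ∈ T, c p := by
  rw [← Finset.prod_one_add]
  have h1 : Real.exp (-(2 * C0)) ≤ ∏ p ∈ W, Real.exp (-(2 * t p)) := by
    rw [← Real.exp_sum]
    apply Real.exp_le_exp.2
    rw [Finset.sum_neg_distrib, ← Finset.mul_sum]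
    linarith
  refine h1.trans (Finset.prod_le_prod (fun p _ => (Real.exp_pos _).le) fun p hp => ?_)
  have h2 := hc p hp
  have h3 : 0 ≤ t p := (abs_nonneg _).trans h2
  have h4 := one_sub_ge_exp (t p) h3 (ht p hp)
  have h5 := (abs_le.1 h2).1
  linarith

/-- upper bound of the full Euler product -/
lemma euler_upper (W : Finset ℕ) (t : ℕ → ℝ) (C0 : ℝ) (h0 : ∀ p ∈ W, 0 ≤ t p)
    (hC : ∑ p ∈ W, t p ≤ C0) :
    ∑ T ∈ W.powerset, ∏ p ∈ T, t p ≤ Real.exp C0 := by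
  rw [← Finset.prod_one_add]
  calc ∏ p ∈ W, (1 + t p) ≤ ∏ p ∈ W, Real.exp (t p) :=
        Finset.prod_le_prod (fun p hp => by linarith [h0 p hp]) fun p _ => by
          linarith [Real.add_one_le_exp (t p)]
    _ = Real.exp (∑ p ∈ W, t p) := (Real.exp_sum _ _).symm
    _ ≤ Real.exp C0 := Real.exp_le_exp.2 hC

/-- Rankin tail -/
lemma rankin_tail (W : Finset ℕ) (w1 Q : ℕ) (t : ℕ → ℝ) (C0 : ℝ) (h0 : ∀ p ∈ W, 0 ≤ t p)
    (hC : ∑ p ∈ W, t p ≤ C0) (hW : ∀ p ∈ W, 1 ≤ p ∧ p ≤ w1) (hw1 : 2 ≤ w1) (hQ : 1 ≤ Q) :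
    ∑ T ∈ W.powerset.filter (fun T => ¬ ∏ p ∈ T, p ≤ Q), ∏ p ∈ T, t p ≤
      Real.exp (3 * C0 - Real.log Q / Real.log w1) := by
  have hlw : 0 < Real.log w1 := Real.log_pos (by exact_mod_cast hw1)
  have hQ' : (0 : ℝ) < Q := by exact_mod_cast hQ
  have h1 : ∀ T ∈ W.powerset.filter (fun T => ¬ ∏ p ∈ T, p ≤ Q), ∏ p ∈ T, t p ≤
      Real.exp (-(Real.log Q / Real.log w1)) * ∏ p ∈ T, (3 * t p) := by
    intro T hT
    rw [Finset.mem_filter, Finset.mem_powerset, not_le] at hT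
    obtain ⟨hTW, hTQ⟩ := hT
    have hpos : 0 ≤ ∏ p ∈ T, t p := Finset.prod_nonneg fun p hp => h0 p (hTW hp)
    rw [Finset.prod_mul_distrib, ← mul_assoc]
    refine le_mul_of_one_le_left hpos ?_
    rw [Finset.prod_const]
    have h3 : Real.log Q / Real.log w1 ≤ T.card := by
      rw [div_le_iff₀ hlw]
      have h4 : Real.log Q ≤ Real.log (∏ p ∈ T, (p : ℝ)) := by
        apply Real.log_le_log hQ'
        have : (Q : ℝ) ≤ ((∏ p ∈ T, p : ℕ) : ℝ) := by exact_mod_cast hTQ.le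
        rwa [Nat.cast_prod] at this
      refine h4.trans ?_
      rw [Real.log_prod (fun p hp => by
        have := (hW p (hTW hp)).1
        positivity)]
      rw [← nsmul_eq_mul]
      apply Finset.sum_le_card_nsmul
      intro p hp
      have h5 := hW p (hTW hp)
      exact Real.log_le_log (by exact_mod_cast h5.1) (by exact_mod_cast h5.2)
    have h6 : Real.exp (T.card : ℝ) ≤ 3 ^ T.card := by
      rw [← mul_one (T.card : ℝ), Real.exp_nat_mul]
      exact pow_le_pow_left₀ (Real.exp_pos _).le (by linarith [Real.exp_one_lt_d9]) _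
    calc (1 : ℝ) = Real.exp (-(Real.log Q / Real.log w1)) *
          Real.exp (Real.log Q / Real.log w1) := by
            rw [← Real.exp_add]; simp
      _ ≤ Real.exp (-(Real.log Q / Real.log w1)) * 3 ^ T.card := by
            apply mul_le_mul_of_nonneg_left _ (Real.exp_pos _).le
            exact (Real.exp_le_exp.2 h3).trans h6
  refine (Finset.sum_le_sum h1).trans ?_
  rw [← Finset.mul_sum]
  have h2 : ∑ T ∈ W.powerset.filter (fun T => ¬ ∏ p ∈ T, p ≤ Q), ∏ p ∈ T, (3 * t p) ≤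
      ∑ T ∈ W.powerset, ∏ p ∈ T, (3 * t p) := by
    apply Finset.sum_le_sum_of_subset_of_nonneg (Finset.filter_subset _ _)
    intro T hT _
    rw [Finset.mem_powerset] at hT
    exact Finset.prod_nonneg fun p hp => mul_nonneg (by norm_num) (h0 p (hT hp))
  have h3 := euler_upper W (fun p => 3 * t p) (3 * C0)
    (fun p hp => mul_nonneg (by norm_num) (h0 p hp)) (by rw [← Finset.mul_sum]; linarith)
  calc Real.exp (-(Real.log Q / Real.log w1)) *
        ∑ T ∈ W.powerset.filter (fun T => ¬ ∏ p ∈ T, p ≤ Q), ∏ p ∈ T, (3 * t p)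
      ≤ Real.exp (-(Real.log Q / Real.log w1)) * Real.exp (3 * C0) :=
        mul_le_mul_of_nonneg_left (h2.trans h3) (Real.exp_pos _).le
    _ = Real.exp (3 * C0 - Real.log Q / Real.log w1) := by
        rw [← Real.exp_add]; congr 1; ring

/-- (E1) main term lower bound for the truncated Euler product -/
lemma euler_trunc_lower (W : Finset ℕ) (w1 Q : ℕ) (c t : ℕ → ℝ) (C0 : ℝ)
    (hc : ∀ p ∈ W, |c p| ≤ t p) (ht : ∀ p ∈ W, t p ≤ 1 / 2) (hC : ∑ p ∈ W, t p ≤ C0)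
    (hW : ∀ p ∈ W, 1 ≤ p ∧ p ≤ w1) (hw1 : 2 ≤ w1) (hQ : 1 ≤ Q) :
    Real.exp (-(2 * C0)) - Real.exp (3 * C0 - Real.log Q / Real.log w1) ≤
      ∑ T ∈ W.powerset.filter (fun T => ∏ p ∈ T, p ≤ Q), ∏ p ∈ T, c p := by
  have h0 : ∀ p ∈ W, 0 ≤ t p := fun p hp => (abs_nonneg _).trans (hc p hp)
  have h1 := euler_lower W c t C0 hc ht hC
  have h2 := rankin_tail W w1 Q t C0 h0 hC hW hw1 hQ
  have h3 := Finset.sum_filter_add_sum_filter_not W.powerset (fun T => ∏ p ∈ T, p ≤ Q)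
    (fun T => ∏ p ∈ T, c p)
  have h4 : ∑ T ∈ W.powerset.filter (fun T => ¬ ∏ p ∈ T, p ≤ Q), ∏ p ∈ T, c p ≤
      ∑ T ∈ W.powerset.filter (fun T => ¬ ∏ p ∈ T, p ≤ Q), ∏ p ∈ T, t p := by
    refine Finset.sum_le_sum fun T hT => ?_
    rw [Finset.mem_filter, Finset.mem_powerset] at hT
    refine (le_abs_self _).trans ?_
    rw [Finset.abs_prod]
    exact Finset.prod_le_prod (fun p _ => abs_nonneg _) fun p hp => hc p (hT.1 hp)
  linarith

lemma euler_trunc_upper (W : Finset ℕ) (Q : ℕ) (t : ℕ → ℝ) (C0 : ℝ)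
    (h0 : ∀ p ∈ W, 0 ≤ t p) (hC : ∑ p ∈ W, t p ≤ C0) :
    ∑ T ∈ W.powerset.filter (fun T => ∏ p ∈ T, p ≤ Q), ∏ p ∈ T, t p ≤ Real.exp C0 := by
  refine le_trans ?_ (euler_upper W t C0 h0 hC)
  apply Finset.sum_le_sum_of_subset_of_nonneg (Finset.filter_subset _ _)
  intro T hT _
  rw [Finset.mem_powerset] at hT
  exact Finset.prod_nonneg fun p hp => h0 p (hT hp)

/-! ### covered moduli and sets of primes -/

lemma Wp_prime {w w1 p : ℕ} (hp : p ∈ Wp w w1) : p.Prime := (Finset.mem_filter.1 hp).2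

lemma Wp_mem {w w1 p : ℕ} (hp : p ∈ Wp w w1) : w < p ∧ p ≤ w1 :=
  Finset.mem_Ioc.1 (Finset.mem_filter.1 hp).1

lemma primeFactors_prod_set (T : Finset ℕ) (hT : ∀ p ∈ T, p.Prime) :
    (∏ p ∈ T, p).primeFactors = T := Nat.primeFactors_prod hT

lemma squarefree_prod_set (T : Finset ℕ) (hT : ∀ p ∈ T, p.Prime) :
    Squarefree (∏ p ∈ T, p) := by
  classical
  induction T using Finset.induction_on with
  | empty => simp
  | @insert p T hpT ih =>
    rw [Finset.prod_insert hpT, Nat.squarefree_mul_iff]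
    refine ⟨?_, (hT p (Finset.mem_insert_self p T)).prime.squarefree,
      ih fun l hl => hT l (Finset.mem_insert_of_mem hl)⟩
    apply Nat.Coprime.prod_right
    intro l hl
    rw [Nat.coprime_primes (hT p (Finset.mem_insert_self p T))
      (hT l (Finset.mem_insert_of_mem hl))]
    rintro rfl
    exact hpT hl

/-- (E2) sums over covered moduli supported on squarefree moduli with primes in `Wp w w1` -/
lemma sum_cov_eq {β : Type*} [AddCommMonoid β] (w w1 Q : ℕ) (F : ℕ → β)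
    (hF : ∀ q : ℕ, 1 ≤ q → ¬ (Squarefree q ∧ q.primeFactors ⊆ Wp w w1) → F q = 0) :
    ∑ q ∈ (Icc 1 Q).filter (Cov w w1), F q =
      ∑ T ∈ (Wp w w1).powerset.filter (fun T => ∏ p ∈ T, p ≤ Q), F (∏ p ∈ T, p) := by
  classical
  have hTp : ∀ T ∈ (Wp w w1).powerset.filter (fun T => ∏ p ∈ T, p ≤ Q), ∀ p ∈ T, p.Prime := by
    intro T hT p hp
    rw [Finset.mem_filter, Finset.mem_powerset] at hT
    exact Wp_prime (hT.1 hp)
  have hinj : Set.InjOn (fun T : Finset ℕ => ∏ p ∈ T, p)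
      ((Wp w w1).powerset.filter (fun T => ∏ p ∈ T, p ≤ Q)) := by
    intro T hT T' hT' h
    simp only at h
    rw [← primeFactors_prod_set T (hTp T hT), h, primeFactors_prod_set T' (hTp T' hT')]
  rw [← Finset.sum_image hinj]
  symm
  apply Finset.sum_subset
  · intro q hq
    rw [Finset.mem_image] at hq
    obtain ⟨T, hT, rfl⟩ := hq
    have hp := hTp T hT
    rw [Finset.mem_filter, Finset.mem_powerset] at hT
    rw [Finset.mem_filter, Finset.mem_Icc]
    refine ⟨⟨Finset.prod_pos fun p h => (hp p h).pos, hT.2⟩, ?_⟩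
    intro p hpT
    right
    rw [primeFactors_prod_set T hp] at hpT
    refine ⟨(Wp_mem (hT.1 hpT)).2, ?_⟩
    have hsq := squarefree_prod_set T hp
    have h1 : p ∣ ∏ p ∈ T, p := Finset.dvd_prod_of_mem _ hpT
    have h2 : (∏ p ∈ T, p) ≠ 0 := (Finset.prod_pos fun p h => (hp p h).pos).ne'
    exact Nat.factorization_eq_one_of_squarefree hsq (hp p hpT) h1
  · intro q hq hq'
    rw [Finset.mem_filter, Finset.mem_Icc] at hq
    apply hF q hq.1.1
    rintro ⟨hsq, hpf⟩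
    apply hq'
    rw [Finset.mem_image]
    refine ⟨q.primeFactors, ?_, Nat.prod_primeFactors_of_squarefree hsq⟩
    rw [Finset.mem_filter, Finset.mem_powerset]
    refine ⟨hpf, ?_⟩
    rw [Nat.prod_primeFactors_of_squarefree hsq]
    exact hq.1.2

/-! ### the local factors -/

lemma kapProd_prime (kap : ℕ → ℕ → ℝ) {p : ℕ} (hp : p.Prime) : kapProd kap p = kap p 1 := by
  unfold kapProd
  rw [hp.primeFactors, Finset.prod_singleton, hp.factorization_self]

lemma kapProd_prod_set (kap : ℕ → ℕ → ℝ) (T : Finset ℕ) (hT : ∀ p ∈ T, p.Prime) :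
    kapProd kap (∏ p ∈ T, p) = ∏ p ∈ T, kap p 1 := by
  unfold kapProd
  rw [primeFactors_prod_set T hT]
  refine Finset.prod_congr rfl fun p hp => ?_
  rw [Nat.factorization_eq_one_of_squarefree (squarefree_prod_set T hT) (hT p hp)
    (Finset.dvd_prod_of_mem _ hp)]

/-- the local factor at `p` -/
noncomputable def cloc (f : ℤ[X]) (ν : ℕ → ℤ → ℝ) (p : ℕ) : ℂ :=
  ∑ b ∈ Ico 1 p, Gam f b p * ((‖ph (ν p) p ((b : ℝ) / p)‖ ^ 2 : ℝ) : ℂ)

lemma conj_Gam (f : ℤ[X]) (a : ℤ) (q : ℕ) :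
    (starRingEnd ℂ) (Gam f a q) = Gam f (-a) q := by
  unfold Gam
  rw [map_div₀, map_sum, Complex.conj_natCast]
  congr 1
  refine Finset.sum_congr rfl fun x _ => ?_
  rw [conj_e]
  congr 1
  push_cast
  ring

lemma Gam_add_mul (f : ℤ[X]) (a m : ℤ) (q : ℕ) (hq : 1 ≤ q) :
    Gam f (a + m * q) q = Gam f a q := by
  unfold Gam
  have hq' : (q : ℝ) ≠ 0 := by positivity
  congr 1
  refine Finset.sum_congr rfl fun x _ => ?_
  have h : (((a + m * q : ℤ) : ℝ) * ((f.eval (x : ℤ) : ℤ) : ℝ) / q) =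
      ((a : ℝ) * ((f.eval (x : ℤ) : ℤ) : ℝ) / q) + ((m * f.eval (x : ℤ) : ℤ) : ℝ) := by
    push_cast
    field_simp
  rw [h, e_add, e_int, mul_one]

lemma conj_ph (ψ : ℤ → ℝ) (D : ℕ) (θ : ℝ) : (starRingEnd ℂ) (ph ψ D θ) = ph ψ D (-θ) := by
  unfold ph
  rw [map_div₀, map_sum, Complex.conj_natCast]
  congr 1
  refine Finset.sum_congr rfl fun x _ => ?_
  rw [map_mul, Complex.conj_ofReal, conj_e]
  congr 2
  ring

lemma ph_add_int' (ψ : ℤ → ℝ) (D : ℕ) (θ : ℝ) (n : ℤ) : ph ψ D (θ + n) = ph ψ D θ := by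
  unfold ph
  congr 1
  refine Finset.sum_congr rfl fun x _ => ?_
  congr 1
  have h : -((x : ℝ) * (θ + n)) = -((x : ℝ) * θ) + ((-(x * n) : ℤ) : ℝ) := by
    push_cast; ring
  rw [h, e_add, e_int, mul_one]

/-- (E3) the local factor is real -/
lemma cloc_real (f : ℤ[X]) (ν : ℕ → ℤ → ℝ) (p : ℕ) (hp : 1 ≤ p) :
    ((cloc f ν p).re : ℂ) = cloc f ν p := by
  have hp' : (p : ℝ) ≠ 0 := by positivity
  rw [← Complex.conj_eq_iff_re]
  unfold cloc
  rw [map_sum]
  refine Finset.sum_bij' (fun b _ => p - b) (fun b _ => p - b) ?_ ?_ ?_ ?_ ?_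
  · intro b hb; rw [Finset.mem_Ico] at hb ⊢; omega
  · intro b hb; rw [Finset.mem_Ico] at hb ⊢; omega
  · intro b hb; rw [Finset.mem_Ico] at hb; omega
  · intro b hb; rw [Finset.mem_Ico] at hb; omega
  · intro b hb
    rw [Finset.mem_Ico] at hb
    rw [map_mul, Complex.conj_ofReal, conj_Gam]
    have h1 : (((p - b : ℕ) : ℕ) : ℤ) = -(b : ℤ) + 1 * p := by
      rw [Nat.cast_sub hb.2.le]; ring
    rw [h1, Gam_add_mul f _ _ p hp]
    congr 3
    have h2 : (((p - b : ℕ) : ℕ) : ℝ) / p = -((b : ℝ) / p) + ((1 : ℤ) : ℝ) := by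
      rw [Nat.cast_sub hb.2.le]
      field_simp
      push_cast
      ring
    rw [h2, ph_add_int', ← conj_ph, Complex.norm_conj]

/-- (E3) size of the local factor -/
lemma cloc_norm_le (f : ℤ[X]) (kap : ℕ → ℕ → ℝ) (ν : ℕ → ℤ → ℝ) {p : ℕ} (hp : p.Prime)
    (hG : ∀ (q : ℕ) (a : ℤ), 1 ≤ q → IsCoprime a (q : ℤ) → ‖Gam f a q‖ ≤ kapProd kap q) :
    ‖cloc f ν p‖ ≤ kap p 1 * th ν p := by
  unfold cloc th
  refine (norm_sum_le _ _).trans ?_
  rw [Finset.mul_sum]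
  refine Finset.sum_le_sum fun b hb => ?_
  rw [Finset.mem_Ico] at hb
  rw [norm_mul, Complex.norm_real, Real.norm_of_nonneg (by positivity)]
  apply mul_le_mul_of_nonneg_right _ (by positivity)
  rw [← kapProd_prime kap hp]
  apply hG p b hp.one_lt.le
  rw [Int.isCoprime_iff_gcd_eq_one, Int.gcd_natCast_natCast]
  exact (Nat.coprime_comm.1 ((hp.coprime_iff_not_dvd).2 (Nat.not_dvd_of_pos_of_lt hb.1 hb.2)))

end Vale.Agent.P042.SS
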