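import Vale.Agent.P042.SS.Spec
import Vale.Agent.P042.SS.Pihat
import Vale.Agent.P042.SS.Euler

set_option autoImplicit false

/-!
Block MT: multiplicativity of the sums over reduced fractions, and `MainStmt`.
-/

namespace Vale.Agent.P042.SS

open Polynomial Finset

/-! ### sums over reduced residues -/

/-- multiplication of the variable by a unit in a full period sum -/
lemma perSum_mul_unit (k : ℤ → ℂ) (D : ℕ) (hD : 1 ≤ D) (hk : ∀ n, k (n + D) = k n) (u : ℤ)
    (hu : IsCoprime (D : ℤ) u) :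
    ∑ x ∈ range D, k ((x : ℤ) * u) = ∑ x ∈ range D, k (x : ℤ) := by
  have : NeZero D := ⟨by omega⟩
  rw [perSum_zmod (fun n => k (n * u)) D, perSum_zmod k D]
  obtain ⟨s, t, hst⟩ := hu
  have hunit : (u : ZMod D) * (t : ZMod D) = 1 := by
    have h1 : ((s * D + t * u : ℤ) : ZMod D) = ((1 : ℤ) : ZMod D) := by rw [hst]
    push_cast at h1
    rw [ZMod.natCast_self, mul_zero, zero_add] at h1
    rw [mul_comm]
    exact h1
  let U : (ZMod D)ˣ := ⟨(u : ZMod D), (t : ZMod D), hunit, by rw [mul_comm]; exact hunit⟩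
  refine Fintype.sum_equiv (Units.mulRight U) _ _ fun z => ?_
  have h1 : (Units.mulRight U) z = (((z.val : ℤ) * u : ℤ) : ZMod D) := by
    push_cast
    rw [ZMod.natCast_zmod_val]
    rfl
  rw [h1, val_intCast_eq, per_emod k D hk]

open Classical in
/-- CRT for sums over reduced residues -/
lemma usum_mul (H1 H2 : ℤ → ℂ) (D1 D2 : ℕ) (h1 : 1 ≤ D1) (h2 : 1 ≤ D2)
    (hp1 : ∀ n, H1 (n + D1) = H1 n) (hp2 : ∀ n, H2 (n + D2) = H2 n) (u1 u2 : ℤ)
    (hu : u1 * D2 + u2 * D1 = 1) :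
    ∑ a ∈ (range (D1 * D2)).filter (Nat.Coprime (D1 * D2)), H1 (a * u1) * H2 (a * u2) =
      (∑ a ∈ (range D1).filter (Nat.Coprime D1), H1 a) *
        ∑ a ∈ (range D2).filter (Nat.Coprime D2), H2 a := by
  have hc : Nat.Coprime D1 D2 := by
    rw [← Nat.isCoprime_iff_coprime]
    exact ⟨u2, u1, by linarith⟩
  have hc1 : IsCoprime (D1 : ℤ) u1 := ⟨u2, D2, by linarith⟩
  have hc2 : IsCoprime (D2 : ℤ) u2 := ⟨u1, D1, by linarith⟩
  set k1 : ℤ → ℂ := fun n => if IsCoprime (D1 : ℤ) n then H1 n else 0 with hk1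
  set k2 : ℤ → ℂ := fun n => if IsCoprime (D2 : ℤ) n then H2 n else 0 with hk2
  have hk1p : ∀ n, k1 (n + D1) = k1 n := by
    intro n
    simp only [hk1, hp1]
    have : IsCoprime (D1 : ℤ) (n + D1) ↔ IsCoprime (D1 : ℤ) n := by
      have := IsCoprime.add_mul_left_right_iff (x := (D1 : ℤ)) (y := n) (z := 1)
      rwa [mul_one] at this
    simp only [this]
  have hk2p : ∀ n, k2 (n + D2) = k2 n := by
    intro n
    simp only [hk2, hp2]
    have : IsCoprime (D2 : ℤ) (n + D2) ↔ IsCoprime (D2 : ℤ) n := by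
      have := IsCoprime.add_mul_left_right_iff (x := (D2 : ℤ)) (y := n) (z := 1)
      rwa [mul_one] at this
    simp only [this]
  have hf1 : ∀ n, (fun n : ℤ => k1 (n * u1)) (n + D1) = (fun n : ℤ => k1 (n * u1)) n := by
    intro n
    have h : (n + D1) * u1 = n * u1 + (D1 * 1 : ℕ) * u1 := by push_cast; ring
    simp only
    rw [h]
    have hper := (show Function.Periodic k1 (D1 : ℤ) from hk1p).int_mul u1 (n * u1)
    simp only [Int.cast_id] at hper
    rw [← hper]
    congr 1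
    push_cast
    ring
  have hf2 : ∀ n, (fun n : ℤ => k2 (n * u2)) (n + D2) = (fun n : ℤ => k2 (n * u2)) n := by
    intro n
    have h : (n + D2) * u2 = n * u2 + (D2 * 1 : ℕ) * u2 := by push_cast; ring
    simp only
    rw [h]
    have hper := (show Function.Periodic k2 (D2 : ℤ) from hk2p).int_mul u2 (n * u2)
    simp only [Int.cast_id] at hper
    rw [← hper]
    congr 1
    push_cast
    ring
  have key := perSum_mul (fun n => k1 (n * u1)) (fun n => k2 (n * u2)) D1 D2 h1 h2 hc hf1 hf2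
  rw [perSum_mul_unit k1 D1 h1 hk1p u1 hc1, perSum_mul_unit k2 D2 h2 hk2p u2 hc2] at key
  have e1 : ∑ x ∈ range D1, k1 (x : ℤ) = ∑ a ∈ (range D1).filter (Nat.Coprime D1), H1 a := by
    rw [Finset.sum_filter]
    refine Finset.sum_congr rfl fun x _ => ?_
    simp only [hk1, Nat.isCoprime_iff_coprime]
  have e2 : ∑ x ∈ range D2, k2 (x : ℤ) = ∑ a ∈ (range D2).filter (Nat.Coprime D2), H2 a := by
    rw [Finset.sum_filter]
    refine Finset.sum_congr rfl fun x _ => ?_
    simp only [hk2, Nat.isCoprime_iff_coprime]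
  rw [e1, e2] at key
  rw [← key, Finset.sum_filter]
  refine Finset.sum_congr rfl fun x _ => ?_
  have i1 : IsCoprime (D1 : ℤ) ((x : ℤ) * u1) ↔ Nat.Coprime D1 x := by
    rw [← Nat.isCoprime_iff_coprime]
    exact ⟨fun h => h.of_mul_right_left, fun h => h.mul_right hc1⟩
  have i2 : IsCoprime (D2 : ℤ) ((x : ℤ) * u2) ↔ Nat.Coprime D2 x := by
    rw [← Nat.isCoprime_iff_coprime]
    exact ⟨fun h => h.of_mul_right_left, fun h => h.mul_right hc2⟩
  simp only [hk1, hk2, i1, i2, Nat.coprime_mul_iff_left]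
  by_cases a1 : Nat.Coprime D1 x
  · by_cases a2 : Nat.Coprime D2 x
    · rw [if_pos ⟨a1, a2⟩, if_pos a1, if_pos a2]
    · rw [if_neg (fun h => a2 h.2), if_neg a2, mul_zero]
  · rw [if_neg (fun h => a1 h.1), if_neg a1, zero_mul]

/-- a multiplicative family of periodic functions -/
structure MultFam (R : ℕ → ℤ → ℂ) : Prop where
  per : ∀ (D : ℕ) (n m : ℤ), 1 ≤ D → R D (n + m * D) = R D n
  one : R 1 0 = 1
  mul : ∀ (D1 D2 : ℕ) (n u1 u2 : ℤ), 1 ≤ D1 → 1 ≤ D2 → u1 * D2 + u2 * D1 = 1 →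
    R (D1 * D2) n = R D1 (n * u1) * R D2 (n * u2)

/-- product formula over a set of primes -/
lemma fam_prod (R : ℕ → ℤ → ℂ) (hR : MultFam R) (ν : ℕ → ℤ → ℝ) (T : Finset ℕ)
    (hT : ∀ p ∈ T, p.Prime) (hper : ∀ p ∈ T, ∀ n, ν p (n + p) = ν p n) (E : ℕ)
    (hE : E = ∏ p ∈ T, p) :
    ∑ a ∈ (range E).filter (Nat.Coprime E),
      R E a * ((‖ph (psi ν T) E ((a : ℝ) / E)‖ ^ 2 : ℝ) : ℂ) =
    ∏ p ∈ T, ∑ b ∈ Ico 1 p, R p b * ((‖ph (ν p) p ((b : ℝ) / p)‖ ^ 2 : ℝ) : ℂ) := by
  classical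
  induction T using Finset.induction_on generalizing E with
  | empty =>
    rw [Finset.prod_empty] at hE ⊢
    subst hE
    have h1 : (Finset.range 1).filter (Nat.Coprime 1) = {0} := by decide
    rw [h1, Finset.sum_singleton]
    have h2 : psi ν ∅ = fun _ => 1 := by funext n; simp [psi]
    rw [h2]
    have h3 := ph_one_zero 1 le_rfl
    rw [Nat.cast_zero, Nat.cast_zero, zero_div, h3, hR.one]
    simp
  | @insert p T hpT ih =>
    have hp : p.Prime := hT p (Finset.mem_insert_self p T)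
    have hT' : ∀ l ∈ T, l.Prime := fun l hl => hT l (Finset.mem_insert_of_mem hl)
    have hper' : ∀ l ∈ T, ∀ n, ν l (n + l) = ν l n :=
      fun l hl => hper l (Finset.mem_insert_of_mem hl)
    have ih' := ih hT' hper' (∏ l ∈ T, l) rfl
    have hp1 : 1 ≤ p := hp.one_lt.le
    rw [Finset.prod_insert hpT] at hE ⊢
    subst hE
    set D : ℕ := ∏ l ∈ T, l with hD
    have hD1 : 1 ≤ D := Finset.prod_pos fun l hl => (hT' l hl).pos
    have hcop : Nat.Coprime p D := by
      apply Nat.Coprime.prod_right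
      intro l hl
      rw [Nat.coprime_primes hp (hT' l hl)]
      rintro rfl
      exact hpT hl
    obtain ⟨u2, u1, hu⟩ : ∃ u2 u1 : ℤ, u2 * p + u1 * D = 1 := by
      obtain ⟨s, t, hst⟩ := Nat.isCoprime_iff_coprime.2 hcop
      exact ⟨s, t, hst⟩
    have hu' : u1 * D + u2 * p = 1 := by linarith
    have hp' : (p : ℝ) ≠ 0 := by positivity
    have hD' : (D : ℝ) ≠ 0 := by positivity
    have hpsi : psi ν (insert p T) = fun n => ν p n * psi ν T n := by
      funext n
      unfold psi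
      rw [Finset.prod_insert hpT]
    rw [← ih']
    have hset : (range p).filter (Nat.Coprime p) = Ico 1 p := by
      ext a
      simp only [Finset.mem_filter, Finset.mem_range, Finset.mem_Ico]
      constructor
      · rintro ⟨h1, h2⟩
        refine ⟨?_, h1⟩
        rcases Nat.eq_zero_or_pos a with h0 | h0
        · subst h0
          rw [Nat.coprime_zero_right] at h2
          exact absurd h2 hp.ne_one
        · exact h0
      · rintro ⟨h1, h2⟩
        refine ⟨h2, ?_⟩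
        rw [hp.coprime_iff_not_dvd]
        exact Nat.not_dvd_of_pos_of_lt h1 h2
    rw [← hset]
    have hphper : ∀ (ψ : ℤ → ℝ) (E : ℕ) (n : ℤ), 1 ≤ E →
        ph ψ E (((n + E : ℤ) : ℝ) / E) = ph ψ E ((n : ℝ) / E) := by
      intro ψ E n hE
      have hE' : (E : ℝ) ≠ 0 := by positivity
      have h : (((n + E : ℤ) : ℝ) / E) = (n : ℝ) / E + ((1 : ℤ) : ℝ) := by
        push_cast
        field_simp
      rw [h, ph_add_int]
    have key := usum_mul (fun n => R p n * ((‖ph (ν p) p ((n : ℝ) / p)‖ ^ 2 : ℝ) : ℂ))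
      (fun n => R D n * ((‖ph (psi ν T) D ((n : ℝ) / D)‖ ^ 2 : ℝ) : ℂ)) p D hp1 hD1
      (fun n => by
        have h := hR.per p n 1 hp1
        rw [one_mul] at h
        simp only [h, hphper (ν p) p n hp1])
      (fun n => by
        have h := hR.per D n 1 hD1
        rw [one_mul] at h
        simp only [h, hphper (psi ν T) D n hD1]) u1 u2 hu'
    simp only [Int.cast_natCast] at key
    rw [← key]
    refine Finset.sum_congr rfl fun a _ => ?_
    rw [hR.mul p D a u1 u2 hp1 hD1 hu']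
    have hfrac : (a : ℝ) / ((p * D : ℕ) : ℝ) =
        (((a : ℤ) * u1 : ℤ) : ℝ) / p + (((a : ℤ) * u2 : ℤ) : ℝ) / D := by
      have hu'' : (u1 : ℝ) * D + u2 * p = 1 := by exact_mod_cast hu'
      push_cast
      field_simp
      linear_combination (-(a : ℝ)) * hu''
    rw [hfrac, hpsi, ph_mul (ν p) (psi ν T) p D hp1 hD1 hcop (hper p (Finset.mem_insert_self p T))
      (fun n => by rw [hD]; exact psi_per ν T hper' n)]
    rw [norm_mul, mul_pow]
    push_cast
    ring

lemma multFam_one : MultFam (fun _ _ => 1) where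
  per := fun _ _ _ _ => rfl
  one := rfl
  mul := fun _ _ _ _ _ _ _ _ => by simp

lemma Gam_eq_ecs (f : ℤ[X]) (a : ℤ) (q : ℕ) [NeZero q] : Gam f a q = ecs f a q / q := by
  unfold Gam
  rw [sum_range_eq_ecs]

lemma multFam_Gam (f : ℤ[X]) : MultFam (fun D n => Gam f n D) where
  per := fun D n m hD => Gam_add_mul f n m D hD
  one := by
    simp [Gam, e_zero]
  mul := by
    intro D1 D2 n u1 u2 h1 h2 hu
    have : NeZero D1 := ⟨by omega⟩
    have : NeZero D2 := ⟨by omega⟩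
    have : NeZero (D1 * D2) := ⟨(Nat.mul_pos h1 h2).ne'⟩
    have hc : Nat.Coprime D1 D2 := by
      rw [← Nat.isCoprime_iff_coprime]
      exact ⟨u2, u1, by linarith⟩
    rw [Gam_eq_ecs, Gam_eq_ecs, Gam_eq_ecs, ecs_mul f n D1 D2 hc u1 u2 hu, div_mul_div_comm]
    push_cast
    rfl

/-! ### the main statement -/

theorem main_holds : MainStmt := by
  classical
  intro f kap w w1 Q ν C0 hk0 hwts hw1 hQ hG hC ht
  have hWp : ∀ p ∈ Wp w w1, p.Prime := fun p hp => Wp_prime hp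
  have hT : ∀ T ∈ (Wp w w1).powerset.filter (fun T => ∏ p ∈ T, p ≤ Q), T ⊆ Wp w w1 := by
    intro T hT
    rw [Finset.mem_filter, Finset.mem_powerset] at hT
    exact hT.1
  have hpih : ∀ T ⊆ Wp w w1, ∀ a : ℤ, pihat (Wp w w1) ν (∏ p ∈ T, p) a =
      ph (psi ν T) (∏ p ∈ T, p) ((a : ℝ) / (∏ p ∈ T, p : ℕ)) := by
    intro T hT a
    have hTp : ∀ p ∈ T, p.Prime := fun p hp => hWp p (hT hp)
    unfold pihat
    rw [primeFactors_prod_set T hTp, if_pos ⟨squarefree_prod_set T hTp, hT⟩]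
  have hzero : ∀ q : ℕ, 1 ≤ q → ¬ (Squarefree q ∧ q.primeFactors ⊆ Wp w w1) → ∀ a : ℤ,
      pihat (Wp w w1) ν q a = 0 := by
    intro q _ h a
    unfold pihat
    rw [if_neg h]
  have hcl : ∀ p ∈ Wp w w1, |(cloc f ν p).re| ≤ kap p 1 * th ν p := by
    intro p hp
    exact (Complex.abs_re_le_norm _).trans (cloc_norm_le f kap ν (hWp p hp) hG)
  have ht0 : ∀ p ∈ Wp w w1, 0 ≤ kap p 1 * th ν p := fun p hp => (abs_nonneg _).trans (hcl p hp)
  constructor
  · -- main term
    rw [sum_cov_eq w w1 Q (fun q => ∑ a ∈ (range q).filter (Nat.Coprime q),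
      Gam f a q * ((‖pihat (Wp w w1) ν q a‖ ^ 2 : ℝ) : ℂ)) (fun q hq h => by
        refine Finset.sum_eq_zero fun a _ => ?_
        rw [hzero q hq h]
        simp)]
    have h1 : ∀ T ∈ (Wp w w1).powerset.filter (fun T => ∏ p ∈ T, p ≤ Q),
        ∑ a ∈ (range (∏ p ∈ T, p)).filter (Nat.Coprime (∏ p ∈ T, p)),
          Gam f a (∏ p ∈ T, p) *
            ((‖pihat (Wp w w1) ν (∏ p ∈ T, p) a‖ ^ 2 : ℝ) : ℂ) =
        ((∏ p ∈ T, (cloc f ν p).re : ℝ) : ℂ) := by
      intro T hT'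
      have hTW := hT T hT'
      have hTp : ∀ p ∈ T, p.Prime := fun p hp => hWp p (hTW hp)
      have h2 := fam_prod (fun D n => Gam f n D) (multFam_Gam f) ν T hTp
        (fun p hp => hwts.per p (hTW hp)) (∏ p ∈ T, p) rfl
      rw [Complex.ofReal_prod]
      have h3 : ∀ p ∈ T, (((cloc f ν p).re : ℝ) : ℂ) =
          ∑ b ∈ Ico 1 p, Gam f b p * ((‖ph (ν p) p ((b : ℝ) / p)‖ ^ 2 : ℝ) : ℂ) := by
        intro p hp
        exact cloc_real f ν p (hTp p hp).one_lt.le
      rw [Finset.prod_congr rfl h3, ← h2]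
      refine Finset.sum_congr rfl fun a _ => ?_
      rw [hpih T hTW a]
      simp only [Int.cast_natCast]
    rw [Finset.sum_congr rfl h1, ← Complex.ofReal_sum, Complex.ofReal_re]
    exact euler_trunc_lower (Wp w w1) w1 Q (fun p => (cloc f ν p).re)
      (fun p => kap p 1 * th ν p) C0 hcl ht hC
      (fun p hp => ⟨(hWp p hp).one_lt.le, (Wp_mem hp).2⟩) hw1 hQ
  · rw [sum_cov_eq w w1 Q (fun q => kapProd kap q * ∑ a ∈ (range q).filter (Nat.Coprime q),
      ‖pihat (Wp w w1) ν q a‖ ^ 2) (fun q hq h => by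
        have h0 : ∑ a ∈ (range q).filter (Nat.Coprime q), ‖pihat (Wp w w1) ν q a‖ ^ 2 = 0 := by
          refine Finset.sum_eq_zero fun a _ => ?_
          rw [hzero q hq h]
          simp
        simp only [h0, mul_zero])]
    have h1 : ∀ T ∈ (Wp w w1).powerset.filter (fun T => ∏ p ∈ T, p ≤ Q),
        kapProd kap (∏ p ∈ T, p) *
          ∑ a ∈ (range (∏ p ∈ T, p)).filter (Nat.Coprime (∏ p ∈ T, p)),
            ‖pihat (Wp w w1) ν (∏ p ∈ T, p) a‖ ^ 2 =
        ∏ p ∈ T, (kap p 1 * th ν p) := by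
      intro T hT'
      have hTW := hT T hT'
      have hTp : ∀ p ∈ T, p.Prime := fun p hp => hWp p (hTW hp)
      have h2 := fam_prod (fun _ _ => 1) multFam_one ν T hTp
        (fun p hp => hwts.per p (hTW hp)) (∏ p ∈ T, p) rfl
      rw [kapProd_prod_set kap T hTp, Finset.prod_mul_distrib]
      congr 1
      have h3 : ((∑ a ∈ (range (∏ p ∈ T, p)).filter (Nat.Coprime (∏ p ∈ T, p)),
            ‖pihat (Wp w w1) ν (∏ p ∈ T, p) a‖ ^ 2 : ℝ) : ℂ) = ((∏ p ∈ T, th ν p : ℝ) : ℂ) := by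
        simp only [one_mul] at h2
        rw [Complex.ofReal_prod, Complex.ofReal_sum]
        have h4 : ∀ p ∈ T, ((th ν p : ℝ) : ℂ) =
            ∑ b ∈ Ico 1 p, ((‖ph (ν p) p ((b : ℝ) / p)‖ ^ 2 : ℝ) : ℂ) := by
          intro p _
          unfold th
          rw [Complex.ofReal_sum]
        rw [Finset.prod_congr rfl h4, ← h2]
        refine Finset.sum_congr rfl fun a _ => ?_
        rw [hpih T hTW a]
        simp only [Int.cast_natCast]
      exact_mod_cast h3
    rw [Finset.sum_congr rfl h1]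
    exact euler_trunc_upper (Wp w w1) Q (fun p => kap p 1 * th ν p) C0 ht0 hC

end Vale.Agent.P042.SS
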