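import Vale.Agent.P042.SS.Spec

set_option autoImplicit false

/-!
Interface of block AN (circle method).  Every `XStmt` is proved as `theorem x_holds : XStmt`
in its own file.
-/

namespace Vale.Agent.P042.SS

open Polynomial Finset

/-- `D_H(b) = ∑_{H < u ≤ 2H} e(b u)` -/
noncomputable def Dk (H : ℕ) (b : ℝ) : ℂ := ∑ u ∈ Ioc H (2 * H), e (b * (u : ℝ))

/-- the kernel `V(b) = (D_H(b) / H)^2` -/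
noncomputable def Vk (H : ℕ) (b : ℝ) : ℂ := (Dk H b / (H : ℂ)) ^ 2

/-- the tent `v(m) = #{(u,u') ∈ (H,2H]^2 : u + u' = m} / H^2` -/
noncomputable def vt (H : ℕ) (m : ℤ) : ℝ :=
  (((Ioc H (2 * H)).filter (fun u : ℕ => (H : ℤ) < m - u ∧ m - u ≤ 2 * H)).card : ℝ) / (H : ℝ) ^ 2

/-- value of `f` at the natural number `x` -/
noncomputable def fv (f : ℤ[X]) (x : ℕ) : ℤ := f.eval (x : ℤ)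

/-- gap `f(x+1) - f(x)` -/
noncomputable def gp (f : ℤ[X]) (x : ℕ) : ℝ := ((fv f (x + 1) - fv f x : ℤ) : ℝ)

/-- the weighted Weyl sum -/
noncomputable def Sx (f : ℤ[X]) (H x0 X : ℕ) (θ : ℝ) : ℂ :=
  ∑ x ∈ Ico x0 X, ((gp f x * vt H (fv f x) : ℝ) : ℂ) * e (θ * (fv f x : ℝ))

/-- the main term -/
noncomputable def Mn (f : ℤ[X]) (H Q : ℕ) (θ : ℝ) : ℂ :=
  ∑ q ∈ Icc 1 Q, ∑ a ∈ (range q).filter (Nat.Coprime q), Gam f a q * Vk H (θ - (a : ℝ) / q)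

/-- growth data -/
structure Grow (k : ℕ) (f : ℤ[X]) (H x0 X : ℕ) (g C : ℝ) : Prop where
  x0pos : 1 ≤ x0
  x0lt : x0 < X
  low0 : 0 ≤ fv f x0
  low : fv f x0 ≤ 2 * (H : ℤ)
  top : 4 * (H : ℤ) < fv f X
  mid : ∀ x, x0 ≤ x → x < X → fv f x ≤ 4 * (H : ℤ)
  gpos : ∀ x, x0 ≤ x → 1 ≤ gp f x
  gmono : ∀ x, x0 ≤ x → gp f x ≤ gp f (x + 1)
  gle : ∀ x, x0 ≤ x → x ≤ X → gp f x ≤ g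
  gH : g ≤ H
  gX : g * X ≤ C * H
  lead : (H : ℝ) ≤ C * f.leadingCoeff * (X : ℝ) ^ k

/-- block G (growth) -/
def GrowStmt : Prop :=
  ∀ k : ℕ, 2 ≤ k → ∃ (C : ℝ) (E : ℕ), 1 ≤ C ∧ 1 ≤ E ∧
    ∀ (f : ℤ[X]) (H : ℕ) (B : ℝ), f.natDegree = k → 0 < f.leadingCoeff → 1 ≤ B →
    (∀ j : ℕ, |(f.coeff j : ℝ)| ≤ B) → (C * B) ^ E ≤ (H : ℝ) →
    ∃ (x0 X : ℕ) (g : ℝ), Grow k f H x0 X g C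

/-- block VT (tent and kernel) -/
def VtStmt : Prop :=
  ∀ H : ℕ, 1 ≤ H →
    (∀ m, 0 ≤ vt H m) ∧ (∀ m, vt H m ≤ 1 / H) ∧
    (∀ m, |vt H (m + 1) - vt H m| ≤ 1 / (H : ℝ) ^ 2) ∧
    (∀ m, m < 2 * (H : ℤ) + 2 → vt H m = 0) ∧ (∀ m, 4 * (H : ℤ) < m → vt H m = 0) ∧
    (∀ (s t : ℤ) (b : ℝ), s ≤ 2 * (H : ℤ) → 4 * (H : ℤ) < t →
      Vk H b = ∑ m ∈ Ico s t, (vt H m : ℂ) * e (b * (m : ℝ))) ∧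
    (∀ (b : ℝ) (n : ℤ), Vk H (b + n) = Vk H b) ∧ (∀ b, ‖Vk H b‖ ≤ 1) ∧
    (∀ b d : ℝ, 0 < d → (∀ n : ℤ, d ≤ |b - n|) → ‖Vk H b‖ ≤ 1 / (4 * (H : ℝ) ^ 2 * d ^ 2))

/-- block RI (Riemann sum): weight `w(x) = gp(x) vt(f(x)) e(β f(x))` -/
def RiStmt : Prop :=
  ∀ (k : ℕ) (f : ℤ[X]) (H x0 X : ℕ) (g C β : ℝ), 1 ≤ H → Grow k f H x0 X g C →
    ‖∑ x ∈ Ico x0 X, ((gp f x * vt H (fv f x) : ℝ) : ℂ) * e (β * (fv f x : ℝ)) - Vk H β‖ ≤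
      32 * (1 + |β| * H) * g / H

/-- block VAR (variation of the weight) -/
def VarStmt : Prop :=
  ∀ (k : ℕ) (f : ℤ[X]) (H x0 X : ℕ) (g C β : ℝ), 1 ≤ H → Grow k f H x0 X g C →
    (∀ x, x0 ≤ x → x ≤ X →
      ‖((gp f x * vt H (fv f x) : ℝ) : ℂ) * e (β * (fv f x : ℝ))‖ ≤ g / H) ∧
    ∑ x ∈ Ico x0 X, ‖((gp f (x + 1) * vt H (fv f (x + 1)) : ℝ) : ℂ) * e (β * (fv f (x + 1) : ℝ)) -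
      ((gp f x * vt H (fv f x) : ℝ) : ℂ) * e (β * (fv f x : ℝ))‖ ≤ 32 * (1 + |β| * H) * g / H

/-- block MAJ (major arcs) -/
def MajStmt : Prop :=
  ∀ (k : ℕ) (f : ℤ[X]) (H x0 X q : ℕ) (a : ℤ) (g C θ : ℝ), 1 ≤ H → 1 ≤ q →
    Grow k f H x0 X g C →
    ‖Sx f H x0 X θ - Gam f a q * Vk H (θ - (a : ℝ) / q)‖ ≤
      200 * q * (1 + |θ - (a : ℝ) / q| * H) * g / H

/-- block MIN (minor arcs) -/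
def MinStmt : Prop :=
  ∀ k : ℕ, 2 ≤ k → ∀ C : ℝ, 1 ≤ C → ∃ E : ℕ, 1 ≤ E ∧ ∀ R : ℕ, 1 ≤ R → ∃ K : ℕ, 1 ≤ K ∧
  ∀ (f : ℤ[X]) (H x0 X : ℕ) (g δ B θ : ℝ), f.natDegree = k → 0 < f.leadingCoeff →
    (∀ g : ℤ, (∀ j : ℕ, 1 ≤ j → g ∣ f.coeff j) → g ∣ (R : ℤ)) →
    0 < δ → δ ≤ 1 → 1 ≤ B → (∀ j : ℕ, |(f.coeff j : ℝ)| ≤ B) →
    (K * B / δ) ^ E ≤ (H : ℝ) → Grow k f H x0 X g C →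
    ‖Sx f H x0 X θ‖ ≤ δ ∨
      ∃ (q : ℕ) (a : ℤ), 1 ≤ q ∧ (q : ℝ) ≤ (K / δ) ^ E ∧ |θ - a / q| ≤ (K / δ) ^ E / H

/-- block SEP (separation of the fractions) -/
def SepStmt : Prop :=
  ∀ (f : ℤ[X]) (H Q : ℕ) (θ : ℝ), 1 ≤ H → 1 ≤ Q →
    ∃ q a : ℕ, 1 ≤ q ∧ q ≤ Q ∧ a < q ∧ Nat.Coprime q a ∧
      ‖Mn f H Q θ - Gam f a q * Vk H (θ - (a : ℝ) / q)‖ ≤ (Q : ℝ) ^ 6 / (H : ℝ) ^ 2 ∧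
      ∀ q' a' : ℕ, 1 ≤ q' → q' ≤ Q → a' < q' → Nat.Coprime q' a' → (q', a') ≠ (q, a) →
        ∀ n : ℤ, 1 / (2 * (Q : ℝ) ^ 2) ≤ |θ - (a' : ℝ) / q' - n|

/-- bound of the complete sums, from B1 `complete_general` -/
def GamStmt : Prop :=
  ∀ k : ℕ, 2 ≤ k → ∃ E : ℕ, 1 ≤ E ∧ ∀ R : ℕ, 1 ≤ R → ∃ K : ℕ, 1 ≤ K ∧
    ∀ f : ℤ[X], f.natDegree = k → 0 < f.leadingCoeff →
    (∀ g : ℤ, (∀ j : ℕ, 1 ≤ j → g ∣ f.coeff j) → g ∣ (R : ℤ)) →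
    ∀ (q : ℕ) (a : ℤ), 1 ≤ q → IsCoprime a (q : ℤ) → ‖Gam f a q‖ ^ E * q ≤ (K : ℝ) ^ E

/-- the pointwise claim (assembled from the blocks above) -/
def PointStmt : Prop :=
  ∀ k : ℕ, 2 ≤ k → ∃ E : ℕ, 1 ≤ E ∧ ∀ R : ℕ, 1 ≤ R → ∃ K : ℕ, 1 ≤ K ∧
  ∀ (f : ℤ[X]) (H Q : ℕ) (δ B : ℝ), f.natDegree = k → 0 < f.leadingCoeff →
    (∀ g : ℤ, (∀ j : ℕ, 1 ≤ j → g ∣ f.coeff j) → g ∣ (R : ℤ)) →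
    0 < δ → δ ≤ 1 → 1 ≤ B → (∀ j : ℕ, |(f.coeff j : ℝ)| ≤ B) →
    (K / δ) ^ E ≤ (Q : ℝ) → (K * B * Q / δ) ^ E ≤ (H : ℝ) →
    ∃ x0 X : ℕ, 1 ≤ x0 ∧ ∀ θ : ℝ, ‖Sx f H x0 X θ - Mn f H Q θ‖ ≤ δ

/-- block FOU (Fourier side); `ANStmt` follows from `PointStmt` and `FouStmt` -/
def FouStmt : Prop :=
  ∀ (f : ℤ[X]) (N' H Q x0 X : ℕ) (δ : ℝ) (G : ℤ → ℝ), 1 ≤ H → 8 * H ≤ N' → 1 ≤ x0 → 0 ≤ δ →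
    (∀ n, 0 ≤ G n) → (∀ n, G n ≠ 0 → 1 ≤ n ∧ n ≤ N') →
    (∀ n m : ℤ, G n ≠ 0 → G m ≠ 0 → ∀ x : ℕ, 1 ≤ x → n - m = f.eval (x : ℤ) → n = m) →
    (∀ θ : ℝ, ‖Sx f H x0 X θ - Mn f H Q θ‖ ≤ δ) →
    ‖∑ q ∈ Icc 1 Q, ∑ a ∈ (range q).filter (Nat.Coprime q),
      Gam f a q * Bil G N' H ((a : ℝ) / q)‖ ≤ δ * (H : ℝ) ^ 2 * ∑ n ∈ Icc (1 : ℤ) N', G n ^ 2

end Vale.Agent.P042.SS
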