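import Vale.Agent.P042.SS.Spec

set_option autoImplicit false

/-!
Block AN, Fourier side (finite Fourier analysis with a large modulus `T`).
-/

namespace Vale.Agent.P042.SS.AN

open Finset

theorem e_conj (x : ℝ) : (starRingEnd ℂ) (e x) = e (-x) := by
  have h1 : e x * e (-x) = 1 := by rw [← e_add, add_neg_cancel, e_zero]
  have h2 : e x * (starRingEnd ℂ) (e x) = 1 := by
    rw [Complex.mul_conj, Complex.normSq_eq_norm_sq, norm_e]
    simp
  have h3 : e x ≠ 0 := by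
    intro h
    rw [h, zero_mul] at h1
    exact zero_ne_one h1
  exact mul_left_cancel₀ h3 (h2.trans h1.symm)

theorem e_pow (x : ℝ) (n : ℕ) : e x ^ n = e (n * x) := (e_nat_mul n x).symm

/-- orthogonality of the characters mod `T` -/
theorem orth (T : ℕ) (hT : 0 < T) (k : ℤ) :
    ∑ j ∈ range T, e (k * ((j : ℝ) / T)) = if (T : ℤ) ∣ k then (T : ℂ) else 0 := by
  have hT' : (T : ℝ) ≠ 0 := by exact_mod_cast hT.ne'
  have h1 : ∀ j ∈ range T, e (k * ((j : ℝ) / T)) = e ((k : ℝ) / T) ^ j := by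
    intro j _
    rw [e_pow]
    congr 1
    ring
  rw [Finset.sum_congr rfl h1]
  split_ifs with h
  · obtain ⟨c, hc⟩ := h
    have h2 : e ((k : ℝ) / T) = 1 := by
      rw [e_eq_one_iff]
      refine ⟨c, ?_⟩
      rw [hc]
      push_cast
      field_simp
    simp [h2]
  · have h2 : e ((k : ℝ) / T) ≠ 1 := by
      intro h3
      rw [e_eq_one_iff] at h3
      obtain ⟨c, hc⟩ := h3
      apply h
      refine ⟨c, ?_⟩
      rw [div_eq_iff hT'] at hc
      have : (k : ℝ) = ((T * c : ℤ) : ℝ) := by rw [hc]; push_cast; ring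
      exact_mod_cast this
    rw [geom_sum_eq h2]
    have h3 : e ((k : ℝ) / T) ^ T = 1 := by
      rw [e_pow, e_eq_one_iff]
      exact ⟨k, by field_simp⟩
    rw [h3, sub_self, zero_div]

/-- Fourier transform of the weight -/
noncomputable def Gh (G : ℤ → ℝ) (N' : ℕ) (θ : ℝ) : ℂ :=
  ∑ n ∈ Icc (1 : ℤ) N', (G n : ℂ) * e (-((n : ℝ) * θ))

/-- correlation of the weight -/
noncomputable def Rc (G : ℤ → ℝ) (N' : ℕ) (k : ℤ) : ℝ :=
  ∑ n ∈ Icc (1 : ℤ) N', G n * G (n - k)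

theorem normSq_Gh (G : ℤ → ℝ) (N' : ℕ) (θ : ℝ) :
    ((‖Gh G N' θ‖ ^ 2 : ℝ) : ℂ) =
      ∑ n ∈ Icc (1 : ℤ) N', ∑ m ∈ Icc (1 : ℤ) N', (G n * G m : ℂ) * e (((m - n : ℤ) : ℝ) * θ) := by
  rw [← Complex.normSq_eq_norm_sq, ← Complex.mul_conj]
  unfold Gh
  rw [map_sum, Finset.sum_mul_sum]
  refine Finset.sum_congr rfl fun n _ => Finset.sum_congr rfl fun m _ => ?_
  rw [map_mul, e_conj, Complex.conj_ofReal]
  calc (G n : ℂ) * e (-((n : ℝ) * θ)) * ((G m : ℂ) * e (-(-((m : ℝ) * θ))))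
      = (G n * G m : ℂ) * (e (-((n : ℝ) * θ)) * e (-(-((m : ℝ) * θ)))) := by ring
    _ = _ := by
      rw [← e_add]
      congr 2
      push_cast
      ring

/-- correlation at frequency `k` -/
theorem corr {G : ℤ → ℝ} {N' T : ℕ} (hsupp : ∀ n, G n ≠ 0 → 1 ≤ n ∧ n ≤ (N' : ℤ)) (hT : 0 < T)
    (k : ℤ) (hk : |k| + N' ≤ T) :
    ∑ j ∈ range T, e (k * ((j : ℝ) / T)) * ((‖Gh G N' ((j : ℝ) / T)‖ ^ 2 : ℝ) : ℂ) =
      T * (Rc G N' k : ℂ) := by
  have h1 : ∀ j ∈ range T, e (k * ((j : ℝ) / T)) * ((‖Gh G N' ((j : ℝ) / T)‖ ^ 2 : ℝ) : ℂ) =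
      ∑ n ∈ Icc (1 : ℤ) N', ∑ m ∈ Icc (1 : ℤ) N', (G n * G m : ℂ) *
        e (((k + m - n : ℤ) : ℝ) * ((j : ℝ) / T)) := by
    intro j _
    rw [normSq_Gh, Finset.mul_sum]
    refine Finset.sum_congr rfl fun n _ => ?_
    rw [Finset.mul_sum]
    refine Finset.sum_congr rfl fun m _ => ?_
    calc e (k * ((j : ℝ) / T)) * ((G n * G m : ℂ) * e (((m - n : ℤ) : ℝ) * ((j : ℝ) / T)))
        = (G n * G m : ℂ) * (e (k * ((j : ℝ) / T)) * e (((m - n : ℤ) : ℝ) * ((j : ℝ) / T))) := by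
          ring
      _ = _ := by
        rw [← e_add]
        congr 2
        push_cast
        ring
  rw [Finset.sum_congr rfl h1, Finset.sum_comm]
  unfold Rc
  rw [Complex.ofReal_sum, Finset.mul_sum]
  refine Finset.sum_congr rfl fun n hn => ?_
  rw [Finset.sum_comm, Complex.ofReal_mul]
  rw [Finset.mem_Icc] at hn
  have h2 : ∀ m ∈ Icc (1 : ℤ) N', ∑ j ∈ range T, (G n * G m : ℂ) *
      e (((k + m - n : ℤ) : ℝ) * ((j : ℝ) / T)) =
      if m = n - k then (G n * G m : ℂ) * T else 0 := by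
    intro m hm
    rw [Finset.mem_Icc] at hm
    rw [← Finset.mul_sum, orth T hT]
    have h3 : (T : ℤ) ∣ (k + m - n) ↔ m = n - k := by
      constructor
      · intro hd
        have h4 : |k + m - n| < T := by
          have h5 : |k + m - n| ≤ |k| + |m - n| := by
            have : k + m - n = k + (m - n) := by ring
            rw [this]
            exact abs_add_le _ _
          have h6 : |m - n| < N' := by
            rw [abs_lt]
            constructor <;> omega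
          omega
        have h5 := Int.eq_zero_of_abs_lt_dvd hd h4
        omega
      · intro h4
        rw [h4]
        simp
    by_cases h4 : m = n - k
    · rw [if_pos (h3.2 h4), if_pos h4]
    · rw [if_neg (fun h => h4 (h3.1 h)), if_neg h4, mul_zero]
  rw [Finset.sum_congr rfl h2, Finset.sum_ite_eq']
  split_ifs with h3
  · ring
  · have h4 : G (n - k) = 0 := by
      by_contra h5
      exact h3 (Finset.mem_Icc.2 (hsupp _ h5))
    rw [h4]
    simp

theorem parseval_Gh {G : ℤ → ℝ} {N' T : ℕ} (hsupp : ∀ n, G n ≠ 0 → 1 ≤ n ∧ n ≤ (N' : ℤ))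
    (hT : 0 < T) (hNT : N' ≤ T) :
    ∑ j ∈ range T, ‖Gh G N' ((j : ℝ) / T)‖ ^ 2 = T * ∑ n ∈ Icc (1 : ℤ) N', G n ^ 2 := by
  have h := corr (G := G) (N' := N') (T := T) hsupp hT 0 (by simpa using hNT)
  have h1 : ∀ j ∈ range T, e (((0 : ℤ) : ℝ) * ((j : ℝ) / T)) *
      ((‖Gh G N' ((j : ℝ) / T)‖ ^ 2 : ℝ) : ℂ) = ((‖Gh G N' ((j : ℝ) / T)‖ ^ 2 : ℝ) : ℂ) := by
    intro j _
    rw [Int.cast_zero, zero_mul, e_zero, one_mul]
  rw [Finset.sum_congr rfl h1] at h
  have h2 : Rc G N' 0 = ∑ n ∈ Icc (1 : ℤ) N', G n ^ 2 := by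
    unfold Rc
    refine Finset.sum_congr rfl fun n _ => ?_
    rw [sub_zero, sq]
  rw [h2] at h
  exact_mod_cast h

/-- the bilinear form through correlations -/
theorem Bil_eq {G : ℤ → ℝ} {N' H : ℕ} (hsupp : ∀ n, G n ≠ 0 → 1 ≤ n ∧ n ≤ (N' : ℤ))
    (hH : 2 * H ≤ N') (θ : ℝ) :
    Bil G N' H θ = ∑ u ∈ Ioc H (2 * H), ∑ u' ∈ Ioc H (2 * H),
      e (-(((u + u' : ℕ) : ℝ) * θ)) * (Rc G N' ((u + u' : ℕ) : ℤ) : ℂ) := by
  have hF1 : ∀ y : ℤ, Fw G (y + H) H θ =
      ∑ u ∈ Ioc H (2 * H), (G (y + u) : ℂ) * e (-(((y + (u : ℕ) : ℤ) : ℝ) * θ)) := by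
    intro y
    unfold Fw
    symm
    apply Finset.sum_nbij' (fun u : ℕ => y + (u : ℤ)) (fun n : ℤ => (n - y).toNat)
    · intro u hu
      rw [Finset.mem_Ioc] at hu ⊢
      omega
    · intro n hn
      rw [Finset.mem_Ioc] at hn ⊢
      omega
    · intro u hu
      omega
    · intro n hn
      rw [Finset.mem_Ioc] at hn
      omega
    · intro u hu
      rfl
  have hF2 : ∀ y : ℤ, (starRingEnd ℂ) (Fw G (y - 2 * H - 1) H θ) =
      ∑ u' ∈ Ioc H (2 * H), (G (y - u') : ℂ) * e (((y - (u' : ℕ) : ℤ) : ℝ) * θ) := by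
    intro y
    unfold Fw
    rw [map_sum]
    symm
    apply Finset.sum_nbij' (fun u : ℕ => y - (u : ℤ)) (fun n : ℤ => (y - n).toNat)
    · intro u hu
      rw [Finset.mem_Ioc] at hu ⊢
      omega
    · intro n hn
      rw [Finset.mem_Ioc] at hn ⊢
      omega
    · intro u hu
      omega
    · intro n hn
      rw [Finset.mem_Ioc] at hn
      omega
    · intro u hu
      rw [map_mul, e_conj, Complex.conj_ofReal, neg_neg]
  unfold Bil
  have h1 : ∀ y ∈ Icc (-(N' : ℤ)) (2 * N'),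
      Fw G (y + H) H θ * (starRingEnd ℂ) (Fw G (y - 2 * H - 1) H θ) =
      ∑ u ∈ Ioc H (2 * H), ∑ u' ∈ Ioc H (2 * H),
        e (-(((u + u' : ℕ) : ℝ) * θ)) * (G (y + u) * G (y - u') : ℂ) := by
    intro y _
    rw [hF1, hF2, Finset.sum_mul_sum]
    refine Finset.sum_congr rfl fun u _ => Finset.sum_congr rfl fun u' _ => ?_
    calc (G (y + u) : ℂ) * e (-(((y + (u : ℕ) : ℤ) : ℝ) * θ)) *
          ((G (y - u') : ℂ) * e (((y - (u' : ℕ) : ℤ) : ℝ) * θ))
        = (e (-(((y + (u : ℕ) : ℤ) : ℝ) * θ)) * e (((y - (u' : ℕ) : ℤ) : ℝ) * θ)) *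
          (G (y + u) * G (y - u') : ℂ) := by ring
      _ = _ := by
        rw [← e_add]
        congr 2
        push_cast
        ring
  rw [Finset.sum_congr rfl h1, Finset.sum_comm]
  refine Finset.sum_congr rfl fun u hu => ?_
  rw [Finset.sum_comm]
  refine Finset.sum_congr rfl fun u' hu' => ?_
  rw [← Finset.mul_sum]
  congr 1
  rw [Finset.mem_Ioc] at hu hu'
  unfold Rc
  push_cast
  have h2 : ∑ y ∈ Icc (-(N' : ℤ)) (2 * N'), (G (y + u) * G (y - u') : ℂ) =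
      ∑ n ∈ Icc (-(N' : ℤ) + u) (2 * N' + u), (G n * G (n - (u + u')) : ℂ) := by
    apply Finset.sum_nbij' (fun y : ℤ => y + (u : ℤ)) (fun n : ℤ => n - u)
    · intro y hy
      rw [Finset.mem_Icc] at hy ⊢
      omega
    · intro n hn
      rw [Finset.mem_Icc] at hn ⊢
      omega
    · intro y _
      omega
    · intro n _
      omega
    · intro y _
      have : y + (u : ℤ) - (u + u') = y - u' := by ring
      rw [this]
  rw [h2]
  symm
  apply Finset.sum_subset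
  · intro n hn
    rw [Finset.mem_Icc] at hn ⊢
    omega
  · intro n _ hn
    have h3 : G n = 0 := by
      by_contra h4
      exact hn (Finset.mem_Icc.2 (hsupp _ h4))
    rw [h3]
    simp

end Vale.Agent.P042.SS.AN
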