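import Vale.Agent.P042.SS.ANVt

set_option autoImplicit false

/-!
Block AN: the Riemann sum.
-/

namespace Vale.Agent.P042.SS

open Polynomial Finset

namespace RI

/-- telescoping of consecutive intervals -/
theorem sum_Ico_tel (F : ℕ → ℤ) (φ : ℤ → ℂ) (x0 X : ℕ) (hX : x0 ≤ X)
    (hF : ∀ x, x0 ≤ x → x < X → F x ≤ F (x + 1)) :
    F x0 ≤ F X ∧
      ∑ x ∈ Ico x0 X, ∑ m ∈ Ico (F x) (F (x + 1)), φ m = ∑ m ∈ Ico (F x0) (F X), φ m := by
  induction X, hX using Nat.le_induction with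
  | base => simp
  | succ n hn ih =>
    obtain ⟨h1, h2⟩ := ih (fun x hx hxn => hF x hx (by omega))
    have h3 := hF n hn (by omega)
    refine ⟨h1.trans h3, ?_⟩
    rw [Finset.sum_Ico_succ_top hn, h2, ← Finset.sum_union (Finset.Ico_disjoint_Ico_consecutive _ _ _),
      Finset.Ico_union_Ico_eq_Ico h1 h3]

theorem norm_e_sub_le (x y : ℝ) : ‖e x - e y‖ ≤ 2 * Real.pi * |x - y| := by
  have h1 : e x - e y = e y * (e (x - y) - 1) := by
    have h2 : e x = e y * e (x - y) := by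
      rw [← e_add]
      congr 1
      ring
    rw [h2]
    ring
  rw [h1, norm_mul, norm_e, one_mul]
  exact norm_e_sub_one_le _

/-- the tent is Lipschitz -/
theorem vt_lip (H : ℕ) (hH : 1 ≤ H) (m : ℤ) (n : ℕ) :
    |vt H (m + n) - vt H m| ≤ n / (H : ℝ) ^ 2 := by
  obtain ⟨_, _, h3, _⟩ := vt_holds H hH
  induction n with
  | zero => simp
  | succ n ih =>
    have h1 := h3 (m + n)
    have h2 : vt H (m + (n + 1 : ℕ)) = vt H (m + n + 1) := by
      congr 1
      push_cast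
      ring
    rw [h2]
    calc |vt H (m + n + 1) - vt H m|
        = |(vt H (m + n + 1) - vt H (m + n)) + (vt H (m + n) - vt H m)| := by congr 1; ring
      _ ≤ |vt H (m + n + 1) - vt H (m + n)| + |vt H (m + n) - vt H m| := abs_add_le _ _
      _ ≤ 1 / (H : ℝ) ^ 2 + n / (H : ℝ) ^ 2 := add_le_add h1 ih
      _ = ((n + 1 : ℕ) : ℝ) / (H : ℝ) ^ 2 := by push_cast; ring

/-- one summand -/
theorem term_le (H : ℕ) (hH : 1 ≤ H) (β g : ℝ) (n m : ℤ) (hnm : n ≤ m) (hg : (m : ℝ) - n ≤ g) :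
    ‖(vt H n : ℂ) * e (β * (n : ℝ)) - (vt H m : ℂ) * e (β * (m : ℝ))‖ ≤
      g / (H : ℝ) ^ 2 + 2 * Real.pi * |β| * g / H := by
  have hH0 : (0 : ℝ) < H := by exact_mod_cast hH
  obtain ⟨h1, h2, _⟩ := vt_holds H hH
  have h3 : (vt H n : ℂ) * e (β * (n : ℝ)) - (vt H m : ℂ) * e (β * (m : ℝ)) =
      -(((vt H m - vt H n : ℝ) : ℂ) * e (β * (n : ℝ))) +
        (vt H m : ℂ) * (e (β * (n : ℝ)) - e (β * (m : ℝ))) := by
    push_cast
    ring
  rw [h3]
  have hmn : (0 : ℝ) ≤ (m : ℝ) - n := by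
    have : (n : ℝ) ≤ m := by exact_mod_cast hnm
    linarith
  have h4 : |vt H m - vt H n| ≤ g / (H : ℝ) ^ 2 := by
    obtain ⟨j, hj⟩ := Int.le.dest hnm
    have h5 := vt_lip H hH n j
    rw [hj] at h5
    refine h5.trans (div_le_div_of_nonneg_right ?_ (by positivity))
    have h6 : (j : ℝ) = m - n := by
      rw [← hj]
      push_cast
      ring
    rw [h6]
    exact hg
  have h5 : ‖e (β * (n : ℝ)) - e (β * (m : ℝ))‖ ≤ 2 * Real.pi * |β| * g := by
    refine (norm_e_sub_le _ _).trans ?_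
    rw [← mul_sub, abs_mul, abs_sub_comm (n : ℝ) m, abs_of_nonneg hmn, ← mul_assoc]
    exact mul_le_mul_of_nonneg_left hg (by positivity)
  calc ‖-(((vt H m - vt H n : ℝ) : ℂ) * e (β * (n : ℝ))) +
        (vt H m : ℂ) * (e (β * (n : ℝ)) - e (β * (m : ℝ)))‖
      ≤ ‖-(((vt H m - vt H n : ℝ) : ℂ) * e (β * (n : ℝ)))‖ +
        ‖(vt H m : ℂ) * (e (β * (n : ℝ)) - e (β * (m : ℝ)))‖ := norm_add_le _ _
    _ = |vt H m - vt H n| + vt H m * ‖e (β * (n : ℝ)) - e (β * (m : ℝ))‖ := by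
        rw [norm_neg, norm_mul, norm_e, mul_one, Complex.norm_real, Real.norm_eq_abs, norm_mul,
          Complex.norm_real, Real.norm_eq_abs, abs_of_nonneg (h1 m)]
    _ ≤ g / (H : ℝ) ^ 2 + 1 / H * (2 * Real.pi * |β| * g) := by
        apply add_le_add h4
        exact mul_le_mul (h2 m) h5 (norm_nonneg _) (by positivity)
    _ = g / (H : ℝ) ^ 2 + 2 * Real.pi * |β| * g / H := by ring

end RI

open RI in
theorem ri_holds : RiStmt := by
  intro k f H x0 X g C β hH hG
  have hH0 : (0 : ℝ) < H := by exact_mod_cast hH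
  obtain ⟨hv0, hv1, _, hvl, hvh, hV, _⟩ := vt_holds H hH
  have hgap : ∀ x, x0 ≤ x → fv f x ≤ fv f (x + 1) := by
    intro x hx
    have h1 := hG.gpos x hx
    unfold gp at h1
    have h2 : (1 : ℤ) ≤ fv f (x + 1) - fv f x := by exact_mod_cast h1
    linarith
  obtain ⟨htel0, htel⟩ := sum_Ico_tel (fv f) (fun m => (vt H m : ℂ) * e (β * (m : ℝ))) x0 X
    hG.x0lt.le (fun x hx _ => hgap x hx)
  rw [hV (fv f x0) (fv f X) β hG.low hG.top, ← htel, ← Finset.sum_sub_distrib]
  set c : ℝ := g / (H : ℝ) ^ 2 + 2 * Real.pi * |β| * g / H with hc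
  have hg0 : 0 ≤ g := by
    have h1 := hG.gpos x0 le_rfl
    have h2 := hG.gle x0 le_rfl hG.x0lt.le
    linarith
  have hc0 : 0 ≤ c := by positivity
  have hterm : ∀ x ∈ Ico x0 X,
      ‖((gp f x * vt H (fv f x) : ℝ) : ℂ) * e (β * (fv f x : ℝ)) -
        ∑ m ∈ Ico (fv f x) (fv f (x + 1)), (vt H m : ℂ) * e (β * (m : ℝ))‖ ≤
      ∑ m ∈ Ico (fv f x) (fv f (x + 1)), if (2 * (H : ℤ) ≤ m ∧ m < 5 * H) then c else 0 := by
    intro x hx
    rw [mem_Ico] at hx
    have h1 : ((gp f x * vt H (fv f x) : ℝ) : ℂ) * e (β * (fv f x : ℝ)) =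
        ∑ m ∈ Ico (fv f x) (fv f (x + 1)), (vt H (fv f x) : ℂ) * e (β * (fv f x : ℝ)) := by
      rw [Finset.sum_const, Int.card_Ico, nsmul_eq_mul]
      have h2 : ((fv f (x + 1) - fv f x).toNat : ℂ) = ((gp f x : ℝ) : ℂ) := by
        have h3 : (((fv f (x + 1) - fv f x).toNat : ℕ) : ℤ) = fv f (x + 1) - fv f x :=
          Int.toNat_of_nonneg (by linarith [hgap x hx.1])
        unfold gp
        rw [Complex.ofReal_intCast, ← Int.cast_natCast (R := ℂ), h3]
      rw [h2]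
      push_cast
      ring
    rw [h1, ← Finset.sum_sub_distrib]
    refine (norm_sum_le _ _).trans (Finset.sum_le_sum fun m hm => ?_)
    rw [mem_Ico] at hm
    have hgx : ((fv f (x + 1) : ℤ) : ℝ) - fv f x ≤ g := by
      have h2 := hG.gle x hx.1 hx.2.le
      unfold gp at h2
      push_cast at h2
      exact h2
    have hmg : (m : ℝ) - fv f x ≤ g := by
      have h2 : (m : ℝ) ≤ fv f (x + 1) := by exact_mod_cast hm.2.le
      linarith
    split_ifs with hif
    · exact term_le H hH β g (fv f x) m hm.1 hmg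
    · have h2 : vt H (fv f x) = 0 ∧ vt H m = 0 := by
        by_cases h3 : 2 * (H : ℤ) ≤ m
        · have h4 : 5 * (H : ℤ) ≤ m := by
            by_contra h5
            exact hif ⟨h3, by omega⟩
          have h5 : 4 * (H : ℤ) < fv f x := by
            have h6 : (m : ℝ) < fv f (x + 1) := by exact_mod_cast hm.2
            have h7 : (5 * (H : ℝ)) ≤ m := by exact_mod_cast h4
            have h8 := hG.gH
            have h9 : (4 * (H : ℝ)) < fv f x := by linarith
            exact_mod_cast h9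
          exact ⟨hvh _ h5, hvh _ (by omega)⟩
        · exact ⟨hvl _ (by omega), hvl _ (by omega)⟩
      rw [h2.1, h2.2]
      simp
  refine (norm_sum_le _ _).trans ((Finset.sum_le_sum hterm).trans ?_)
  have htel2 : ∑ x ∈ Ico x0 X, ∑ m ∈ Ico (fv f x) (fv f (x + 1)),
      (if (2 * (H : ℤ) ≤ m ∧ m < 5 * H) then c else 0) =
      ∑ m ∈ Ico (fv f x0) (fv f X), if (2 * (H : ℤ) ≤ m ∧ m < 5 * H) then c else 0 := by
    have h1 := (sum_Ico_tel (fv f) (fun m => ((if (2 * (H : ℤ) ≤ m ∧ m < 5 * H) then c else 0 : ℝ) : ℂ))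
      x0 X hG.x0lt.le (fun x hx _ => hgap x hx)).2
    exact_mod_cast h1
  rw [htel2, ← Finset.sum_filter, Finset.sum_const, nsmul_eq_mul]
  have hcard : ((Ico (fv f x0) (fv f X)).filter (fun m : ℤ => 2 * (H : ℤ) ≤ m ∧ m < 5 * H)).card ≤
      3 * H := by
    calc _ ≤ (Ico (2 * (H : ℤ)) (5 * H)).card := by
          apply Finset.card_le_card
          intro m hm
          rw [mem_filter] at hm
          rw [mem_Ico]
          exact hm.2
      _ = 3 * H := by rw [Int.card_Ico]; omega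
  have hcard' : ((((Ico (fv f x0) (fv f X)).filter
      (fun m : ℤ => 2 * (H : ℤ) ≤ m ∧ m < 5 * H)).card : ℕ) : ℝ) ≤ 3 * H := by
    exact_mod_cast hcard
  calc _ ≤ 3 * (H : ℝ) * c := mul_le_mul_of_nonneg_right hcard' hc0
    _ = (3 * g / H) * (1 + 2 * Real.pi * (|β| * H)) := by
        rw [hc]
        field_simp
    _ ≤ (3 * g / H) * (8 * (1 + |β| * H)) := by
        apply mul_le_mul_of_nonneg_left _ (by positivity)
        have h1 : 0 ≤ |β| * H := by positivity
        have h2 := Real.pi_lt_d2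
        nlinarith only [h1, h2]
    _ ≤ 32 * (1 + |β| * H) * g / H := by
        have h1 : 0 ≤ (1 + |β| * H) * g / H := by positivity
        have h2 : (3 * g / H) * (8 * (1 + |β| * H)) = 24 * ((1 + |β| * H) * g / H) := by ring
        have h3 : 32 * (1 + |β| * H) * g / H = 32 * ((1 + |β| * H) * g / H) := by ring
        rw [h2, h3]
        linarith

end Vale.Agent.P042.SS
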