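import Vale.Agent.P042.SS.ANDefs

set_option autoImplicit false

/-!
Block VAR: size and variation of the weight.
-/

namespace Vale.Agent.P042.SS

open Polynomial Finset

namespace AN

theorem norm_e_sub_le' (x y : ℝ) : ‖e x - e y‖ ≤ 2 * Real.pi * |x - y| := by
  have h1 : e x - e y = e y * (e (x - y) - 1) := by
    rw [mul_sub, ← e_add, mul_one]
    congr 2
    ring
  rw [h1, norm_mul, norm_e, one_mul]
  exact norm_e_sub_one_le _

/-- Lipschitz bound of the tent -/
theorem vt_lip {H : ℕ} (hl : ∀ m, |vt H (m + 1) - vt H m| ≤ 1 / (H : ℝ) ^ 2) (m : ℤ) (n : ℕ) :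
    |vt H (m + n) - vt H m| ≤ n * (1 / (H : ℝ) ^ 2) := by
  induction n with
  | zero => simp
  | succ n ih =>
    have h1 := hl (m + n)
    have h2 : vt H (m + ((n + 1 : ℕ) : ℤ)) - vt H m =
        (vt H (m + n + 1) - vt H (m + n)) + (vt H (m + n) - vt H m) := by
      push_cast
      rw [← add_assoc]
      ring
    rw [h2]
    refine (abs_add_le _ _).trans ?_
    push_cast
    linarith

theorem fv_succ (f : ℤ[X]) (x : ℕ) : ((fv f (x + 1) : ℤ) : ℝ) = fv f x + gp f x := by
  unfold gp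
  push_cast
  ring

end AN

open AN in
theorem var_of (hVt : VtStmt) : VarStmt := by
  intro k f H x0 X g C β hH hG
  obtain ⟨hv0, hv1, hvl, -⟩ := hVt H hH
  have hHr : (0 : ℝ) < H := by exact_mod_cast hH
  have hgp0 : ∀ x, x0 ≤ x → 0 ≤ gp f x := fun x hx => zero_le_one.trans (hG.gpos x hx)
  have hg1 : 1 ≤ g := (hG.gpos x0 le_rfl).trans (hG.gle x0 le_rfl hG.x0lt.le)
  constructor
  · intro x hx hxX
    rw [norm_mul, norm_e, mul_one, Complex.norm_real, Real.norm_eq_abs,
      abs_of_nonneg (mul_nonneg (hgp0 x hx) (hv0 _)), div_eq_mul_one_div]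
    exact mul_le_mul (hG.gle x hx hxX) (hv1 _) (hv0 _) (by linarith)
  · -- pointwise bound
    have hpt : ∀ x ∈ Ico x0 X,
        ‖((gp f (x + 1) * vt H (fv f (x + 1)) : ℝ) : ℂ) * e (β * (fv f (x + 1) : ℝ)) -
          ((gp f x * vt H (fv f x) : ℝ) : ℂ) * e (β * (fv f x : ℝ))‖ ≤
        (gp f (x + 1) - gp f x) * (1 / H) + gp f x * (g * (1 / (H : ℝ) ^ 2)) +
          gp f x * (1 / H * (2 * Real.pi * (|β| * g))) := by
      intro x hx
      rw [Finset.mem_Ico] at hx
      have hgx := hgp0 x hx.1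
      have hgle := hG.gle x hx.1 hx.2.le
      have hmono := hG.gmono x hx.1
      have hsplit : ((gp f (x + 1) * vt H (fv f (x + 1)) : ℝ) : ℂ) *
          e (β * (fv f (x + 1) : ℝ)) - ((gp f x * vt H (fv f x) : ℝ) : ℂ) *
          e (β * (fv f x : ℝ)) =
          (((gp f (x + 1) - gp f x) * vt H (fv f (x + 1)) : ℝ) : ℂ) * e (β * (fv f (x + 1) : ℝ)) +
          ((gp f x * (vt H (fv f (x + 1)) - vt H (fv f x)) : ℝ) : ℂ) *
            e (β * (fv f (x + 1) : ℝ)) +
          ((gp f x * vt H (fv f x) : ℝ) : ℂ) *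
            (e (β * (fv f (x + 1) : ℝ)) - e (β * (fv f x : ℝ))) := by
        push_cast
        ring
      rw [hsplit]
      refine (norm_add_le _ _).trans (add_le_add ((norm_add_le _ _).trans (add_le_add ?_ ?_)) ?_)
      · rw [norm_mul, norm_e, mul_one, Complex.norm_real, Real.norm_eq_abs,
          abs_of_nonneg (mul_nonneg (by linarith) (hv0 _))]
        exact mul_le_mul_of_nonneg_left (hv1 _) (by linarith)
      · rw [norm_mul, norm_e, mul_one, Complex.norm_real, Real.norm_eq_abs, abs_mul,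
          abs_of_nonneg hgx]
        apply mul_le_mul_of_nonneg_left _ hgx
        have h1 : fv f (x + 1) = fv f x + ((fv f (x + 1) - fv f x).toNat : ℕ) := by
          have h2 : (1 : ℝ) ≤ ((fv f (x + 1) - fv f x : ℤ) : ℝ) := hG.gpos x hx.1
          have h3 : (1 : ℤ) ≤ fv f (x + 1) - fv f x := by exact_mod_cast h2
          omega
        have h4 : (((fv f (x + 1) - fv f x).toNat : ℕ) : ℝ) = gp f x := by
          unfold gp
          have h2 : (1 : ℝ) ≤ ((fv f (x + 1) - fv f x : ℤ) : ℝ) := hG.gpos x hx.1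
          have h3 : (1 : ℤ) ≤ fv f (x + 1) - fv f x := by exact_mod_cast h2
          have h5 : (((fv f (x + 1) - fv f x).toNat : ℕ) : ℤ) = fv f (x + 1) - fv f x := by omega
          exact_mod_cast h5
        have h6 := vt_lip hvl (fv f x) ((fv f (x + 1) - fv f x).toNat)
        rw [← h1, h4] at h6
        exact h6.trans (mul_le_mul_of_nonneg_right hgle (by positivity))
      · rw [norm_mul, Complex.norm_real, Real.norm_eq_abs,
          abs_of_nonneg (mul_nonneg hgx (hv0 _)), mul_assoc]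
        apply mul_le_mul_of_nonneg_left _ hgx
        apply mul_le_mul (hv1 _) _ (norm_nonneg _) (by positivity)
        refine (norm_e_sub_le' _ _).trans ?_
        apply mul_le_mul_of_nonneg_left _ (by positivity)
        rw [← mul_sub, abs_mul, fv_succ, add_sub_cancel_left, abs_of_nonneg hgx]
        exact mul_le_mul_of_nonneg_left hgle (abs_nonneg _)
    refine (Finset.sum_le_sum hpt).trans ?_
    rw [Finset.sum_add_distrib, Finset.sum_add_distrib, ← Finset.sum_mul, ← Finset.sum_mul,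
      ← Finset.sum_mul]
    have htel1 : ∑ x ∈ Ico x0 X, (gp f (x + 1) - gp f x) = gp f X - gp f x0 :=
      Finset.sum_Ico_sub _ hG.x0lt.le
    have htel2 : ∑ x ∈ Ico x0 X, gp f x = (fv f X : ℝ) - fv f x0 := by
      rw [← Finset.sum_Ico_sub (fun x => ((fv f x : ℤ) : ℝ)) hG.x0lt.le]
      refine Finset.sum_congr rfl fun x _ => ?_
      rw [fv_succ]
      ring
    have hX : (fv f X : ℝ) ≤ 5 * H := by
      obtain ⟨Y, hY⟩ : ∃ Y, X = Y + 1 := ⟨X - 1, by have := hG.x0lt; omega⟩
      have hx0lt := hG.x0lt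
      rw [hY, fv_succ]
      have h1 : fv f Y ≤ 4 * (H : ℤ) := hG.mid Y (by omega) (by omega)
      have h2 : gp f Y ≤ g := hG.gle Y (by omega) (by omega)
      have h3 := hG.gH
      have h4 : ((fv f Y : ℤ) : ℝ) ≤ ((4 * (H : ℤ) : ℤ) : ℝ) := by exact_mod_cast h1
      push_cast at h4
      linarith
    have hx0 : (0 : ℝ) ≤ fv f x0 := by exact_mod_cast hG.low0
    have hsum : ∑ x ∈ Ico x0 X, gp f x ≤ 5 * H := by rw [htel2]; linarith
    have hgX : gp f X - gp f x0 ≤ g := by
      have h1 := hG.gle X hG.x0lt.le le_rfl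
      have h2 := hgp0 x0 le_rfl
      linarith
    rw [htel1]
    have hπ : Real.pi ≤ 3.15 := Real.pi_lt_d2.le
    have hb0 := abs_nonneg β
    have t1 : (gp f X - gp f x0) * (1 / (H : ℝ)) ≤ g * (1 / H) :=
      mul_le_mul_of_nonneg_right hgX (by positivity)
    have t2 : (∑ x ∈ Ico x0 X, gp f x) * (g * (1 / (H : ℝ) ^ 2)) ≤
        (5 * H) * (g * (1 / (H : ℝ) ^ 2)) :=
      mul_le_mul_of_nonneg_right hsum (by positivity)
    have t3 : (∑ x ∈ Ico x0 X, gp f x) * (1 / H * (2 * Real.pi * (|β| * g))) ≤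
        (5 * H) * (1 / H * (2 * Real.pi * (|β| * g))) :=
      mul_le_mul_of_nonneg_right hsum (by positivity)
    have e2 : (5 * (H : ℝ)) * (g * (1 / (H : ℝ) ^ 2)) = 5 * g / H := by
      field_simp
    have e3 : (5 * (H : ℝ)) * (1 / H * (2 * Real.pi * (|β| * g))) = 10 * Real.pi * (|β| * g) := by
      field_simp
      ring
    have e4 : 32 * (1 + |β| * H) * g / H = 32 * g / H + 32 * (|β| * g) := by
      field_simp
    have e5 : 10 * Real.pi * (|β| * g) ≤ 32 * (|β| * g) := by
      apply mul_le_mul_of_nonneg_right _ (by positivity)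
      linarith
    have e6 : g * (1 / (H : ℝ)) + 5 * g / H ≤ 32 * g / H := by
      rw [mul_one_div, ← add_div]
      apply div_le_div_of_nonneg_right _ hHr.le
      linarith
    rw [e4]
    linarith

end Vale.Agent.P042.SS
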