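import Vale.Agent.P042.SS.ANDefs

set_option autoImplicit false

/-!
Block AN: the tent and the kernel.
-/

namespace Vale.Agent.P042.SS

open Polynomial Finset

namespace VT

/-- the set of `u` counted by `vt` -/
noncomputable def U (H : ℕ) (m : ℤ) : Finset ℕ :=
  (Ioc H (2 * H)).filter (fun u : ℕ => (H : ℤ) < m - u ∧ m - u ≤ 2 * H)

theorem mem_U {H : ℕ} {m : ℤ} {u : ℕ} :
    u ∈ U H m ↔ H < u ∧ u ≤ 2 * H ∧ (H : ℤ) < m - u ∧ m - u ≤ 2 * H := by
  rw [U, mem_filter, mem_Ioc]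
  tauto

theorem vt_eq (H : ℕ) (m : ℤ) : vt H m = ((U H m).card : ℝ) / (H : ℝ) ^ 2 := rfl

theorem card_U_le (H : ℕ) (m : ℤ) : (U H m).card ≤ H := by
  calc (U H m).card ≤ (Ioc H (2 * H)).card := Finset.card_le_card (Finset.filter_subset _ _)
    _ = H := by rw [Nat.card_Ioc]; omega

theorem card_succ_le (H : ℕ) (m : ℤ) : (U H (m + 1)).card ≤ (U H m).card + 1 := by
  have h1 : U H (m + 1) ⊆ insert (m - H).toNat (U H m) := by
    intro u hu
    rw [mem_insert, mem_U]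
    rw [mem_U] at hu
    omega
  exact (Finset.card_le_card h1).trans (Finset.card_insert_le _ _)

theorem card_le_succ (H : ℕ) (m : ℤ) : (U H m).card ≤ (U H (m + 1)).card + 1 := by
  have h1 : U H m ⊆ insert (m - 2 * H).toNat (U H (m + 1)) := by
    intro u hu
    rw [mem_insert, mem_U]
    rw [mem_U] at hu
    omega
  exact (Finset.card_le_card h1).trans (Finset.card_insert_le _ _)

theorem vt_low {H : ℕ} {m : ℤ} (hm : m < 2 * (H : ℤ) + 2) : vt H m = 0 := by
  have h1 : U H m = ∅ := by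
    rw [Finset.eq_empty_iff_forall_notMem]
    intro u hu
    rw [mem_U] at hu
    omega
  rw [vt_eq, h1]
  simp

theorem vt_high {H : ℕ} {m : ℤ} (hm : 4 * (H : ℤ) < m) : vt H m = 0 := by
  have h1 : U H m = ∅ := by
    rw [Finset.eq_empty_iff_forall_notMem]
    intro u hu
    rw [mem_U] at hu
    omega
  rw [vt_eq, h1]
  simp

theorem Vk_eq (H : ℕ) (s t : ℤ) (b : ℝ) (hs : s ≤ 2 * (H : ℤ)) (ht : 4 * (H : ℤ) < t) :
    Vk H b = ∑ m ∈ Ico s t, (vt H m : ℂ) * e (b * (m : ℝ)) := by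
  have h1 : ∀ m ∈ Ico s t, (vt H m : ℂ) * e (b * (m : ℝ)) =
      (∑ u ∈ Ioc H (2 * H), if ((H : ℤ) < m - u ∧ m - u ≤ 2 * H) then e (b * (m : ℝ)) else 0) /
        (H : ℂ) ^ 2 := by
    intro m _
    rw [← Finset.sum_filter]
    change _ = (∑ u ∈ U H m, e (b * (m : ℝ))) / (H : ℂ) ^ 2
    rw [Finset.sum_const, nsmul_eq_mul, vt_eq]
    push_cast
    ring
  rw [Finset.sum_congr rfl h1, ← Finset.sum_div, Finset.sum_comm]
  have h2 : Vk H b = (∑ u ∈ Ioc H (2 * H), ∑ u' ∈ Ioc H (2 * H), e (b * (u : ℝ)) * e (b * (u' : ℝ))) /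
      (H : ℂ) ^ 2 := by
    unfold Vk Dk
    rw [div_pow, sq, Finset.sum_mul_sum]
  rw [h2]
  congr 1
  refine Finset.sum_congr rfl fun u hu => ?_
  rw [mem_Ioc] at hu
  rw [← Finset.sum_filter]
  refine Finset.sum_bij' (fun u' _ => (u : ℤ) + u') (fun m _ => (m - u).toNat) ?_ ?_ ?_ ?_ ?_
  · intro u' hu'
    rw [mem_Ioc] at hu'
    rw [mem_filter, mem_Ico]
    omega
  · intro m hm
    rw [mem_filter, mem_Ico] at hm
    rw [mem_Ioc]
    omega
  · intro u' hu'
    simp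
  · intro m hm
    rw [mem_filter, mem_Ico] at hm
    omega
  · intro u' hu'
    rw [← e_add]
    congr 1
    push_cast
    ring

theorem Dk_per (H : ℕ) (b : ℝ) (n : ℤ) : Dk H (b + n) = Dk H b := by
  unfold Dk
  refine Finset.sum_congr rfl fun u _ => ?_
  have h1 : (b + n) * (u : ℝ) = b * u + ((n * u : ℤ) : ℝ) := by
    push_cast
    ring
  rw [h1, e_add, e_int, mul_one]

theorem norm_Dk_le (H : ℕ) (b : ℝ) : ‖Dk H b‖ ≤ H := by
  unfold Dk
  refine (norm_sum_le _ _).trans ?_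
  rw [Finset.sum_congr rfl fun u _ => norm_e _, Finset.sum_const, Nat.card_Ioc, nsmul_eq_mul,
    mul_one]
  apply le_of_eq
  congr 1
  omega

theorem Dk_mul (H : ℕ) (b : ℝ) :
    Dk H b * (e b - 1) = e (b * ((2 * H + 1 : ℕ) : ℝ)) - e (b * ((H + 1 : ℕ) : ℝ)) := by
  have h1 : ∀ n : ℕ, H ≤ n → (∑ u ∈ Ioc H n, e (b * (u : ℝ))) * (e b - 1) =
      e (b * ((n + 1 : ℕ) : ℝ)) - e (b * ((H + 1 : ℕ) : ℝ)) := by
    intro n hn
    induction n, hn using Nat.le_induction with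
    | base => simp
    | succ n hn ih =>
      have h2 : Ioc H (n + 1) = insert (n + 1) (Ioc H n) := by
        ext u
        simp only [mem_Ioc, mem_insert]
        omega
      rw [h2, Finset.sum_insert (by simp), add_mul, ih]
      have h3 : e (b * ((n + 1 + 1 : ℕ) : ℝ)) = e (b * ((n + 1 : ℕ) : ℝ)) * e b := by
        rw [← e_add]
        congr 1
        push_cast
        ring
      rw [h3]
      ring
  have h2 := h1 (2 * H) (by omega)
  unfold Dk
  exact h2

theorem norm_e_sub_one_ge (b d : ℝ) (hd : ∀ n : ℤ, d ≤ |b - n|) : 4 * d ≤ ‖e b - 1‖ := by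
  set x : ℝ := b - round b with hx
  have hx2 : |x| ≤ 1 / 2 := abs_sub_round b
  have hxd : d ≤ |x| := hd (round b)
  have h1 : e b = e x := by
    have h2 : b = x + ((round b : ℤ) : ℝ) := by rw [hx]; ring
    rw [h2, e_add, e_int, mul_one]
  rw [h1]
  have h3 : ‖e x - 1‖ = 2 * |Real.sin (Real.pi * x)| := by
    unfold e
    have h := Complex.norm_exp_I_mul_ofReal_sub_one (2 * Real.pi * x)
    have h2 : Complex.exp (((2 * Real.pi * x : ℝ) : ℂ) * Complex.I) =
        Complex.exp (Complex.I * ((2 * Real.pi * x : ℝ) : ℂ)) := by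
      rw [mul_comm]
    rw [h2, h, Real.norm_eq_abs, abs_mul, abs_two]
    congr 3
    ring
  rw [h3]
  have h4 : |Real.pi * x| ≤ Real.pi / 2 := by
    rw [abs_mul, abs_of_pos Real.pi_pos]
    nlinarith only [hx2, Real.pi_pos]
  have h5 := Real.mul_abs_le_abs_sin h4
  have h6 : 2 / Real.pi * |Real.pi * x| = 2 * |x| := by
    rw [abs_mul, abs_of_pos Real.pi_pos]
    field_simp
  rw [h6] at h5
  linarith

end VT

open VT in
theorem vt_holds : VtStmt := by
  intro H hH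
  have hH0 : (0 : ℝ) < H := by exact_mod_cast hH
  refine ⟨?_, ?_, ?_, ?_, ?_, ?_, ?_, ?_, ?_⟩
  · intro m
    rw [vt_eq]
    positivity
  · intro m
    rw [vt_eq, div_le_div_iff₀ (by positivity) hH0]
    have h1 : ((U H m).card : ℝ) ≤ H := by exact_mod_cast card_U_le H m
    nlinarith only [h1, hH0]
  · intro m
    rw [vt_eq, vt_eq, ← sub_div, abs_div, abs_of_pos (by positivity : (0 : ℝ) < (H : ℝ) ^ 2)]
    apply div_le_div_of_nonneg_right _ (by positivity)
    have h1 : ((U H (m + 1)).card : ℝ) ≤ (U H m).card + 1 := by exact_mod_cast card_succ_le H m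
    have h2 : ((U H m).card : ℝ) ≤ (U H (m + 1)).card + 1 := by exact_mod_cast card_le_succ H m
    rw [abs_le]
    constructor <;> linarith
  · intro m hm
    exact vt_low hm
  · intro m hm
    exact vt_high hm
  · intro s t b hs ht
    exact Vk_eq H s t b hs ht
  · intro b n
    unfold Vk
    rw [Dk_per]
  · intro b
    unfold Vk
    rw [norm_pow, norm_div, Complex.norm_natCast]
    have h1 : ‖Dk H b‖ / H ≤ 1 := (div_le_one hH0).2 (norm_Dk_le H b)
    exact pow_le_one₀ (by positivity) h1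
  · intro b d hd hbd
    have h1 := norm_e_sub_one_ge b d hbd
    have h2 : ‖Dk H b‖ * ‖e b - 1‖ ≤ 2 := by
      rw [← norm_mul, Dk_mul]
      refine (norm_sub_le _ _).trans ?_
      rw [norm_e, norm_e]
      norm_num
    have h3 : ‖Dk H b‖ ≤ 1 / (2 * d) := by
      rw [le_div_iff₀ (by positivity)]
      have h4 : ‖Dk H b‖ * (4 * d) ≤ ‖Dk H b‖ * ‖e b - 1‖ :=
        mul_le_mul_of_nonneg_left h1 (norm_nonneg _)
      linarith
    unfold Vk
    rw [norm_pow, norm_div, Complex.norm_natCast, div_pow]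
    have h4 : ‖Dk H b‖ ^ 2 ≤ (1 / (2 * d)) ^ 2 := pow_le_pow_left₀ (norm_nonneg _) h3 2
    calc ‖Dk H b‖ ^ 2 / (H : ℝ) ^ 2 ≤ (1 / (2 * d)) ^ 2 / (H : ℝ) ^ 2 :=
          div_le_div_of_nonneg_right h4 (by positivity)
      _ = 1 / (4 * (H : ℝ) ^ 2 * d ^ 2) := by
          field_simp
          norm_num

end Vale.Agent.P042.SS
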