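import Vale.Agent.P042.SS.ANPoint
import Vale.Agent.P042.SS.ANVt
import Vale.Agent.P042.SS.ANRi
import Vale.Agent.P042.SS.ANVar
import Vale.Agent.P042.SS.ANFou

set_option autoImplicit false

namespace Vale.Agent.P042.SS

theorem maj_holds : MajStmt := maj_of (var_of vt_holds) ri_holds

theorem an_of' (hGr : GrowStmt) (hMin : MinStmt) (hSep : SepStmt) : ANStmt :=
  an_of (point_of hGr vt_holds hMin maj_holds hSep gam_holds) fou_holds

end Vale.Agent.P042.SS
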