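import Vale.Agent.P042.SS.ANDefs

set_option autoImplicit false

/-!
Block AN: growth of the polynomial.
-/

namespace Vale.Agent.P042.SS

open Polynomial Finset

namespace GROW

/-- the terms of lower degree -/
theorem core (k : ℕ) (hk : 1 ≤ k) (f : ℤ[X]) (hdeg : f.natDegree = k) (B : ℝ) (hB : 0 ≤ B)
    (hc : ∀ j : ℕ, |(f.coeff j : ℝ)| ≤ B) (x c t : ℝ) (hx : 1 ≤ x) (hc1 : 1 ≤ c) (ht : 0 ≤ t)
    (φ : ℕ → ℝ) (hφ0 : ∀ j, 0 ≤ φ j) (hφ : ∀ j, φ j * t ≤ c ^ j * x ^ j) :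
    |(∑ j ∈ range (k + 1), (f.coeff j : ℝ) * φ j) - f.leadingCoeff * φ k| * t ≤
      k * B * c ^ k * x ^ (k - 1) := by
  have h1 : (f.leadingCoeff : ℝ) = f.coeff k := by rw [← hdeg]; rfl
  rw [Finset.sum_range_succ, h1, add_sub_cancel_right, ← abs_of_nonneg ht, ← abs_mul,
    Finset.sum_mul]
  refine (Finset.abs_sum_le_sum_abs _ _).trans ?_
  have h2 : ∀ j ∈ range k, |(f.coeff j : ℝ) * φ j * t| ≤ B * c ^ k * x ^ (k - 1) := by
    intro j hj
    rw [mem_range] at hj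
    rw [mul_assoc, abs_mul, abs_of_nonneg (mul_nonneg (hφ0 j) ht)]
    have h3 : φ j * t ≤ c ^ k * x ^ (k - 1) := by
      refine (hφ j).trans ?_
      have h4 : c ^ j ≤ c ^ k := pow_le_pow_right₀ hc1 hj.le
      have h5 : x ^ j ≤ x ^ (k - 1) := pow_le_pow_right₀ hx (by omega)
      exact mul_le_mul h4 h5 (by positivity) (by positivity)
    rw [mul_assoc]
    exact mul_le_mul (hc j) h3 (mul_nonneg (hφ0 j) ht) hB
  refine (Finset.sum_le_card_nsmul _ _ _ h2).trans (le_of_eq ?_)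
  rw [Finset.card_range, nsmul_eq_mul]
  ring

theorem a_bounds (x : ℝ) (hx : 1 ≤ x) (j : ℕ) :
    0 ≤ (x + 1) ^ j - x ^ j ∧ ((x + 1) ^ j - x ^ j) * x ≤ 4 ^ j * x ^ j := by
  have hx0 : 0 ≤ x := by linarith
  refine ⟨sub_nonneg.2 (pow_le_pow_left₀ hx0 (by linarith) j), ?_⟩
  induction j with
  | zero => simp
  | succ j ih =>
    have h1 : ((x + 1) ^ (j + 1) - x ^ (j + 1)) * x =
        x * (((x + 1) ^ j - x ^ j) * x) + x * (x + 1) ^ j := by ring
    have h2 : (x + 1) ^ j ≤ (2 * x) ^ j := pow_le_pow_left₀ (by linarith) (by linarith) j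
    have h3 : (2 : ℝ) ^ j ≤ 4 ^ j := pow_le_pow_left₀ (by norm_num) (by norm_num) j
    rw [h1]
    rw [mul_pow] at h2
    have hxj : 0 ≤ x ^ j := by positivity
    have h4j : (0 : ℝ) ≤ 4 ^ j := by positivity
    calc x * (((x + 1) ^ j - x ^ j) * x) + x * (x + 1) ^ j
        ≤ x * (4 ^ j * x ^ j) + x * (4 ^ j * x ^ j) := by
          apply add_le_add (mul_le_mul_of_nonneg_left ih hx0)
          apply mul_le_mul_of_nonneg_left _ hx0
          exact h2.trans (mul_le_mul_of_nonneg_right h3 hxj)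
      _ = 2 * (4 ^ j * x ^ (j + 1)) := by ring
      _ ≤ 4 * (4 ^ j * x ^ (j + 1)) := by
          have : 0 ≤ 4 ^ j * x ^ (j + 1) := by positivity
          linarith
      _ = 4 ^ (j + 1) * x ^ (j + 1) := by ring

theorem a_lower (x : ℝ) (hx : 1 ≤ x) (j : ℕ) (hj : 1 ≤ j) :
    x ^ j ≤ ((x + 1) ^ j - x ^ j) * x := by
  have hx0 : 0 ≤ x := by linarith
  induction j, hj using Nat.le_induction with
  | base => simp
  | succ j hj ih =>
    have h1 : ((x + 1) ^ (j + 1) - x ^ (j + 1)) * x =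
        x * (((x + 1) ^ j - x ^ j) * x) + x * (x + 1) ^ j := by ring
    rw [h1]
    have h2 : 0 ≤ x * (x + 1) ^ j := by positivity
    have h3 := mul_le_mul_of_nonneg_left ih hx0
    calc x ^ (j + 1) = x * x ^ j := by ring
      _ ≤ _ := by linarith

theorem b_bounds (x : ℝ) (hx : 1 ≤ x) (j : ℕ) :
    0 ≤ (x + 2) ^ j - 2 * (x + 1) ^ j + x ^ j ∧
      ((x + 2) ^ j - 2 * (x + 1) ^ j + x ^ j) * x ^ 2 ≤ 9 ^ j * x ^ j := by
  have hx0 : 0 ≤ x := by linarith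
  induction j with
  | zero =>
    constructor
    · norm_num
    · norm_num
  | succ j ih =>
    have h1 : (x + 2) ^ (j + 1) - 2 * (x + 1) ^ (j + 1) + x ^ (j + 1) =
        x * ((x + 2) ^ j - 2 * (x + 1) ^ j + x ^ j) + 2 * ((x + 2) ^ j - (x + 1) ^ j) := by ring
    have h2 : 0 ≤ (x + 2) ^ j - (x + 1) ^ j :=
      sub_nonneg.2 (pow_le_pow_left₀ (by linarith) (by linarith) j)
    have h3 : ((x + 2) ^ j - (x + 1) ^ j) * x ≤ 4 * (9 ^ j * x ^ j) := by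
      have h4 := (a_bounds (x + 1) (by linarith) j).2
      have h5 : (x + 1 + 1) ^ j = (x + 2) ^ j := by congr 1; ring
      rw [h5] at h4
      have h6 : (x + 1) ^ j ≤ (2 * x) ^ j := pow_le_pow_left₀ (by linarith) (by linarith) j
      have h7 : (4 : ℝ) ^ j * (x + 1) ^ j ≤ 4 ^ j * (2 * x) ^ j :=
        mul_le_mul_of_nonneg_left h6 (by positivity)
      have h8 : (4 : ℝ) ^ j * (2 * x) ^ j = 8 ^ j * x ^ j := by
        rw [mul_pow, ← mul_assoc, ← mul_pow]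
        norm_num
      have h9 : (8 : ℝ) ^ j * x ^ j ≤ 9 ^ j * x ^ j := by
        apply mul_le_mul_of_nonneg_right _ (by positivity)
        exact pow_le_pow_left₀ (by norm_num) (by norm_num) j
      have h10 : ((x + 2) ^ j - (x + 1) ^ j) * x ≤ ((x + 2) ^ j - (x + 1) ^ j) * (x + 1) :=
        mul_le_mul_of_nonneg_left (by linarith) h2
      have h11 : 0 ≤ (9 : ℝ) ^ j * x ^ j := by positivity
      linarith
    constructor
    · rw [h1]
      have := mul_nonneg hx0 ih.1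
      linarith
    · rw [h1]
      have h4 : (x * ((x + 2) ^ j - 2 * (x + 1) ^ j + x ^ j) + 2 * ((x + 2) ^ j - (x + 1) ^ j)) *
          x ^ 2 = x * (((x + 2) ^ j - 2 * (x + 1) ^ j + x ^ j) * x ^ 2) +
            2 * x * (((x + 2) ^ j - (x + 1) ^ j) * x) := by ring
      rw [h4]
      calc x * (((x + 2) ^ j - 2 * (x + 1) ^ j + x ^ j) * x ^ 2) +
            2 * x * (((x + 2) ^ j - (x + 1) ^ j) * x)
          ≤ x * (9 ^ j * x ^ j) + 2 * x * (4 * (9 ^ j * x ^ j)) := by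
            apply add_le_add (mul_le_mul_of_nonneg_left ih.2 hx0)
            exact mul_le_mul_of_nonneg_left h3 (by linarith)
        _ = 9 ^ (j + 1) * x ^ (j + 1) := by ring

theorem b_lower (x : ℝ) (hx : 1 ≤ x) (j : ℕ) (hj : 2 ≤ j) :
    x ^ j ≤ ((x + 2) ^ j - 2 * (x + 1) ^ j + x ^ j) * x ^ 2 := by
  have hx0 : 0 ≤ x := by linarith
  induction j, hj using Nat.le_induction with
  | base =>
    have h1 : (x + 2) ^ 2 - 2 * (x + 1) ^ 2 + x ^ 2 = 2 := by ring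
    rw [h1]
    nlinarith only [hx]
  | succ j hj ih =>
    have h1 : ((x + 2) ^ (j + 1) - 2 * (x + 1) ^ (j + 1) + x ^ (j + 1)) * x ^ 2 =
        x * (((x + 2) ^ j - 2 * (x + 1) ^ j + x ^ j) * x ^ 2) +
          2 * ((x + 2) ^ j - (x + 1) ^ j) * x ^ 2 := by ring
    have h2 : 0 ≤ (x + 2) ^ j - (x + 1) ^ j :=
      sub_nonneg.2 (pow_le_pow_left₀ (by linarith) (by linarith) j)
    rw [h1]
    have h3 := mul_le_mul_of_nonneg_left ih hx0
    have h4 : 0 ≤ 2 * ((x + 2) ^ j - (x + 1) ^ j) * x ^ 2 := by positivity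
    calc x ^ (j + 1) = x * x ^ j := by ring
      _ ≤ _ := by linarith

theorem fv_eq (k : ℕ) (f : ℤ[X]) (hdeg : f.natDegree = k) (x : ℕ) :
    ((fv f x : ℤ) : ℝ) = ∑ j ∈ range (k + 1), (f.coeff j : ℝ) * (x : ℝ) ^ j := by
  unfold fv
  rw [eval_eq_sum_range, hdeg]
  push_cast
  rfl

/-- all bounds for `x ≥ x0` -/
theorem bounds (k : ℕ) (hk : 2 ≤ k) (f : ℤ[X]) (hdeg : f.natDegree = k)
    (hpos : 0 < f.leadingCoeff) (B : ℝ) (hB : 1 ≤ B) (hc : ∀ j : ℕ, |(f.coeff j : ℝ)| ≤ B)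
    (x : ℕ) (hx : 2 * (k * B * 9 ^ k) ≤ (x : ℝ)) :
    (f.leadingCoeff : ℝ) * (x : ℝ) ^ k / 2 ≤ fv f x ∧
    (fv f x : ℝ) ≤ 2 * (f.leadingCoeff * (x : ℝ) ^ k) ∧
    (f.leadingCoeff : ℝ) * (x : ℝ) ^ k / 2 ≤ gp f x * x ∧
    gp f x * x ≤ (4 ^ k + 1) * (f.leadingCoeff * (x : ℝ) ^ k) ∧
    gp f x ≤ gp f (x + 1) := by
  have hkr : (2 : ℝ) ≤ k := by exact_mod_cast hk
  have h9 : (1 : ℝ) ≤ 9 ^ k := one_le_pow₀ (by norm_num)
  have hx1 : (1 : ℝ) ≤ x := by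
    refine le_trans ?_ hx
    nlinarith only [hkr, h9, hB, mul_le_mul hkr hB zero_le_one (by linarith : (0 : ℝ) ≤ k)]
  have hx0 : (0 : ℝ) < x := by linarith
  have hl1 : (1 : ℝ) ≤ f.leadingCoeff := by exact_mod_cast hpos
  have hxk : (x : ℝ) ^ k = x ^ (k - 1) * x := by
    rw [← pow_succ]
    congr 1
    omega
  have hxk0 : (0 : ℝ) < (x : ℝ) ^ (k - 1) := by positivity
  have hlow : ∀ c : ℝ, 0 ≤ c → c ≤ 9 → k * B * c ^ k * (x : ℝ) ^ (k - 1) ≤ (x : ℝ) ^ k / 2 := by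
    intro c hc0 hc9
    have h1 : c ^ k ≤ 9 ^ k := pow_le_pow_left₀ hc0 hc9 k
    have h2 : k * B * c ^ k ≤ k * B * 9 ^ k := mul_le_mul_of_nonneg_left h1 (by positivity)
    rw [hxk]
    have h3 : k * B * c ^ k ≤ x / 2 := by linarith
    calc k * B * c ^ k * (x : ℝ) ^ (k - 1) ≤ x / 2 * (x : ℝ) ^ (k - 1) :=
          mul_le_mul_of_nonneg_right h3 hxk0.le
      _ = (x : ℝ) ^ (k - 1) * x / 2 := by ring
  have hxkpos : (0 : ℝ) < (x : ℝ) ^ k := by positivity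
  have hlx : (x : ℝ) ^ k ≤ f.leadingCoeff * (x : ℝ) ^ k := by
    nlinarith only [hl1, hxkpos]
  -- the value
  have hA := core k (by omega) f hdeg B (by linarith) hc x 1 1 hx1 le_rfl zero_le_one
    (fun j => (x : ℝ) ^ j) (fun j => by positivity) (fun j => by simp)
  rw [← fv_eq k f hdeg x, mul_one] at hA
  have hA' := hA.trans (hlow 1 zero_le_one (by norm_num))
  rw [abs_le] at hA'
  -- the gap
  have hgp : ∀ z : ℕ, gp f z = ∑ j ∈ range (k + 1), (f.coeff j : ℝ) *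
      (((z : ℝ) + 1) ^ j - (z : ℝ) ^ j) := by
    intro z
    unfold gp
    push_cast
    rw [fv_eq k f hdeg (z + 1), fv_eq k f hdeg z, ← Finset.sum_sub_distrib]
    refine Finset.sum_congr rfl fun j _ => ?_
    push_cast
    ring
  have hD := core k (by omega) f hdeg B (by linarith) hc x 4 x hx1 (by norm_num) hx0.le
    (fun j => ((x : ℝ) + 1) ^ j - (x : ℝ) ^ j) (fun j => (a_bounds x hx1 j).1)
    (fun j => (a_bounds x hx1 j).2)
  rw [← hgp x] at hD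
  have hD' := hD.trans (hlow 4 (by norm_num) (by norm_num))
  rw [← abs_of_pos hx0, ← abs_mul, abs_of_pos hx0, abs_le] at hD'
  have hal := a_lower x hx1 k (by omega)
  have hau := (a_bounds x hx1 k).2
  have hal' := mul_le_mul_of_nonneg_left hal (by linarith : (0 : ℝ) ≤ f.leadingCoeff)
  have hau' := mul_le_mul_of_nonneg_left hau (by linarith : (0 : ℝ) ≤ f.leadingCoeff)
  -- the second difference
  have hE := core k (by omega) f hdeg B (by linarith) hc x 9 ((x : ℝ) ^ 2) hx1 (by norm_num)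
    (by positivity) (fun j => ((x : ℝ) + 2) ^ j - 2 * ((x : ℝ) + 1) ^ j + (x : ℝ) ^ j)
    (fun j => (b_bounds x hx1 j).1) (fun j => (b_bounds x hx1 j).2)
  have hgg : ∑ j ∈ range (k + 1), (f.coeff j : ℝ) *
      (((x : ℝ) + 2) ^ j - 2 * ((x : ℝ) + 1) ^ j + (x : ℝ) ^ j) = gp f (x + 1) - gp f x := by
    rw [hgp (x + 1), hgp x, ← Finset.sum_sub_distrib]
    refine Finset.sum_congr rfl fun j _ => ?_
    push_cast
    ring
  rw [hgg] at hE
  have hE' := hE.trans (hlow 9 (by norm_num) (by norm_num))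
  have hx2 : (0 : ℝ) < (x : ℝ) ^ 2 := by positivity
  rw [← abs_of_pos hx2, ← abs_mul, abs_le] at hE'
  have hbl := b_lower x hx1 k hk
  have hbl' := mul_le_mul_of_nonneg_left hbl (by linarith : (0 : ℝ) ≤ f.leadingCoeff)
  refine ⟨?_, ?_, ?_, ?_, ?_⟩
  · linarith [hA'.1]
  · linarith [hA'.2]
  · linarith [hD'.1]
  · linarith [hD'.2]
  · have h1 : 0 ≤ (gp f (x + 1) - gp f x) * (x : ℝ) ^ 2 := by
      linarith [hE'.1]
    have h2 : 0 ≤ gp f (x + 1) - gp f x := nonneg_of_mul_nonneg_left h1 hx2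
    linarith

end GROW

open GROW in
theorem grow_holds : GrowStmt := by
  intro k hk
  have hkr : (2 : ℝ) ≤ k := by exact_mod_cast hk
  obtain ⟨C1, hC1⟩ : ∃ C1 : ℝ, C1 = (4 ^ k + 1) * (2 ^ k * 8) := ⟨_, rfl⟩
  obtain ⟨C2, hC2⟩ : ∃ C2 : ℝ, C2 = 2 * (k * 9 ^ k) + C1 := ⟨_, rfl⟩
  have h4 : (1 : ℝ) ≤ 4 ^ k := one_le_pow₀ (by norm_num)
  have h2 : (1 : ℝ) ≤ 2 ^ k := one_le_pow₀ (by norm_num)
  have h9 : (1 : ℝ) ≤ 9 ^ k := one_le_pow₀ (by norm_num)
  have hC11 : 1 ≤ C1 := by rw [hC1]; nlinarith only [h4, h2]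
  have hC21 : C1 ≤ C2 := by
    rw [hC2]
    have : (0 : ℝ) ≤ 2 * (k * 9 ^ k) := by positivity
    linarith
  have hC24 : 2 ≤ C2 := by
    rw [hC2]
    nlinarith only [hkr, h9, hC11]
  refine ⟨2 * C2, k + 1, by linarith, by omega, ?_⟩
  intro f H B hdeg hpos hB hc hH
  have hl1 : (1 : ℝ) ≤ f.leadingCoeff := by exact_mod_cast hpos
  have hlB : (f.leadingCoeff : ℝ) ≤ B := (le_abs_self _).trans (hc f.natDegree)
  obtain ⟨x0, hx0⟩ : ∃ x0 : ℕ, x0 = ⌈C2 * B⌉₊ := ⟨_, rfl⟩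
  have hx0l : C2 * B ≤ x0 := by rw [hx0]; exact Nat.le_ceil _
  have hx0u : (x0 : ℝ) ≤ 2 * C2 * B := by
    rw [hx0]
    have h1 := Nat.ceil_lt_add_one (by positivity : (0 : ℝ) ≤ C2 * B)
    nlinarith only [h1, hC24, hB]
  have hx01 : (2 : ℝ) ≤ x0 := by nlinarith only [hx0l, hC24, hB]
  have hb : ∀ x : ℕ, x0 ≤ x → (f.leadingCoeff : ℝ) * (x : ℝ) ^ k / 2 ≤ fv f x ∧
    (fv f x : ℝ) ≤ 2 * (f.leadingCoeff * (x : ℝ) ^ k) ∧
    (f.leadingCoeff : ℝ) * (x : ℝ) ^ k / 2 ≤ gp f x * x ∧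
    gp f x * x ≤ (4 ^ k + 1) * (f.leadingCoeff * (x : ℝ) ^ k) ∧
    gp f x ≤ gp f (x + 1) := by
    intro x hx
    apply bounds k hk f hdeg hpos B hB hc x
    have h1 : (x0 : ℝ) ≤ x := by exact_mod_cast hx
    refine le_trans ?_ (hx0l.trans h1)
    rw [hC2]
    nlinarith only [hC11, hB]
  have hgpos : ∀ x, x0 ≤ x → 1 ≤ gp f x := by
    intro x hx
    obtain ⟨_, _, h3, _, _⟩ := hb x hx
    have h1 : (x0 : ℝ) ≤ x := by exact_mod_cast hx
    have hx2 : (2 : ℝ) ≤ x := hx01.trans h1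
    have h5 : (x : ℝ) ^ k = x ^ (k - 1) * x := by
      rw [← pow_succ]
      congr 1
      omega
    have h6 : (2 : ℝ) ≤ (x : ℝ) ^ (k - 1) := by
      calc (2 : ℝ) ≤ x := hx2
        _ = (x : ℝ) ^ 1 := (pow_one _).symm
        _ ≤ (x : ℝ) ^ (k - 1) := pow_le_pow_right₀ (by linarith) (by omega)
    have h7 : 1 * (x : ℝ) ≤ gp f x * x := by
      refine le_trans ?_ h3
      rw [h5]
      have h8 : (2 : ℝ) * x ≤ x ^ (k - 1) * x := mul_le_mul_of_nonneg_right h6 (by linarith)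
      have h9' : (x : ℝ) ^ (k - 1) * x ≤ f.leadingCoeff * ((x : ℝ) ^ (k - 1) * x) := by
        nlinarith only [h8, hl1, hx2]
      linarith
    exact le_of_mul_le_mul_right h7 (by linarith)
  have hgmono : ∀ x, x0 ≤ x → gp f x ≤ gp f (x + 1) := fun x hx => (hb x hx).2.2.2.2
  have hgmono' : ∀ x y, x0 ≤ x → x ≤ y → gp f x ≤ gp f y := by
    intro x y hx hxy
    induction y, hxy using Nat.le_induction with
    | base => exact le_rfl
    | succ n hn ih => exact ih.trans (hgmono n (by omega))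
  -- the value at x0
  have hlow : (fv f x0 : ℝ) ≤ 2 * H := by
    have h1 := (hb x0 le_rfl).2.1
    have h3 : (f.leadingCoeff : ℝ) * (x0 : ℝ) ^ k ≤ H := by
      refine le_trans ?_ hH
      calc (f.leadingCoeff : ℝ) * (x0 : ℝ) ^ k ≤ B * (2 * C2 * B) ^ k := by
            apply mul_le_mul hlB _ (by positivity) (by linarith)
            exact pow_le_pow_left₀ (by linarith) hx0u k
        _ ≤ (2 * C2 * B) * (2 * C2 * B) ^ k := by
            apply mul_le_mul_of_nonneg_right _ (by positivity)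
            nlinarith only [hC24, hB]
        _ = (2 * C2 * B) ^ (k + 1) := by ring
    linarith
  have hH0 : (0 : ℝ) ≤ H := by positivity
  have hH1 : (1 : ℝ) ≤ H := by
    refine le_trans ?_ hH
    apply one_le_pow₀
    nlinarith only [hC24, hB]
  -- the end point
  have hex : ∃ n : ℕ, x0 ≤ n ∧ 4 * (H : ℤ) < fv f n := by
    refine ⟨x0 + (8 * H + 1), by omega, ?_⟩
    have h1 := (hb (x0 + (8 * H + 1)) (by omega)).1
    have h3 : (8 * (H : ℝ) + 1) ≤ ((x0 + (8 * H + 1) : ℕ) : ℝ) := by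
      push_cast
      linarith
    have h5 : ((x0 + (8 * H + 1) : ℕ) : ℝ) ≤ ((x0 + (8 * H + 1) : ℕ) : ℝ) ^ k := by
      calc ((x0 + (8 * H + 1) : ℕ) : ℝ) = ((x0 + (8 * H + 1) : ℕ) : ℝ) ^ 1 := (pow_one _).symm
        _ ≤ _ := pow_le_pow_right₀ (by linarith) (by omega)
    have h6 : ((x0 + (8 * H + 1) : ℕ) : ℝ) ^ k ≤
        f.leadingCoeff * ((x0 + (8 * H + 1) : ℕ) : ℝ) ^ k := by
      have : (0 : ℝ) ≤ ((x0 + (8 * H + 1) : ℕ) : ℝ) ^ k := by positivity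
      nlinarith only [this, hl1]
    have h7 : (4 * (H : ℝ)) < fv f (x0 + (8 * H + 1)) := by linarith
    exact_mod_cast h7
  classical
  obtain ⟨X, hXdef⟩ : ∃ X : ℕ, X = Nat.find hex := ⟨_, rfl⟩
  have hX : x0 ≤ X ∧ 4 * (H : ℤ) < fv f X := by rw [hXdef]; exact Nat.find_spec hex
  have hXmin : ∀ x, x0 ≤ x → x < X → fv f x ≤ 4 * (H : ℤ) := by
    intro x hx hxX
    rw [hXdef] at hxX
    have h1 := Nat.find_min hex hxX
    by_contra h3
    exact h1 ⟨hx, by omega⟩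
  have hlow' : fv f x0 ≤ 2 * (H : ℤ) := by exact_mod_cast hlow
  have hx0X : x0 < X := by
    rcases hX.1.eq_or_lt with h1 | h1
    · rw [← h1] at hX
      omega
    · exact h1
  have hXr : (x0 : ℝ) + 1 ≤ X := by exact_mod_cast hx0X
  have hXpos : (0 : ℝ) < X := by linarith
  have hlead8 : (f.leadingCoeff : ℝ) * (X : ℝ) ^ k ≤ 2 ^ k * 8 * H := by
    have h1 := (hb (X - 1) (by omega)).1
    have h3 : (fv f (X - 1) : ℝ) ≤ 4 * H := by exact_mod_cast hXmin (X - 1) (by omega) (by omega)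
    have h5 : (((X - 1 : ℕ)) : ℝ) = X - 1 := by
      rw [Nat.cast_sub (by omega)]
      simp
    have h6 : (X : ℝ) ^ k ≤ 2 ^ k * (((X - 1 : ℕ)) : ℝ) ^ k := by
      rw [← mul_pow]
      apply pow_le_pow_left₀ hXpos.le
      rw [h5]
      linarith
    calc (f.leadingCoeff : ℝ) * (X : ℝ) ^ k
        ≤ f.leadingCoeff * (2 ^ k * (((X - 1 : ℕ)) : ℝ) ^ k) :=
          mul_le_mul_of_nonneg_left h6 (by linarith)
      _ = 2 ^ k * 2 * (f.leadingCoeff * (((X - 1 : ℕ)) : ℝ) ^ k / 2) := by ring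
      _ ≤ 2 ^ k * 2 * (4 * H) := by
          apply mul_le_mul_of_nonneg_left (h1.trans h3) (by positivity)
      _ = 2 ^ k * 8 * H := by ring
  have hgX : gp f X * X ≤ C1 * H := by
    refine (hb X hX.1).2.2.2.1.trans ?_
    calc (4 ^ k + 1) * ((f.leadingCoeff : ℝ) * (X : ℝ) ^ k)
        ≤ (4 ^ k + 1) * (2 ^ k * 8 * H) := mul_le_mul_of_nonneg_left hlead8 (by positivity)
      _ = C1 * H := by rw [hC1]; ring
  have hgX0 : 1 ≤ gp f X := hgpos X hX.1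
  refine ⟨x0, X, gp f X, ⟨?_, hx0X, ?_, hlow', hX.2, hXmin, hgpos, hgmono, ?_, ?_, ?_, ?_⟩⟩
  · have : (1 : ℝ) ≤ x0 := by linarith
    exact_mod_cast this
  · have h1 := (hb x0 le_rfl).1
    have h3 : (0 : ℝ) ≤ (f.leadingCoeff : ℝ) * (x0 : ℝ) ^ k / 2 := by positivity
    have h5 : (0 : ℝ) ≤ fv f x0 := h3.trans h1
    exact_mod_cast h5
  · intro x hx hxX
    exact hgmono' x X hx hxX
  · have h1 : C1 ≤ X := by nlinarith only [hXr, hx0l, hC21, hB, hC11]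
    have h3 : gp f X * C1 ≤ gp f X * X := mul_le_mul_of_nonneg_left h1 (by linarith)
    have h5 : gp f X * C1 ≤ H * C1 := by linarith
    exact le_of_mul_le_mul_right h5 (by linarith)
  · refine hgX.trans (mul_le_mul_of_nonneg_right ?_ hH0)
    linarith
  · have h1 := (hb X hX.1).2.1
    have h3 : (4 * (H : ℝ)) < fv f X := by exact_mod_cast hX.2
    have h5 : (0 : ℝ) ≤ f.leadingCoeff * (X : ℝ) ^ k := by positivity
    have h6 : (H : ℝ) ≤ f.leadingCoeff * (X : ℝ) ^ k := by linarith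
    have h7 : (f.leadingCoeff : ℝ) * (X : ℝ) ^ k ≤
        2 * C2 * (f.leadingCoeff * (X : ℝ) ^ k) := by
      nlinarith only [h5, hC24]
    calc (H : ℝ) ≤ 2 * C2 * (f.leadingCoeff * (X : ℝ) ^ k) := h6.trans h7
      _ = 2 * C2 * f.leadingCoeff * (X : ℝ) ^ k := by ring

end Vale.Agent.P042.SS
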