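import Vale.Agent.P042.SS.ANVar
import Vale.Agent.P042.SS.ANVt
import Vale.Agent.P042.PS463.Growth

set_option autoImplicit false

/-!
Block MIN of AN: minor arcs.
-/

namespace Vale.Agent.P042.SS

open Polynomial Finset

/-- the exponential has norm one -/
theorem anmin_norm_e (x : ℝ) : ‖e x‖ = 1 := by
  unfold e
  exact Complex.norm_exp_ofReal_mul_I _

/-- partial sums over `range` from sums over `Icc 1` -/
theorem anmin_range (F : ℕ → ℂ) (hF : ∀ x, ‖F x‖ ≤ 1) (M : ℕ) :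
    ‖∑ x ∈ range M, F x‖ ≤ 1 + ‖∑ x ∈ Icc 1 (M - 1), F x‖ := by
  rcases Nat.eq_zero_or_pos M with rfl | hM
  · simp
  · have h1 : range M = insert 0 (Icc 1 (M - 1)) := by
      ext x
      simp only [mem_range, mem_insert, mem_Icc]
      omega
    rw [h1, sum_insert (by simp)]
    exact (norm_add_le _ _).trans (by gcongr; exact hF 0)

theorem anmin_trivial (F : ℕ → ℂ) (hF : ∀ x, ‖F x‖ ≤ 1) (M : ℕ) :
    ‖∑ x ∈ Icc 1 M, F x‖ ≤ M := by
  refine (norm_sum_le _ _).trans ?_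
  refine (sum_le_card_nsmul _ _ 1 fun x _ => hF x).trans ?_
  simp

/-- the constants: `X` is large -/
theorem anmin_large (k E0 : ℕ) (C K K0 B δ δ' H X lc : ℝ) (hC : 1 ≤ C) (hK0 : 1 ≤ K0)
    (hK : 136 * C * K0 ≤ K) (hB : 1 ≤ B) (hδ : 0 < δ) (hδ1 : δ ≤ 1)
    (hinv : 1 / δ' = 68 * C / δ) (hδ'0 : 0 < δ') (hX : 0 ≤ X) (_ : 0 ≤ lc) (hlc : lc ≤ B)
    (hH : (K * B / δ) ^ (k * E0 + k + 2) ≤ H) (hlead : H ≤ C * lc * X ^ k) :
    2 / δ' * (K0 * B / δ') ^ E0 ≤ X := by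
  have hC0 : 0 < C := by linarith
  have hCK0 : C ≤ C * K0 := le_mul_of_one_le_right hC0.le hK0
  have hK136 : 136 * C ≤ K := by linarith
  have hB0 : 0 < B := by linarith
  by_contra hcon
  push Not at hcon
  have h1 : X ^ k ≤ (2 / δ' * (K0 * B / δ') ^ E0) ^ k :=
    pow_le_pow_left₀ hX hcon.le k
  have h2 : H ≤ C * B * (2 / δ' * (K0 * B / δ') ^ E0) ^ k := by
    refine hlead.trans ?_
    gcongr
  have e1 : 2 / δ' ≤ K * B / δ := by
    have h : 2 / δ' = 136 * C / δ := by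
      rw [show 2 / δ' = 2 * (1 / δ') by ring, hinv]
      ring
    rw [h]
    refine div_le_div_of_nonneg_right ?_ hδ.le
    nlinarith
  have e2 : K0 * B / δ' ≤ K * B / δ := by
    have h : K0 * B / δ' = 68 * C * K0 * B / δ := by
      rw [show K0 * B / δ' = K0 * B * (1 / δ') by ring, hinv]
      ring
    rw [h]
    refine div_le_div_of_nonneg_right (mul_le_mul_of_nonneg_right ?_ hB0.le) hδ.le
    nlinarith
  have e3 : C * B ≤ K * B / δ := by
    rw [le_div_iff₀ hδ]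
    have h3 : C ≤ K := by linarith
    calc C * B * δ ≤ C * B * 1 := by gcongr
      _ = C * B := mul_one _
      _ ≤ K * B := by gcongr
  have hK0' : 0 ≤ K := by linarith
  have hq0 : 0 ≤ K * B / δ := by positivity
  have h3 : C * B * (2 / δ' * (K0 * B / δ') ^ E0) ^ k ≤ (K * B / δ) ^ (k * E0 + k + 1) := by
    calc C * B * (2 / δ' * (K0 * B / δ') ^ E0) ^ k
        ≤ (K * B / δ) * (K * B / δ * (K * B / δ) ^ E0) ^ k := by gcongr
      _ = (K * B / δ) ^ (k * E0 + k + 1) := by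
          rw [mul_pow, ← pow_mul]
          ring
  have hKB2 : 1 < K * B / δ := by
    rw [lt_div_iff₀ hδ]
    nlinarith
  have h5 : (K * B / δ) ^ (k * E0 + k + 1) < (K * B / δ) ^ (k * E0 + k + 2) :=
    pow_lt_pow_right₀ hKB2 (by omega)
  linarith

/-- the constants: the major arc alternative -/
theorem anmin_maj (k E0 : ℕ) (C K K0 δ δ' H X M lc : ℝ) (hC : 1 ≤ C) (hK0 : 1 ≤ K0)
    (hK : 136 * C * K0 ≤ K) (hδ : 0 < δ) (hδ1 : δ ≤ 1)
    (hinv : 1 / δ' = 68 * C / δ) (hδ'0 : 0 < δ') (hX : 0 ≤ X) (hlc0 : 0 ≤ lc) (hH : 0 < H)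
    (hlead : H ≤ C * lc * X ^ k) (hM : δ' * X ≤ M) (hk : 1 ≤ k) :
    (K0 / δ') ^ E0 ≤ (K / δ) ^ (k * E0 + k + 2) ∧
      (K0 / δ') ^ E0 / (lc * M ^ k) ≤ (K / δ) ^ (k * E0 + k + 2) / H := by
  have hC0 : 0 < C := by linarith
  have hCK0 : C ≤ C * K0 := le_mul_of_one_le_right hC0.le hK0
  have hK136 : 136 * C ≤ K := by linarith
  have hbase : K0 / δ' ≤ K / δ := by
    have h : K0 / δ' = 68 * C * K0 / δ := by
      rw [show K0 / δ' = K0 * (1 / δ') by ring, hinv]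
      ring
    rw [h]
    refine div_le_div_of_nonneg_right ?_ hδ.le
    nlinarith
  have hKδ1 : 1 ≤ K / δ := by
    rw [le_div_iff₀ hδ]
    linarith
  have hE : E0 ≤ k * E0 := Nat.le_mul_of_pos_left E0 hk
  constructor
  · calc (K0 / δ') ^ E0 ≤ (K / δ) ^ E0 := by gcongr
      _ ≤ (K / δ) ^ (k * E0 + k + 2) := pow_le_pow_right₀ hKδ1 (by omega)
  · have hMk : H * δ' ^ k / C ≤ lc * M ^ k := by
      have h1 : (δ' * X) ^ k ≤ M ^ k := pow_le_pow_left₀ (by positivity) hM k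
      calc H * δ' ^ k / C ≤ (C * lc * X ^ k) * δ' ^ k / C := by gcongr
        _ = lc * (δ' * X) ^ k := by
            rw [mul_pow]
            field_simp
        _ ≤ lc * M ^ k := by gcongr
    have hpos : 0 < H * δ' ^ k / C := by positivity
    have e1 : C ≤ K / δ := by
      rw [le_div_iff₀ hδ]
      nlinarith
    have e2 : 1 / δ' ≤ K / δ := by
      rw [hinv]
      refine div_le_div_of_nonneg_right ?_ hδ.le
      linarith
    calc (K0 / δ') ^ E0 / (lc * M ^ k)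
        ≤ (K0 / δ') ^ E0 / (H * δ' ^ k / C) := by gcongr
      _ = (K0 / δ') ^ E0 * C * (1 / δ') ^ k / H := by
          rw [one_div, inv_pow]
          field_simp
      _ ≤ (K / δ) ^ E0 * (K / δ) * (K / δ) ^ k / H := by gcongr
      _ ≤ (K / δ) ^ (k * E0 + k + 2) / H := by
          gcongr
          rw [← pow_succ, ← pow_add]
          exact pow_le_pow_right₀ hKδ1 (by omega)

/-- Abel summation -/
theorem anmin_abel (hVar : VarStmt) (k : ℕ) (f : ℤ[X]) (H x0 X : ℕ) (g C δ' θ : ℝ) (hH : 1 ≤ H)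
    (hG : Grow k f H x0 X g C) (hδ' : 0 < δ') (hδX : 2 ≤ δ' * X)
    (halt : ∀ M : ℕ, δ' * X < M → M ≤ X →
      ‖∑ n ∈ Icc 1 M, e (θ * ((f.eval (n : ℤ) : ℤ) : ℝ))‖ < δ' * M) :
    ‖Sx f H x0 X θ‖ ≤ 68 * δ' * C := by
  have hHpos : (0 : ℝ) < H := by exact_mod_cast hH
  obtain ⟨w, hw⟩ : ∃ w : ℕ → ℂ, ∀ x, w x = ((gp f x * vt H (fv f x) : ℝ) : ℂ) := ⟨_, fun _ => rfl⟩
  obtain ⟨hv1, hv2⟩ := hVar k f H x0 X g C 0 hH hG
  have he0 : e 0 = 1 := by
    unfold e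
    simp
  simp only [he0, mul_one, abs_zero, zero_mul, add_zero] at hv1 hv2
  have hT : ∀ M ≤ X, ‖∑ x ∈ range M, e (θ * (fv f x : ℝ))‖ ≤ 2 * (δ' * X) := by
    intro M hM
    refine (anmin_range _ (fun x => (anmin_norm_e _).le) M).trans ?_
    by_cases hM2 : δ' * X < ((M - 1 : ℕ) : ℝ)
    · have h1 := halt (M - 1) hM2 (by omega)
      have h2 : δ' * ((M - 1 : ℕ) : ℝ) ≤ δ' * X := by
        gcongr
        omega
      have h3 : ‖∑ x ∈ Icc 1 (M - 1), e (θ * (fv f x : ℝ))‖ < δ' * ((M - 1 : ℕ) : ℝ) := h1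
      linarith
    · push Not at hM2
      have := anmin_trivial (fun x => e (θ * (fv f x : ℝ))) (fun x => (anmin_norm_e _).le) (M - 1)
      linarith
  have hab := PS463.abel w (fun x => e (θ * (fv f x : ℝ))) x0 X hG.x0lt.le (2 * (δ' * X)) hT
  have hS : Sx f H x0 X θ = ∑ x ∈ Ico x0 X, w x * e (θ * (fv f x : ℝ)) := by
    unfold Sx
    exact sum_congr rfl fun x _ => by rw [hw]
  rw [hS]
  refine hab.trans ?_
  have b1 : ‖w x0‖ ≤ g / H := by
    rw [hw]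
    exact hv1 x0 le_rfl hG.x0lt.le
  have b2 : ‖w X‖ ≤ g / H := by
    rw [hw]
    exact hv1 X hG.x0lt.le le_rfl
  have b3 : ∑ x ∈ Ico x0 X, ‖w (x + 1) - w x‖ ≤ 32 * g / H := by
    refine le_trans (le_of_eq (sum_congr rfl fun x _ => ?_)) hv2
    rw [hw, hw]
  have hgX : g / H * X ≤ C := by
    have := hG.gX
    rw [div_mul_eq_mul_div, div_le_iff₀ hHpos]
    exact this
  calc 2 * (δ' * X) * (‖w x0‖ + ‖w X‖ + ∑ x ∈ Ico x0 X, ‖w (x + 1) - w x‖)
      ≤ 2 * (δ' * X) * (g / H + g / H + 32 * g / H) := by gcongr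
    _ = 68 * δ' * (g / H * X) := by ring
    _ ≤ 68 * δ' * C := by gcongr

theorem min_of (hVar : VarStmt) : MinStmt := by
  intro k hk C hC
  obtain ⟨E0, hE0, hW⟩ := weyl_poly k (by omega)
  refine ⟨k * E0 + k + 2, by omega, fun R hR => ?_⟩
  obtain ⟨K0, hK0, hW⟩ := hW R hR
  obtain ⟨K, hK⟩ := exists_nat_ge (136 * C * K0)
  have hC0 : 0 < C := by linarith
  have hK0r : (1 : ℝ) ≤ K0 := by exact_mod_cast hK0
  have hCK0 : C ≤ C * K0 := le_mul_of_one_le_right hC0.le hK0r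
  have hKr : (1 : ℝ) ≤ K := by linarith
  refine ⟨K, by exact_mod_cast hKr, ?_⟩
  intro f H x0 X g δ B θ hdeg hlead hR' hδ hδ1 hB hcoef hH hG
  have hB0 : 0 < B := by linarith
  have hX0 : (0 : ℝ) ≤ X := Nat.cast_nonneg X
  have hKB1 : (1 : ℝ) ≤ K * B / δ := by
    rw [le_div_iff₀ hδ]
    have := mul_le_mul hKr hB (by norm_num) (by linarith : (0:ℝ) ≤ K)
    linarith
  have hH1 : (1 : ℝ) ≤ H := (one_le_pow₀ hKB1).trans hH
  have hHpos : (0 : ℝ) < H := by linarith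
  have hHn : 1 ≤ H := by exact_mod_cast hH1
  obtain ⟨δ', hδ'⟩ : ∃ δ' : ℝ, δ' = δ / (68 * C) := ⟨_, rfl⟩
  have hδ'0 : 0 < δ' := by rw [hδ']; positivity
  have hδ'1 : δ' ≤ 1 := by
    rw [hδ', div_le_one (by positivity)]
    linarith
  have hinv : 1 / δ' = 68 * C / δ := by
    rw [hδ']
    field_simp
  have hlc : (f.leadingCoeff : ℝ) ≤ B := (le_abs_self _).trans (hcoef f.natDegree)
  have hlc0 : (0 : ℝ) ≤ f.leadingCoeff := by exact_mod_cast hlead.le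
  have hXbig := anmin_large k E0 C K K0 B δ δ' H X f.leadingCoeff hC hK0r hK hB hδ hδ1 hinv hδ'0
    hX0 hlc0 hlc hH hG.lead
  have hpow1 : (1 : ℝ) ≤ (K0 * B / δ') ^ E0 := by
    apply one_le_pow₀
    rw [le_div_iff₀ hδ'0]
    have := mul_le_mul hK0r hB (by norm_num) (by linarith : (0:ℝ) ≤ K0)
    linarith
  have hδX2 : 2 * (K0 * B / δ') ^ E0 ≤ δ' * X := by
    have := mul_le_mul_of_nonneg_left hXbig hδ'0.le
    calc 2 * (K0 * B / δ') ^ E0 = δ' * (2 / δ' * (K0 * B / δ') ^ E0) := by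
          field_simp
      _ ≤ δ' * X := this
  by_cases halt : ∃ M : ℕ, δ' * X < M ∧ M ≤ X ∧
      δ' * M ≤ ‖∑ n ∈ Icc 1 M, e (θ * ((f.eval (n : ℤ) : ℤ) : ℝ))‖
  · right
    obtain ⟨M, hM1, hM2, hM3⟩ := halt
    obtain ⟨q, a, hq1, hq2, hq3⟩ := hW f M δ' θ B hdeg hlead hR' hδ'0 hδ'1 hB hcoef
      (by linarith) hM3
    obtain ⟨h1, h2⟩ := anmin_maj k E0 C K K0 δ δ' H X M f.leadingCoeff hC hK0r hK hδ hδ1 hinv hδ'0
      hX0 hlc0 hHpos hG.lead hM1.le (by omega)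
    exact ⟨q, a, hq1, hq2.trans h1, hq3.trans h2⟩
  · left
    push Not at halt
    refine (anmin_abel hVar k f H x0 X g C δ' θ hHn hG hδ'0 (by linarith) halt).trans (le_of_eq ?_)
    rw [hδ']
    field_simp

theorem min_holds : MinStmt := min_of (var_of vt_holds)

end Vale.Agent.P042.SS
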