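import Vale.Agent.P042.SS.ANDefs

set_option autoImplicit false

/-!
Block SEP: separation of the fractions.
-/

namespace Vale.Agent.P042.SS

open Polynomial Finset

namespace SEP

theorem norm_Gam_le (f : ℤ[X]) (a : ℤ) (q : ℕ) : ‖Gam f a q‖ ≤ 1 := by
  unfold Gam
  rcases Nat.eq_zero_or_pos q with hq | hq
  · rw [hq]
    simp
  · have hqr : (0 : ℝ) < q := by exact_mod_cast hq
    rw [norm_div, Complex.norm_natCast, div_le_one hqr]
    refine (norm_sum_le _ _).trans ?_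
    simp [norm_e]

/-- two reduced fractions in `[0,1)` which are close mod 1 are equal -/
theorem frac_eq {Q q a q' a' : ℕ} (hq : 1 ≤ q) (hqQ : q ≤ Q) (ha : a < q)
    (hc : Nat.Coprime q a) (hq' : 1 ≤ q') (hqQ' : q' ≤ Q) (ha' : a' < q')
    (hc' : Nat.Coprime q' a') {n : ℤ}
    (h : |(a : ℝ) / q - a' / q' - n| < 1 / (Q : ℝ) ^ 2) : (q', a') = (q, a) := by
  have hqr : (0 : ℝ) < q := by exact_mod_cast hq
  have hqr' : (0 : ℝ) < q' := by exact_mod_cast hq'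
  have hQr : (0 : ℝ) < Q := by exact_mod_cast (by omega : 0 < Q)
  have h1 : (a : ℝ) / q - a' / q' - n = ((a * q' - a' * q - n * q * q' : ℤ) : ℝ) / (q * q') := by
    push_cast
    field_simp
  have h2 : |((a * q' - a' * q - n * q * q' : ℤ) : ℝ)| < 1 := by
    rw [h1, abs_div, abs_of_pos (mul_pos hqr hqr'), div_lt_div_iff₀ (by positivity)
      (by positivity), one_mul] at h
    have h3 : (q : ℝ) * q' ≤ (Q : ℝ) ^ 2 := by
      rw [sq]
      exact mul_le_mul (by exact_mod_cast hqQ) (by exact_mod_cast hqQ') hqr'.le hQr.le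
    have h4 : |((a * q' - a' * q - n * q * q' : ℤ) : ℝ)| * (Q : ℝ) ^ 2 < 1 * (Q : ℝ) ^ 2 := by
      linarith
    exact lt_of_mul_lt_mul_right h4 (by positivity)
  have h3 : (a * q' - a' * q - n * q * q' : ℤ) = 0 := by
    rw [← Int.cast_abs] at h2
    have : |(a * q' - a' * q - n * q * q' : ℤ)| < 1 := by exact_mod_cast h2
    exact Int.abs_lt_one_iff.1 this
  -- n = 0
  have hn : n = 0 := by
    have e1 : (a : ℤ) * q' < q * q' := by
      have : (a : ℤ) < q := by exact_mod_cast ha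
      exact mul_lt_mul_of_pos_right this (by exact_mod_cast hq')
    have e2 : (a' : ℤ) * q < q * q' := by
      have : (a' : ℤ) < q' := by exact_mod_cast ha'
      have := mul_lt_mul_of_pos_right this (by exact_mod_cast hq : (0 : ℤ) < q)
      linarith
    have e3 : (0 : ℤ) ≤ a * q' := by positivity
    have e4 : (0 : ℤ) ≤ a' * q := by positivity
    have e5 : (0 : ℤ) < (q : ℤ) * q' := by
      have h1 : (0 : ℤ) < q := by exact_mod_cast hq
      have h2 : (0 : ℤ) < q' := by exact_mod_cast hq'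
      positivity
    have e6 : n * ((q : ℤ) * q') = a * q' - a' * q := by linarith
    have e7 : n * ((q : ℤ) * q') < 1 * ((q : ℤ) * q') := by linarith
    have e8 : -1 * ((q : ℤ) * q') < n * ((q : ℤ) * q') := by linarith
    have e9 := lt_of_mul_lt_mul_right e7 e5.le
    have e10 := lt_of_mul_lt_mul_right e8 e5.le
    omega
  rw [hn] at h3
  have h4 : a * q' = a' * q := by
    have : (a : ℤ) * q' = a' * q := by linarith
    exact_mod_cast this
  have h5 : q ∣ q' := by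
    have : q ∣ a * q' := by rw [h4]; exact Dvd.intro_left _ rfl
    exact hc.dvd_of_dvd_mul_left this
  have h6 : q' ∣ q := by
    have : q' ∣ a' * q := by rw [← h4]; exact Dvd.intro_left _ rfl
    exact hc'.dvd_of_dvd_mul_left this
  have h7 : q = q' := Nat.dvd_antisymm h5 h6
  have h8 : a = a' := by
    rw [h7] at h4
    exact Nat.eq_of_mul_eq_mul_right (by omega) h4
  rw [h7, h8]

/-- the index set of the main term -/
def Tf (Q : ℕ) : Finset (Σ _ : ℕ, ℕ) :=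
  (Icc 1 Q).sigma (fun q => (range q).filter (Nat.Coprime q))

theorem mem_Tf {Q : ℕ} {t : Σ _ : ℕ, ℕ} :
    t ∈ Tf Q ↔ (1 ≤ t.1 ∧ t.1 ≤ Q) ∧ t.2 < t.1 ∧ Nat.Coprime t.1 t.2 := by
  unfold Tf
  rw [Finset.mem_sigma, Finset.mem_Icc, Finset.mem_filter, Finset.mem_range]

theorem card_Tf (Q : ℕ) : (Tf Q).card ≤ Q ^ 2 := by
  unfold Tf
  rw [Finset.card_sigma]
  calc ∑ q ∈ Icc 1 Q, ((range q).filter (Nat.Coprime q)).card ≤ ∑ _q ∈ Icc 1 Q, Q := by
        refine Finset.sum_le_sum fun q hq => ?_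
        rw [Finset.mem_Icc] at hq
        refine (Finset.card_filter_le _ _).trans ?_
        rw [Finset.card_range]
        exact hq.2
    _ = Q ^ 2 := by simp [sq]

theorem Mn_eq (f : ℤ[X]) (H Q : ℕ) (θ : ℝ) :
    Mn f H Q θ = ∑ t ∈ Tf Q, Gam f t.2 t.1 * Vk H (θ - (t.2 : ℝ) / t.1) := by
  unfold Mn Tf
  rw [Finset.sum_sigma]

end SEP

open SEP in
/-- block SEP -/
theorem sep_of (hVt : VtStmt) : SepStmt := by
  intro f H Q θ hH hQ
  obtain ⟨-, -, -, -, -, -, -, -, hdec⟩ := hVt H hH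
  have hHr : (0 : ℝ) < H := by exact_mod_cast hH
  have hQr : (0 : ℝ) < Q := by exact_mod_cast hQ
  have hne : (Tf Q).Nonempty := ⟨⟨1, 0⟩, by
    rw [mem_Tf]
    exact ⟨⟨le_rfl, hQ⟩, Nat.one_pos, Nat.coprime_one_left 0⟩⟩
  obtain ⟨t, ht, hmin⟩ := Finset.exists_min_image (Tf Q)
    (fun t => |θ - (t.2 : ℝ) / t.1 - round (θ - (t.2 : ℝ) / t.1)|) hne
  have ht' := mem_Tf.1 ht
  have hsep : ∀ t' ∈ Tf Q, t' ≠ t → ∀ n : ℤ,
      1 / (2 * (Q : ℝ) ^ 2) ≤ |θ - (t'.2 : ℝ) / t'.1 - n| := by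
    intro t' ht1 hne n
    by_contra hcon
    push Not at hcon
    have ht1' := mem_Tf.1 ht1
    have h1 := hmin t' ht1
    have h2 := round_le (θ - (t'.2 : ℝ) / t'.1) n
    have h3 : |θ - (t.2 : ℝ) / t.1 - round (θ - (t.2 : ℝ) / t.1)| < 1 / (2 * (Q : ℝ) ^ 2) :=
      (h1.trans h2).trans_lt hcon
    have h4 : |(t.2 : ℝ) / t.1 - t'.2 / t'.1 -
        ((n - round (θ - (t.2 : ℝ) / t.1) : ℤ) : ℝ)| < 1 / (Q : ℝ) ^ 2 := by
      have e1 : (t.2 : ℝ) / t.1 - t'.2 / t'.1 - ((n - round (θ - (t.2 : ℝ) / t.1) : ℤ) : ℝ) =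
          (θ - (t'.2 : ℝ) / t'.1 - n) - (θ - (t.2 : ℝ) / t.1 - round (θ - (t.2 : ℝ) / t.1)) := by
        push_cast
        ring
      have e2 : 1 / (Q : ℝ) ^ 2 = 1 / (2 * (Q : ℝ) ^ 2) + 1 / (2 * (Q : ℝ) ^ 2) := by
        field_simp
        norm_num
      rw [e1, e2]
      refine (abs_sub _ _).trans_lt ?_
      exact add_lt_add hcon h3
    have h5 := frac_eq ht'.1.1 ht'.1.2 ht'.2.1 ht'.2.2 ht1'.1.1 ht1'.1.2 ht1'.2.1 ht1'.2.2 h4
    apply hne
    have h6 := congrArg Prod.fst h5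
    have h7 := congrArg Prod.snd h5
    simp only at h6 h7
    rcases t with ⟨q, a⟩
    rcases t' with ⟨q', a'⟩
    simp only at h6 h7
    rw [h6, h7]
  refine ⟨t.1, t.2, ht'.1.1, ht'.1.2, ht'.2.1, ht'.2.2, ?_, ?_⟩
  · rw [Mn_eq, ← Finset.add_sum_erase _ _ ht, add_sub_cancel_left]
    refine (norm_sum_le _ _).trans ?_
    have h1 : ∀ t' ∈ (Tf Q).erase t, ‖Gam f t'.2 t'.1 * Vk H (θ - (t'.2 : ℝ) / t'.1)‖ ≤
        (Q : ℝ) ^ 4 / (H : ℝ) ^ 2 := by
      intro t' ht1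
      rw [Finset.mem_erase] at ht1
      rw [norm_mul]
      have h2 := hdec (θ - (t'.2 : ℝ) / t'.1) (1 / (2 * (Q : ℝ) ^ 2)) (by positivity)
        (hsep t' ht1.2 ht1.1)
      have h3 := norm_Gam_le f t'.2 t'.1
      calc ‖Gam f t'.2 t'.1‖ * ‖Vk H (θ - (t'.2 : ℝ) / t'.1)‖ ≤
          1 * (1 / (4 * (H : ℝ) ^ 2 * (1 / (2 * (Q : ℝ) ^ 2)) ^ 2)) :=
            mul_le_mul h3 h2 (norm_nonneg _) zero_le_one
        _ = (Q : ℝ) ^ 4 / (H : ℝ) ^ 2 := by
          field_simp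
          norm_num
    refine (Finset.sum_le_sum h1).trans ?_
    rw [Finset.sum_const, nsmul_eq_mul]
    have h2 : (((Tf Q).erase t).card : ℝ) ≤ (Q : ℝ) ^ 2 := by
      have : ((Tf Q).erase t).card ≤ Q ^ 2 :=
        (Finset.card_le_card (Finset.erase_subset _ _)).trans (card_Tf Q)
      exact_mod_cast this
    calc (((Tf Q).erase t).card : ℝ) * ((Q : ℝ) ^ 4 / (H : ℝ) ^ 2) ≤
        (Q : ℝ) ^ 2 * ((Q : ℝ) ^ 4 / (H : ℝ) ^ 2) := mul_le_mul_of_nonneg_right h2 (by positivity)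
      _ = (Q : ℝ) ^ 6 / (H : ℝ) ^ 2 := by ring
  · intro q' a' hq' hqQ' ha' hc' hne' n
    apply hsep ⟨q', a'⟩ (mem_Tf.2 ⟨⟨hq', hqQ'⟩, ha', hc'⟩)
    intro h
    apply hne'
    rw [← h]

end Vale.Agent.P042.SS
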