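import Vale.Agent.P042.SS.ANEnd
import Vale.Agent.P042.SS.ANGrow
import Vale.Agent.P042.SS.ANMin
import Vale.Agent.P042.SS.ANSep

set_option autoImplicit false

namespace Vale.Agent.P042.SS

theorem an_holds : ANStmt := an_of' grow_holds min_holds (sep_of vt_holds)

end Vale.Agent.P042.SS
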