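import Vale.Agent.P042.SS.ANDefs
import Vale.Agent.P042.PS463.Major

set_option autoImplicit false

namespace Vale.Agent.P042.SS

open Polynomial Finset

lemma norm_Gam_le_one (f : ℤ[X]) (a : ℤ) (q : ℕ) (hq : 1 ≤ q) : ‖Gam f a q‖ ≤ 1 := by
  have hq0 : (0 : ℝ) < q := by exact_mod_cast hq
  unfold Gam
  rw [norm_div, Complex.norm_natCast, div_le_one hq0]
  refine (norm_sum_le _ _).trans ?_
  simp_rw [norm_e]
  rw [Finset.sum_const, Finset.card_range, nsmul_eq_mul, mul_one]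

theorem gam_holds : GamStmt := by
  intro k hk
  obtain ⟨E, hE, h⟩ := complete_general k (by omega)
  refine ⟨E, hE, fun R hR => ?_⟩
  obtain ⟨K, hK, h⟩ := h R hR
  refine ⟨K, hK, fun f hdeg hlead hcont q a hq ha => ?_⟩
  have : NeZero q := ⟨by omega⟩
  have h1 := h f hdeg hlead hcont q a ha
  have hq0 : (0 : ℝ) < q := by exact_mod_cast hq
  have h2 : ‖Gam f a q‖ = ‖ecs f a q‖ / q := by
    unfold Gam
    rw [norm_div, Complex.norm_natCast, sum_range_eq_ecs]
  rw [h2, div_pow, div_mul_eq_mul_div, div_le_iff₀ (by positivity)]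
  exact h1

theorem maj_of (hVar : VarStmt) (hRi : RiStmt) : MajStmt := by
  intro k f H x0 X q a g C θ hH hq hG
  have hq0 : (0 : ℝ) < q := by exact_mod_cast hq
  have hq1 : (1 : ℝ) ≤ q := by exact_mod_cast hq
  have hH0 : (0 : ℝ) < H := by exact_mod_cast hH
  set β : ℝ := θ - (a : ℝ) / q with hβ
  have hg0 : 0 ≤ g := by
    have h1 := hG.gpos x0 le_rfl
    have h2 := hG.gle x0 le_rfl hG.x0lt.le
    linarith only [h1, h2]
  have hgH : 0 ≤ g / H := div_nonneg hg0 hH0.le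
  set w : ℕ → ℂ := fun x => ((gp f x * vt H (fv f x) : ℝ) : ℂ) * e (β * (fv f x : ℝ)) with hw
  set ge : ℕ → ℂ := fun x => e (a * ((f.eval (x : ℤ) : ℤ) : ℝ) / q) with hge
  set gg : ℕ → ℂ := fun x => ge x - Gam f a q with hgg
  have hsum : Sx f H x0 X θ = ∑ x ∈ Ico x0 X, w x * gg x + Gam f a q * ∑ x ∈ Ico x0 X, w x := by
    unfold Sx
    rw [Finset.mul_sum, ← Finset.sum_add_distrib]
    apply Finset.sum_congr rfl
    intro x _
    have h1 : θ * (fv f x : ℝ) = β * (fv f x : ℝ) + a * ((f.eval (x : ℤ) : ℤ) : ℝ) / q := by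
      rw [hβ]
      unfold fv
      ring
    rw [h1, e_add]
    simp only [hw, hgg, hge]
    ring
  have hper : ∀ x, gg (x + q) = gg x := by
    intro x
    simp only [hgg, hge]
    have h1 := e_eval_periodic f a q hq (x : ℤ) 1
    have h2 : (q : ℤ) * 1 + (x : ℤ) = ((x + q : ℕ) : ℤ) := by push_cast; ring
    rw [h2] at h1
    rw [h1]
  have hmean : ∑ x ∈ range q, gg x = 0 := by
    simp only [hgg, hge]
    rw [Finset.sum_sub_distrib, Finset.sum_const, Finset.card_range, nsmul_eq_mul]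
    unfold Gam
    have : (q : ℂ) ≠ 0 := by exact_mod_cast hq0.ne'
    rw [mul_div_cancel₀ _ this, sub_self]
  have hU : ∀ x, ‖gg x‖ ≤ 2 := by
    intro x
    simp only [hgg, hge]
    refine (norm_sub_le _ _).trans ?_
    rw [norm_e]
    have := norm_Gam_le_one f a q hq
    linarith only [this]
  have hpart : ∀ M ≤ X, ‖∑ x ∈ range M, gg x‖ ≤ q * 2 := fun M _ =>
    PS463.per_sum gg q hq hper hmean 2 hU M
  have hab := PS463.abel w gg x0 X hG.x0lt.le (q * 2) hpart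
  obtain ⟨hv1, hv2⟩ := hVar k f H x0 X g C β hH hG
  have hwa : ‖w x0‖ ≤ g / H := hv1 x0 le_rfl hG.x0lt.le
  have hwb : ‖w X‖ ≤ g / H := hv1 X hG.x0lt.le le_rfl
  have hwv : ∑ x ∈ Ico x0 X, ‖w (x + 1) - w x‖ ≤ 32 * (1 + |β| * H) * g / H := hv2
  have hri := hRi k f H x0 X g C β hH hG
  have hβH : 0 ≤ |β| * H := mul_nonneg (abs_nonneg _) hH0.le
  have h1 : ‖∑ x ∈ Ico x0 X, w x * gg x‖ ≤ q * 2 * (34 * (1 + |β| * H) * (g / H)) := by
    refine hab.trans ?_
    apply mul_le_mul_of_nonneg_left _ (by positivity)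
    have e1 : 32 * (1 + |β| * H) * g / H = 32 * (1 + |β| * H) * (g / H) := by ring
    rw [e1] at hwv
    nlinarith only [hwa, hwb, hwv, hgH, hβH, mul_nonneg hβH hgH]
  have h2 : ‖Gam f a q * ∑ x ∈ Ico x0 X, w x - Gam f a q * Vk H β‖ ≤
      32 * (1 + |β| * H) * g / H := by
    rw [← mul_sub, norm_mul]
    calc _ ≤ 1 * (32 * (1 + |β| * H) * g / H) :=
          mul_le_mul (norm_Gam_le_one f a q hq) hri (norm_nonneg _) zero_le_one
      _ = _ := one_mul _
  have h3 : Sx f H x0 X θ - Gam f a q * Vk H β = ∑ x ∈ Ico x0 X, w x * gg x +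
      (Gam f a q * ∑ x ∈ Ico x0 X, w x - Gam f a q * Vk H β) := by
    rw [hsum]; ring
  rw [h3]
  refine (norm_add_le _ _).trans ((add_le_add h1 h2).trans ?_)
  have e1 : 32 * (1 + |β| * H) * g / H = 32 * (1 + |β| * H) * (g / H) := by ring
  have e2 : 200 * q * (1 + |β| * H) * g / H = 200 * q * ((1 + |β| * H) * (g / H)) := by ring
  rw [e1, e2]
  have h4 : 0 ≤ (1 + |β| * H) * (g / H) := by positivity
  nlinarith only [h4, hq1, mul_le_mul_of_nonneg_right hq1 h4]

end Vale.Agent.P042.SS
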