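import Vale.Agent.P042.SS.ANMaj

set_option autoImplicit false

namespace Vale.Agent.P042.SS

open Polynomial Finset

lemma anpt_Gam_add_mul (f : ℤ[X]) (a n : ℤ) (q : ℕ) (hq : 1 ≤ q) : Gam f (a + q * n) q = Gam f a q := by
  have hq0 : (q : ℝ) ≠ 0 := by
    have : q ≠ 0 := by omega
    exact_mod_cast this
  unfold Gam
  congr 1
  apply Finset.sum_congr rfl
  intro x _
  have h1 : ((a + q * n : ℤ) : ℝ) * ((f.eval (x : ℤ) : ℤ) : ℝ) / q =
      a * ((f.eval (x : ℤ) : ℤ) : ℝ) / q + ((n * f.eval (x : ℤ) : ℤ) : ℝ) := by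
    push_cast
    field_simp
  rw [h1, e_add, e_int, mul_one]

/-- all the numerical facts -/
lemma point_num (k E1 E2 Eg K1 K2 Cn : ℕ) (C δ B Q H : ℝ) (hE1 : 1 ≤ E1)
    (hK1 : 1 ≤ K1) (hK2 : 1 ≤ K2) (hC : 1 ≤ C) (hCn : C ≤ Cn) (hδ : 0 < δ)
    (hδ1 : δ ≤ 1) (hB : 1 ≤ B)
    (hQ : (((4 * (K1 + K2) + 800 * Cn ^ 2 : ℕ) : ℝ) / δ) ^ (E1 + E2 + Eg + 2 * k + 3) ≤ Q)
    (hH : (((4 * (K1 + K2) + 800 * Cn ^ 2 : ℕ) : ℝ) * B * Q / δ) ^ (E1 + E2 + Eg + 2 * k + 3) ≤ H) :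
    1 ≤ Q ∧ 1 ≤ H ∧ (C * B) ^ Eg ≤ H ∧ (K1 * B / (δ / 4)) ^ E1 ≤ H ∧
    (4 * (K1 + K2) / δ) ^ (E1 + E2 + 1) ≤ Q ∧ 1 / δ ≤ (4 * (K1 + K2) / δ) ^ (E1 + E2 + 1) ∧
    (K1 / (δ / 4)) ^ E1 ≤ (4 * (K1 + K2) / δ) ^ (E1 + E2 + 1) ∧
    (K2 / (δ / 4)) ^ E2 ≤ (4 * (K1 + K2) / δ) ^ (E1 + E2 + 1) ∧
    64 * Q ^ 3 ≤ H ∧ Q ^ 6 / H ^ 2 ≤ δ / 4 ∧ C * B * (800 * C * Q ^ 2 / δ) ^ k ≤ H := by
  set Kn : ℕ := 4 * (K1 + K2) + 800 * Cn ^ 2 with hKn
  set E : ℕ := E1 + E2 + Eg + 2 * k + 3 with hE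
  have hK1r : (1 : ℝ) ≤ K1 := by exact_mod_cast hK1
  have hK2r : (1 : ℝ) ≤ K2 := by exact_mod_cast hK2
  have hCn1 : (1 : ℝ) ≤ Cn := hC.trans hCn
  have hKr : (Kn : ℝ) = 4 * (K1 + K2) + 800 * (Cn : ℝ) ^ 2 := by rw [hKn]; push_cast; ring
  have hCn2 : (Cn : ℝ) ≤ (Cn : ℝ) ^ 2 := by nlinarith only [hCn1]
  have hKge : 4 * ((K1 : ℝ) + K2) ≤ Kn := by rw [hKr]; nlinarith only [hCn1, hCn2]
  have hKC : 800 * C ≤ (Kn : ℝ) := by rw [hKr]; nlinarith only [hCn1, hCn2, hCn, hK1r, hK2r]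
  have hK8 : (8 : ℝ) ≤ Kn := by linarith only [hKge, hK1r, hK2r]
  have hδi : 1 ≤ 1 / δ := by rw [le_div_iff₀ hδ]; linarith only [hδ1]
  -- y
  have hy1 : 1 ≤ (Kn : ℝ) / δ := by
    rw [le_div_iff₀ hδ]; linarith only [hδ1, hK8]
  have hQ1 : 1 ≤ Q := (one_le_pow₀ hy1).trans hQ
  obtain ⟨b, hb⟩ : ∃ b : ℝ, b = (Kn : ℝ) * B * Q / δ := ⟨_, rfl⟩
  rw [← hb] at hH
  have hBQ : 1 ≤ B * Q := by nlinarith only [hB, hQ1]
  have hbK : (Kn : ℝ) * (B * Q) ≤ b := by
    rw [hb, le_div_iff₀ hδ, mul_assoc]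
    have : 0 ≤ (Kn : ℝ) * (B * Q) := by positivity
    nlinarith only [this, hδ1]
  have hb8 : 8 ≤ b := by nlinarith only [hbK, hK8, hBQ]
  have hb1 : 1 ≤ b := by linarith only [hb8]
  have hHb : ∀ j ≤ E, b ^ j ≤ H := fun j hj => (pow_le_pow_right₀ hb1 hj).trans hH
  have hH1 : 1 ≤ H := by simpa using hHb 0 (Nat.zero_le _)
  have hCB : C * B ≤ b := by
    refine le_trans ?_ hbK
    have h1 : C ≤ Kn := by linarith only [hKC, hC]
    have h2 : B ≤ B * Q := by nlinarith only [hB, hQ1]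
    exact mul_le_mul h1 h2 (by linarith only [hB]) (by linarith only [hK8])
  -- z
  obtain ⟨z, hz⟩ : ∃ z : ℝ, z = 4 * ((K1 : ℝ) + K2) / δ := ⟨_, rfl⟩
  rw [← hz]
  have hz0 : 1 / δ ≤ z := by
    rw [hz]
    apply div_le_div_of_nonneg_right _ hδ.le
    linarith only [hK1r, hK2r]
  have hz1 : 1 ≤ z := hδi.trans hz0
  have hzy : z ≤ (Kn : ℝ) / δ := by
    rw [hz]
    exact div_le_div_of_nonneg_right hKge hδ.le
  have h4Q : 4 * Q / δ ≤ b := by
    rw [hb]
    apply div_le_div_of_nonneg_right _ hδ.le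
    have : 4 * Q ≤ Kn * Q := by nlinarith only [hQ1, hK8]
    have h2 : (Kn : ℝ) * Q ≤ Kn * B * Q := by
      have : 0 ≤ (Kn : ℝ) * Q := by positivity
      nlinarith only [this, hB]
    linarith only [this, h2]
  have h4Q0 : 4 * Q ≤ b := by
    refine le_trans ?_ h4Q
    rw [le_div_iff₀ hδ]
    nlinarith only [hQ1, hδ1]
  refine ⟨hQ1, hH1, ?_, ?_, ?_, ?_, ?_, ?_, ?_, ?_, ?_⟩
  · exact (pow_le_pow_left₀ (by positivity) hCB _).trans (hHb Eg (by omega))
  · refine (pow_le_pow_left₀ (by positivity) ?_ _).trans (hHb E1 (by omega))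
    rw [div_div_eq_mul_div, hb]
    apply div_le_div_of_nonneg_right _ hδ.le
    have h1 : (K1 : ℝ) * 4 ≤ Kn := by linarith only [hKge, hK2r]
    have h2 : B ≤ B * Q := by nlinarith only [hB, hQ1]
    calc (K1 : ℝ) * B * 4 = (K1 * 4) * B := by ring
      _ ≤ Kn * (B * Q) := mul_le_mul h1 h2 (by linarith only [hB]) (by linarith only [hK8])
      _ = _ := by ring
  · exact ((pow_le_pow_left₀ (by linarith only [hz1]) hzy _).trans
      (pow_le_pow_right₀ hy1 (by omega))).trans hQ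
  · exact hz0.trans (le_self_pow₀ hz1 (by omega))
  · refine (pow_le_pow_left₀ (by positivity) ?_ _).trans (pow_le_pow_right₀ hz1 (by omega))
    rw [div_div_eq_mul_div, hz]
    apply div_le_div_of_nonneg_right _ hδ.le
    linarith only [hK2r, hK1r]
  · refine (pow_le_pow_left₀ (by positivity) ?_ _).trans (pow_le_pow_right₀ hz1 (by omega))
    rw [div_div_eq_mul_div, hz]
    apply div_le_div_of_nonneg_right _ hδ.le
    linarith only [hK2r, hK1r]
  · calc 64 * Q ^ 3 = (4 * Q) ^ 3 := by ring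
      _ ≤ b ^ 3 := pow_le_pow_left₀ (by positivity) h4Q0 _
      _ ≤ H := hHb 3 (by omega)
  · have h1 : 64 * Q ^ 3 / δ ≤ H := by
      calc 64 * Q ^ 3 / δ ≤ (4 * Q / δ) ^ 3 := by
            rw [div_pow]
            have e1 : (4 * Q) ^ 3 = 64 * Q ^ 3 := by ring
            rw [e1]
            apply div_le_div_of_nonneg_left (by positivity) (by positivity)
            have : δ ^ 3 ≤ δ ^ 1 := pow_le_pow_of_le_one hδ.le hδ1 (by norm_num)
            simpa using this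
        _ ≤ b ^ 3 := pow_le_pow_left₀ (by positivity) h4Q _
        _ ≤ H := hHb 3 (by omega)
    rw [div_le_iff₀ hδ] at h1
    have hH0 : 0 < H := by linarith only [hH1]
    rw [div_le_iff₀ (by positivity)]
    have h2 : (64 * Q ^ 3) ^ 2 ≤ (H * δ) ^ 2 := pow_le_pow_left₀ (by positivity) h1 _
    have h3 : (H * δ) ^ 2 ≤ H ^ 2 * δ := by
      have : 0 ≤ H ^ 2 * δ := by positivity
      nlinarith only [this, hδ1]
    have h4 : (64 * Q ^ 3) ^ 2 = 4096 * Q ^ 6 := by ring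
    have h5 : 0 ≤ Q ^ 6 := by positivity
    nlinarith only [h2, h3, h4, h5]
  · have h1 : 800 * C * Q ^ 2 / δ ≤ b ^ 2 := by
      have e1 : b ^ 2 = ((Kn : ℝ) * B * Q) ^ 2 / δ ^ 2 := by rw [hb, div_pow]
      rw [e1]
      have hd2 : δ ^ 2 ≤ δ := by nlinarith only [hδ, hδ1]
      have h2 : 800 * C * Q ^ 2 ≤ ((Kn : ℝ) * B * Q) ^ 2 := by
        have h3 : 800 * C ≤ (Kn : ℝ) ^ 2 := by nlinarith only [hKC, hK8]
        have h4 : (Kn : ℝ) ^ 2 * Q ^ 2 ≤ ((Kn : ℝ) * B * Q) ^ 2 := by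
          have h5 : (Kn : ℝ) * Q ≤ Kn * B * Q := by
            have : 0 ≤ (Kn : ℝ) * Q := by positivity
            nlinarith only [this, hB]
          have h6 := pow_le_pow_left₀ (by positivity : (0 : ℝ) ≤ Kn * Q) h5 2
          rw [mul_pow] at h6
          exact h6
        refine le_trans ?_ h4
        exact mul_le_mul_of_nonneg_right h3 (by positivity)
      calc 800 * C * Q ^ 2 / δ ≤ ((Kn : ℝ) * B * Q) ^ 2 / δ := div_le_div_of_nonneg_right h2 hδ.le
        _ ≤ ((Kn : ℝ) * B * Q) ^ 2 / δ ^ 2 :=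
          div_le_div_of_nonneg_left (by positivity) (by positivity) hd2
    calc C * B * (800 * C * Q ^ 2 / δ) ^ k ≤ b * (b ^ 2) ^ k := by
          apply mul_le_mul hCB (pow_le_pow_left₀ (by positivity) h1 _) (by positivity)
            (by linarith only [hb1])
      _ = b ^ (2 * k + 1) := by rw [← pow_mul, pow_succ]; ring
      _ ≤ H := hHb _ (by omega)

lemma Gam_coprime_small {E K : ℕ} {f : ℤ[X]} {q a : ℕ} {δ z : ℝ} (hE : 1 ≤ E) (hq : 1 ≤ q)
    (hδ : 0 < δ) (hG : ‖Gam f a q‖ ^ E * q ≤ (K : ℝ) ^ E) (hz : (K / (δ / 4)) ^ E ≤ z)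
    (hzq : z < q) : ‖Gam f a q‖ ≤ δ / 4 := by
  have hq0 : (0 : ℝ) < q := by exact_mod_cast hq
  have hKq : (K / (δ / 4)) ^ E ≤ q := hz.trans hzq.le
  rw [div_pow, div_le_iff₀ (by positivity)] at hKq
  have h1 : ‖Gam f a q‖ ^ E * q ≤ (δ / 4) ^ E * q := by
    refine hG.trans (hKq.trans (le_of_eq ?_))
    ring
  have h2 := le_of_mul_le_mul_right h1 hq0
  exact (pow_le_pow_iff_left₀ (norm_nonneg _) (by positivity) (by omega)).1 h2

theorem point_of (hGr : GrowStmt) (hVt : VtStmt) (hMin : MinStmt) (hMaj : MajStmt)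
    (hSep : SepStmt) (hGam : GamStmt) : PointStmt := by
  intro k hk
  obtain ⟨C, Eg, hC, hEg, hGr⟩ := hGr k hk
  obtain ⟨E1, hE1, hMin⟩ := hMin k hk C hC
  obtain ⟨E2, hE2, hGam⟩ := hGam k hk
  obtain ⟨Cn, hCn⟩ := exists_nat_ge C
  refine ⟨E1 + E2 + Eg + 2 * k + 3, by omega, fun R hR => ?_⟩
  obtain ⟨K1, hK1, hMin⟩ := hMin R hR
  obtain ⟨K2, hK2, hGam⟩ := hGam R hR
  refine ⟨4 * (K1 + K2) + 800 * Cn ^ 2, by omega, ?_⟩
  intro f H Q δ B hdeg hlead hcont hδ hδ1 hB hcoef hQ hH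
  obtain ⟨n1, n2, n3, n4, n5, n6, n7, n8, n9, n10, n11⟩ := point_num k E1 E2 Eg K1 K2 Cn C δ B Q H
    hE1 hK1 hK2 hC hCn hδ hδ1 hB hQ hH
  obtain ⟨x0, X, g, hG⟩ := hGr f H B hdeg hlead hB hcoef n3
  refine ⟨x0, X, hG.x0pos, fun θ => ?_⟩
  obtain ⟨Q2, hQ2⟩ : ∃ Q2 : ℝ, Q2 = (4 * ((K1 : ℝ) + K2) / δ) ^ (E1 + E2 + 1) := ⟨_, rfl⟩
  rw [← hQ2] at n5 n6 n7 n8
  have hH1 : 1 ≤ H := by exact_mod_cast n2
  have hQ1 : 1 ≤ Q := by exact_mod_cast n1
  have hH0 : (0 : ℝ) < H := by linarith only [n2]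
  have hQ21 : 1 ≤ Q2 := by
    refine le_trans ?_ n6
    rw [le_div_iff₀ hδ]; linarith only [hδ1]
  obtain ⟨qs, as, hqs1, hqsQ, hasq, hcop, hMn, hfar⟩ := hSep f H Q θ hH1 hQ1
  obtain ⟨_, _, _, _, _, _, hVper, _, hVdec⟩ := hVt H hH1
  have hMn' : ‖Mn f H Q θ - Gam f as qs * Vk H (θ - (as : ℝ) / qs)‖ ≤ δ / 4 := hMn.trans n10
  by_cases hcase : ∃ (q : ℕ) (a : ℤ), 1 ≤ q ∧ (q : ℝ) ≤ Q2 ∧ |θ - a / q| ≤ Q2 / H
  · obtain ⟨q0, a0, hq0, hq0Q, hθ⟩ := hcase
    obtain ⟨q, a, hq, hqq0, hcop', hred⟩ := exists_reduced q0 a0 hq0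
    rw [hred] at hθ
    have hqr : (q : ℝ) ≤ Q2 := le_trans (by exact_mod_cast hqq0) hq0Q
    have hqr0 : (0 : ℝ) < q := by exact_mod_cast hq
    have hqQ : q ≤ Q := by
      have : (q : ℝ) ≤ Q := hqr.trans n5
      exact_mod_cast this
    -- residue of the numerator
    set n : ℤ := a / (q : ℤ) with hn
    set r : ℤ := a % (q : ℤ) with hr
    have hqz : (0 : ℤ) < q := by exact_mod_cast hq
    have hr0 : 0 ≤ r := Int.emod_nonneg _ hqz.ne'
    have hrq : r < q := Int.emod_lt_of_pos _ hqz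
    have har : a = r + q * n := by
      have := Int.emod_add_mul_ediv a q
      linarith only [this]
    obtain ⟨b, hb⟩ := Int.eq_ofNat_of_zero_le hr0
    have hbr : (b : ℤ) = r := hb.symm
    have hbq : b < q := by
      have : (b : ℤ) < q := by rw [hbr]; exact hrq
      exact_mod_cast this
    have hbcop : Nat.Coprime q b := by
      have h1 : IsCoprime (r + q * n) (q : ℤ) := by rw [← har]; exact hcop'
      have h2 : IsCoprime r (q : ℤ) := by
        have h3 := IsCoprime.of_add_mul_left_left (x := r) (y := (q : ℤ)) (z := n) h1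
        exact h3
      rw [← hbr] at h2
      exact (Nat.isCoprime_iff_coprime.1 h2).symm
    have hthe : θ - (a : ℝ) / q = θ - (b : ℝ) / q - (n : ℝ) := by
      have h1 : (a : ℝ) = b + q * n := by
        have : a = (b : ℤ) + q * n := by rw [hbr]; exact har
        rw [this]; push_cast; ring
      rw [h1, add_div, mul_div_cancel_left₀ _ hqr0.ne']
      ring
    have heq : (q, b) = (qs, as) := by
      by_contra hne
      have h1 := hfar q b hq hqQ hbq hbcop hne n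
      rw [← hthe] at h1
      have h2 := h1.trans hθ
      rw [div_le_div_iff₀ (by positivity) hH0] at h2
      have h3 : Q2 * (2 * (Q : ℝ) ^ 2) ≤ 2 * (Q : ℝ) ^ 3 := by
        have : Q2 * (2 * (Q : ℝ) ^ 2) ≤ Q * (2 * (Q : ℝ) ^ 2) :=
          mul_le_mul_of_nonneg_right n5 (by positivity)
        refine this.trans (le_of_eq ?_)
        ring
      have h4 : 0 < (Q : ℝ) ^ 3 := by positivity
      nlinarith only [h2, h3, h4, n9]
    rw [Prod.mk.injEq] at heq
    obtain ⟨he1, he2⟩ := heq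
    subst he1 he2
    have hmaj := hMaj k f H x0 X q a g C θ hH1 hq hG
    have hGa : Gam f a q = Gam f b q := by
      rw [har, ← hbr]
      exact anpt_Gam_add_mul f b n q hq
    have hVa : Vk H (θ - (a : ℝ) / q) = Vk H (θ - (b : ℝ) / q) := by
      rw [hthe]
      have := hVper (θ - (b : ℝ) / q) (-n)
      rw [← this]
      congr 1
      push_cast
      ring
    have hθ' := hθ
    rw [hGa, hVa] at hmaj
    have hsmall : 200 * q * (1 + |θ - (a : ℝ) / q| * H) * g / H ≤ δ / 2 := by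
      have h1 : |θ - (a : ℝ) / q| * H ≤ Q2 := by
        rw [le_div_iff₀ hH0] at hθ
        exact hθ
      have hX0 : (0 : ℝ) < X := by
        have : 0 < X := lt_of_le_of_lt (Nat.zero_le _) hG.x0lt
        exact_mod_cast this
      have hg0 : 0 ≤ g := by
        have h1 := hG.gpos x0 le_rfl
        have h2 := hG.gle x0 le_rfl hG.x0lt.le
        linarith only [h1, h2]
      have hgX : g / H ≤ C / X := by
        rw [div_le_div_iff₀ hH0 hX0]
        exact hG.gX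
      have hXbig : 800 * C * (Q : ℝ) ^ 2 / δ ≤ X := by
        by_contra hlt
        push Not at hlt
        have h2 : (X : ℝ) ^ k < (800 * C * (Q : ℝ) ^ 2 / δ) ^ k :=
          pow_lt_pow_left₀ hlt hX0.le (by omega)
        have h3 : (f.leadingCoeff : ℝ) ≤ B := (le_abs_self _).trans (hcoef f.natDegree)
        have h4 := hG.lead
        have hl0 : (0 : ℝ) < f.leadingCoeff := by exact_mod_cast hlead
        have h5 : C * f.leadingCoeff * (X : ℝ) ^ k < C * B * (800 * C * (Q : ℝ) ^ 2 / δ) ^ k := by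
          have h6 : C * f.leadingCoeff ≤ C * B := mul_le_mul_of_nonneg_left h3 (by linarith only [hC])
          have h7 : 0 < C * f.leadingCoeff := mul_pos (by linarith only [hC]) hl0
          calc C * f.leadingCoeff * (X : ℝ) ^ k
              < C * f.leadingCoeff * (800 * C * (Q : ℝ) ^ 2 / δ) ^ k :=
                mul_lt_mul_of_pos_left h2 h7
            _ ≤ _ := mul_le_mul_of_nonneg_right h6 (by positivity)
        linarith only [h4, h5, n11]
      have h6 : (200 : ℝ) * q * (1 + |θ - (a : ℝ) / q| * H) ≤ 400 * (Q : ℝ) ^ 2 := by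
        have h7 : (q : ℝ) ≤ Q := hqr.trans n5
        have h8 : 1 + |θ - (a : ℝ) / q| * H ≤ 2 * Q := by
          linarith only [h1, n5, n1]
        have h9 : (q : ℝ) * (1 + |θ - (a : ℝ) / q| * H) ≤ Q * (2 * Q) :=
          mul_le_mul h7 h8 (by positivity) (by linarith only [n1])
        nlinarith only [h9]
      calc 200 * q * (1 + |θ - (a : ℝ) / q| * H) * g / H
          = (200 * q * (1 + |θ - (a : ℝ) / q| * H)) * (g / H) := by ring
        _ ≤ 400 * (Q : ℝ) ^ 2 * (C / X) :=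
            mul_le_mul h6 hgX (by positivity) (by positivity)
        _ ≤ δ / 2 := by
            rw [← mul_div_assoc, div_le_iff₀ hX0]
            rw [div_le_iff₀ hδ] at hXbig
            nlinarith only [hXbig]
    calc ‖Sx f H x0 X θ - Mn f H Q θ‖
        = ‖(Sx f H x0 X θ - Gam f b q * Vk H (θ - (b : ℝ) / q)) -
          (Mn f H Q θ - Gam f b q * Vk H (θ - (b : ℝ) / q))‖ := by congr 1; ring
      _ ≤ δ / 2 + δ / 4 := (norm_sub_le _ _).trans (add_le_add (hmaj.trans hsmall) hMn')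
      _ ≤ δ := by linarith only [hδ]
  · have hS : ‖Sx f H x0 X θ‖ ≤ δ / 4 := by
      rcases hMin f H x0 X g (δ / 4) B θ hdeg hlead hcont (by positivity) (by linarith only [hδ1])
        hB hcoef n4 hG with h | ⟨q, a, hq, hqK, hθ⟩
      · exact h
      · exfalso
        apply hcase
        exact ⟨q, a, hq, hqK.trans n7, hθ.trans (div_le_div_of_nonneg_right n7 hH0.le)⟩
    have hT : ‖Gam f as qs * Vk H (θ - (as : ℝ) / qs)‖ ≤ δ / 4 := by
      rw [norm_mul]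
      rcases le_or_gt (qs : ℝ) Q2 with h1 | h1
      · have h2 : ∀ n : ℤ, Q2 / H ≤ |θ - (as : ℝ) / qs - n| := by
          intro n
          by_contra hlt
          push Not at hlt
          apply hcase
          refine ⟨qs, as + qs * n, hqs1, h1, ?_⟩
          have hq0 : (qs : ℝ) ≠ 0 := by
            have : qs ≠ 0 := by omega
            exact_mod_cast this
          have h3 : θ - ((as + qs * n : ℤ) : ℝ) / qs = θ - (as : ℝ) / qs - n := by
            push_cast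
            field_simp
            ring
          rw [h3]
          exact hlt.le
        have h3 := hVdec (θ - (as : ℝ) / qs) (Q2 / H) (by positivity) h2
        have h4 : 1 / (4 * (H : ℝ) ^ 2 * (Q2 / H) ^ 2) ≤ δ / 4 := by
          have e1 : 4 * (H : ℝ) ^ 2 * (Q2 / H) ^ 2 = 4 * Q2 ^ 2 := by
            field_simp
          rw [e1, div_le_div_iff₀ (by positivity) (by norm_num)]
          rw [div_le_iff₀ hδ] at n6
          nlinarith only [n6, hQ21, hδ, mul_le_mul_of_nonneg_left hQ21 (by positivity : 0 ≤ Q2 * δ)]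
        calc _ ≤ 1 * (δ / 4) := mul_le_mul (norm_Gam_le_one f as qs hqs1) (h3.trans h4)
              (norm_nonneg _) zero_le_one
          _ = δ / 4 := one_mul _
      · have h2 := hGam f hdeg hlead hcont qs as hqs1
          (Nat.isCoprime_iff_coprime.2 hcop.symm)
        have h3 := Gam_coprime_small hE2 hqs1 hδ h2 n8 h1
        obtain ⟨_, _, _, _, _, _, _, hV1, _⟩ := hVt H hH1
        calc _ ≤ (δ / 4) * 1 := mul_le_mul h3 (hV1 _) (norm_nonneg _) (by positivity)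
          _ = δ / 4 := mul_one _
    calc ‖Sx f H x0 X θ - Mn f H Q θ‖
        = ‖Sx f H x0 X θ - Gam f as qs * Vk H (θ - (as : ℝ) / qs) -
          (Mn f H Q θ - Gam f as qs * Vk H (θ - (as : ℝ) / qs))‖ := by congr 1; ring
      _ ≤ (δ / 4 + δ / 4) + δ / 4 := by
          refine (norm_sub_le _ _).trans (add_le_add ?_ hMn')
          exact (norm_sub_le _ _).trans (add_le_add hS hT)
      _ ≤ δ := by linarith only [hδ]

theorem an_of (hP : PointStmt) (hF : FouStmt) : ANStmt := by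
  intro k hk
  obtain ⟨E, hE, hP⟩ := hP k hk
  refine ⟨E, hE, fun R hR => ?_⟩
  obtain ⟨K, hK, hP⟩ := hP R hR
  refine ⟨16 * K, by omega, ?_⟩
  intro f N' H Q δ B G hdeg hlead hcont hδ hδ1 hB hcoef h8 h16 hQ hN hG0 hGs hfree
  have hKr : (1 : ℝ) ≤ K := by exact_mod_cast hK
  have hy1 : 1 ≤ ((16 * K : ℕ) : ℝ) / δ := by
    rw [le_div_iff₀ hδ]; push_cast; linarith only [hδ1, hKr]
  have hQ1 : (1 : ℝ) ≤ Q := (one_le_pow₀ hy1).trans hQ
  have hQK : ((K : ℝ) / δ) ^ E ≤ Q := by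
    refine le_trans (pow_le_pow_left₀ (by positivity) ?_ _) hQ
    apply div_le_div_of_nonneg_right _ hδ.le
    push_cast
    linarith only [hKr]
  have hHK : ((K : ℝ) * B * Q / δ) ^ E ≤ H := by
    have h1 : (16 : ℝ) * ((K : ℝ) * B * Q / δ) ^ E ≤ N' := by
      refine le_trans ?_ hN
      have e1 : ((16 * K : ℕ) : ℝ) * B * Q / δ = 16 * ((K : ℝ) * B * Q / δ) := by
        push_cast; ring
      rw [e1, mul_pow]
      apply mul_le_mul_of_nonneg_right _ (by positivity)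
      exact le_self_pow₀ (by norm_num) (by omega)
    have h2 : (N' : ℝ) ≤ 16 * H := by exact_mod_cast h16
    linarith only [h1, h2]
  obtain ⟨x0, X, hx0, hpt⟩ := hP f H Q δ B hdeg hlead hcont hδ hδ1 hB hcoef hQK hHK
  have hH1 : 1 ≤ H := by
    have h1 : 1 ≤ ((K : ℝ) * B * Q / δ) ^ E := by
      apply one_le_pow₀
      rw [le_div_iff₀ hδ, one_mul]
      have h2 : 1 ≤ (K : ℝ) * B := by nlinarith only [hKr, hB]
      have h3 : 1 ≤ (K : ℝ) * B * Q := by nlinarith only [h2, hQ1]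
      linarith only [h3, hδ1]
    have h2 : (1 : ℝ) ≤ H := h1.trans hHK
    exact_mod_cast h2
  exact hF f N' H Q x0 X δ G hH1 h8 hx0 hδ.le hG0 hGs hfree hpt

end Vale.Agent.P042.SS
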