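import Vale.Agent.P042.SS.Spec

set_option autoImplicit false

/-!
Block AUX, costs (helper30): `cost_holds`, `cost2_holds`, `cost3_holds`.
-/

namespace Vale.Agent.P042.SS

open Finset

/-- geometric constant -/
theorem cost_geo (E : ℕ) (hE : 1 ≤ E) : ∃ S : ℝ, 0 ≤ S ∧
    ∀ s : Finset ℕ, ∑ n ∈ s, (n : ℝ) * ((2 : ℝ) ^ (-(1 : ℝ) / E)) ^ n ≤ S := by
  have hER : (0 : ℝ) < E := by exact_mod_cast hE
  have hr0 : 0 < (2 : ℝ) ^ (-(1 : ℝ) / E) := Real.rpow_pos_of_pos (by norm_num) _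
  have hr1 : (2 : ℝ) ^ (-(1 : ℝ) / E) < 1 := Real.rpow_lt_one_of_one_lt_of_neg (by norm_num)
    (div_neg_of_neg_of_pos (by norm_num) hER)
  have hsum : Summable (fun n : ℕ => (n : ℝ) * ((2 : ℝ) ^ (-(1 : ℝ) / E)) ^ n) :=
    (hasSum_coe_mul_geometric_of_norm_lt_one (by rw [Real.norm_of_nonneg hr0.le]; exact hr1)).summable
  exact ⟨∑' n : ℕ, (n : ℝ) * ((2 : ℝ) ^ (-(1 : ℝ) / E)) ^ n,
    tsum_nonneg (fun n => by positivity), fun s => hsum.sum_le_tsum s (fun n _ => by positivity)⟩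

/-- all exponents, one prime -/
theorem cost_one_prime (E K : ℕ) (hE : 1 ≤ E) (kap : ℕ → ℕ → ℝ)
    (hk : ∀ p j, p.Prime → 1 ≤ j → kap p j ≤ K * (p : ℝ) ^ (-(j : ℝ) / E)) (S : ℝ)
    (hS : ∀ s : Finset ℕ, ∑ n ∈ s, (n : ℝ) * ((2 : ℝ) ^ (-(1 : ℝ) / E)) ^ n ≤ S)
    (p : ℕ) (hp : p.Prime) (s : Finset ℕ) (hs : ∀ j ∈ s, 1 ≤ j) :
    ∑ j ∈ s, kap p j * (j * Real.log p) ≤ K * S * Real.log p := by
  have hER : (0 : ℝ) < E := by exact_mod_cast hE
  have hp2 : (2 : ℝ) ≤ p := by exact_mod_cast hp.two_le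
  have hlp : 0 ≤ Real.log (p : ℝ) := Real.log_natCast_nonneg _
  have hterm : ∀ j ∈ s, kap p j * (j * Real.log p) ≤
      K * Real.log p * ((j : ℝ) * ((2 : ℝ) ^ (-(1 : ℝ) / E)) ^ j) := by
    intro j hj
    have h1 := hk p j hp (hs j hj)
    have h4 : (p : ℝ) ^ (-(j : ℝ) / E) ≤ 2 ^ (-(j : ℝ) / E) := by
      apply Real.rpow_le_rpow_of_nonpos (by norm_num) hp2
      apply div_nonpos_of_nonpos_of_nonneg _ hER.le
      have : (0 : ℝ) ≤ j := by positivity
      linarith only [this]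
    have h5 : (2 : ℝ) ^ (-(j : ℝ) / E) = ((2 : ℝ) ^ (-(1 : ℝ) / E)) ^ j := by
      rw [← Real.rpow_natCast, ← Real.rpow_mul (by norm_num)]
      congr 1
      ring
    rw [h5] at h4
    have h3 : kap p j ≤ K * ((2 : ℝ) ^ (-(1 : ℝ) / E)) ^ j :=
      h1.trans (mul_le_mul_of_nonneg_left h4 (by positivity))
    calc kap p j * (j * Real.log p) ≤ K * ((2 : ℝ) ^ (-(1 : ℝ) / E)) ^ j * (j * Real.log p) :=
          mul_le_mul_of_nonneg_right h3 (by positivity)
      _ = _ := by ring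
  refine (Finset.sum_le_sum hterm).trans ?_
  rw [← Finset.mul_sum]
  calc K * Real.log p * ∑ j ∈ s, (j : ℝ) * ((2 : ℝ) ^ (-(1 : ℝ) / E)) ^ j
      ≤ K * Real.log p * S := mul_le_mul_of_nonneg_left (hS s) (by positivity)
    _ = _ := by ring

/-- large exponents, one prime -/
theorem cost_tail_prime (E K : ℕ) (hE : 1 ≤ E) (kap : ℕ → ℕ → ℝ)
    (hk : ∀ p j, p.Prime → 1 ≤ j → kap p j ≤ K * (p : ℝ) ^ (-(j : ℝ) / E)) (S : ℝ)
    (hS : ∀ s : Finset ℕ, ∑ n ∈ s, (n : ℝ) * ((2 : ℝ) ^ (-(1 : ℝ) / E)) ^ n ≤ S)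
    (p : ℕ) (hp : p.Prime) (s : Finset ℕ) (hs : ∀ j ∈ s, 4 * E < j) :
    ∑ j ∈ s, kap p j * (j * Real.log p) ≤ 16 * K * S * (1 / (p : ℝ) ^ 2) := by
  have hER : (0 : ℝ) < E := by exact_mod_cast hE
  have hpR : (0 : ℝ) < p := by exact_mod_cast hp.pos
  have hp2 : (2 : ℝ) ≤ p := by exact_mod_cast hp.two_le
  have hlp : 0 ≤ Real.log (p : ℝ) := Real.log_natCast_nonneg _
  have hlp2 : Real.log (p : ℝ) ≤ p := by
    have := Real.log_le_sub_one_of_pos hpR
    linarith
  have hterm : ∀ j ∈ s, kap p j * (j * Real.log p) ≤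
      16 * K * (1 / (p : ℝ) ^ 2) * ((j : ℝ) * ((2 : ℝ) ^ (-(1 : ℝ) / E)) ^ j) := by
    intro j hj
    have hjE : 4 * (E : ℝ) ≤ j := by exact_mod_cast (hs j hj).le
    have h1 := hk p j hp (by have := hs j hj; omega)
    have h3 : -(j : ℝ) / E = -4 + -((j : ℝ) - 4 * E) / E := by
      field_simp; ring
    have h3' : (p : ℝ) ^ (-4 : ℝ) = ((p : ℝ) ^ 4)⁻¹ := by
      rw [Real.rpow_neg hpR.le]
      norm_cast
    have h4 : (p : ℝ) ^ (-((j : ℝ) - 4 * E) / E) ≤ 2 ^ (-((j : ℝ) - 4 * E) / E) := by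
      apply Real.rpow_le_rpow_of_nonpos (by norm_num) hp2
      apply div_nonpos_of_nonpos_of_nonneg _ hER.le
      linarith only [hjE]
    have h5 : (2 : ℝ) ^ (-((j : ℝ) - 4 * E) / E) = 16 * ((2 : ℝ) ^ (-(1 : ℝ) / E)) ^ j := by
      rw [← Real.rpow_natCast, ← Real.rpow_mul (by norm_num)]
      have h4' : (16 : ℝ) = 2 ^ (4 : ℝ) := by norm_num
      rw [h4', ← Real.rpow_add (by norm_num)]
      congr 1
      field_simp
      ring
    rw [h5] at h4
    have h6 : kap p j ≤ K * (((p : ℝ) ^ 4)⁻¹ * (16 * ((2 : ℝ) ^ (-(1 : ℝ) / E)) ^ j)) := by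
      refine h1.trans (mul_le_mul_of_nonneg_left ?_ (by positivity))
      rw [h3, Real.rpow_add hpR, h3']
      exact mul_le_mul_of_nonneg_left h4 (by positivity)
    have h7 : ((p : ℝ) ^ 4)⁻¹ * Real.log p ≤ 1 / (p : ℝ) ^ 2 := by
      have h8 : ((p : ℝ) ^ 4)⁻¹ * Real.log p ≤ ((p : ℝ) ^ 4)⁻¹ * (p : ℝ) ^ 2 := by
        apply mul_le_mul_of_nonneg_left _ (by positivity)
        nlinarith
      refine h8.trans (le_of_eq ?_)
      field_simp
    calc kap p j * (j * Real.log p)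
        ≤ (K * (((p : ℝ) ^ 4)⁻¹ * (16 * ((2 : ℝ) ^ (-(1 : ℝ) / E)) ^ j))) * (j * Real.log p) :=
          mul_le_mul_of_nonneg_right h6 (by positivity)
      _ = 16 * K * (((p : ℝ) ^ 4)⁻¹ * Real.log p) * ((j : ℝ) * ((2 : ℝ) ^ (-(1 : ℝ) / E)) ^ j) := by
          ring
      _ ≤ 16 * K * (1 / (p : ℝ) ^ 2) * ((j : ℝ) * ((2 : ℝ) ^ (-(1 : ℝ) / E)) ^ j) := by
          apply mul_le_mul_of_nonneg_right _ (by positivity)
          exact mul_le_mul_of_nonneg_left h7 (by positivity)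
  refine (Finset.sum_le_sum hterm).trans ?_
  rw [← Finset.mul_sum]
  calc 16 * K * (1 / (p : ℝ) ^ 2) * ∑ j ∈ s, (j : ℝ) * ((2 : ℝ) ^ (-(1 : ℝ) / E)) ^ j
      ≤ 16 * K * (1 / (p : ℝ) ^ 2) * S := mul_le_mul_of_nonneg_left (hS s) (by positivity)
    _ = _ := by ring

theorem cost3_holds : Cost3Stmt := by
  classical
  intro k E K p0 kap _ hE hkap
  obtain ⟨S, hS0, hS⟩ := cost_geo E hE
  have hsumT : Summable (fun n : ℕ => 1 / (n : ℝ) ^ 2) := Real.summable_one_div_nat_pow.mpr (by norm_num)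
  have hTle : ∀ s : Finset ℕ, ∑ n ∈ s, 1 / (n : ℝ) ^ 2 ≤ ∑' n : ℕ, 1 / (n : ℝ) ^ 2 := fun s =>
    hsumT.sum_le_tsum s (fun n _ => by positivity)
  have hT0 : 0 ≤ ∑' n : ℕ, 1 / (n : ℝ) ^ 2 := tsum_nonneg (fun n => by positivity)
  refine ⟨16 * K * S * (∑' n : ℕ, 1 / (n : ℝ) ^ 2) + 1, by positivity, ?_⟩
  intro I hI
  have h1 := cost_fib I (I.image Prod.fst) (fun i hi => Finset.mem_image_of_mem _ hi)
    (fun p j => kap p j * (j * Real.log p)) (fun p => 16 * K * S * (1 / (p : ℝ) ^ 2)) (by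
      intro p hp s hs
      rw [Finset.mem_image] at hp
      obtain ⟨i, hi, rfl⟩ := hp
      exact cost_tail_prime E K hE kap hkap.pw S hS i.1 (hI i hi).1 s
        (fun j hj => (hI _ (hs j hj)).2))
  refine h1.trans ?_
  rw [← Finset.mul_sum]
  have h2 := mul_le_mul_of_nonneg_left (hTle (I.image Prod.fst))
    (by positivity : (0 : ℝ) ≤ 16 * K * S)
  linarith

/-- middle exponents, one prime -/
theorem cost_mid_prime (k E : ℕ) (kap : ℕ → ℕ → ℝ) (p : ℕ) (hp : p.Prime)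
    (hk : ∀ j, 2 ≤ j → kap p j ≤ k / p) (s : Finset ℕ) (hs : ∀ j ∈ s, 2 ≤ j ∧ j ≤ 4 * E) :
    ∑ j ∈ s, kap p j * (j * Real.log p) ≤ k * (4 * E) ^ 2 * (Real.log p / p) := by
  have hpR : (0 : ℝ) < p := by exact_mod_cast hp.pos
  have hlp : 0 ≤ Real.log (p : ℝ) := Real.log_natCast_nonneg _
  have hterm : ∀ j ∈ s, kap p j * (j * Real.log p) ≤ k * (4 * E) * (Real.log p / p) := by
    intro j hj
    have hjE : (j : ℝ) ≤ 4 * E := by exact_mod_cast (hs j hj).2
    calc kap p j * (j * Real.log p) ≤ k / p * (j * Real.log p) :=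
          mul_le_mul_of_nonneg_right (hk j (hs j hj).1) (by positivity)
      _ ≤ k / p * (4 * E * Real.log p) :=
          mul_le_mul_of_nonneg_left (mul_le_mul_of_nonneg_right hjE hlp) (by positivity)
      _ = _ := by ring
  refine (Finset.sum_le_card_nsmul _ _ _ hterm).trans ?_
  rw [nsmul_eq_mul]
  have hc : (s.card : ℝ) ≤ 4 * E := by
    have : s.card ≤ (Finset.Icc 1 (4 * E)).card := by
      apply Finset.card_le_card
      intro j hj
      rw [Finset.mem_Icc]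
      exact ⟨by have := (hs j hj).1; omega, (hs j hj).2⟩
    rw [Nat.card_Icc, Nat.add_sub_cancel] at this
    exact_mod_cast this
  calc (s.card : ℝ) * (k * (4 * E) * (Real.log p / p)) ≤ 4 * E * (k * (4 * E) * (Real.log p / p)) :=
        mul_le_mul_of_nonneg_right hc (by positivity)
    _ = _ := by ring

/-- items with small first coordinate -/
theorem cost_small (k E K p0 : ℕ) (kap : ℕ → ℕ → ℝ) (hE : 1 ≤ E) (hkap : KapOK k E K p0 kap) :
    ∃ W : ℝ, 0 ≤ W ∧ ∀ I : Finset (ℕ × ℕ), (∀ i ∈ I, i.1.Prime ∧ 1 ≤ i.2 ∧ i.1 ≤ p0) →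
      ∑ i ∈ I, kap i.1 i.2 * (i.2 * Real.log i.1) ≤ W := by
  classical
  obtain ⟨S, hS0, hS⟩ := cost_geo E hE
  refine ⟨∑ p ∈ range (p0 + 1), K * S * Real.log p, Finset.sum_nonneg (fun p _ =>
    mul_nonneg (by positivity) (Real.log_natCast_nonneg _)), ?_⟩
  intro I hI
  refine (cost_fib I ((range (p0 + 1)).filter Nat.Prime) (by
      intro i hi
      rw [Finset.mem_filter, Finset.mem_range]
      exact ⟨by have := (hI i hi).2.2; omega, (hI i hi).1⟩) (fun p j => kap p j * (j * Real.log p))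
      (fun p => K * S * Real.log p) (by
      intro p hp s hs
      rw [Finset.mem_filter] at hp
      exact cost_one_prime E K hE kap hkap.pw S hS p hp.2 s (fun j hj => (hI _ (hs j hj)).2.1))).trans ?_
  apply Finset.sum_le_sum_of_subset_of_nonneg (Finset.filter_subset _ _)
  intro p _ _
  exact mul_nonneg (by positivity) (Real.log_natCast_nonneg _)

theorem cost2_holds : Cost2Stmt := by
  classical
  intro k E K p0 kap hk1 hE hkap
  obtain ⟨C3, hC3, h3⟩ := cost3_holds k E K p0 kap hk1 hE hkap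
  obtain ⟨W, hW0, hW⟩ := cost_small k E K p0 kap hE hkap
  have hlog4 : 0 < Real.log 4 := Real.log_pos (by norm_num)
  refine ⟨C3 + W + k * (4 * E) ^ 2 * Real.log 4, by positivity, ?_⟩
  intro Y I hI
  have hY : Real.log (Y : ℝ) ≤ Real.log (Y + 1 : ℝ) := by
    rcases Nat.eq_zero_or_pos Y with rfl | hY
    · simp
    · apply Real.log_le_log (by exact_mod_cast hY)
      linarith
  have hY1 : (0 : ℝ) ≤ Y := by positivity
  have hY0 : 0 ≤ Real.log (Y + 1 : ℝ) := Real.log_nonneg (by linarith)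
  rw [← Finset.sum_filter_add_sum_filter_not I (fun i => 4 * E < i.2)]
  rw [← Finset.sum_filter_add_sum_filter_not (I.filter (fun i => ¬ 4 * E < i.2)) (fun i => i.1 ≤ p0)]
  have e1 := h3 (I.filter (fun i => 4 * E < i.2)) (by
    intro i hi
    rw [Finset.mem_filter] at hi
    exact ⟨(hI i hi.1).1, hi.2⟩)
  have e2 := hW ((I.filter (fun i => ¬ 4 * E < i.2)).filter (fun i => i.1 ≤ p0)) (by
    intro i hi
    rw [Finset.mem_filter, Finset.mem_filter] at hi
    exact ⟨(hI i hi.1.1).1, by have := (hI i hi.1.1).2.1; omega, hi.2⟩)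
  have e3 : ∑ i ∈ (I.filter (fun i => ¬ 4 * E < i.2)).filter (fun i => ¬ i.1 ≤ p0),
      kap i.1 i.2 * (i.2 * Real.log i.1) ≤ k * (4 * E) ^ 2 * (Real.log 4 * (1 + Real.log Y)) := by
    refine (cost_fib _ ((range (Y + 1)).filter Nat.Prime) (by
      intro i hi
      rw [Finset.mem_filter, Finset.mem_filter] at hi
      rw [Finset.mem_filter, Finset.mem_range]
      exact ⟨by have := (hI i hi.1.1).2.2; omega, (hI i hi.1.1).1⟩)
      (fun p j => kap p j * (j * Real.log p))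
      (fun p => k * (4 * E) ^ 2 * (Real.log p / p)) (by
      intro p hp s hs
      rw [Finset.mem_filter] at hp
      rcases Finset.eq_empty_or_nonempty s with rfl | ⟨j0, hj0⟩
      · rw [Finset.sum_empty]
        have : 0 ≤ Real.log (p : ℝ) := Real.log_natCast_nonneg _
        positivity
      · have h3 := hs j0 hj0
        rw [Finset.mem_filter, Finset.mem_filter] at h3
        have hpp : p0 < p := not_le.mp h3.2
        apply cost_mid_prime k E kap p hp.2 (fun j hj => hkap.two p j hp.2 hpp hj)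
        intro j hj
        have h4 := hs j hj
        rw [Finset.mem_filter, Finset.mem_filter] at h4
        exact ⟨(hI _ h4.1.1).2.1, not_lt.mp h4.1.2⟩)).trans ?_
    rw [← Finset.mul_sum]
    exact mul_le_mul_of_nonneg_left (sum_log_div Y) (by positivity)
  have e4 : (k : ℝ) * (4 * E) ^ 2 * (Real.log 4 * (1 + Real.log Y)) ≤
      k * (4 * E) ^ 2 * Real.log 4 * (1 + Real.log (Y + 1)) := by
    rw [mul_assoc ((k : ℝ) * (4 * E) ^ 2) (Real.log 4)]
    apply mul_le_mul_of_nonneg_left _ (by positivity)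
    apply mul_le_mul_of_nonneg_left _ hlog4.le
    linarith
  have e5 : C3 + W ≤ (C3 + W) * (1 + Real.log (Y + 1 : ℝ)) := by
    have : 0 ≤ (C3 + W) * Real.log (Y + 1 : ℝ) := by positivity
    linarith
  linarith

theorem cost_holds : CostStmt := by
  classical
  intro k E K p0 kap hk1 hE hkap
  obtain ⟨C2, hC2, h2⟩ := cost2_holds k E K p0 kap hk1 hE hkap
  obtain ⟨W, hW0, hW⟩ := cost_small k E K p0 kap hE hkap
  have hlog4 : 0 < Real.log 4 := Real.log_pos (by norm_num)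
  refine ⟨2 * C2 + W + k * (2 * Real.log 4), by positivity, ?_⟩
  intro Y I hI
  have hsY : 0 ≤ Real.sqrt (Y : ℝ) := Real.sqrt_nonneg _
  have hY : 1 + Real.log (Y + 1 : ℝ) ≤ 2 * (Real.sqrt Y + 1) := by
    have h1 : (Y : ℝ) + 1 ≤ (Real.sqrt Y + 1) ^ 2 := by
      have := Real.mul_self_sqrt (show (0 : ℝ) ≤ Y by positivity)
      nlinarith
    have h2 : Real.log (Y + 1 : ℝ) ≤ Real.log ((Real.sqrt Y + 1) ^ 2) :=
      Real.log_le_log (by positivity) h1
    rw [Real.log_pow] at h2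
    have h3 := Real.log_le_sub_one_of_pos (show 0 < Real.sqrt (Y : ℝ) + 1 by positivity)
    push_cast at h2
    linarith
  rw [← Finset.sum_filter_add_sum_filter_not I (fun i => i.2 = 1)]
  rw [← Finset.sum_filter_add_sum_filter_not (I.filter (fun i => i.2 = 1)) (fun i => i.1 ≤ p0)]
  have e1 := h2 Y (I.filter (fun i => ¬ i.2 = 1)) (by
    intro i hi
    rw [Finset.mem_filter] at hi
    have := hI i hi.1
    exact ⟨this.1, by omega, this.2.2⟩)
  have e2 := hW ((I.filter (fun i => i.2 = 1)).filter (fun i => i.1 ≤ p0)) (by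
    intro i hi
    rw [Finset.mem_filter, Finset.mem_filter] at hi
    exact ⟨(hI i hi.1.1).1, (hI i hi.1.1).2.1, hi.2⟩)
  have e3 : ∑ i ∈ (I.filter (fun i => i.2 = 1)).filter (fun i => ¬ i.1 ≤ p0),
      kap i.1 i.2 * (i.2 * Real.log i.1) ≤ k * (Real.log 4 * (2 * Real.sqrt Y)) := by
    refine (cost_fib _ ((range (Y + 1)).filter Nat.Prime) (by
      intro i hi
      rw [Finset.mem_filter, Finset.mem_filter] at hi
      rw [Finset.mem_filter, Finset.mem_range]
      exact ⟨by have := (hI i hi.1.1).2.2; omega, (hI i hi.1.1).1⟩)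
      (fun p j => kap p j * (j * Real.log p))
      (fun p => k * (Real.log p / Real.sqrt p)) (by
      intro p hp s hs
      rw [Finset.mem_filter] at hp
      have hlp : 0 ≤ Real.log (p : ℝ) := Real.log_natCast_nonneg _
      rcases Finset.eq_empty_or_nonempty s with rfl | ⟨j0, hj0⟩
      · rw [Finset.sum_empty]; positivity
      · have h2 : s = {1} := by
          ext j
          rw [Finset.mem_singleton]
          constructor
          · intro hj
            have := hs j hj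
            rw [Finset.mem_filter, Finset.mem_filter] at this
            exact this.1.2
          · intro hj
            have := hs j0 hj0
            rw [Finset.mem_filter, Finset.mem_filter] at this
            have h5 : j0 = 1 := this.1.2
            rw [hj, ← h5]
            exact hj0
        have h3 := hs j0 hj0
        rw [Finset.mem_filter, Finset.mem_filter] at h3
        have h4 := hkap.one p hp.2 (not_le.mp h3.2)
        rw [h2, Finset.sum_singleton]
        calc kap p 1 * (((1 : ℕ) : ℝ) * Real.log p) = kap p 1 * Real.log p := by push_cast; ring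
          _ ≤ k / Real.sqrt p * Real.log p := mul_le_mul_of_nonneg_right h4 hlp
          _ = k * (Real.log p / Real.sqrt p) := by ring)).trans ?_
    rw [← Finset.mul_sum]
    exact mul_le_mul_of_nonneg_left (sum_log_div_sqrt Y) (by positivity)
  have e4 : C2 * (1 + Real.log (Y + 1 : ℝ)) ≤ C2 * (2 * (Real.sqrt Y + 1)) :=
    mul_le_mul_of_nonneg_left hY hC2.le
  have e5 : W ≤ W * (Real.sqrt Y + 1) := by nlinarith
  have e6 : (k : ℝ) * (Real.log 4 * (2 * Real.sqrt Y)) ≤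
      k * (2 * Real.log 4) * (Real.sqrt Y + 1) := by
    have : 0 ≤ (k : ℝ) * (2 * Real.log 4) := by positivity
    nlinarith
  nlinarith

end Vale.Agent.P042.SS
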