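import Vale.Agent.P042.SS.Defs

set_option autoImplicit false

/-!
Library for the entropy of variables on a finite weighted set (`pr`, `Ent`, `MI`, `XV` of
`SS/Defs.lean`).  Standing hypotheses: `hμ : ∀ ω ∈ s, 0 ≤ μ ω`, `h1 : ∑ ω ∈ s, μ ω = 1`.
-/

namespace Vale.Agent.P042.SS

section entlib

variable {Ω : Type*} {α β γ δ : Type*} {s : Finset Ω} {μ : Ω → ℝ}

/-! ### fibre probabilities -/

theorem pr_def' (s : Finset Ω) (μ : Ω → ℝ) (X : Ω → α) (ω : Ω)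
    [DecidablePred (fun ω' => X ω' = X ω)] :
    pr s μ X ω = ∑ ω' ∈ s.filter (fun ω' => X ω' = X ω), μ ω' := by
  unfold pr
  refine Finset.sum_congr ?_ (fun _ _ => rfl)
  ext x
  simp only [Finset.mem_filter]

theorem pr_eq_sum_ite (s : Finset Ω) (μ : Ω → ℝ) (X : Ω → α) (ω : Ω)
    [DecidablePred (fun ω' => X ω' = X ω)] :
    pr s μ X ω = ∑ ω' ∈ s, if X ω' = X ω then μ ω' else 0 := by
  rw [pr_def', Finset.sum_filter]

theorem pr_congr_fib {X : Ω → α} {Y : Ω → β} {ω : Ω}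
    (h : ∀ ω' ∈ s, X ω' = X ω ↔ Y ω' = Y ω) : pr s μ X ω = pr s μ Y ω := by
  classical
  rw [pr_def', pr_def']
  refine Finset.sum_congr ?_ (fun _ _ => rfl)
  ext x
  simp only [Finset.mem_filter]
  constructor
  · rintro ⟨h1, h2⟩
    exact ⟨h1, (h x h1).1 h2⟩
  · rintro ⟨h1, h2⟩
    exact ⟨h1, (h x h1).2 h2⟩

/-- the fibre probability only depends on the value of the variable -/
theorem pr_congr_val {X : Ω → α} {ω ω' : Ω} (h : X ω = X ω') : pr s μ X ω = pr s μ X ω' := by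
  classical
  rw [pr_def', pr_def']
  refine Finset.sum_congr ?_ (fun _ _ => rfl)
  ext x
  simp only [Finset.mem_filter, h]

theorem pr_nonneg (hμ : ∀ ω ∈ s, 0 ≤ μ ω) (X : Ω → α) (ω : Ω) : 0 ≤ pr s μ X ω := by
  classical
  rw [pr_def']
  exact Finset.sum_nonneg (fun x hx => hμ x (Finset.mem_filter.1 hx).1)

theorem le_pr (hμ : ∀ ω ∈ s, 0 ≤ μ ω) (X : Ω → α) {ω : Ω} (hω : ω ∈ s) : μ ω ≤ pr s μ X ω := by
  classical
  rw [pr_def']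
  exact Finset.single_le_sum (f := μ) (fun x hx => hμ x (Finset.mem_filter.1 hx).1)
    (Finset.mem_filter.2 ⟨hω, rfl⟩)

theorem pr_pos (hμ : ∀ ω ∈ s, 0 ≤ μ ω) (X : Ω → α) {ω : Ω} (hω : ω ∈ s) (h : 0 < μ ω) :
    0 < pr s μ X ω := lt_of_lt_of_le h (le_pr hμ X hω)

theorem pr_le_sum (hμ : ∀ ω ∈ s, 0 ≤ μ ω) (X : Ω → α) (ω : Ω) :
    pr s μ X ω ≤ ∑ ω ∈ s, μ ω := by
  classical
  rw [pr_def']
  exact Finset.sum_le_sum_of_subset_of_nonneg (Finset.filter_subset _ _)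
    (fun x hx _ => hμ x hx)

theorem pr_le_one (hμ : ∀ ω ∈ s, 0 ≤ μ ω) (h1 : ∑ ω ∈ s, μ ω = 1) (X : Ω → α) (ω : Ω) :
    pr s μ X ω ≤ 1 := h1 ▸ pr_le_sum hμ X ω

/-- if `Y` determines `X` (through `ω`) then the fibre of `Y` is smaller -/
theorem pr_mono_of_det (hμ : ∀ ω ∈ s, 0 ≤ μ ω) {X : Ω → α} {Y : Ω → β} {ω : Ω}
    (h : ∀ ω' ∈ s, Y ω' = Y ω → X ω' = X ω) : pr s μ Y ω ≤ pr s μ X ω := by
  classical
  rw [pr_def', pr_def']
  refine Finset.sum_le_sum_of_subset_of_nonneg ?_ (fun x hx _ => hμ x (Finset.mem_filter.1 hx).1)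
  intro x hx
  rw [Finset.mem_filter] at hx ⊢
  exact ⟨hx.1, h x hx.1 hx.2⟩

/-- probability of a constant variable -/
theorem pr_const (s : Finset Ω) (μ : Ω → ℝ) (c : α) (ω : Ω) :
    pr s μ (fun _ => c) ω = ∑ ω ∈ s, μ ω := by
  classical
  rw [pr_def']
  refine Finset.sum_congr ?_ (fun _ _ => rfl)
  ext x
  simp only [Finset.mem_filter, and_true]

/-! ### sums over values -/

/-- sum over the points = sum over the values -/
theorem sum_mul_comp_eq [DecidableEq α] (s : Finset Ω) (μ : Ω → ℝ) (X : Ω → α) (φ : α → ℝ) :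
    ∑ ω ∈ s, μ ω * φ (X ω) =
      ∑ v ∈ s.image X, (∑ ω ∈ s.filter (fun ω => X ω = v), μ ω) * φ v := by
  rw [← Finset.sum_fiberwise_of_maps_to (s := s) (t := s.image X) (g := X)
    (fun x hx => Finset.mem_image_of_mem X hx)]
  refine Finset.sum_congr rfl (fun v _ => ?_)
  rw [Finset.sum_mul]
  refine Finset.sum_congr rfl (fun ω hω => ?_)
  rw [(Finset.mem_filter.1 hω).2]

/-- the mass of a fibre divided by its probability -/
theorem sum_filter_div_pr [DecidableEq α] (X : Ω → α) (v : α)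
    (h : (∑ ω ∈ s.filter (fun ω => X ω = v), μ ω) ≠ 0) :
    ∑ ω ∈ s.filter (fun ω => X ω = v), μ ω / pr s μ X ω = 1 := by
  have h2 : ∀ ω ∈ s.filter (fun ω => X ω = v),
      μ ω / pr s μ X ω = μ ω / ∑ ω ∈ s.filter (fun ω => X ω = v), μ ω := by
    intro ω hω
    rw [pr_def']
    rw [(Finset.mem_filter.1 hω).2]
  rw [Finset.sum_congr rfl h2, ← Finset.sum_div, div_self h]

theorem sum_filter_div_pr_le [DecidableEq α] (X : Ω → α) (v : α) :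
    ∑ ω ∈ s.filter (fun ω => X ω = v), μ ω / pr s μ X ω ≤ 1 := by
  by_cases h : (∑ ω ∈ s.filter (fun ω => X ω = v), μ ω) = 0
  · have h2 : ∀ ω ∈ s.filter (fun ω => X ω = v), μ ω / pr s μ X ω = 0 := by
      intro ω hω
      rw [pr_def']
      rw [(Finset.mem_filter.1 hω).2, h, div_zero]
    rw [Finset.sum_congr rfl h2, Finset.sum_const_zero]
    exact zero_le_one
  · exact (sum_filter_div_pr X v h).le

/-- `∑ μ φ(X) / pr X ≤ ∑_v φ v` -/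
theorem sum_div_pr_le [DecidableEq α] (X : Ω → α) (φ : α → ℝ) (hφ : ∀ v ∈ s.image X, 0 ≤ φ v) :
    ∑ ω ∈ s, μ ω / pr s μ X ω * φ (X ω) ≤ ∑ v ∈ s.image X, φ v := by
  rw [sum_mul_comp_eq s (fun ω => μ ω / pr s μ X ω) X φ]
  refine Finset.sum_le_sum (fun v hv => ?_)
  exact mul_le_of_le_one_left (hφ v hv) (sum_filter_div_pr_le X v)

/-! ### Gibbs' inequality -/

/-- Gibbs, general form: `Ent X ≤ - ∑ μ log q` if `∑ μ q / pr X ≤ 1` -/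
theorem Ent_le_of_gibbs (hμ : ∀ ω ∈ s, 0 ≤ μ ω) (h1 : ∑ ω ∈ s, μ ω = 1) (X : Ω → α) (q : Ω → ℝ)
    (hq : ∀ ω ∈ s, 0 < μ ω → 0 < q ω) (hs : ∑ ω ∈ s, μ ω * (q ω / pr s μ X ω) ≤ 1) :
    Ent s μ X ≤ - ∑ ω ∈ s, μ ω * Real.log (q ω) := by
  have key : ∑ ω ∈ s, μ ω * Real.log (q ω) - ∑ ω ∈ s, μ ω * Real.log (pr s μ X ω) ≤
      ∑ ω ∈ s, (μ ω * (q ω / pr s μ X ω) - μ ω) := by
    rw [← Finset.sum_sub_distrib]
    refine Finset.sum_le_sum (fun ω hω => ?_)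
    rcases (hμ ω hω).eq_or_lt with h0 | h0
    · rw [← h0]; simp
    · have hp := pr_pos hμ X hω h0
      have hq' := hq ω hω h0
      have := Real.log_le_sub_one_of_pos (div_pos hq' hp)
      rw [Real.log_div hq'.ne' hp.ne'] at this
      nlinarith [this, h0]
  rw [Finset.sum_sub_distrib, h1] at key
  unfold Ent
  linarith

/-- Gibbs, with a sub-probability on the values -/
theorem Ent_le_of_subprob [DecidableEq α] (hμ : ∀ ω ∈ s, 0 ≤ μ ω) (h1 : ∑ ω ∈ s, μ ω = 1)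
    (X : Ω → α) (q : α → ℝ) (hq0 : ∀ v ∈ s.image X, 0 ≤ q v)
    (hq : ∀ ω ∈ s, 0 < μ ω → 0 < q (X ω)) (hs : ∑ v ∈ s.image X, q v ≤ 1) :
    Ent s μ X ≤ - ∑ ω ∈ s, μ ω * Real.log (q (X ω)) := by
  refine Ent_le_of_gibbs hμ h1 X (fun ω => q (X ω)) hq ?_
  refine le_trans (le_of_eq ?_) ((sum_div_pr_le (μ := μ) X q hq0).trans hs)
  refine Finset.sum_congr rfl (fun ω _ => ?_)
  ring

/-! ### entropy -/

theorem Ent_congr {X : Ω → α} {Y : Ω → β}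
    (h : ∀ ω ∈ s, ∀ ω' ∈ s, X ω = X ω' ↔ Y ω = Y ω') : Ent s μ X = Ent s μ Y := by
  unfold Ent
  congr 1
  refine Finset.sum_congr rfl (fun ω hω => ?_)
  rw [pr_congr_fib (fun ω' hω' => h ω' hω' ω hω)]

theorem Ent_nonneg (hμ : ∀ ω ∈ s, 0 ≤ μ ω) (h1 : ∑ ω ∈ s, μ ω = 1) (X : Ω → α) :
    0 ≤ Ent s μ X := by
  unfold Ent
  rw [neg_nonneg]
  refine Finset.sum_nonpos (fun ω hω => ?_)
  exact mul_nonpos_of_nonneg_of_nonpos (hμ ω hω)
    (Real.log_nonpos (pr_nonneg hμ X ω) (pr_le_one hμ h1 X ω))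

theorem Ent_const (h1 : ∑ ω ∈ s, μ ω = 1) (c : α) : Ent s μ (fun _ => c) = 0 := by
  unfold Ent
  simp [pr_const, h1]

/-- a variable which is constant on `s` -/
theorem Ent_eq_zero (h1 : ∑ ω ∈ s, μ ω = 1) {X : Ω → α}
    (h : ∀ ω ∈ s, ∀ ω' ∈ s, X ω = X ω') : Ent s μ X = 0 := by
  rw [← Ent_const (s := s) (μ := μ) h1 ()]
  exact Ent_congr (fun ω hω ω' hω' => by simp [h ω hω ω' hω'])

/-- entropy grows if the variable determines the other -/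
theorem Ent_mono_of_det (hμ : ∀ ω ∈ s, 0 ≤ μ ω) {X : Ω → α} {Y : Ω → β}
    (h : ∀ ω ∈ s, ∀ ω' ∈ s, Y ω = Y ω' → X ω = X ω') : Ent s μ X ≤ Ent s μ Y := by
  unfold Ent
  rw [neg_le_neg_iff]
  refine Finset.sum_le_sum (fun ω hω => ?_)
  rcases (hμ ω hω).eq_or_lt with h0 | h0
  · rw [← h0]; simp
  · refine mul_le_mul_of_nonneg_left ?_ h0.le
    exact Real.log_le_log (pr_pos hμ Y hω h0) (pr_mono_of_det hμ (fun ω' hω' => h ω' hω' ω hω))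

theorem Ent_le_pair_left (hμ : ∀ ω ∈ s, 0 ≤ μ ω) (X : Ω → α) (Y : Ω → β) :
    Ent s μ X ≤ Ent s μ (fun ω => (X ω, Y ω)) :=
  Ent_mono_of_det hμ (fun _ _ _ _ h => (Prod.ext_iff.1 h).1)

theorem Ent_le_pair_right (hμ : ∀ ω ∈ s, 0 ≤ μ ω) (X : Ω → α) (Y : Ω → β) :
    Ent s μ Y ≤ Ent s μ (fun ω => (X ω, Y ω)) :=
  Ent_mono_of_det hμ (fun _ _ _ _ h => (Prod.ext_iff.1 h).2)

theorem Ent_pair_comm (X : Ω → α) (Y : Ω → β) :
    Ent s μ (fun ω => (X ω, Y ω)) = Ent s μ (fun ω => (Y ω, X ω)) :=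
  Ent_congr (fun _ _ _ _ => by simp only [Prod.mk.injEq]; exact and_comm)

theorem Ent_pair_assoc (X : Ω → α) (Y : Ω → β) (Z : Ω → γ) :
    Ent s μ (fun ω => (X ω, (Y ω, Z ω))) = Ent s μ (fun ω => ((X ω, Y ω), Z ω)) :=
  Ent_congr (fun _ _ _ _ => by simp only [Prod.mk.injEq]; exact and_assoc.symm)

/-- entropy is at most the logarithm of the number of values -/
theorem Ent_le_log_card [DecidableEq α] (hμ : ∀ ω ∈ s, 0 ≤ μ ω) (h1 : ∑ ω ∈ s, μ ω = 1)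
    (X : Ω → α) {n : ℕ} (hn : (s.image X).card ≤ n) : Ent s μ X ≤ Real.log n := by
  have hne : s.Nonempty := by
    rcases s.eq_empty_or_nonempty with h | h
    · rw [h] at h1; simp at h1
    · exact h
  have hc : 0 < (s.image X).card := Finset.card_pos.2 (hne.image X)
  have hn0 : (0 : ℝ) < n := by exact_mod_cast lt_of_lt_of_le hc hn
  have h2 := Ent_le_of_subprob hμ h1 X (fun _ => (1 : ℝ) / n) (fun _ _ => by positivity)
    (fun _ _ _ => by positivity)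
    (by
      rw [Finset.sum_const, nsmul_eq_mul, mul_one_div, div_le_one hn0]
      exact_mod_cast hn)
  refine h2.trans (le_of_eq ?_)
  rw [← Finset.sum_mul, h1, one_mul, one_div, Real.log_inv, neg_neg]

theorem Ent_le_log_of_subset [DecidableEq α] (hμ : ∀ ω ∈ s, 0 ≤ μ ω) (h1 : ∑ ω ∈ s, μ ω = 1)
    (X : Ω → α) (t : Finset α) (ht : ∀ ω ∈ s, X ω ∈ t) : Ent s μ X ≤ Real.log t.card :=
  Ent_le_log_card hμ h1 X (Finset.card_le_card (Finset.image_subset_iff.2 ht))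

/-! ### submodularity -/

theorem submod_aux (hμ : ∀ ω ∈ s, 0 ≤ μ ω) (X : Ω → α) (Y : Ω → β) (Z : Ω → γ) :
    ∑ ω ∈ s, μ ω * (pr s μ (fun ω => (X ω, Z ω)) ω * pr s μ (fun ω => (Y ω, Z ω)) ω /
      (pr s μ Z ω * pr s μ (fun ω => (X ω, (Y ω, Z ω))) ω)) ≤ ∑ ω ∈ s, μ ω := by
  classical
  have e1 : ∀ ω ∈ s, μ ω * (pr s μ (fun ω => (X ω, Z ω)) ω * pr s μ (fun ω => (Y ω, Z ω)) ω /
      (pr s μ Z ω * pr s μ (fun ω => (X ω, (Y ω, Z ω))) ω)) =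
      ∑ a ∈ s, ∑ b ∈ s, μ a * μ b * ((if (X ω, (Y ω, Z ω)) = (X a, (Y b, Z a)) then
        μ ω / pr s μ (fun ω => (X ω, (Y ω, Z ω))) ω else 0) *
          (if Z b = Z a then (pr s μ Z a)⁻¹ else 0)) := by
    intro ω _
    rw [pr_eq_sum_ite s μ (fun ω => (X ω, Z ω)) ω, pr_eq_sum_ite s μ (fun ω => (Y ω, Z ω)) ω,
      Finset.sum_mul_sum, Finset.sum_div, Finset.mul_sum]
    refine Finset.sum_congr rfl (fun a _ => ?_)
    rw [Finset.sum_div, Finset.mul_sum]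
    refine Finset.sum_congr rfl (fun b _ => ?_)
    by_cases h : X a = X ω ∧ Z a = Z ω ∧ Y b = Y ω ∧ Z b = Z ω
    · obtain ⟨hx, hz, hy, hz'⟩ := h
      have hzz : pr s μ Z a = pr s μ Z ω := pr_congr_val hz
      rw [if_pos (by simp [hx, hz]), if_pos (by simp [hy, hz']), if_pos (by simp [hx, hy, hz]),
        if_pos (by rw [hz, hz']), hzz]
      ring
    · have hz0 : (if (X a, Z a) = (X ω, Z ω) then μ a else 0) *
          (if (Y b, Z b) = (Y ω, Z ω) then μ b else 0) = 0 := by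
        by_cases h1 : (X a, Z a) = (X ω, Z ω)
        · by_cases h2 : (Y b, Z b) = (Y ω, Z ω)
          · exfalso
            simp only [Prod.mk.injEq] at h1 h2
            exact h ⟨h1.1, h1.2, h2.1, h2.2⟩
          · rw [if_neg h2, mul_zero]
        · rw [if_neg h1, zero_mul]
      have hz1 : (if (X ω, (Y ω, Z ω)) = (X a, (Y b, Z a)) then
          μ ω / pr s μ (fun ω => (X ω, (Y ω, Z ω))) ω else 0) *
          (if Z b = Z a then (pr s μ Z a)⁻¹ else 0) = 0 := by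
        by_cases h1 : (X ω, (Y ω, Z ω)) = (X a, (Y b, Z a))
        · by_cases h2 : Z b = Z a
          · exfalso
            simp only [Prod.mk.injEq] at h1
            exact h ⟨h1.1.symm, h1.2.2.symm, h1.2.1.symm, h2.trans h1.2.2.symm⟩
          · rw [if_neg h2, mul_zero]
        · rw [if_neg h1, zero_mul]
      rw [hz0, hz1]
      simp
  rw [Finset.sum_congr rfl e1, Finset.sum_comm]
  refine Finset.sum_le_sum (fun a ha => ?_)
  rw [Finset.sum_comm]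
  have e2 : ∀ b ∈ s, ∑ ω ∈ s, μ a * μ b * ((if (X ω, (Y ω, Z ω)) = (X a, (Y b, Z a)) then
        μ ω / pr s μ (fun ω => (X ω, (Y ω, Z ω))) ω else 0) *
          (if Z b = Z a then (pr s μ Z a)⁻¹ else 0)) ≤
      μ a * ((if Z b = Z a then μ b else 0) * (pr s μ Z a)⁻¹) := by
    intro b hb
    rw [← Finset.mul_sum, ← Finset.sum_mul]
    have h1 : ∑ ω ∈ s, (if (X ω, (Y ω, Z ω)) = (X a, (Y b, Z a)) then
        μ ω / pr s μ (fun ω => (X ω, (Y ω, Z ω))) ω else 0) ≤ 1 := by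
      rw [← Finset.sum_filter]
      exact sum_filter_div_pr_le (fun ω => (X ω, (Y ω, Z ω))) (X a, (Y b, Z a))
    have h2 : 0 ≤ μ a * μ b * (if Z b = Z a then (pr s μ Z a)⁻¹ else 0) := by
      refine mul_nonneg (mul_nonneg (hμ a ha) (hμ b hb)) ?_
      split_ifs
      · exact inv_nonneg.2 (pr_nonneg hμ Z a)
      · exact le_refl 0
    calc μ a * μ b * ((∑ ω ∈ s, (if (X ω, (Y ω, Z ω)) = (X a, (Y b, Z a)) then
        μ ω / pr s μ (fun ω => (X ω, (Y ω, Z ω))) ω else 0)) *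
          (if Z b = Z a then (pr s μ Z a)⁻¹ else 0)) =
        (∑ ω ∈ s, (if (X ω, (Y ω, Z ω)) = (X a, (Y b, Z a)) then
        μ ω / pr s μ (fun ω => (X ω, (Y ω, Z ω))) ω else 0)) *
        (μ a * μ b * (if Z b = Z a then (pr s μ Z a)⁻¹ else 0)) := by ring
      _ ≤ 1 * (μ a * μ b * (if Z b = Z a then (pr s μ Z a)⁻¹ else 0)) :=
          mul_le_mul_of_nonneg_right h1 h2
      _ = μ a * ((if Z b = Z a then μ b else 0) * (pr s μ Z a)⁻¹) := by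
          split_ifs <;> ring
  refine (Finset.sum_le_sum e2).trans ?_
  rw [← Finset.mul_sum, ← Finset.sum_mul, ← pr_eq_sum_ite s μ Z a]
  refine mul_le_of_le_one_right (hμ a ha) ?_
  by_cases h : pr s μ Z a = 0
  · rw [h, zero_mul]; exact zero_le_one
  · rw [mul_inv_cancel₀ h]

/-- submodularity: `Ent(X,Y,Z) + Ent Z ≤ Ent(X,Z) + Ent(Y,Z)` -/
theorem Ent_submod (hμ : ∀ ω ∈ s, 0 ≤ μ ω) (h1 : ∑ ω ∈ s, μ ω = 1)
    (X : Ω → α) (Y : Ω → β) (Z : Ω → γ) :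
    Ent s μ (fun ω => (X ω, (Y ω, Z ω))) + Ent s μ Z ≤
      Ent s μ (fun ω => (X ω, Z ω)) + Ent s μ (fun ω => (Y ω, Z ω)) := by
  set A := pr s μ (fun ω => (X ω, Z ω)) with hA
  set B := pr s μ (fun ω => (Y ω, Z ω)) with hB
  set C := pr s μ Z with hC
  set T := pr s μ (fun ω => (X ω, (Y ω, Z ω))) with hT
  have haux := submod_aux hμ X Y Z
  rw [← hA, ← hB, ← hC, ← hT, h1] at haux
  have key : Ent s μ (fun ω => (X ω, (Y ω, Z ω))) ≤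
      - ∑ ω ∈ s, μ ω * Real.log (A ω * B ω / C ω) := by
    refine Ent_le_of_gibbs hμ h1 _ _ ?_ ?_
    · intro ω hω h0
      exact div_pos (mul_pos (pr_pos hμ _ hω h0) (pr_pos hμ _ hω h0)) (pr_pos hμ _ hω h0)
    · refine le_trans (le_of_eq ?_) haux
      refine Finset.sum_congr rfl (fun ω _ => ?_)
      rw [div_div]
  have e : ∑ ω ∈ s, μ ω * Real.log (A ω * B ω / C ω) =
      ∑ ω ∈ s, μ ω * Real.log (A ω) + ∑ ω ∈ s, μ ω * Real.log (B ω) -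
        ∑ ω ∈ s, μ ω * Real.log (C ω) := by
    rw [← Finset.sum_add_distrib, ← Finset.sum_sub_distrib]
    refine Finset.sum_congr rfl (fun ω hω => ?_)
    rcases (hμ ω hω).eq_or_lt with h0 | h0
    · rw [← h0]; simp
    · have hAp : 0 < A ω := pr_pos hμ _ hω h0
      have hBp : 0 < B ω := pr_pos hμ _ hω h0
      have hCp : 0 < C ω := pr_pos hμ _ hω h0
      rw [Real.log_div (mul_pos hAp hBp).ne' hCp.ne', Real.log_mul hAp.ne' hBp.ne']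
      ring
  rw [e] at key
  have hEA : Ent s μ (fun ω => (X ω, Z ω)) = - ∑ ω ∈ s, μ ω * Real.log (A ω) := rfl
  have hEB : Ent s μ (fun ω => (Y ω, Z ω)) = - ∑ ω ∈ s, μ ω * Real.log (B ω) := rfl
  have hEC : Ent s μ Z = - ∑ ω ∈ s, μ ω * Real.log (C ω) := rfl
  linarith

/-- submodularity: `X` determines `Z`, `Y` determines `Z`, `X` and `Y` together determine `U` -/
theorem Ent_submod' {X : Ω → α} {Y : Ω → β} {Z : Ω → γ} {U : Ω → δ}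
    (hμ : ∀ ω ∈ s, 0 ≤ μ ω) (h1 : ∑ ω ∈ s, μ ω = 1)
    (hX : ∀ ω ∈ s, ∀ ω' ∈ s, X ω = X ω' → Z ω = Z ω')
    (hY : ∀ ω ∈ s, ∀ ω' ∈ s, Y ω = Y ω' → Z ω = Z ω')
    (hU : ∀ ω ∈ s, ∀ ω' ∈ s, X ω = X ω' → Y ω = Y ω' → U ω = U ω') :
    Ent s μ U + Ent s μ Z ≤ Ent s μ X + Ent s μ Y := by
  have h := Ent_submod hμ h1 X Y Z
  have eX : Ent s μ (fun ω => (X ω, Z ω)) = Ent s μ X := Ent_congr (fun ω hω ω' hω' => by
    simp only [Prod.mk.injEq]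
    exact ⟨fun h => h.1, fun h => ⟨h, hX ω hω ω' hω' h⟩⟩)
  have eY : Ent s μ (fun ω => (Y ω, Z ω)) = Ent s μ Y := Ent_congr (fun ω hω ω' hω' => by
    simp only [Prod.mk.injEq]
    exact ⟨fun h => h.1, fun h => ⟨h, hY ω hω ω' hω' h⟩⟩)
  have eU : Ent s μ U ≤ Ent s μ (fun ω => (X ω, (Y ω, Z ω))) :=
    Ent_mono_of_det hμ (fun ω hω ω' hω' h => by
      simp only [Prod.mk.injEq] at h
      exact hU ω hω ω' hω' h.1 h.2.1)
  rw [eX, eY] at h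
  linarith

theorem Ent_pair_le_add (hμ : ∀ ω ∈ s, 0 ≤ μ ω) (h1 : ∑ ω ∈ s, μ ω = 1)
    (X : Ω → α) (Y : Ω → β) :
    Ent s μ (fun ω => (X ω, Y ω)) ≤ Ent s μ X + Ent s μ Y := by
  have h := Ent_submod' (X := X) (Y := Y) (Z := fun _ : Ω => ()) (U := fun ω => (X ω, Y ω))
    hμ h1 (fun _ _ _ _ _ => rfl) (fun _ _ _ _ _ => rfl)
    (fun _ _ _ _ h1 h2 => Prod.ext h1 h2)
  rw [Ent_const h1, add_zero] at h
  exact h

/-! ### mutual information -/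

theorem MI_congr {X : Ω → α} {X' : Ω → γ} {Z : Ω → β} {Z' : Ω → δ}
    (hX : ∀ ω ∈ s, ∀ ω' ∈ s, X ω = X ω' ↔ X' ω = X' ω')
    (hZ : ∀ ω ∈ s, ∀ ω' ∈ s, Z ω = Z ω' ↔ Z' ω = Z' ω') : MI s μ X Z = MI s μ X' Z' := by
  unfold MI
  rw [Ent_congr hX, Ent_congr hZ, Ent_congr (X := fun ω => (X ω, Z ω))
    (Y := fun ω => (X' ω, Z' ω)) (fun ω hω ω' hω' => by
      simp only [Prod.mk.injEq]
      exact and_congr (hX ω hω ω' hω') (hZ ω hω ω' hω'))]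

theorem MI_comm (X : Ω → α) (Z : Ω → β) : MI s μ X Z = MI s μ Z X := by
  unfold MI
  rw [Ent_pair_comm X Z]
  ring

theorem MI_nonneg (hμ : ∀ ω ∈ s, 0 ≤ μ ω) (h1 : ∑ ω ∈ s, μ ω = 1) (X : Ω → α) (Z : Ω → β) :
    0 ≤ MI s μ X Z := by
  have := Ent_pair_le_add hμ h1 X Z
  unfold MI
  linarith

theorem MI_le_left (hμ : ∀ ω ∈ s, 0 ≤ μ ω) (X : Ω → α) (Z : Ω → β) :
    MI s μ X Z ≤ Ent s μ X := by
  have := Ent_le_pair_right hμ X Z
  unfold MI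
  linarith

theorem MI_le_right (hμ : ∀ ω ∈ s, 0 ≤ μ ω) (X : Ω → α) (Z : Ω → β) :
    MI s μ X Z ≤ Ent s μ Z := by
  have := Ent_le_pair_left hμ X Z
  unfold MI
  linarith

/-- monotone in the second variable -/
theorem MI_mono_right (hμ : ∀ ω ∈ s, 0 ≤ μ ω) (h1 : ∑ ω ∈ s, μ ω = 1) (X : Ω → α)
    {Z : Ω → β} {Z' : Ω → γ} (h : ∀ ω ∈ s, ∀ ω' ∈ s, Z' ω = Z' ω' → Z ω = Z ω') :
    MI s μ X Z ≤ MI s μ X Z' := by
  have h2 := Ent_submod' (X := fun ω => (X ω, Z ω)) (Y := Z') (Z := Z)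
    (U := fun ω => (X ω, Z' ω)) hμ h1
    (fun ω _ ω' _ h => (Prod.ext_iff.1 h).2) h
    (fun ω _ ω' _ h1 h2 => Prod.ext (Prod.ext_iff.1 h1).1 h2)
  unfold MI
  linarith

/-- monotone in the first variable -/
theorem MI_mono_left (hμ : ∀ ω ∈ s, 0 ≤ μ ω) (h1 : ∑ ω ∈ s, μ ω = 1)
    {X : Ω → α} {X' : Ω → γ} (Z : Ω → β) (h : ∀ ω ∈ s, ∀ ω' ∈ s, X' ω = X' ω' → X ω = X ω') :
    MI s μ X Z ≤ MI s μ X' Z := by
  rw [MI_comm X Z, MI_comm X' Z]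
  exact MI_mono_right hμ h1 Z h

theorem MI_le_MI_pair (hμ : ∀ ω ∈ s, 0 ≤ μ ω) (h1 : ∑ ω ∈ s, μ ω = 1) (X : Ω → α)
    (Z : Ω → β) (Z' : Ω → γ) : MI s μ X Z ≤ MI s μ X (fun ω => (Z ω, Z' ω)) :=
  MI_mono_right hμ h1 X (fun _ _ _ _ h => (Prod.ext_iff.1 h).1)

theorem MI_le_MI_pair' (hμ : ∀ ω ∈ s, 0 ≤ μ ω) (h1 : ∑ ω ∈ s, μ ω = 1) (X : Ω → α)
    (Z : Ω → β) (Z' : Ω → γ) : MI s μ X Z' ≤ MI s μ X (fun ω => (Z ω, Z' ω)) :=
  MI_mono_right hμ h1 X (fun _ _ _ _ h => (Prod.ext_iff.1 h).2)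

/-- `MI(X;(Y,Z)) ≤ MI(X;Y) + Ent Z` -/
theorem MI_pair_le_add_Ent (hμ : ∀ ω ∈ s, 0 ≤ μ ω) (h1 : ∑ ω ∈ s, μ ω = 1) (X : Ω → α)
    (Y : Ω → β) (Z : Ω → γ) :
    MI s μ X (fun ω => (Y ω, Z ω)) ≤ MI s μ X Y + Ent s μ Z := by
  have h2 := Ent_pair_le_add hμ h1 Y Z
  have h3 : Ent s μ (fun ω => (X ω, Y ω)) ≤ Ent s μ (fun ω => (X ω, (Y ω, Z ω))) :=
    Ent_mono_of_det hμ (fun _ _ _ _ h => by
      simp only [Prod.mk.injEq] at h
      exact Prod.ext h.1 h.2.1)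
  unfold MI
  linarith

/-- chain rule `MI((X,Y);Z) = MI(X;Z) + MI(Y;(X,Z)) - MI(X;Y)` -/
theorem MI_chain (X : Ω → α) (Y : Ω → β) (Z : Ω → γ) :
    MI s μ (fun ω => (X ω, Y ω)) Z = MI s μ X Z + MI s μ Y (fun ω => (X ω, Z ω)) -
      MI s μ X Y := by
  unfold MI
  have e : Ent s μ (fun ω => ((X ω, Y ω), Z ω)) = Ent s μ (fun ω => (Y ω, (X ω, Z ω))) :=
    Ent_congr (fun _ _ _ _ => by simp only [Prod.mk.injEq]; tauto)
  rw [e]
  ring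

/-! ### families of variables -/

theorem XV_eq_iff (X : ℕ → Ω → ℤ) (V : Finset ℕ) (ω ω' : Ω) :
    XV X V ω = XV X V ω' ↔ ∀ p ∈ V, X p ω = X p ω' := by
  constructor
  · intro h p hp
    have := congrFun h p
    simp only [XV, hp, if_true] at this
    exact this
  · intro h
    funext p
    unfold XV
    by_cases hp : p ∈ V
    · rw [if_pos hp, if_pos hp]; exact h p hp
    · rw [if_neg hp, if_neg hp]

theorem XV_det_mono (X : ℕ → Ω → ℤ) {U V : Finset ℕ} (h : U ⊆ V) {ω ω' : Ω}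
    (h2 : XV X V ω = XV X V ω') : XV X U ω = XV X U ω' :=
  (XV_eq_iff X U ω ω').2 (fun p hp => (XV_eq_iff X V ω ω').1 h2 p (h hp))

theorem XV_det_mem (X : ℕ → Ω → ℤ) {V : Finset ℕ} {p : ℕ} (h : p ∈ V) {ω ω' : Ω}
    (h2 : XV X V ω = XV X V ω') : X p ω = X p ω' :=
  (XV_eq_iff X V ω ω').1 h2 p h

theorem XV_insert_iff (X : ℕ → Ω → ℤ) (p : ℕ) (V : Finset ℕ) (ω ω' : Ω) :
    XV X (insert p V) ω = XV X (insert p V) ω' ↔ X p ω = X p ω' ∧ XV X V ω = XV X V ω' := by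
  rw [XV_eq_iff, XV_eq_iff]
  simp only [Finset.mem_insert, forall_eq_or_imp]

theorem XV_union_iff (X : ℕ → Ω → ℤ) (U V : Finset ℕ) (ω ω' : Ω) :
    XV X (U ∪ V) ω = XV X (U ∪ V) ω' ↔ XV X U ω = XV X U ω' ∧ XV X V ω = XV X V ω' := by
  rw [XV_eq_iff, XV_eq_iff, XV_eq_iff]
  simp only [Finset.mem_union]
  constructor
  · intro h
    exact ⟨fun p hp => h p (Or.inl hp), fun p hp => h p (Or.inr hp)⟩
  · rintro ⟨h1, h2⟩ p (hp | hp)
    · exact h1 p hp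
    · exact h2 p hp

theorem Ent_XV_empty (h1 : ∑ ω ∈ s, μ ω = 1) (X : ℕ → Ω → ℤ) : Ent s μ (XV X ∅) = 0 :=
  Ent_eq_zero h1 (fun ω _ ω' _ => (XV_eq_iff X ∅ ω ω').2 (fun p hp => by simp at hp))

theorem Ent_XV_singleton (X : ℕ → Ω → ℤ) (p : ℕ) : Ent s μ (XV X {p}) = Ent s μ (X p) :=
  Ent_congr (fun ω _ ω' _ => by rw [XV_eq_iff]; simp)

theorem Ent_XV_insert (X : ℕ → Ω → ℤ) (p : ℕ) (V : Finset ℕ) :
    Ent s μ (XV X (insert p V)) = Ent s μ (fun ω => (X p ω, XV X V ω)) :=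
  Ent_congr (fun ω _ ω' _ => by rw [XV_insert_iff, Prod.mk.injEq])

theorem Ent_XV_union (X : ℕ → Ω → ℤ) (U V : Finset ℕ) :
    Ent s μ (XV X (U ∪ V)) = Ent s μ (fun ω => (XV X U ω, XV X V ω)) :=
  Ent_congr (fun ω _ ω' _ => by rw [XV_union_iff, Prod.mk.injEq])

theorem Ent_XV_mono (hμ : ∀ ω ∈ s, 0 ≤ μ ω) (X : ℕ → Ω → ℤ) {U V : Finset ℕ} (h : U ⊆ V) :
    Ent s μ (XV X U) ≤ Ent s μ (XV X V) :=
  Ent_mono_of_det hμ (fun _ _ _ _ h2 => XV_det_mono X h h2)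

/-- subadditivity over a family -/
theorem Ent_XV_le_sum (hμ : ∀ ω ∈ s, 0 ≤ μ ω) (h1 : ∑ ω ∈ s, μ ω = 1) (X : ℕ → Ω → ℤ)
    (V : Finset ℕ) : Ent s μ (XV X V) ≤ ∑ p ∈ V, Ent s μ (X p) := by
  induction V using Finset.induction_on with
  | empty => rw [Ent_XV_empty h1, Finset.sum_empty]
  | insert p V hp ih =>
    rw [Ent_XV_insert, Finset.sum_insert hp]
    have := Ent_pair_le_add hμ h1 (X p) (XV X V)
    linarith

/-- `Ent(U ∪ V) ≤ Ent U + Ent V` -/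
theorem Ent_XV_union_le (hμ : ∀ ω ∈ s, 0 ≤ μ ω) (h1 : ∑ ω ∈ s, μ ω = 1) (X : ℕ → Ω → ℤ)
    (U V : Finset ℕ) : Ent s μ (XV X (U ∪ V)) ≤ Ent s μ (XV X U) + Ent s μ (XV X V) := by
  rw [Ent_XV_union]
  exact Ent_pair_le_add hμ h1 _ _

/-- submodularity for families -/
theorem Ent_XV_submod (hμ : ∀ ω ∈ s, 0 ≤ μ ω) (h1 : ∑ ω ∈ s, μ ω = 1) (X : ℕ → Ω → ℤ)
    (U V : Finset ℕ) : Ent s μ (XV X (U ∪ V)) + Ent s μ (XV X (U ∩ V)) ≤
      Ent s μ (XV X U) + Ent s μ (XV X V) :=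
  Ent_submod' hμ h1 (fun _ _ _ _ h => XV_det_mono X Finset.inter_subset_left h)
    (fun _ _ _ _ h => XV_det_mono X Finset.inter_subset_right h)
    (fun ω _ ω' _ h2 h3 => (XV_union_iff X U V ω ω').2 ⟨h2, h3⟩)

/-- the increments of the entropy decrease: for `V ⊆ V'`
`Ent(p, V') - Ent V' ≤ Ent(p, V) - Ent V` -/
theorem Ent_XV_insert_le (hμ : ∀ ω ∈ s, 0 ≤ μ ω) (h1 : ∑ ω ∈ s, μ ω = 1) (X : ℕ → Ω → ℤ)
    (p : ℕ) {V V' : Finset ℕ} (h : V ⊆ V') :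
    Ent s μ (XV X (insert p V')) + Ent s μ (XV X V) ≤
      Ent s μ (XV X (insert p V)) + Ent s μ (XV X V') :=
  Ent_submod' hμ h1
    (fun _ _ _ _ h2 => XV_det_mono X (Finset.subset_insert p V) h2)
    (fun _ _ _ _ h2 => XV_det_mono X h h2)
    (fun ω _ ω' _ h2 h3 => (XV_insert_iff X p V' ω ω').2
      ⟨((XV_insert_iff X p V ω ω').1 h2).1, h3⟩)

/-- the same for unions -/
theorem Ent_XV_union_le_of_subset (hμ : ∀ ω ∈ s, 0 ≤ μ ω) (h1 : ∑ ω ∈ s, μ ω = 1)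
    (X : ℕ → Ω → ℤ) (U : Finset ℕ) {V V' : Finset ℕ} (h : V ⊆ V') :
    Ent s μ (XV X (U ∪ V')) + Ent s μ (XV X V) ≤
      Ent s μ (XV X (U ∪ V)) + Ent s μ (XV X V') :=
  Ent_submod' hμ h1
    (fun _ _ _ _ h2 => XV_det_mono X Finset.subset_union_right h2)
    (fun _ _ _ _ h2 => XV_det_mono X h h2)
    (fun ω _ ω' _ h2 h3 => (XV_union_iff X U V' ω ω').2
      ⟨((XV_union_iff X U V ω ω').1 h2).1, h3⟩)

theorem MI_XV (X : ℕ → Ω → ℤ) (U V : Finset ℕ) :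
    MI s μ (XV X U) (XV X V) =
      Ent s μ (XV X U) + Ent s μ (XV X V) - Ent s μ (XV X (U ∪ V)) := by
  unfold MI
  rw [Ent_XV_union]

theorem MI_XV_mem (X : ℕ → Ω → ℤ) (p : ℕ) (V : Finset ℕ) :
    MI s μ (X p) (XV X V) =
      Ent s μ (X p) + Ent s μ (XV X V) - Ent s μ (XV X (insert p V)) := by
  unfold MI
  rw [Ent_XV_insert]

theorem MI_XV_mono_left (hμ : ∀ ω ∈ s, 0 ≤ μ ω) (h1 : ∑ ω ∈ s, μ ω = 1) (X : ℕ → Ω → ℤ)
    {U U' : Finset ℕ} (h : U ⊆ U') (Z : Ω → β) :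
    MI s μ (XV X U) Z ≤ MI s μ (XV X U') Z :=
  MI_mono_left hμ h1 Z (fun _ _ _ _ h2 => XV_det_mono X h h2)

theorem MI_XV_mono_right (hμ : ∀ ω ∈ s, 0 ≤ μ ω) (h1 : ∑ ω ∈ s, μ ω = 1) (X : ℕ → Ω → ℤ)
    (Y : Ω → α) {V V' : Finset ℕ} (h : V ⊆ V') (Z : Ω → β) :
    MI s μ Y (fun ω => (XV X V ω, Z ω)) ≤ MI s μ Y (fun ω => (XV X V' ω, Z ω)) :=
  MI_mono_right hμ h1 Y (fun _ _ _ _ h2 =>
    Prod.ext (XV_det_mono X h (Prod.ext_iff.1 h2).1) (Prod.ext_iff.1 h2).2)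


/-! ### further facts -/

theorem pr_eq_of_val [DecidableEq α] {X : Ω → α} {ω : Ω} {v : α} (h : X ω = v) :
    pr s μ X ω = ∑ ω' ∈ s.filter (fun ω' => X ω' = v), μ ω' := by
  subst h
  exact pr_def' s μ X ω

theorem pr_pair_le_left (hμ : ∀ ω ∈ s, 0 ≤ μ ω) (X : Ω → α) (Z : Ω → β) (ω : Ω) :
    pr s μ (fun ω => (X ω, Z ω)) ω ≤ pr s μ X ω :=
  pr_mono_of_det hμ (fun _ _ h => (Prod.ext_iff.1 h).1)

theorem pr_pair_le_right (hμ : ∀ ω ∈ s, 0 ≤ μ ω) (X : Ω → α) (Z : Ω → β) (ω : Ω) :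
    pr s μ (fun ω => (X ω, Z ω)) ω ≤ pr s μ Z ω :=
  pr_mono_of_det hμ (fun _ _ h => (Prod.ext_iff.1 h).2)

/-- entropy as a sum over values -/
theorem Ent_eq_sum_values [DecidableEq α] (s : Finset Ω) (μ : Ω → ℝ) (X : Ω → α) :
    Ent s μ X = ∑ v ∈ s.image X, Real.negMulLog (∑ ω ∈ s.filter (fun ω => X ω = v), μ ω) := by
  have e := sum_mul_comp_eq s μ X
    (fun v => Real.log (∑ ω ∈ s.filter (fun ω => X ω = v), μ ω))
  unfold Ent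
  have e1 : ∑ ω ∈ s, μ ω * Real.log (pr s μ X ω) =
      ∑ ω ∈ s, μ ω * Real.log (∑ ω' ∈ s.filter (fun ω' => X ω' = X ω), μ ω') := by
    refine Finset.sum_congr rfl (fun ω _ => ?_)
    rw [pr_def']
  rw [e1, e, ← Finset.sum_neg_distrib]
  refine Finset.sum_congr rfl (fun v _ => ?_)
  unfold Real.negMulLog
  ring

/-- mutual information as one sum -/
theorem MI_eq_sum (X : Ω → α) (Z : Ω → β) :
    MI s μ X Z = ∑ ω ∈ s, μ ω * (Real.log (pr s μ (fun ω => (X ω, Z ω)) ω) -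
      Real.log (pr s μ X ω) - Real.log (pr s μ Z ω)) := by
  unfold MI Ent
  simp only [mul_sub, Finset.sum_sub_distrib]
  ring

/-- mutual information as one sum of logarithms of quotients -/
theorem MI_eq_sum_log (hμ : ∀ ω ∈ s, 0 ≤ μ ω) (X : Ω → α) (Z : Ω → β) :
    MI s μ X Z = ∑ ω ∈ s, μ ω * Real.log (pr s μ (fun ω => (X ω, Z ω)) ω /
      (pr s μ X ω * pr s μ Z ω)) := by
  rw [MI_eq_sum]
  refine Finset.sum_congr rfl (fun ω hω => ?_)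
  rcases (hμ ω hω).eq_or_lt with h0 | h0
  · rw [← h0]; simp
  · have hX := pr_pos hμ X hω h0
    have hZ := pr_pos hμ Z hω h0
    have hXZ := pr_pos hμ (fun ω => (X ω, Z ω)) hω h0
    rw [Real.log_div hXZ.ne' (mul_pos hX hZ).ne', Real.log_mul hX.ne' hZ.ne']
    ring

/-- Jensen in the form used for pinning: if `∑ μ t ≤ 1`, `t > 0` where `μ > 0`, then
`∑ μ log t ≤ 0` -/
theorem sum_mu_log_nonpos (hμ : ∀ ω ∈ s, 0 ≤ μ ω) (h1 : ∑ ω ∈ s, μ ω = 1) (t : Ω → ℝ)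
    (ht : ∀ ω ∈ s, 0 < μ ω → 0 < t ω) (hs : ∑ ω ∈ s, μ ω * t ω ≤ 1) :
    ∑ ω ∈ s, μ ω * Real.log (t ω) ≤ 0 := by
  have : ∑ ω ∈ s, μ ω * Real.log (t ω) ≤ ∑ ω ∈ s, (μ ω * t ω - μ ω) := by
    refine Finset.sum_le_sum (fun ω hω => ?_)
    rcases (hμ ω hω).eq_or_lt with h0 | h0
    · rw [← h0]; simp
    · have := Real.log_le_sub_one_of_pos (ht ω hω h0)
      nlinarith [this, h0]
  rw [Finset.sum_sub_distrib, h1] at this
  linarith

/-- the second bracket of the chain rule for `KLt` -/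
theorem Ent_chain_le_sum_MI (hμ : ∀ ω ∈ s, 0 ≤ μ ω) (h1 : ∑ ω ∈ s, μ ω = 1)
    (X : ℕ → Ω → ℤ) (Z : Ω → β) (S1 S2 : Finset ℕ) (hd : Disjoint S1 S2) :
    Ent s μ (fun ω => (XV X S1 ω, Z ω)) + ∑ p ∈ S2, Ent s μ (X p) -
        Ent s μ (fun ω => (XV X (S1 ∪ S2) ω, Z ω)) ≤
      ∑ p ∈ S2, MI s μ (X p) (fun ω => (XV X ((S1 ∪ S2).erase p) ω, Z ω)) := by
  induction S2 using Finset.induction_on with
  | empty => simp
  | insert p S2 hp ih =>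
    have hd' : Disjoint S1 S2 := hd.mono_right (Finset.subset_insert p S2)
    have hp1 : p ∉ S1 := fun h => (Finset.disjoint_left.1 hd h) (Finset.mem_insert_self p S2)
    have ih' := ih hd'
    have eU : S1 ∪ insert p S2 = insert p (S1 ∪ S2) := Finset.union_insert p S1 S2
    have hpU : p ∉ S1 ∪ S2 := by simp [hp1, hp]
    rw [Finset.sum_insert hp, Finset.sum_insert hp, eU, Finset.erase_insert hpU]
    have hm : ∑ q ∈ S2, MI s μ (X q) (fun ω => (XV X ((S1 ∪ S2).erase q) ω, Z ω)) ≤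
        ∑ q ∈ S2, MI s μ (X q) (fun ω => (XV X ((insert p (S1 ∪ S2)).erase q) ω, Z ω)) := by
      refine Finset.sum_le_sum (fun q _ => ?_)
      exact MI_XV_mono_right hμ h1 X (X q)
        (Finset.erase_subset_erase q (Finset.subset_insert p _)) Z
    have e : MI s μ (X p) (fun ω => (XV X (S1 ∪ S2) ω, Z ω)) =
        Ent s μ (X p) + Ent s μ (fun ω => (XV X (S1 ∪ S2) ω, Z ω)) -
          Ent s μ (fun ω => (XV X (insert p (S1 ∪ S2)) ω, Z ω)) := by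
      unfold MI
      congr 1
      refine Ent_congr (fun ω _ ω' _ => ?_)
      simp only [Prod.mk.injEq]
      rw [XV_insert_iff]
      exact and_assoc.symm
    linarith

end entlib

end Vale.Agent.P042.SS
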