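import Vale.Agent.P042.SS.Spec
import Vale.Agent.P042.SS.EntLib

set_option autoImplicit false

/-!
Block PIN: the defect bound `DefectStmt`.
-/

namespace Vale.Agent.P042.SS

open Finset

/-- number of integers of `[1, N']` in a residue class -/
theorem card_class_le (N' M : ℕ) (hM : 0 < M) (n : ℤ) :
    ((((Icc (1 : ℤ) N').filter (fun n' => n' ≡ n [ZMOD (M : ℤ)])).card : ℕ) : ℝ) ≤
      (N' : ℝ) / M + 1 := by
  have hIcc : Icc (1 : ℤ) N' = Ioc (0 : ℤ) N' := by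
    ext x; simp only [Finset.mem_Icc, Finset.mem_Ioc]; omega
  have hM' : (0 : ℤ) < (M : ℤ) := by exact_mod_cast hM
  have hMR : (0 : ℝ) < (M : ℝ) := by exact_mod_cast hM
  have h1 := Int.Ioc_filter_modEq_card (0 : ℤ) (N' : ℤ) hM' n
  rw [hIcc]
  have h2 : ((((Ioc (0 : ℤ) N').filter (fun n' => n' ≡ n [ZMOD (M : ℤ)])).card : ℕ) : ℤ) ≤
      max (⌊(((N' : ℤ) : ℚ) - (n : ℚ)) / ((M : ℤ) : ℚ)⌋ -
        ⌊(((0 : ℤ) : ℚ) - (n : ℚ)) / ((M : ℤ) : ℚ)⌋) 0 := by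
    exact_mod_cast h1.le
  have hMQ : (0 : ℚ) < ((M : ℤ) : ℚ) := by exact_mod_cast hM
  have h3 : (max (⌊(((N' : ℤ) : ℚ) - (n : ℚ)) / ((M : ℤ) : ℚ)⌋ -
        ⌊(((0 : ℤ) : ℚ) - (n : ℚ)) / ((M : ℤ) : ℚ)⌋) 0 : ℤ) ≤ (N' : ℚ) / M + 1 := by
    rw [Int.cast_max]
    refine max_le ?_ (by push_cast; positivity)
    have a1 := Int.floor_le ((((N' : ℤ) : ℚ) - (n : ℚ)) / ((M : ℤ) : ℚ))
    have a2 := Int.lt_floor_add_one ((((0 : ℤ) : ℚ) - (n : ℚ)) / ((M : ℤ) : ℚ))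
    have a3 : (((N' : ℤ) : ℚ) - (n : ℚ)) / ((M : ℤ) : ℚ) - (((0 : ℤ) : ℚ) - (n : ℚ)) / ((M : ℤ) : ℚ) =
        (N' : ℚ) / M := by
      push_cast
      ring
    push_cast at a1 a2 a3 ⊢
    linarith
  have h4 : ((((Ioc (0 : ℤ) N').filter (fun n' => n' ≡ n [ZMOD (M : ℤ)])).card : ℕ) : ℚ) ≤
      (N' : ℚ) / M + 1 := le_trans (by exact_mod_cast h2) h3
  have h5 : (((((Ioc (0 : ℤ) N').filter (fun n' => n' ≡ n [ZMOD (M : ℤ)])).card : ℕ) : ℚ) : ℝ) ≤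
      (((N' : ℚ) / M + 1 : ℚ) : ℝ) := by exact_mod_cast h4
  push_cast at h5
  exact h5

/-- congruence modulo a product of distinct primes -/
theorem modEq_prod_of_forall (V : Finset ℕ) (hV : ∀ p ∈ V, p.Prime) (a b : ℤ)
    (h : ∀ p ∈ V, a % (p : ℤ) = b % (p : ℤ)) : a ≡ b [ZMOD ((∏ p ∈ V, p : ℕ) : ℤ)] := by
  rw [Int.modEq_iff_dvd]
  have h1 : (∏ p ∈ V, p) ∣ (b - a).natAbs := by
    refine Finset.prod_primes_dvd _ (fun p hp => Nat.Prime.prime (hV p hp)) (fun p hp => ?_)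
    have h2 : (p : ℤ) ∣ b - a := (Int.ModEq.dvd (h p hp : a ≡ b [ZMOD (p : ℤ)]))
    exact Int.natCast_dvd.1 h2
  exact Int.natCast_dvd.2 h1

theorem defect_holds : DefectStmt := by
  intro k N' Nmin W τ η Φ G ν Gm hP hN hG V hVW hM
  have hΦ := hP.Φpos
  have hN0 : (0 : ℝ) < N' := by exact_mod_cast hN
  have hNΦ : (0 : ℝ) < N' * Φ := mul_pos hN0 hΦ
  set s := Icc (1 : ℤ) (N' : ℤ) with hs
  set μ : ℤ → ℝ := fun n => G n / (N' * Φ) with hμdef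
  have hμ : ∀ ω ∈ s, 0 ≤ μ ω := fun ω _ => div_nonneg (hP.G0 ω) hNΦ.le
  have h1 : ∑ ω ∈ s, μ ω = 1 := by
    rw [hμdef, ← Finset.sum_div, hs, hP.Gsum, div_self hNΦ.ne']
  have hprime : ∀ p ∈ V, p.Prime := fun p hp => hP.prime p (hVW hp)
  set M := ∏ p ∈ V, p with hMdef
  have hM0 : 0 < M := Finset.prod_pos (fun p hp => (hprime p hp).pos)
  have hMR : (0 : ℝ) < (M : ℝ) := by exact_mod_cast hM0
  have hMN : (M : ℝ) ≤ N' := by exact_mod_cast hM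
  -- the logarithm of the modulus
  have hlog : ∑ p ∈ V, Real.log p = Real.log M := by
    rw [hMdef, Nat.cast_prod, Real.log_prod (fun p hp => by
      exact_mod_cast (hprime p hp).ne_zero)]
  -- bound of the fibres
  have hfib : ∀ ω ∈ s, 0 < μ ω → (M : ℝ) * pr s μ (XV Xr V) ω ≤ 2 * Gm / Φ := by
    intro ω hω h0
    have hGpos : 0 < G ω := by
      by_contra hneg
      have : G ω = 0 := le_antisymm (not_lt.1 hneg) (hP.G0 ω)
      simp [hμdef, this] at h0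
    have hGm : 0 < Gm := lt_of_lt_of_le hGpos (hG ω)
    have hb : pr s μ (XV Xr V) ω ≤
        ((s.filter (fun n' => n' ≡ ω [ZMOD (M : ℤ)])).card : ℝ) * (Gm / (N' * Φ)) := by
      classical
      rw [pr_def', ← nsmul_eq_mul]
      have hsub : s.filter (fun ω' => XV Xr V ω' = XV Xr V ω) ⊆
          s.filter (fun n' => n' ≡ ω [ZMOD (M : ℤ)]) := by
        intro x hx
        rw [Finset.mem_filter] at hx ⊢
        refine ⟨hx.1, ?_⟩
        exact modEq_prod_of_forall V hprime x ω (fun p hp => (XV_eq_iff Xr V x ω).1 hx.2 p hp)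
      refine (Finset.sum_le_sum_of_subset_of_nonneg hsub
        (fun x hx _ => hμ x (Finset.mem_filter.1 hx).1)).trans ?_
      refine Finset.sum_le_card_nsmul _ _ _ (fun x _ => ?_)
      exact div_le_div_of_nonneg_right (hG x) hNΦ.le
    have hc := card_class_le N' M hM0 ω
    rw [← hs] at hc
    have hc2 : ((s.filter (fun n' => n' ≡ ω [ZMOD (M : ℤ)])).card : ℝ) ≤ 2 * (N' / M) := by
      have : (1 : ℝ) ≤ N' / M := by rw [le_div_iff₀ hMR]; linarith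
      linarith
    have hq : 0 ≤ Gm / (N' * Φ) := div_nonneg hGm.le hNΦ.le
    calc (M : ℝ) * pr s μ (XV Xr V) ω
        ≤ (M : ℝ) * (((s.filter (fun n' => n' ≡ ω [ZMOD (M : ℤ)])).card : ℝ) *
          (Gm / (N' * Φ))) := mul_le_mul_of_nonneg_left hb hMR.le
      _ ≤ (M : ℝ) * ((2 * (N' / M)) * (Gm / (N' * Φ))) :=
          mul_le_mul_of_nonneg_left (mul_le_mul_of_nonneg_right hc2 hq) hMR.le
      _ = 2 * Gm / Φ := by field_simp
  -- conclusion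
  rw [hlog]
  have e1 : Real.log M = ∑ ω ∈ s, μ ω * Real.log M := by
    rw [← Finset.sum_mul, h1, one_mul]
  have e2 : Real.log (2 * Gm / Φ) = ∑ ω ∈ s, μ ω * Real.log (2 * Gm / Φ) := by
    rw [← Finset.sum_mul, h1, one_mul]
  unfold Ent
  rw [sub_neg_eq_add, e1, e2, ← Finset.sum_add_distrib]
  refine Finset.sum_le_sum (fun ω hω => ?_)
  rcases (hμ ω hω).eq_or_lt with h0 | h0
  · rw [← h0]; simp
  · have hp := pr_pos hμ (XV Xr V) hω h0
    rw [← mul_add, ← Real.log_mul hMR.ne' hp.ne']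
    exact mul_le_mul_of_nonneg_left (Real.log_le_log (mul_pos hMR hp) (hfib ω hω h0)) h0.le

end Vale.Agent.P042.SS
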