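import Vale.Agent.P042.MathlibUsed
import Vale.Agent.P042.Defs
import Vale.Agent.P042.Bdl.B1

set_option autoImplicit false

/-!
Definitions for Theorem S (route II: pinned extremal state + entropy + level inequality).
-/

namespace Vale.Agent.P042.SS

open Polynomial Finset

/-! ### windows, exponential sums, masses -/

/-- windowed exponential sum of the weight `G` over `(y, y+M]` at frequency `θ` -/
noncomputable def Fw (G : ℤ → ℝ) (y : ℤ) (M : ℕ) (θ : ℝ) : ℂ :=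
  ∑ n ∈ Ioc y (y + M), (G n : ℂ) * e (-((n : ℝ) * θ))

/-- energy of the window at denominator `q` -/
noncomputable def enG (G : ℤ → ℝ) (y : ℤ) (M q : ℕ) : ℝ :=
  ∑ a ∈ (range q).filter (Nat.Coprime q), ‖Fw G y M ((a : ℝ) / q)‖ ^ 2

/-- mass of `G` in the window `(y, y+M]` in the class `x mod D` -/
noncomputable def mass (G : ℤ → ℝ) (y : ℤ) (M D : ℕ) (x : ℤ) : ℝ :=
  ∑ n ∈ (Ioc y (y + M)).filter (fun n : ℤ => n ≡ x [ZMOD (D : ℕ)]), G n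

/-- normalised complete sum `(1/q) ∑_{x<q} e(a f(x)/q)` -/
noncomputable def Gam (f : ℤ[X]) (a : ℤ) (q : ℕ) : ℂ :=
  (∑ x ∈ range q, e (a * ((f.eval (x : ℤ) : ℤ) : ℝ) / q)) / q

/-- the bilinear form of two windows at distance `3H` -/
noncomputable def Bil (G : ℤ → ℝ) (N' H : ℕ) (θ : ℝ) : ℂ :=
  ∑ y ∈ Icc (-(N' : ℤ)) (2 * N'),
    Fw G (y + H) H θ * (starRingEnd ℂ) (Fw G (y - 2 * H - 1) H θ)

/-! ### the rates of the complete sums -/

/-- the rate function of B1 `complete_sums` -/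
structure KapOK (k E K p0 : ℕ) (kap : ℕ → ℕ → ℝ) : Prop where
  nn : ∀ p j, 0 ≤ kap p j
  le1 : ∀ p j, kap p j ≤ 1
  pw : ∀ p j, p.Prime → 1 ≤ j → kap p j ≤ K * (p : ℝ) ^ (-(j : ℝ) / E)
  one : ∀ p, p.Prime → p0 < p → kap p 1 ≤ k / Real.sqrt p
  two : ∀ p j, p.Prime → p0 < p → 2 ≤ j → kap p j ≤ k / p

/-- covered moduli: `q = q0 q1`, `q0` is `w`-smooth, `q1` squarefree with primes in `(w, w1]` -/
def Cov (w w1 q : ℕ) : Prop :=
  ∀ p ∈ q.primeFactors, p ≤ w ∨ (p ≤ w1 ∧ q.factorization p = 1)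

instance (w w1 : ℕ) : DecidablePred (Cov w w1) := fun q => by unfold Cov; infer_instance

/-- primes in `(w, w1]` -/
def Wp (w w1 : ℕ) : Finset ℕ := (Ioc w w1).filter Nat.Prime

/-- items of the covered part -/
def Ic (w w1 Q : ℕ) : Finset (ℕ × ℕ) :=
  ((range (Q + 1)) ×ˢ (range (Q + 1))).filter
    (fun i => i.1.Prime ∧ 1 ≤ i.2 ∧ i.1 ^ i.2 ≤ Q ∧ (i.1 ≤ w ∨ (i.1 ≤ w1 ∧ i.2 = 1)))

/-- cost of a set of items: `log` of the modulus `WR R` -/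
noncomputable def cost (R : Finset (ℕ × ℕ)) : ℝ := ∑ i ∈ R, (i.2 : ℝ) * Real.log i.1

/-- smooth part of `WR R` -/
def rOf (w : ℕ) (R : Finset (ℕ × ℕ)) : ℕ := ∏ i ∈ R.filter (fun i => i.1 ≤ w), i.1 ^ i.2

/-- set of large primes of `R` -/
def SOf (w : ℕ) (R : Finset (ℕ × ℕ)) : Finset ℕ := (R.filter (fun i => w < i.1)).image Prod.fst

/-! ### general level inequality -/

/-- `q` is good: every exact prime power of `q` divides `W` or is a coordinate with exponent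
at most `g p` -/
def goodg (P : Finset ℕ) (g : ℕ → ℕ) (W q : ℕ) : Prop :=
  ∀ p ∈ q.primeFactors, p ^ q.factorization p ∣ W ∨ (p ∈ P ∧ q.factorization p ≤ g p)

/-- active coordinates of `q` -/
def Ug (W q : ℕ) : Finset ℕ := q.primeFactors.filter (fun p => ¬ p ^ q.factorization p ∣ W)

/-! ### pinned extremal state -/

/-- nonnegative `p`-periodic weights of mean one -/
structure Wts (W : Finset ℕ) (ν : ℕ → ℤ → ℝ) : Prop where
  nn : ∀ p n, 0 ≤ ν p n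
  per : ∀ p ∈ W, ∀ n, ν p (n + p) = ν p n
  mean : ∀ p ∈ W, ∑ x ∈ range p, ν p x = p

/-- the extremal state -/
structure Pinned (k N' Nmin : ℕ) (W : Finset ℕ) (τ η Φ : ℝ) (G : ℤ → ℝ) (ν : ℕ → ℤ → ℝ) :
    Prop where
  prime : ∀ p ∈ W, p.Prime
  wts : Wts W ν
  Φpos : 0 < Φ
  G0 : ∀ n, 0 ≤ G n
  Gsupp : ∀ n, G n ≠ 0 → 1 ≤ n ∧ n ≤ N'
  Gsum : ∑ n ∈ Icc (1 : ℤ) N', G n = N' * Φ
  Gle : ∀ n, G n ≤ ∏ p ∈ W, (ν p n) ^ τ
  marg : ∀ p ∈ W, ∀ x : ℤ, mass G 0 N' p x = N' * Φ * ν p x / p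
  sb : ∀ (D M : ℕ) (y x : ℤ), 1 ≤ D → D ^ k * Nmin ≤ M → D ^ k * Nmin ≤ N' →
    mass G y M D x ≤ (M : ℝ) / D * Φ * (1 + (D : ℝ) ^ k / M) * ((N' * (D : ℝ) ^ k / M) ^ η) *
      ∏ p ∈ W.filter (fun p => p ∣ D), (ν p x) ^ τ
  pin : ∀ (U : Finset ℕ) (F : ℕ → ℤ → ℝ), U ⊆ W → (∀ p n, 0 ≤ F p n) →
    (∀ p ∈ U, ∀ n, F p (n + p) = F p n) →
    (∀ p ∈ U, ∑ n ∈ Icc (1 : ℤ) N', G n * F p n = N' * Φ) →
    ∑ n ∈ Icc (1 : ℤ) N', G n * ∏ p ∈ U, (F p n) ^ τ ≤ N' * Φ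

/-! ### entropy of variables on a finite weighted set -/

section ent
variable {Ω : Type*} {α β : Type*}

open Classical in
/-- probability of the fibre of `X` through `ω` -/
noncomputable def pr (s : Finset Ω) (μ : Ω → ℝ) (X : Ω → α) (ω : Ω) : ℝ :=
  ∑ ω' ∈ s.filter (fun ω' => X ω' = X ω), μ ω'

/-- Shannon entropy of `X` -/
noncomputable def Ent (s : Finset Ω) (μ : Ω → ℝ) (X : Ω → α) : ℝ :=
  - ∑ ω ∈ s, μ ω * Real.log (pr s μ X ω)

/-- mutual information -/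
noncomputable def MI (s : Finset Ω) (μ : Ω → ℝ) (X : Ω → α) (Z : Ω → β) : ℝ :=
  Ent s μ X + Ent s μ Z - Ent s μ (fun ω => (X ω, Z ω))

/-- the sub-family `(X p)_{p ∈ V}` as one variable -/
def XV (X : ℕ → Ω → ℤ) (V : Finset ℕ) (ω : Ω) (p : ℕ) : ℤ := if p ∈ V then X p ω else 0

end ent

/-- residue variables -/
def Xr (p : ℕ) (n : ℤ) : ℤ := n % p

/-! ### tiles -/

/-- tile of length `t` containing `n`, in `[1, N']`; the last tile is merged with the remainder -/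
noncomputable def tile (N' t : ℕ) (n : ℤ) : ℤ := min ((n - 1) / (t : ℤ)) (((N' / t : ℕ) : ℤ) - 1)

/-- length of the tile containing `n` -/
noncomputable def tlen (N' t : ℕ) (n : ℤ) : ℕ :=
  ((Icc (1 : ℤ) N').filter (fun n' => tile N' t n' = tile N' t n)).card

/-- mass of `G` in the tile of `n` and in the class of `n` mod `D` -/
noncomputable def fib (N' t D : ℕ) (G : ℤ → ℝ) (n : ℤ) : ℝ :=
  ∑ n' ∈ (Icc (1 : ℤ) N').filter
    (fun n' => tile N' t n' = tile N' t n ∧ n' ≡ n [ZMOD (D : ℕ)]), G n'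

/-- relative entropy of (residue mod `D`, tile) under `G / (N' Φ)` relative to
`(ψ / D) ⊗ uniform` -/
noncomputable def KLt (N' t D : ℕ) (G : ℤ → ℝ) (Φ : ℝ) (ψ : ℤ → ℝ) : ℝ :=
  ∑ n ∈ Icc (1 : ℤ) N', G n / (N' * Φ) *
    Real.log (fib N' t D G n / (Φ * tlen N' t n * ψ n / D))

/-- `(1/D) ∑_{x<D} ψ(x) e(-xθ)` -/
noncomputable def ph (ψ : ℤ → ℝ) (D : ℕ) (θ : ℝ) : ℂ :=
  (∑ x ∈ range D, (ψ x : ℂ) * e (-((x : ℝ) * θ))) / D

/-- number of `n ∈ [1,N']` in the window -/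
noncomputable def cnt (N' : ℕ) (y : ℤ) (M : ℕ) : ℕ :=
  ((Ioc y (y + M)).filter (fun n : ℤ => 1 ≤ n ∧ n ≤ (N' : ℤ))).card

/-- product weight -/
noncomputable def psi (ν : ℕ → ℤ → ℝ) (S : Finset ℕ) (n : ℤ) : ℝ := ∏ p ∈ S, ν p n

open Classical in
/-- Fourier coefficient of the product measure at `a/q` (zero unless `q` is squarefree with all
primes in `W`) -/
noncomputable def pihat (W : Finset ℕ) (ν : ℕ → ℤ → ℝ) (q : ℕ) (a : ℤ) : ℂ :=
  if Squarefree q ∧ q.primeFactors ⊆ W then ph (psi ν q.primeFactors) q ((a : ℝ) / q) else 0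

/-- level one energy of the weight `ν p` -/
noncomputable def th (ν : ℕ → ℤ → ℝ) (p : ℕ) : ℝ :=
  ∑ a ∈ Ico 1 p, ‖ph (ν p) p ((a : ℝ) / p)‖ ^ 2

end Vale.Agent.P042.SS
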