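import Vale.Agent.P042.SS.FinB

set_option autoImplicit false

/-!
EKL: the reduction by the chain rule, and the average of the `η`-terms.
-/

namespace Vale.Agent.P042.SS

open Finset

section eta

variable {w w1 Q : ℕ} {R : Finset (ℕ × ℕ)}

/-- the small part (`i.1 ≤ w'`) of the modulus of `R` -/
lemma small_modulus (hR : R ⊆ Ic w w1 Q) {w' : ℕ} (hw : w ≤ w') :
    rOf w R * ∏ p ∈ (SOf w R).filter (fun p => p ≤ w'), p =
      ∏ i ∈ R.filter (fun i => i.1 ≤ w'), i.1 ^ i.2 := by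
  have hinj : Set.InjOn Prod.fst
      (((R.filter (fun i => w < i.1)).filter (fun i => i.1 ≤ w') : Finset (ℕ × ℕ)) :
        Set (ℕ × ℕ)) := by
    intro i hi j hj hij
    rw [mem_coe, mem_filter, mem_filter] at hi hj
    exact Prod.ext hij ((item_large hR hi.1.1 hi.1.2).trans (item_large hR hj.1.1 hj.1.2).symm)
  have e0 : (SOf w R).filter (fun p => p ≤ w') =
      ((R.filter (fun i => w < i.1)).filter (fun i => i.1 ≤ w')).image Prod.fst := by
    unfold SOf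
    rw [filter_image]
  rw [e0, prod_image hinj, ← prod_filter_mul_prod_filter_not (R.filter (fun i => i.1 ≤ w'))
    (fun i => i.1 ≤ w)]
  congr 1
  · unfold rOf
    refine prod_congr ?_ fun _ _ => rfl
    rw [filter_filter]
    refine filter_congr fun i _ => ?_
    constructor
    · intro h; exact ⟨h.trans hw, h⟩
    · intro h; exact h.2
  · rw [filter_filter, filter_filter]
    refine prod_congr ?_ ?_
    · refine filter_congr fun i _ => ?_
      constructor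
      · intro h; exact ⟨h.2, not_le.2 h.1⟩
      · intro h; exact ⟨not_le.1 h.2, h.1⟩
    · intro i hi
      rw [mem_filter] at hi
      rw [item_large hR hi.1 (not_le.1 hi.2.2), pow_one]

lemma log_small_modulus (hR : R ⊆ Ic w w1 Q) {w' : ℕ} (hw : w ≤ w') :
    Real.log ((rOf w R * ∏ p ∈ (SOf w R).filter (fun p => p ≤ w'), p : ℕ) : ℝ) =
      ∑ i ∈ R, (if i.1 ≤ w' then (i.2 : ℝ) * Real.log i.1 else 0) := by
  rw [small_modulus hR hw, ← sum_filter, Nat.cast_prod, Real.log_prod]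
  · refine sum_congr rfl fun i _ => ?_
    rw [Nat.cast_pow, Real.log_pow]
  · intro i hi
    rw [mem_filter] at hi
    have := (mem_Ic.1 (hR hi.1)).1.pos
    have h : 0 < i.1 ^ i.2 := pow_pos this _
    exact_mod_cast h.ne'

lemma term_nonneg (hR : R ⊆ Ic w w1 Q) {i : ℕ × ℕ} (hi : i ∈ R) :
    0 ≤ (i.2 : ℝ) * Real.log i.1 := by
  have := (mem_Ic.1 (hR hi)).1.one_le
  exact mul_nonneg (Nat.cast_nonneg _) (Real.log_nonneg (by exact_mod_cast this))

lemma log_small_le_cost (hR : R ⊆ Ic w w1 Q) (w' : ℕ) :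
    ∑ i ∈ R, (if i.1 ≤ w' then (i.2 : ℝ) * Real.log i.1 else 0) ≤ cost R := by
  unfold cost
  refine sum_le_sum fun i hi => ?_
  split_ifs
  · exact le_rfl
  · exact term_nonneg hR hi

lemma log_small_nonneg (hR : R ⊆ Ic w w1 Q) (w' : ℕ) :
    0 ≤ ∑ i ∈ R, (if i.1 ≤ w' then (i.2 : ℝ) * Real.log i.1 else 0) := by
  refine sum_nonneg fun i hi => ?_
  split_ifs
  · exact term_nonneg hR hi
  · exact le_rfl

lemma small_modulus_pos (hR : R ⊆ Ic w w1 Q) {w' : ℕ} (hw : w ≤ w') :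
    1 ≤ rOf w R * ∏ p ∈ (SOf w R).filter (fun p => p ≤ w'), p := by
  rw [small_modulus hR hw]
  refine Nat.one_le_iff_ne_zero.2 (prod_ne_zero_iff.2 fun i hi => ?_)
  rw [mem_filter] at hi
  exact pow_ne_zero _ (mem_Ic.1 (hR hi.1)).1.pos.ne'

end eta

/-- the chain rule for one modulus -/
theorem kl_one (hK : KLChainStmt) {k N' Nmin t m0 w w' w1 Q : ℕ} {τ η Φ X : ℝ} {G : ℤ → ℝ}
    {ν : ℕ → ℤ → ℝ} (hP : Pinned k N' Nmin (Wp w w1) τ η Φ G ν) (hτ : 0 < τ) (hτ1 : τ ≤ 1)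
    (hη : 0 < η) (ht : 1 ≤ t) (htN : t ≤ N') (hNt : N' ≤ 16 * m0 * t) (hm0 : 1 ≤ m0)
    (hk : 1 ≤ k) (hw : w ≤ w') {R : Finset (ℕ × ℕ)} (hR : R ⊆ Ic w w1 Q) (hX : cost R ≤ X)
    (hXt : Real.exp (k * X) * Nmin ≤ t) :
    KLt N' t (WR R) G Φ (psi ν (SOf w R)) ≤
      Real.exp (k * X) / t + η * Real.log (16 * m0) +
      η * (k * ∑ i ∈ R, (if i.1 ≤ w' then (i.2 : ℝ) * Real.log i.1 else 0)) +
      ∑ p ∈ (SOf w R).filter (fun p => w' < p),
        MI (Icc (1 : ℤ) N') (fun n => G n / (N' * Φ)) (Xr p)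
          (fun n => (XV Xr ((SOf w R).erase p) n, (Xr (rOf w R) n, tile N' t n))) := by
  set S1 := (SOf w R).filter (fun p => p ≤ w') with hS1
  set S2 := (SOf w R).filter (fun p => w' < p) with hS2
  have hS : S1 ∪ S2 = SOf w R := by
    rw [hS1, hS2]
    have : (SOf w R).filter (fun p => w' < p) = (SOf w R).filter (fun p => ¬ p ≤ w') :=
      filter_congr fun p _ => not_le.symm
    rw [this]
    exact filter_union_filter_not_eq _ _
  have hdisj : Disjoint S1 S2 := by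
    rw [disjoint_left]
    intro p h1 h2
    rw [hS1, mem_filter] at h1
    rw [hS2, mem_filter] at h2
    exact absurd h1.2 (not_le.2 h2.2)
  have hsub := SOf_subset hR
  set D1 := rOf w R * ∏ p ∈ S1, p with hD1
  have hD1pos : 1 ≤ D1 := small_modulus_pos hR hw
  have hlog : Real.log (D1 : ℝ) = ∑ i ∈ R, (if i.1 ≤ w' then (i.2 : ℝ) * Real.log i.1 else 0) :=
    log_small_modulus hR hw
  have hD1r : (1 : ℝ) ≤ D1 := by exact_mod_cast hD1pos
  have hlogX : Real.log (D1 : ℝ) ≤ X := by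
    rw [hlog]; exact (log_small_le_cost hR w').trans hX
  have hD1k : ((D1 : ℝ)) ^ k ≤ Real.exp (k * X) := by
    have h1 : (D1 : ℝ) = Real.exp (Real.log D1) := (Real.exp_log (by linarith)).symm
    rw [h1, ← Real.exp_nat_mul]
    exact Real.exp_le_exp.2 (mul_le_mul_of_nonneg_left hlogX (Nat.cast_nonneg _))
  have htpos : (0 : ℝ) < t := by exact_mod_cast ht
  have hcond : D1 ^ k * Nmin ≤ t := by
    have : ((D1 ^ k * Nmin : ℕ) : ℝ) ≤ t := by
      push_cast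
      exact (mul_le_mul_of_nonneg_right hD1k (Nat.cast_nonneg _)).trans hXt
    exact_mod_cast this
  have key := hK k N' Nmin t (rOf w R) (Wp w w1) τ η Φ G ν S1 S2 hP hτ hτ1 hη ht htN
    (rOf_pos hR) ((filter_subset _ _).trans hsub) ((filter_subset _ _).trans hsub) hdisj
    (fun p hp => rOf_coprime hR hp) hk hcond
  rw [hS, ← WR_eq hR] at key
  refine key.trans ?_
  have h1 : ((rOf w R * ∏ p ∈ S1, p : ℕ) : ℝ) ^ k / t ≤ Real.exp (k * X) / t :=
    div_le_div_of_nonneg_right hD1k htpos.le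
  have h2 : η * Real.log (N' * ((rOf w R * ∏ p ∈ S1, p : ℕ) : ℝ) ^ k / t) ≤
      η * Real.log (16 * m0) +
      η * (k * ∑ i ∈ R, (if i.1 ≤ w' then (i.2 : ℝ) * Real.log i.1 else 0)) := by
    rw [← mul_add]
    refine mul_le_mul_of_nonneg_left ?_ hη.le
    rw [← hlog, ← Real.log_pow, ← Real.log_mul (by positivity) (by positivity)]
    have hN'pos : (0 : ℝ) < N' := by
      have : 1 ≤ N' := ht.trans htN
      exact_mod_cast this
    refine Real.log_le_log (by positivity) ?_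
    rw [div_le_iff₀ htpos]
    have hNt' : (N' : ℝ) ≤ 16 * m0 * t := by exact_mod_cast hNt
    have h0 : (0 : ℝ) ≤ (D1 : ℝ) ^ k := by positivity
    calc (N' : ℝ) * (D1 : ℝ) ^ k ≤ (16 * m0 * t) * (D1 : ℝ) ^ k :=
          mul_le_mul_of_nonneg_right hNt' h0
      _ = 16 * m0 * (D1 : ℝ) ^ k * t := by ring
  linarith

/-- the average of the small part of the cost -/
theorem avg_small_cost (hC : CostStmt) {k E K p0 : ℕ} {kap : ℕ → ℕ → ℝ} (hk : 1 ≤ k)
    (hE : 1 ≤ E) (hkap : KapOK k E K p0 kap) : ∃ C : ℝ, 0 < C ∧ ∀ (w w' w1 Q : ℕ),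
    ∑ R ∈ (Ic w w1 Q).powerset, wtR (fun i => kap i.1 i.2) (Ic w w1 Q) R *
      ∑ i ∈ R, (if i.1 ≤ w' then (i.2 : ℝ) * Real.log i.1 else 0) ≤
      C * (Real.sqrt w' + 1) := by
  obtain ⟨C, hC0, hCC⟩ := hC k E K p0 kap hk hE hkap
  refine ⟨C, hC0, fun w w' w1 Q => ?_⟩
  rw [sum_wtR_cost (fun i : ℕ × ℕ => kap i.1 i.2)
    (fun i : ℕ × ℕ => if i.1 ≤ w' then (i.2 : ℝ) * Real.log i.1 else 0)]
  have h1 : ∑ i ∈ Ic w w1 Q, kap i.1 i.2 *
      (if i.1 ≤ w' then (i.2 : ℝ) * Real.log i.1 else 0) =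
      ∑ i ∈ (Ic w w1 Q).filter (fun i => i.1 ≤ w'), kap i.1 i.2 * (i.2 * Real.log i.1) := by
    rw [sum_filter]
    refine sum_congr rfl fun i _ => ?_
    split_ifs <;> simp
  rw [h1]
  refine hCC w' _ fun i hi => ?_
  rw [mem_filter] at hi
  have := mem_Ic.1 hi.1
  exact ⟨this.1, this.2.1, hi.2⟩

/-- the thresholds -/
theorem eta_thresholds (k m0 : ℕ) (Ce Cc C ε : ℝ) (hCe : 0 < Ce) (hCc : 0 < Cc) (hC : 0 < C)
    (hε : 0 < ε) (hm0 : 1 ≤ m0) : ∃ P0 : ℝ, 1 ≤ P0 ∧ ∀ P : ℝ, P0 ≤ P →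
    Real.exp (k * (Cc * Real.sqrt P)) * (Real.exp (P / 2) + 1) * (16 * m0) ≤
      Real.exp (7 / 8 * P) ∧
    Real.exp (k * (Cc * Real.sqrt P)) * (16 * m0) ≤ ε / 3 * Real.exp (7 / 8 * P) ∧
    Ce / Real.sqrt P * Real.log (16 * m0) ≤ ε / 3 ∧
    Ce / Real.sqrt P * (k * C) ≤ ε / 3 := by
  have hm : (1 : ℝ) ≤ m0 := by exact_mod_cast hm0
  have hl1 : 0 ≤ Real.log (16 * m0) := Real.log_nonneg (by linarith)
  have hl2 : 0 ≤ Real.log (32 * m0) := Real.log_nonneg (by linarith)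
  have hkCc : 0 ≤ k * Cc := by positivity
  set T : ℝ := 8 * (k * Cc + Real.log (32 * m0) + Real.log (16 * m0) + |Real.log (ε / 3)| + 1) +
    3 * Ce * Real.log (16 * m0) / ε + 3 * Ce * (k * C) / ε with hT
  have hA : 0 ≤ 3 * Ce * Real.log (16 * m0) / ε := by positivity
  have hB : 0 ≤ 3 * Ce * (k * C) / ε := by positivity
  have habs : 0 ≤ |Real.log (ε / 3)| := abs_nonneg _
  have hT1 : 1 ≤ T := by rw [hT]; linarith
  refine ⟨T ^ 2, one_le_pow₀ hT1, fun P hP => ?_⟩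
  have hP0 : 0 ≤ P := (sq_nonneg T).trans hP
  set s := Real.sqrt P with hs
  have hsT : T ≤ s := Real.le_sqrt_of_sq_le hP
  have hs2 : s ^ 2 = P := Real.sq_sqrt hP0
  have hs1 : 1 ≤ s := hT1.trans hsT
  have hspos : 0 < s := by linarith
  have hT8 : 8 * (k * Cc + Real.log (32 * m0) + Real.log (16 * m0) + |Real.log (ε / 3)| + 1) ≤
      s := by linarith
  have hq : k * (Cc * s) + (Real.log (32 * m0) + Real.log (16 * m0) + |Real.log (ε / 3)| + 1) ≤
      P / 8 := by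
    rw [← hs2]
    have h1 : (Real.log (32 * m0) + Real.log (16 * m0) + |Real.log (ε / 3)| + 1) ≤
        (Real.log (32 * m0) + Real.log (16 * m0) + |Real.log (ε / 3)| + 1) * s :=
      le_mul_of_one_le_right (by linarith) hs1
    have h2 : 8 * (k * Cc + Real.log (32 * m0) + Real.log (16 * m0) + |Real.log (ε / 3)| + 1) * s ≤
      s * s := mul_le_mul_of_nonneg_right hT8 hspos.le
    nlinarith
  refine ⟨?_, ?_, ?_, ?_⟩
  · have h1 : Real.exp (P / 2) + 1 ≤ 2 * Real.exp (P / 2) := by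
      have : 1 ≤ Real.exp (P / 2) := Real.one_le_exp (by linarith)
      linarith
    have h2 : (32 * m0 : ℝ) = Real.exp (Real.log (32 * m0)) := (Real.exp_log (by linarith)).symm
    calc Real.exp (k * (Cc * s)) * (Real.exp (P / 2) + 1) * (16 * m0)
        ≤ Real.exp (k * (Cc * s)) * (2 * Real.exp (P / 2)) * (16 * m0) := by
          have : (0 : ℝ) ≤ 16 * m0 := by positivity
          gcongr
      _ = Real.exp (k * (Cc * s)) * Real.exp (P / 2) * (32 * m0) := by ring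
      _ = Real.exp (k * (Cc * s) + P / 2 + Real.log (32 * m0)) := by
          rw [Real.exp_add, Real.exp_add, ← h2]
      _ ≤ Real.exp (7 / 8 * P) := Real.exp_le_exp.2 (by linarith)
  · have h2 : (16 * m0 : ℝ) = Real.exp (Real.log (16 * m0)) := (Real.exp_log (by linarith)).symm
    have h3 : ε / 3 = Real.exp (Real.log (ε / 3)) := (Real.exp_log (by linarith)).symm
    rw [h2, h3, ← Real.exp_add, ← Real.exp_add]
    refine Real.exp_le_exp.2 ?_
    have := neg_abs_le (Real.log (ε / 3))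
    linarith
  · rw [div_mul_eq_mul_div, div_le_iff₀ hspos]
    have h1 : 3 * Ce * Real.log (16 * m0) / ε ≤ s := by linarith
    rw [div_le_iff₀ hε] at h1
    linarith
  · rw [div_mul_eq_mul_div, div_le_iff₀ hspos]
    have h1 : 3 * Ce * (k * C) / ε ≤ s := by linarith
    rw [div_le_iff₀ hε] at h1
    linarith

/-- EKL, reduction to the mutual informations -/
theorem eta_part (hK : KLChainStmt) (hC : CostStmt) :
    ∀ (k E K p0 : ℕ) (kap : ℕ → ℕ → ℝ), 1 ≤ k → 1 ≤ E → KapOK k E K p0 kap →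
    ∃ Ca : ℝ, 0 < Ca ∧ ∀ (C2 Ce Cc : ℝ) (J m0 : ℕ), 0 < Ce → 0 < Cc → 2 ≤ J → 1 ≤ m0 →
    ∀ c1 c1' ε : ℝ, 0 < c1 → c1 ≤ c1' → 0 < ε → ∃ P0 : ℝ, ∀ P : ℝ, P0 ≤ P →
    ∀ (N' Nmin t Q : ℕ) (Φ : ℝ) (G : ℤ → ℝ) (ν : ℕ → ℤ → ℝ),
    Real.exp (7 / 8 * P) ≤ N' → (Nmin : ℝ) ≤ Real.exp (P / 2) + 1 →
    1 ≤ t → t ≤ N' → N' ≤ 16 * m0 * t →
    Pinned k N' Nmin (Wp ⌊c1 * P⌋₊ ⌊C2 * P⌋₊) (1 / (J : ℝ)) (Ce / Real.sqrt P) Φ G ν →
    ∑ R ∈ (Ic ⌊c1 * P⌋₊ ⌊C2 * P⌋₊ Q).powerset.filter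
        (fun R => cost R ≤ Cc * Real.sqrt P),
      wtR (fun i => kap i.1 i.2) (Ic ⌊c1 * P⌋₊ ⌊C2 * P⌋₊ Q) R *
        KLt N' t (WR R) G Φ (psi ν (SOf ⌊c1 * P⌋₊ R)) ≤
    Ca * Ce * Real.sqrt c1' + ε +
    ∑ R ∈ (Ic ⌊c1 * P⌋₊ ⌊C2 * P⌋₊ Q).powerset.filter
        (fun R => cost R ≤ Cc * Real.sqrt P),
      wtR (fun i => kap i.1 i.2) (Ic ⌊c1 * P⌋₊ ⌊C2 * P⌋₊ Q) R *
        ∑ p ∈ (SOf ⌊c1 * P⌋₊ R).filter (fun p => ⌊c1' * P⌋₊ < p),
          MI (Icc (1 : ℤ) N') (fun n => G n / (N' * Φ)) (Xr p)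
            (fun n => (XV Xr ((SOf ⌊c1 * P⌋₊ R).erase p) n,
              (Xr (rOf ⌊c1 * P⌋₊ R) n, tile N' t n))) := by
  intro k E K p0 kap hk hE hkap
  obtain ⟨C, hC0, hav⟩ := avg_small_cost hC hk hE hkap
  have hkr : (1 : ℝ) ≤ k := by exact_mod_cast hk
  refine ⟨k * C, by positivity, ?_⟩
  intro C2 Ce Cc J m0 hCe hCc hJ hm0 c1 c1' ε hc1 hc11 hε
  obtain ⟨P0, hP01, hthr⟩ := eta_thresholds k m0 Ce Cc C ε hCe hCc hC0 hε hm0
  refine ⟨P0, fun P hP N' Nmin t Q Φ G ν hN hNmin ht htN hNt hPin => ?_⟩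
  obtain ⟨q1, q2, q3, q4⟩ := hthr P hP
  have hP0 : 0 < P := by linarith
  have hsp : 0 < Real.sqrt P := Real.sqrt_pos.2 hP0
  have hJr : (2 : ℝ) ≤ J := by exact_mod_cast hJ
  have hm : (1 : ℝ) ≤ m0 := by exact_mod_cast hm0
  have htr : (1 : ℝ) ≤ t := by exact_mod_cast ht
  have hηpos : 0 < Ce / Real.sqrt P := by positivity
  have hww : ⌊c1 * P⌋₊ ≤ ⌊c1' * P⌋₊ :=
    Nat.floor_le_floor (mul_le_mul_of_nonneg_right hc11 hP0.le)
  have hNt' : (N' : ℝ) ≤ 16 * m0 * t := by exact_mod_cast hNt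
  have hXt : Real.exp (k * (Cc * Real.sqrt P)) * Nmin ≤ t := by
    have h1 : Real.exp (k * (Cc * Real.sqrt P)) * Nmin ≤
        Real.exp (k * (Cc * Real.sqrt P)) * (Real.exp (P / 2) + 1) :=
      mul_le_mul_of_nonneg_left hNmin (Real.exp_pos _).le
    have h2 : Real.exp (k * (Cc * Real.sqrt P)) * (Real.exp (P / 2) + 1) * (16 * m0) ≤
        t * (16 * m0) := by linarith
    exact h1.trans (le_of_mul_le_mul_right h2 (by positivity))
  have hDt : Real.exp (k * (Cc * Real.sqrt P)) / t ≤ ε / 3 := by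
    rw [div_le_iff₀ (by linarith)]
    have h2 : Real.exp (k * (Cc * Real.sqrt P)) * (16 * m0) ≤ ε / 3 * t * (16 * m0) := by
      have : ε / 3 * Real.exp (7 / 8 * P) ≤ ε / 3 * (16 * m0 * t) :=
        mul_le_mul_of_nonneg_left (hN.trans hNt') (by positivity)
      linarith
    exact le_of_mul_le_mul_right h2 (by positivity)
  set w := ⌊c1 * P⌋₊ with hw
  set w' := ⌊c1' * P⌋₊ with hw'
  set w1 := ⌊C2 * P⌋₊ with hw1
  set I := Ic w w1 Q with hI
  set π : ℕ × ℕ → ℝ := fun i => kap i.1 i.2 with hπ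
  set X := Cc * Real.sqrt P with hX
  set F := I.powerset.filter (fun R => cost R ≤ X) with hF
  set Mi : Finset (ℕ × ℕ) → ℝ := fun R => ∑ p ∈ (SOf w R).filter (fun p => w' < p),
          MI (Icc (1 : ℤ) N') (fun n => G n / (N' * Φ)) (Xr p)
            (fun n => (XV Xr ((SOf w R).erase p) n, (Xr (rOf w R) n, tile N' t n))) with hMi
  set Lc : Finset (ℕ × ℕ) → ℝ := fun R =>
    ∑ i ∈ R, (if i.1 ≤ w' then (i.2 : ℝ) * Real.log i.1 else 0) with hLc
  have hwt : ∀ R ∈ I.powerset, 0 ≤ wtR π I R := fun R hR =>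
    wtR_nonneg π I R (mem_powerset.1 hR) (fun i _ => hkap.nn _ _) (fun i _ => hkap.le1 _ _)
  have hFsub : F ⊆ I.powerset := filter_subset _ _
  have hone : ∀ R ∈ F, wtR π I R * KLt N' t (WR R) G Φ (psi ν (SOf w R)) ≤
      wtR π I R * (2 * ε / 3) + Ce / Real.sqrt P * k * (wtR π I R * Lc R) +
        wtR π I R * Mi R := by
    intro R hR
    have hRI : R ⊆ I := mem_powerset.1 (hFsub hR)
    have hRX : cost R ≤ X := (mem_filter.1 hR).2
    have h1 := kl_one hK hPin (by positivity) (by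
      rw [div_le_one (by linarith)]; linarith) hηpos ht htN hNt hm0 hk hww hRI hRX hXt
    have h2 : KLt N' t (WR R) G Φ (psi ν (SOf w R)) ≤
        2 * ε / 3 + Ce / Real.sqrt P * (k * Lc R) + Mi R := by
      have : Real.exp (k * X) / t + Ce / Real.sqrt P * Real.log (16 * m0) ≤ 2 * ε / 3 := by
        linarith
      linarith
    calc wtR π I R * KLt N' t (WR R) G Φ (psi ν (SOf w R))
        ≤ wtR π I R * (2 * ε / 3 + Ce / Real.sqrt P * (k * Lc R) + Mi R) :=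
          mul_le_mul_of_nonneg_left h2 (hwt R (hFsub hR))
      _ = _ := by ring
  refine (sum_le_sum hone).trans ?_
  rw [sum_add_distrib, sum_add_distrib, ← sum_mul, ← mul_sum]
  have hs1 : ∑ R ∈ F, wtR π I R ≤ 1 := by
    rw [← sum_wtR π I]
    exact sum_le_sum_of_subset_of_nonneg hFsub fun R hR _ => hwt R hR
  have hs2 : ∑ R ∈ F, wtR π I R * Lc R ≤ C * (Real.sqrt w' + 1) := by
    refine le_trans ?_ (hav w w' w1 Q)
    exact sum_le_sum_of_subset_of_nonneg hFsub fun R hR _ =>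
      mul_nonneg (hwt R hR) (log_small_nonneg (mem_powerset.1 hR) w')
  have hw'le : Real.sqrt w' ≤ Real.sqrt c1' * Real.sqrt P := by
    rw [← Real.sqrt_mul (by linarith)]
    exact Real.sqrt_le_sqrt (Nat.floor_le (mul_nonneg (by linarith) hP0.le))
  have hη2 : Ce / Real.sqrt P * k * (C * (Real.sqrt w' + 1)) ≤
      k * C * Ce * Real.sqrt c1' + ε / 3 := by
    calc Ce / Real.sqrt P * k * (C * (Real.sqrt w' + 1))
        ≤ Ce / Real.sqrt P * k * (C * (Real.sqrt c1' * Real.sqrt P + 1)) := by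
          gcongr
      _ = k * C * Ce * Real.sqrt c1' + Ce / Real.sqrt P * (k * C) := by
          field_simp
      _ ≤ _ := by linarith
  have h3 : (∑ R ∈ F, wtR π I R) * (2 * ε / 3) ≤ 2 * ε / 3 := by
    have := mul_le_mul_of_nonneg_right hs1 (show (0 : ℝ) ≤ 2 * ε / 3 by positivity)
    linarith
  have h4 : Ce / Real.sqrt P * k * ∑ R ∈ F, wtR π I R * Lc R ≤
      Ce / Real.sqrt P * k * (C * (Real.sqrt w' + 1)) :=
    mul_le_mul_of_nonneg_left hs2 (by positivity)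
  linarith

end Vale.Agent.P042.SS
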