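import Vale.Agent.P042.SS.Spec

set_option autoImplicit false

/-! Block EKL: the mutual information part for a fixed smooth part. -/

namespace Vale.Agent.P042.SS

open Polynomial Finset

/-- entropy is at most the log of the number of values -/
theorem mi_Ent_le {Ω α : Type*} (s : Finset Ω) (μ : Ω → ℝ) (X : Ω → α)
    (h0 : ∀ ω ∈ s, 0 ≤ μ ω) (h1 : ∑ ω ∈ s, μ ω = 1) (V : Finset α) (m : ℕ) (hV : V.card ≤ m)
    (hX : ∀ ω ∈ s, X ω ∈ V) : Ent s μ X ≤ Real.log m := by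
  classical
  have hpr0 : ∀ ω, 0 ≤ pr s μ X ω := by
    intro ω
    unfold pr
    exact Finset.sum_nonneg fun ω' h => h0 ω' (Finset.mem_filter.1 h).1
  have hpr : ∀ ω ∈ s, μ ω ≤ pr s μ X ω := by
    intro ω hω
    unfold pr
    exact Finset.single_le_sum (f := μ) (fun i hi => h0 i (Finset.mem_filter.1 hi).1)
      (Finset.mem_filter.2 ⟨hω, rfl⟩)
  have hm : 0 < m := by
    have hs : s.Nonempty := by
      by_contra hne
      rw [Finset.not_nonempty_iff_eq_empty] at hne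
      rw [hne] at h1
      simp at h1
    obtain ⟨ω, hω⟩ := hs
    exact lt_of_lt_of_le (Finset.card_pos.2 ⟨_, hX ω hω⟩) hV
  have hm0 : (0 : ℝ) < m := by exact_mod_cast hm
  -- the sum of `μ / pr`
  have hsum : ∑ ω ∈ s, μ ω / pr s μ X ω ≤ m := by
    rw [← Finset.sum_fiberwise_of_maps_to hX]
    calc ∑ x ∈ V, ∑ ω ∈ s.filter (fun ω => X ω = x), μ ω / pr s μ X ω
        ≤ ∑ x ∈ V, (1 : ℝ) := by
          refine Finset.sum_le_sum fun x _ => ?_
          have e1 : ∀ ω ∈ s.filter (fun ω => X ω = x), μ ω / pr s μ X ω =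
              μ ω * (∑ ω' ∈ s.filter (fun ω' => X ω' = x), μ ω')⁻¹ := by
            intro ω hω
            rw [Finset.mem_filter] at hω
            unfold pr
            rw [hω.2, div_eq_mul_inv]
          rw [Finset.sum_congr rfl e1, ← Finset.sum_mul]
          exact mul_inv_le_one
      _ = V.card := by simp
      _ ≤ m := by exact_mod_cast hV
  have key : ∀ ω ∈ s, -(μ ω * Real.log (pr s μ X ω)) - μ ω * Real.log m ≤
      μ ω / pr s μ X ω / m - μ ω := by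
    intro ω hω
    rcases (h0 ω hω).eq_or_lt with h | h
    · rw [← h]
      simp
    · have hp : 0 < pr s μ X ω := lt_of_lt_of_le h (hpr ω hω)
      have h2 : Real.log (1 / (pr s μ X ω * m)) ≤ 1 / (pr s μ X ω * m) - 1 :=
        Real.log_le_sub_one_of_pos (by positivity)
      rw [one_div, Real.log_inv, Real.log_mul hp.ne' hm0.ne'] at h2
      calc -(μ ω * Real.log (pr s μ X ω)) - μ ω * Real.log m
          = μ ω * (-(Real.log (pr s μ X ω) + Real.log m)) := by ring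
        _ ≤ μ ω * ((pr s μ X ω * m)⁻¹ - 1) := mul_le_mul_of_nonneg_left h2 h.le
        _ = μ ω / pr s μ X ω / m - μ ω := by
            rw [mul_inv]
            ring
  have h3 := Finset.sum_le_sum key
  rw [Finset.sum_sub_distrib, Finset.sum_sub_distrib, ← Finset.sum_mul, h1, one_mul,
    ← Finset.sum_div, Finset.sum_neg_distrib] at h3
  have h4 : (∑ ω ∈ s, μ ω / pr s μ X ω) / m ≤ 1 := by
    rw [div_le_one hm0]
    exact hsum
  unfold Ent
  linarith only [h3, h4]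

theorem mi_Ent_nonneg {Ω α : Type*} (s : Finset Ω) (μ : Ω → ℝ) (X : Ω → α)
    (h0 : ∀ ω ∈ s, 0 ≤ μ ω) (h1 : ∑ ω ∈ s, μ ω = 1) : 0 ≤ Ent s μ X := by
  classical
  unfold Ent
  rw [← Finset.sum_neg_distrib]
  refine Finset.sum_nonneg fun ω hω => ?_
  have h2 : 0 ≤ pr s μ X ω := by
    unfold pr
    exact Finset.sum_nonneg fun ω' h => h0 ω' (Finset.mem_filter.1 h).1
  have h3 : pr s μ X ω ≤ 1 := by
    unfold pr
    rw [← h1]
    exact Finset.sum_le_sum_of_subset_of_nonneg (Finset.filter_subset _ _) fun i hi _ => h0 i hi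
  have h4 := Real.log_nonpos h2 h3
  have h5 := mul_nonneg (h0 ω hω) (neg_nonneg.2 h4)
  linarith only [h5]

/-- basic facts on the law `G / (N' Φ)` -/
lemma mi_law {k N' Nmin : ℕ} {W : Finset ℕ} {τ η Φ : ℝ} {G : ℤ → ℝ} {ν : ℕ → ℤ → ℝ}
    (h : Pinned k N' Nmin W τ η Φ G ν) (hN : 1 ≤ N') :
    (∀ n ∈ Icc (1 : ℤ) N', 0 ≤ G n / (N' * Φ)) ∧
      ∑ n ∈ Icc (1 : ℤ) N', G n / (N' * Φ) = 1 := by
  have hN0 : (0 : ℝ) < N' := by exact_mod_cast hN
  have h1 : 0 < N' * Φ := mul_pos hN0 h.Φpos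
  refine ⟨fun n _ => div_nonneg (h.G0 n) h1.le, ?_⟩
  rw [← Finset.sum_div, h.Gsum, div_self h1.ne']

lemma mi_Ent_Xr {k N' Nmin : ℕ} {W : Finset ℕ} {τ η Φ : ℝ} {G : ℤ → ℝ} {ν : ℕ → ℤ → ℝ}
    (h : Pinned k N' Nmin W τ η Φ G ν) (hN : 1 ≤ N') (p : ℕ) (hp : 1 ≤ p) :
    Ent (Icc (1 : ℤ) N') (fun n => G n / (N' * Φ)) (Xr p) ≤ Real.log p := by
  obtain ⟨h1, h2⟩ := mi_law h hN
  have hp0 : (0 : ℤ) < p := by exact_mod_cast hp
  refine mi_Ent_le _ _ _ h1 h2 (Ico (0 : ℤ) p) p (by simp) ?_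
  intro n _
  rw [Finset.mem_Ico]
  exact ⟨Int.emod_nonneg _ hp0.ne', Int.emod_lt_of_pos _ hp0⟩

lemma mi_Ent_rt {k N' Nmin : ℕ} {W : Finset ℕ} {τ η Φ : ℝ} {G : ℤ → ℝ} {ν : ℕ → ℤ → ℝ}
    (h : Pinned k N' Nmin W τ η Φ G ν) (t r m0 : ℕ) (ht : 1 ≤ t) (htN : t ≤ N')
    (hm : N' ≤ 16 * m0 * t) (hr : 1 ≤ r) (hm0 : 1 ≤ m0) :
    Ent (Icc (1 : ℤ) N') (fun n => G n / (N' * Φ)) (fun n => (Xr r n, tile N' t n)) ≤
      Real.log (16 * m0) + Real.log r := by
  obtain ⟨h1, h2⟩ := mi_law h (ht.trans htN)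
  have hr0 : (0 : ℤ) < r := by exact_mod_cast hr
  have ht0 : (0 : ℤ) < t := by exact_mod_cast ht
  have hq1 : 1 ≤ N' / t := (Nat.one_le_div_iff (by omega)).2 htN
  have hq2 : N' / t ≤ 16 * m0 := by
    rw [Nat.div_le_iff_le_mul_add_pred (by omega)]
    rw [mul_comm t]
    omega
  have h3 := mi_Ent_le (Icc (1 : ℤ) N') (fun n => G n / (N' * Φ))
    (fun n => (Xr r n, tile N' t n)) h1 h2 ((Ico (0 : ℤ) r) ×ˢ (Ico (0 : ℤ) ((N' / t : ℕ) : ℤ)))
    (16 * m0 * r) (by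
      rw [Finset.card_product, Int.card_Ico, Int.card_Ico]
      simp only [sub_zero, Int.toNat_natCast]
      rw [mul_comm]
      exact Nat.mul_le_mul_right _ hq2) (by
      intro n hn
      rw [Finset.mem_Icc] at hn
      rw [Finset.mem_product, Finset.mem_Ico, Finset.mem_Ico]
      refine ⟨⟨Int.emod_nonneg _ hr0.ne', Int.emod_lt_of_pos _ hr0⟩, ?_, ?_⟩
      · show 0 ≤ tile N' t n
        unfold tile
        refine le_min (Int.ediv_nonneg (by linarith only [hn.1]) ht0.le) ?_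
        have : (1 : ℤ) ≤ ((N' / t : ℕ) : ℤ) := by exact_mod_cast hq1
        linarith only [this]
      · show tile N' t n < _
        unfold tile
        exact lt_of_le_of_lt (min_le_right _ _) (by linarith only []))
  refine h3.trans (le_of_eq ?_)
  have e1 : (0 : ℝ) < m0 := by exact_mod_cast hm0
  have e2 : (0 : ℝ) < r := by exact_mod_cast hr
  push_cast
  rw [Real.log_mul (by positivity) e2.ne']


/-- primes of `Wp` up to `Q` -/
def miW (w w1 Q : ℕ) : Finset ℕ := (Wp w w1).filter (fun p => p ≤ Q)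

lemma mem_miW {w w1 Q p : ℕ} : p ∈ miW w w1 Q ↔ ((w < p ∧ p ≤ w1) ∧ p.Prime) ∧ p ≤ Q := by
  unfold miW Wp
  rw [Finset.mem_filter, Finset.mem_filter, Finset.mem_Ioc]

lemma sum_log_miW (w Q : ℕ) (x : ℝ) (hx : 0 ≤ x) (V : Finset ℕ) (hV : V ⊆ miW w ⌊x⌋₊ Q) :
    ∑ p ∈ V, Real.log p ≤ Real.log 4 * x := by
  refine le_trans ?_ (Chebyshev.theta_le_log4_mul_x hx)
  rw [Chebyshev.theta]
  refine Finset.sum_le_sum_of_subset_of_nonneg ?_ ?_
  · intro p hp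
    have h := mem_miW.1 (hV hp)
    rw [Finset.mem_filter, Finset.mem_Ioc]
    exact ⟨⟨h.1.2.pos, h.1.1.2⟩, h.1.2⟩
  · intro p hp _
    rw [Finset.mem_filter, Finset.mem_Ioc] at hp
    exact Real.log_nonneg (by exact_mod_cast hp.1.1)

/-- two partitions into blocks -/
lemma mi_blocks (hPt : PartStmt) (w w' Q : ℕ) (x M : ℝ) (hx : 0 ≤ x) (hM : 0 < M) (Jb : ℕ)
    (hJb : 1 ≤ Jb) (hlog : ∀ p ∈ miW w ⌊x⌋₊ Q, Real.log p ≤ M)
    (hsum : Real.log 4 * x ≤ (Jb - 1) * M) :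
    ∃ bk : ℕ → ℕ, (∀ p ∈ miW w ⌊x⌋₊ Q, bk p < 2 * Jb) ∧
      (∀ p ∈ miW w ⌊x⌋₊ Q, Jb ≤ bk p ↔ w' < p) ∧
      ∀ b, ∀ U ⊆ (miW w ⌊x⌋₊ Q).filter (fun p => bk p = b), ∑ p ∈ U, Real.log p ≤ 2 * M := by
  classical
  have h1 : ∀ V ⊆ miW w ⌊x⌋₊ Q, ∃ bk : ℕ → ℕ, (∀ p ∈ V, bk p < Jb) ∧
      ∀ i, ∑ p ∈ V.filter (fun p => bk p = i), Real.log p ≤ 2 * M := by
    intro V hV
    exact hPt V M Jb hM (fun p hp => ⟨(mem_miW.1 (hV hp)).1.2.one_lt.le, hlog p (hV hp)⟩)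
      ((sum_log_miW w Q x hx V hV).trans hsum) hJb
  obtain ⟨b1, h2, h3⟩ := h1 ((miW w ⌊x⌋₊ Q).filter (fun p => ¬ w' < p)) (Finset.filter_subset _ _)
  obtain ⟨b2, h4, h5⟩ := h1 ((miW w ⌊x⌋₊ Q).filter (fun p => w' < p)) (Finset.filter_subset _ _)
  have hbk : ∀ p ∈ miW w ⌊x⌋₊ Q, (w' < p → b2 p < Jb) ∧ (¬ w' < p → b1 p < Jb) := fun p hp =>
    ⟨fun h => h4 p (Finset.mem_filter.2 ⟨hp, h⟩), fun h => h2 p (Finset.mem_filter.2 ⟨hp, h⟩)⟩
  refine ⟨fun p => if w' < p then Jb + b2 p else b1 p, ?_, ?_, ?_⟩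
  · intro p hp
    obtain ⟨h6, h7⟩ := hbk p hp
    show (if w' < p then Jb + b2 p else b1 p) < 2 * Jb
    split_ifs with h
    · have := h6 h; omega
    · have := h7 h; omega
  · intro p hp
    obtain ⟨h6, h7⟩ := hbk p hp
    show Jb ≤ (if w' < p then Jb + b2 p else b1 p) ↔ w' < p
    split_ifs with h
    · exact ⟨fun _ => h, fun _ => by omega⟩
    · have := h7 h
      exact ⟨fun h' => by omega, fun h' => absurd h' h⟩
  · intro b U hU
    have hU' : ∀ p ∈ U, p ∈ miW w ⌊x⌋₊ Q ∧ (if w' < p then Jb + b2 p else b1 p) = b := fun p hp => by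
      have := hU hp
      rw [Finset.mem_filter] at this
      exact this
    have hnn : ∀ p ∈ miW w ⌊x⌋₊ Q, 0 ≤ Real.log p := fun p hp =>
      Real.log_nonneg (by exact_mod_cast (mem_miW.1 hp).1.2.one_lt.le)
    by_cases hb : Jb ≤ b
    · refine le_trans ?_ (h5 (b - Jb))
      refine Finset.sum_le_sum_of_subset_of_nonneg ?_ ?_
      · intro p hp
        obtain ⟨h6, h7⟩ := hU' p hp
        rw [Finset.mem_filter, Finset.mem_filter]
        split_ifs at h7 with h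
        · exact ⟨⟨h6, h⟩, by omega⟩
        · have := (hbk p h6).2 h
          omega
      · intro p hp _
        exact hnn p (Finset.mem_filter.1 (Finset.mem_filter.1 hp).1).1
    · refine le_trans ?_ (h3 b)
      refine Finset.sum_le_sum_of_subset_of_nonneg ?_ ?_
      · intro p hp
        obtain ⟨h6, h7⟩ := hU' p hp
        rw [Finset.mem_filter, Finset.mem_filter]
        split_ifs at h7 with h
        · omega
        · exact ⟨⟨h6, h⟩, h7⟩
      · intro p hp _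
        exact hnn p (Finset.mem_filter.1 (Finset.mem_filter.1 hp).1).1

/-- asymptotic conditions -/
lemma mi_large (k p0 : ℕ) (C2 Cc c1 : ℝ) (hC2 : 0 < C2) (hc1 : 0 < c1) :
    ∃ P0 : ℝ, ∀ P : ℝ, P0 ≤ P → 1 ≤ P ∧ (p0 : ℝ) ≤ c1 * P ∧ 16 * (k : ℝ) ^ 2 ≤ c1 * P ∧
      Cc * Real.sqrt P ≤ 3 / 4 * P ∧ Real.log (C2 * P) ≤ P / 32 ∧ 1 ≤ C2 * P := by
  have e1 : ∀ᶠ P : ℝ in Filter.atTop, 1 ≤ P := Filter.eventually_ge_atTop 1
  have e2 : ∀ᶠ P : ℝ in Filter.atTop, (p0 : ℝ) ≤ c1 * P :=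
    (Filter.tendsto_id.const_mul_atTop hc1).eventually_ge_atTop _
  have e3 : ∀ᶠ P : ℝ in Filter.atTop, 16 * (k : ℝ) ^ 2 ≤ c1 * P :=
    (Filter.tendsto_id.const_mul_atTop hc1).eventually_ge_atTop _
  have e4 : ∀ᶠ P : ℝ in Filter.atTop, 4 / 3 * Cc ≤ Real.sqrt P :=
    Real.tendsto_sqrt_atTop.eventually_ge_atTop _
  have e6 : ∀ᶠ P : ℝ in Filter.atTop, 1 ≤ C2 * P :=
    (Filter.tendsto_id.const_mul_atTop hC2).eventually_ge_atTop _
  have e5 : ∀ᶠ P : ℝ in Filter.atTop, Real.log P ≤ 1 / 64 * P := by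
    have := Real.isLittleO_log_id_atTop.def (show (0 : ℝ) < 1 / 64 by norm_num)
    filter_upwards [this, e1] with P hP h1
    rw [Real.norm_eq_abs, Real.norm_eq_abs, id, abs_of_nonneg (by linarith : (0 : ℝ) ≤ P)] at hP
    exact (le_abs_self _).trans hP
  have e7 : ∀ᶠ P : ℝ in Filter.atTop, 64 * Real.log C2 ≤ P := Filter.eventually_ge_atTop _
  obtain ⟨P0, hP0⟩ := Filter.eventually_atTop.1
    (((((e1.and e2).and e3).and e4).and e5).and (e6.and e7))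
  refine ⟨P0, fun P hP => ?_⟩
  obtain ⟨⟨⟨⟨⟨h1, h2⟩, h3⟩, h4⟩, h5⟩, h6, h7⟩ := hP0 P hP
  have hP1 : 0 < P := by linarith only [h1]
  refine ⟨h1, h2, h3, ?_, ?_, h6⟩
  · have h8 : Real.sqrt P * Real.sqrt P = P := Real.mul_self_sqrt hP1.le
    have h9 : 4 / 3 * Cc * Real.sqrt P ≤ Real.sqrt P * Real.sqrt P :=
      mul_le_mul_of_nonneg_right h4 (Real.sqrt_nonneg _)
    linarith only [h8, h9]
  · rw [Real.log_mul hC2.ne' hP1.ne']
    linarith only [h5, h7]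

theorem mi_part (hE : EntStmt) (hP : PinEntStmt) (hD : DefectStmt) (hPt : PartStmt) :
    ∀ (k E K p0 : ℕ) (kap : ℕ → ℕ → ℝ), 1 ≤ k → 1 ≤ E → KapOK k E K p0 kap →
    ∀ (C2 Cg Cc : ℝ) (J m0 : ℕ), 0 < C2 → 0 < Cg → 0 < Cc → 2 ≤ J → 1 ≤ m0 →
    ∃ Jb : ℕ, 1 ≤ Jb ∧ ∀ c1 c1' : ℝ, 0 < c1 → c1 ≤ c1' → c1' ≤ C2 → ∃ P0 : ℝ, ∀ P : ℝ, P0 ≤ P →
    ∀ (N' Nmin t Q : ℕ) (η Φ : ℝ) (G : ℤ → ℝ) (ν : ℕ → ℤ → ℝ),
    Real.exp (7 / 8 * P) ≤ N' → 1 ≤ t → t ≤ N' → N' ≤ 16 * m0 * t →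
    Pinned k N' Nmin (Wp ⌊c1 * P⌋₊ ⌊C2 * P⌋₊) (1 / (J : ℝ)) η Φ G ν →
    (∀ n, G n ≤ Real.exp (Cg * Real.sqrt P) * Φ) →
    ∀ (r : ℕ) (X : ℝ), 1 ≤ r → X ≤ Cc * Real.sqrt P →
    ∑ S ∈ ((Wp ⌊c1 * P⌋₊ ⌊C2 * P⌋₊).filter (fun p => p ≤ Q)).powerset.filter
        (fun S : Finset ℕ => ∑ p ∈ S, Real.log (p : ℝ) ≤ X),
      wtR (fun p => kap p 1) ((Wp ⌊c1 * P⌋₊ ⌊C2 * P⌋₊).filter (fun p => p ≤ Q)) S *
        ∑ p ∈ S.filter (fun p => ⌊c1' * P⌋₊ < p),
          MI (Icc (1 : ℤ) N') (fun n => G n / (N' * Φ)) (Xr p)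
            (fun n => (XV Xr (S.erase p) n, (Xr r n, tile N' t n))) ≤
    4 * J * (Jb * k / Real.sqrt (c1' * P)) *
      (8 * (Cg * Real.sqrt P + 1) * (Jb * k / Real.sqrt (c1 * P)) +
        Real.log (16 * m0) + Real.log r) := by
  classical
  intro k E K p0 kap hk _ hkap C2 Cg Cc J m0 hC2 hCg hCc hJ hm0
  refine ⟨⌈32 * Real.log 4 * C2⌉₊ + 1, by omega, fun c1 c1' hc1 hcc _ => ?_⟩
  set Jb : ℕ := ⌈32 * Real.log 4 * C2⌉₊ + 1 with hJb
  obtain ⟨P0, hP0⟩ := mi_large k p0 C2 Cc c1 hC2 hc1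
  refine ⟨P0, fun P hPP N' Nmin t Q η Φ G ν hN ht htN hNt hpin hGle r X hr hX => ?_⟩
  obtain ⟨hP1, hPp0, hPk, hPc, hPlog, hPC⟩ := hP0 P hPP
  have hPpos : 0 < P := by linarith only [hP1]
  have hN1 : 1 ≤ N' := ht.trans htN
  have hk0 : (0 : ℝ) < k := by exact_mod_cast hk
  have hc1P : 0 < c1 * P := mul_pos hc1 hPpos
  have hc1P' : 0 < c1' * P := mul_pos (lt_of_lt_of_le hc1 hcc) hPpos
  have hJ0 : (0 : ℝ) < J := by
    have : 0 < J := by omega
    exact_mod_cast this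
  change ∑ S ∈ (miW ⌊c1 * P⌋₊ ⌊C2 * P⌋₊ Q).powerset.filter
        (fun S : Finset ℕ => ∑ p ∈ S, Real.log (p : ℝ) ≤ X),
      wtR (fun p => kap p 1) (miW ⌊c1 * P⌋₊ ⌊C2 * P⌋₊ Q) S *
        ∑ p ∈ S.filter (fun p => ⌊c1' * P⌋₊ < p),
          MI (Icc (1 : ℤ) N') (fun n => G n / (N' * Φ)) (Xr p)
            (fun n => (XV Xr (S.erase p) n, (Xr r n, tile N' t n))) ≤ _
  set W : Finset ℕ := miW ⌊c1 * P⌋₊ ⌊C2 * P⌋₊ Q with hW
  have hWsub : W ⊆ Wp ⌊c1 * P⌋₊ ⌊C2 * P⌋₊ := Finset.filter_subset _ _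
  have hWlt : ∀ p ∈ W, c1 * P < p ∧ (p : ℝ) ≤ C2 * P ∧ p.Prime := by
    intro p hp
    obtain ⟨⟨⟨h1, h2⟩, h3⟩, -⟩ := mem_miW.1 hp
    exact ⟨Nat.lt_of_floor_lt h1, (Nat.le_floor_iff (by linarith only [hPC])).1 h2, h3⟩
  have hlog : ∀ p ∈ W, Real.log p ≤ P / 32 := by
    intro p hp
    obtain ⟨-, h2, h3⟩ := hWlt p hp
    exact (Real.log_le_log (by exact_mod_cast h3.pos) h2).trans hPlog
  have hlog0 : ∀ p ∈ W, 0 ≤ Real.log p := fun p hp =>
    Real.log_nonneg (by exact_mod_cast (hWlt p hp).2.2.one_lt.le)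
  obtain ⟨bk, hbk1, hbk2, hbk3⟩ := mi_blocks hPt ⌊c1 * P⌋₊ ⌊c1' * P⌋₊ Q (C2 * P) (P / 32)
    (by linarith only [hPC]) (by linarith only [hPpos]) Jb (by omega) hlog (by
      have h1 : 32 * Real.log 4 * C2 ≤ ((Jb : ℝ) - 1) := by
        rw [hJb]
        push_cast
        have := Nat.le_ceil (32 * Real.log 4 * C2)
        linarith only [this]
      have h2 : 32 * Real.log 4 * C2 * (P / 32) ≤ ((Jb : ℝ) - 1) * (P / 32) :=
        mul_le_mul_of_nonneg_right h1 (by linarith only [hPpos])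
      linarith only [h2])
  -- rates
  have hrate : ∀ p ∈ W, ∀ c : ℝ, 0 < c → c < p → kap p 1 ≤ k / Real.sqrt c := by
    intro p hp c hc0 hc
    obtain ⟨h1, -, h3⟩ := hWlt p hp
    have h4 : p0 < p := by
      have : (p0 : ℝ) < p := lt_of_le_of_lt hPp0 h1
      exact_mod_cast this
    refine (hkap.one p h3 h4).trans ?_
    exact div_le_div_of_nonneg_left hk0.le (Real.sqrt_pos.2 hc0) (Real.sqrt_le_sqrt hc.le)
  set sa : ℝ := k / Real.sqrt (c1 * P) with hsa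
  set sc : ℝ := k / Real.sqrt (c1' * P) with hsc
  have hsa0 : 0 ≤ sa := div_nonneg hk0.le (Real.sqrt_nonneg _)
  have hsc0 : 0 ≤ sc := div_nonneg hk0.le (Real.sqrt_nonneg _)
  have hsca : sc ≤ sa := div_le_div_of_nonneg_left hk0.le (Real.sqrt_pos.2 hc1P)
    (Real.sqrt_le_sqrt (mul_le_mul_of_nonneg_right hcc hPpos.le))
  have hsa4 : sa ≤ 1 / 4 := by
    rw [hsa, div_le_iff₀ (Real.sqrt_pos.2 hc1P)]
    have h1 : Real.sqrt (16 * (k : ℝ) ^ 2) ≤ Real.sqrt (c1 * P) := Real.sqrt_le_sqrt hPk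
    have h2 : Real.sqrt (16 * (k : ℝ) ^ 2) = 4 * k := by
      rw [show 16 * (k : ℝ) ^ 2 = (4 * k) ^ 2 by ring, Real.sqrt_sq (by linarith only [hk0])]
    linarith only [h1, h2]
  obtain ⟨hlaw0, hlaw1⟩ := mi_law hpin hN1
  -- entropy estimate
  have hmain := hE ℤ (ℤ × ℤ) (Icc (1 : ℤ) N') (fun n => G n / (N' * Φ)) Xr W
    (W.filter (fun p => ⌊c1' * P⌋₊ < p)) (1 / (J : ℝ)) (Cg * Real.sqrt P + 1)
    (fun p => Real.log p) (fun p => kap p 1) bk (fun b => if b < Jb then sa else sc) (2 * Jb)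
    (fun S : Finset ℕ => ∑ p ∈ S, Real.log (p : ℝ) ≤ X) (fun n => (Xr r n, tile N' t n))
    hlaw0 hlaw1 (by positivity) (by positivity)
    (fun p hp => mi_Ent_Xr hpin hN1 p (hWlt p hp).2.2.one_lt.le)
    ?_ ?_ ?_ ?_ ?_ (Finset.filter_subset _ _)
  rotate_left
  · intro p hp
    obtain ⟨h1, h2, h3⟩ := hWlt p hp
    have h4 : kap p 1 ≤ sa := hrate p hp _ hc1P h1
    refine ⟨hkap.nn _ _, h4.trans hsa4, ?_, hbk1 p hp⟩
    show kap p 1 ≤ if bk p < Jb then sa else sc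
    split_ifs with h
    · exact h4
    · have h5 : ⌊c1' * P⌋₊ < p := (hbk2 p hp).1 (by omega)
      exact hrate p hp _ hc1P' (Nat.lt_of_floor_lt h5)
  · intro b
    show 0 ≤ if b < Jb then sa else sc
    split_ifs
    · exact hsa0
    · exact hsc0
  · intro S T hTS hS
    refine le_trans ?_ hS
    exact Finset.sum_le_sum_of_subset_of_nonneg hTS
      (fun p _ _ => Real.log_natCast_nonneg p)
  · intro U hU β' Z'
    exact hP k N' Nmin (Wp ⌊c1 * P⌋₊ ⌊C2 * P⌋₊) (1 / (J : ℝ)) η Φ G ν hpin (by positivity) hN1 U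
      (hU.trans hWsub) β' Z'
  · intro S hS hGc b c U hU V hV
    have hSUV : S ∪ U ∪ V ⊆ W := Finset.union_subset (Finset.union_subset hS
      (hU.trans (Finset.filter_subset _ _))) (hV.trans (Finset.filter_subset _ _))
    have h1 : ∑ p ∈ U, Real.log (p : ℝ) ≤ 2 * (P / 32) := hbk3 b U hU
    have h2 : ∑ p ∈ V, Real.log (p : ℝ) ≤ 2 * (P / 32) := hbk3 c V hV
    have h3 : ∑ p ∈ S ∪ U ∪ V, Real.log (p : ℝ) ≤ 7 / 8 * P := by
      have hunion : ∀ A B : Finset ℕ, ∑ p ∈ A ∪ B, Real.log (p : ℝ) ≤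
          ∑ p ∈ A, Real.log (p : ℝ) + ∑ p ∈ B, Real.log (p : ℝ) := by
        intro A B
        rw [← Finset.sum_union_inter]
        have : 0 ≤ ∑ p ∈ A ∩ B, Real.log (p : ℝ) :=
          Finset.sum_nonneg fun p _ => Real.log_natCast_nonneg p
        linarith only [this]
      have h4 := hunion (S ∪ U) V
      have h5 := hunion S U
      have h6 : ∑ p ∈ S, Real.log (p : ℝ) ≤ X := hGc
      linarith only [h1, h2, h4, h5, h6, hX, hPc]
    have hprod : ∏ p ∈ S ∪ U ∪ V, p ≤ N' := by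
      have h4 : ((∏ p ∈ S ∪ U ∪ V, p : ℕ) : ℝ) = Real.exp (∑ p ∈ S ∪ U ∪ V, Real.log (p : ℝ)) := by
        rw [Real.exp_sum]
        push_cast
        refine Finset.prod_congr rfl fun p hp => ?_
        rw [Real.exp_log]
        exact_mod_cast (hWlt p (hSUV hp)).2.2.pos
      have h5 : ((∏ p ∈ S ∪ U ∪ V, p : ℕ) : ℝ) ≤ N' := by
        rw [h4]
        exact (Real.exp_le_exp.2 h3).trans hN
      exact_mod_cast h5
    have h7 := hD k N' Nmin (Wp ⌊c1 * P⌋₊ ⌊C2 * P⌋₊) (1 / (J : ℝ)) η Φ G ν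
      (Real.exp (Cg * Real.sqrt P) * Φ) hpin hN1 hGle (S ∪ U ∪ V) (hSUV.trans hWsub) hprod
    refine h7.trans ?_
    have h8 : 2 * (Real.exp (Cg * Real.sqrt P) * Φ) / Φ = 2 * Real.exp (Cg * Real.sqrt P) := by
      have := hpin.Φpos.ne'
      field_simp
    rw [h8, Real.log_mul (by norm_num) (Real.exp_ne_zero _), Real.log_exp]
    have h9 : Real.log 2 ≤ 1 := by
      have := Real.log_two_lt_d9
      linarith only [this]
    linarith only [h9]
  -- conclusion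
  have hZ := mi_Ent_rt hpin t r m0 ht htN hNt hr hm0
  have hb1 : ∑ b ∈ (W.filter (fun p => ⌊c1' * P⌋₊ < p)).image bk, (if b < Jb then sa else sc) ≤
      Jb * sc := by
    calc ∑ b ∈ (W.filter (fun p => ⌊c1' * P⌋₊ < p)).image bk, (if b < Jb then sa else sc)
        = ∑ b ∈ (W.filter (fun p => ⌊c1' * P⌋₊ < p)).image bk, sc := by
          refine Finset.sum_congr rfl fun b hb => ?_
          rw [Finset.mem_image] at hb
          obtain ⟨p, hp, rfl⟩ := hb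
          rw [Finset.mem_filter] at hp
          have := (hbk2 p hp.1).2 hp.2
          rw [if_neg (by omega)]
      _ = ((W.filter (fun p => ⌊c1' * P⌋₊ < p)).image bk).card * sc := by
          rw [Finset.sum_const, nsmul_eq_mul]
      _ ≤ Jb * sc := by
          refine mul_le_mul_of_nonneg_right ?_ hsc0
          have h1 : ((W.filter (fun p => ⌊c1' * P⌋₊ < p)).image bk).card ≤ Jb := by
            have h2 : (W.filter (fun p => ⌊c1' * P⌋₊ < p)).image bk ⊆ Ico Jb (2 * Jb) := by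
              intro b hb
              rw [Finset.mem_image] at hb
              obtain ⟨p, hp, rfl⟩ := hb
              rw [Finset.mem_filter] at hp
              rw [Finset.mem_Ico]
              exact ⟨(hbk2 p hp.1).2 hp.2, hbk1 p hp.1⟩
            refine (Finset.card_le_card h2).trans (le_of_eq ?_)
            rw [Nat.card_Ico]
            omega
          exact_mod_cast h1
  have hb2 : ∑ b ∈ range (2 * Jb), (if b < Jb then sa else sc) ≤ 2 * (Jb * sa) := by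
    calc ∑ b ∈ range (2 * Jb), (if b < Jb then sa else sc) ≤ ∑ b ∈ range (2 * Jb), sa := by
          refine Finset.sum_le_sum fun b _ => ?_
          split_ifs
          · exact le_rfl
          · exact hsca
      _ = 2 * (Jb * sa) := by
          rw [Finset.sum_const, Finset.card_range, nsmul_eq_mul]
          push_cast
          ring
  have hrest : 0 ≤ Real.log (16 * m0) + Real.log r := by
    have h1 : 0 ≤ Real.log (r : ℝ) := Real.log_natCast_nonneg r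
    have h2 : 0 ≤ Real.log ((16 * m0 : ℕ) : ℝ) := Real.log_natCast_nonneg _
    push_cast at h2
    linarith only [h1, h2]
  have hDm0 : 0 ≤ Cg * Real.sqrt P + 1 := by positivity
  calc ∑ S ∈ W.powerset.filter (fun S : Finset ℕ => ∑ p ∈ S, Real.log (p : ℝ) ≤ X),
      wtR (fun p => kap p 1) W S *
        ∑ p ∈ S.filter (fun p => ⌊c1' * P⌋₊ < p),
          MI (Icc (1 : ℤ) N') (fun n => G n / (N' * Φ)) (Xr p)
            (fun n => (XV Xr (S.erase p) n, (Xr r n, tile N' t n)))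
      = ∑ S ∈ W.powerset.filter (fun S : Finset ℕ => ∑ p ∈ S, Real.log (p : ℝ) ≤ X),
      wtR (fun p => kap p 1) W S *
        ∑ p ∈ S ∩ W.filter (fun p => ⌊c1' * P⌋₊ < p),
          MI (Icc (1 : ℤ) N') (fun n => G n / (N' * Φ)) (Xr p)
            (fun n => (XV Xr (S.erase p) n, (Xr r n, tile N' t n))) := by
        refine Finset.sum_congr rfl fun S hS => ?_
        rw [Finset.mem_filter, Finset.mem_powerset] at hS
        have e1 : S ∩ W.filter (fun p => ⌊c1' * P⌋₊ < p) = S.filter (fun p => ⌊c1' * P⌋₊ < p) := by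
          rw [Finset.inter_filter, Finset.inter_eq_left.2 hS.1]
        rw [e1]
    _ ≤ _ := hmain
    _ ≤ 4 * J * (Jb * sc) * (4 * (Cg * Real.sqrt P + 1) * (2 * (Jb * sa)) +
        (Real.log (16 * m0) + Real.log r)) := by
        have e2 : 4 / (1 / (J : ℝ)) = 4 * J := by field_simp
        rw [e2]
        have h5 : 0 ≤ ∑ b ∈ (W.filter (fun p => ⌊c1' * P⌋₊ < p)).image bk,
            (if b < Jb then sa else sc) := Finset.sum_nonneg fun b _ => by
          split_ifs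
          · exact hsa0
          · exact hsc0
        have h6 : 0 ≤ ∑ b ∈ range (2 * Jb), (if b < Jb then sa else sc) :=
          Finset.sum_nonneg fun b _ => by
            split_ifs
            · exact hsa0
            · exact hsc0
        refine mul_le_mul (mul_le_mul_of_nonneg_left hb1 (by positivity)) ?_ ?_ (by positivity)
        · exact add_le_add (mul_le_mul_of_nonneg_left hb2 (by positivity)) hZ
        · have h7 : 0 ≤ Ent (Icc (1 : ℤ) N') (fun n => G n / (N' * Φ))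
              (fun n => (Xr r n, tile N' t n)) := mi_Ent_nonneg _ _ _ hlaw0 hlaw1
          positivity
    _ = _ := by
        rw [hsa, hsc]
        ring

end Vale.Agent.P042.SS
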