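import Vale.Agent.P042.SS.Spec

set_option autoImplicit false

/-!
Splitting the random modulus: `wtR` over disjoint unions, images, and the decomposition of the
items of `Ic w w1 Q` into the small items (`i.1 ≤ w`) and the large primes in `(w, w1]`.
-/

namespace Vale.Agent.P042.SS

open Finset

section general

variable {κ κ' : Type*} [DecidableEq κ] [DecidableEq κ']

theorem wtR_union (π : κ → ℝ) {S T A B : Finset κ} (hd : Disjoint S T) (hA : A ⊆ S)
    (hB : B ⊆ T) : wtR π (S ∪ T) (A ∪ B) = wtR π S A * wtR π T B := by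
  unfold wtR
  have hAB : Disjoint A B := hd.mono hA hB
  have h1 : (S ∪ T) \ (A ∪ B) = (S \ A) ∪ (T \ B) := by
    ext x
    simp only [Finset.mem_sdiff, Finset.mem_union]
    have hx : x ∈ S → x ∈ T → False := fun h h' => Finset.disjoint_left.1 hd h h'
    have hxA : x ∈ A → x ∈ S := fun h => hA h
    have hxB : x ∈ B → x ∈ T := fun h => hB h
    tauto
  have hd' : Disjoint (S \ A) (T \ B) := hd.mono Finset.sdiff_subset Finset.sdiff_subset
  rw [h1, Finset.prod_union hAB, Finset.prod_union hd']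
  ring

theorem sum_powerset_union {M : Type*} [AddCommMonoid M] {S T : Finset κ} (hd : Disjoint S T)
    (F : Finset κ → M) :
    ∑ R ∈ (S ∪ T).powerset, F R = ∑ A ∈ S.powerset, ∑ B ∈ T.powerset, F (A ∪ B) := by
  rw [← Finset.sum_product']
  symm
  refine Finset.sum_bij' (fun x _ => x.1 ∪ x.2) (fun R _ => (R ∩ S, R ∩ T)) ?_ ?_ ?_ ?_ ?_
  · intro x hx
    rw [Finset.mem_product, Finset.mem_powerset, Finset.mem_powerset] at hx
    exact Finset.mem_powerset.2 (Finset.union_subset_union hx.1 hx.2)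
  · intro R _
    rw [Finset.mem_product, Finset.mem_powerset, Finset.mem_powerset]
    exact ⟨Finset.inter_subset_right, Finset.inter_subset_right⟩
  · intro x hx
    rw [Finset.mem_product, Finset.mem_powerset, Finset.mem_powerset] at hx
    have hx' : ∀ y, y ∈ S → y ∈ T → False := fun y h h' => Finset.disjoint_left.1 hd h h'
    ext y
    · simp only [Finset.mem_inter, Finset.mem_union]
      have h1 : y ∈ x.1 → y ∈ S := fun h => hx.1 h
      have h2 : y ∈ x.2 → y ∈ T := fun h => hx.2 h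
      have := hx' y
      tauto
    · simp only [Finset.mem_inter, Finset.mem_union]
      have h1 : y ∈ x.1 → y ∈ S := fun h => hx.1 h
      have h2 : y ∈ x.2 → y ∈ T := fun h => hx.2 h
      have := hx' y
      tauto
  · intro R hR
    rw [Finset.mem_powerset] at hR
    rw [← Finset.inter_union_distrib_left, Finset.inter_eq_left.2 hR]
  · intro x _
    rfl

/-- the average over the random subset of a disjoint union is an iterated average -/
theorem sum_wtR_union (π : κ → ℝ) {S T : Finset κ} (hd : Disjoint S T) (F : Finset κ → ℝ) :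
    ∑ R ∈ (S ∪ T).powerset, wtR π (S ∪ T) R * F R =
      ∑ A ∈ S.powerset, wtR π S A * ∑ B ∈ T.powerset, wtR π T B * F (A ∪ B) := by
  rw [sum_powerset_union hd]
  refine Finset.sum_congr rfl fun A hA => ?_
  rw [Finset.mul_sum]
  refine Finset.sum_congr rfl fun B hB => ?_
  rw [wtR_union π hd (Finset.mem_powerset.1 hA) (Finset.mem_powerset.1 hB)]
  ring

theorem wtR_image (π : κ → ℝ) (f : κ' → κ) (hf : Function.Injective f) (S B : Finset κ') :
    wtR π (S.image f) (B.image f) = wtR (fun i => π (f i)) S B := by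
  unfold wtR
  rw [← Finset.image_sdiff _ _ hf, Finset.prod_image fun x _ y _ h => hf h,
    Finset.prod_image]
  exact fun x _ y _ h => hf h

omit [DecidableEq κ'] in
theorem sum_powerset_image {M : Type*} [AddCommMonoid M] (f : κ' → κ)
    (hf : Function.Injective f) (S : Finset κ') (F : Finset κ → M) :
    ∑ R ∈ (S.image f).powerset, F R = ∑ B ∈ S.powerset, F (B.image f) := by
  have h : (S.image f).powerset = S.powerset.image (fun B => B.image f) := by
    ext R
    simp only [Finset.mem_powerset, Finset.mem_image, Finset.subset_image_iff]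
  rw [h, Finset.sum_image fun B _ B' _ h => Finset.image_injective hf h]

theorem sum_wtR_image (π : κ → ℝ) (f : κ' → κ) (hf : Function.Injective f) (S : Finset κ')
    (F : Finset κ → ℝ) :
    ∑ R ∈ (S.image f).powerset, wtR π (S.image f) R * F R =
      ∑ B ∈ S.powerset, wtR (fun i => π (f i)) S B * F (B.image f) := by
  rw [sum_powerset_image f hf]
  refine Finset.sum_congr rfl fun B _ => ?_
  rw [wtR_image π f hf]

/-- a sum over a filtered powerset as a sum with an indicator -/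
theorem sum_wtR_filter (π : κ → ℝ) (S : Finset κ) (p : Finset κ → Prop) [DecidablePred p]
    (F : Finset κ → ℝ) :
    ∑ R ∈ S.powerset.filter p, wtR π S R * F R =
      ∑ R ∈ S.powerset, wtR π S R * (if p R then F R else 0) := by
  rw [Finset.sum_filter]
  refine Finset.sum_congr rfl fun R _ => ?_
  split_ifs <;> simp

end general

/-! ### the items of the covered part -/

/-- the small items -/
def Isml (w w1 Q : ℕ) : Finset (ℕ × ℕ) := (Ic w w1 Q).filter (fun i => i.1 ≤ w)

/-- the large primes which occur in items -/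
def Wq (w w1 Q : ℕ) : Finset ℕ := (Wp w w1).filter (fun p => p ≤ Q)

/-- the item of a large prime -/
def it1 (p : ℕ) : ℕ × ℕ := (p, 1)

theorem it1_inj : Function.Injective it1 := fun _ _ h => (Prod.mk.inj h).1

theorem Wq_subset (w w1 Q : ℕ) : Wq w w1 Q ⊆ Wp w w1 := Finset.filter_subset _ _

theorem mem_Wq {w w1 Q p : ℕ} : p ∈ Wq w w1 Q ↔ (w < p ∧ p ≤ w1) ∧ p.Prime ∧ p ≤ Q := by
  simp only [Wq, Wp, Finset.mem_filter, Finset.mem_Ioc, and_assoc]

theorem Ic_split (w w1 Q : ℕ) : Ic w w1 Q = Isml w w1 Q ∪ (Wq w w1 Q).image it1 := by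
  ext i
  simp only [Isml, Finset.mem_union, Finset.mem_filter, Finset.mem_image, mem_Wq]
  constructor
  · intro hi
    by_cases h : i.1 ≤ w
    · exact Or.inl ⟨hi, h⟩
    · right
      simp only [Ic, Finset.mem_filter, Finset.mem_product, Finset.mem_range] at hi
      obtain ⟨_, hp, _, hQ, h1 | ⟨h1, h2⟩⟩ := hi
      · exact absurd h1 h
      · refine ⟨i.1, ⟨⟨not_le.1 h, h1⟩, hp, ?_⟩, ?_⟩
        · rw [h2, pow_one] at hQ
          exact hQ
        · rw [it1, ← h2]
  · rintro (⟨hi, _⟩ | ⟨p, ⟨⟨h1, h2⟩, hp, hQ⟩, rfl⟩)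
    · exact hi
    · have := hp.one_lt
      simp only [Ic, it1, Finset.mem_filter, Finset.mem_product, Finset.mem_range, pow_one]
      exact ⟨⟨by omega, by omega⟩, hp, le_refl 1, hQ, Or.inr ⟨h2, trivial⟩⟩

theorem Isml_disj (w w1 Q : ℕ) : Disjoint (Isml w w1 Q) ((Wq w w1 Q).image it1) := by
  rw [Finset.disjoint_left]
  intro i hi hi'
  rw [Isml, Finset.mem_filter] at hi
  rw [Finset.mem_image] at hi'
  obtain ⟨p, hp, rfl⟩ := hi'
  rw [mem_Wq] at hp
  exact absurd hi.2 (not_le.2 hp.1.1)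

theorem Isml_prop {w w1 Q : ℕ} {i : ℕ × ℕ} (hi : i ∈ Isml w w1 Q) :
    i.1.Prime ∧ 1 ≤ i.2 ∧ i.1 ^ i.2 ≤ Q ∧ i.1 ≤ w := by
  simp only [Isml, Ic, Finset.mem_filter] at hi
  exact ⟨hi.1.2.1, hi.1.2.2.1, hi.1.2.2.2.1, hi.2⟩

section parts

variable {w w1 Q : ℕ} {A : Finset (ℕ × ℕ)} {B : Finset ℕ}

theorem part_disj (hA : A ⊆ Isml w w1 Q) (hB : B ⊆ Wq w w1 Q) :
    Disjoint A (B.image it1) :=
  (Isml_disj w w1 Q).mono hA (Finset.image_subset_image hB)

theorem cost_part (hA : A ⊆ Isml w w1 Q) (hB : B ⊆ Wq w w1 Q) :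
    cost (A ∪ B.image it1) = cost A + ∑ p ∈ B, Real.log p := by
  unfold cost
  rw [Finset.sum_union (part_disj hA hB), Finset.sum_image fun x _ y _ h => it1_inj h]
  simp [it1]

theorem filter_small (hA : A ⊆ Isml w w1 Q) (hB : B ⊆ Wq w w1 Q) :
    (A ∪ B.image it1).filter (fun i => i.1 ≤ w) = A := by
  ext i
  simp only [Finset.mem_filter, Finset.mem_union, Finset.mem_image]
  constructor
  · rintro ⟨h | ⟨p, hp, rfl⟩, hw⟩
    · exact h
    · have := (mem_Wq.1 (hB hp)).1.1
      exact absurd hw (not_le.2 this)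
  · intro h
    exact ⟨Or.inl h, (Isml_prop (hA h)).2.2.2⟩

theorem filter_large (hA : A ⊆ Isml w w1 Q) (hB : B ⊆ Wq w w1 Q) :
    (A ∪ B.image it1).filter (fun i => w < i.1) = B.image it1 := by
  ext i
  simp only [Finset.mem_filter, Finset.mem_union, Finset.mem_image]
  constructor
  · rintro ⟨h | h, hw⟩
    · exact absurd hw (not_lt.2 (Isml_prop (hA h)).2.2.2)
    · exact h
  · rintro ⟨p, hp, rfl⟩
    exact ⟨Or.inr ⟨p, hp, rfl⟩, (mem_Wq.1 (hB hp)).1.1⟩

theorem rOf_part (hA : A ⊆ Isml w w1 Q) (hB : B ⊆ Wq w w1 Q) :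
    rOf w (A ∪ B.image it1) = WR A := by
  unfold rOf WR
  rw [filter_small hA hB]

theorem SOf_part (hA : A ⊆ Isml w w1 Q) (hB : B ⊆ Wq w w1 Q) :
    SOf w (A ∪ B.image it1) = B := by
  unfold SOf
  rw [filter_large hA hB, Finset.image_image]
  have : Prod.fst ∘ it1 = id := rfl
  rw [this, Finset.image_id]

theorem WR_part (hA : A ⊆ Isml w w1 Q) (hB : B ⊆ Wq w w1 Q) :
    WR (A ∪ B.image it1) = WR A * ∏ p ∈ B, p := by
  unfold WR
  rw [Finset.prod_union (part_disj hA hB), Finset.prod_image fun x _ y _ h => it1_inj h]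
  simp [it1]

theorem WR_small_pos (hA : A ⊆ Isml w w1 Q) : 1 ≤ WR A := by
  unfold WR
  exact Finset.prod_pos fun i hi => pow_pos (Isml_prop (hA hi)).1.pos _

theorem log_WR (hA : ∀ i ∈ A, 1 ≤ i.1) : Real.log (WR A) = cost A := by
  unfold WR cost
  rw [Nat.cast_prod, Real.log_prod fun i hi => ?_]
  · refine Finset.sum_congr rfl fun i _ => ?_
    rw [Nat.cast_pow, Real.log_pow]
  · have := hA i hi
    have h : 0 < i.1 ^ i.2 := pow_pos (by omega) _
    exact_mod_cast h.ne'

theorem cost_nonneg' (hA : ∀ i ∈ A, 1 ≤ i.1) : 0 ≤ cost A :=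
  Finset.sum_nonneg fun i hi =>
    mul_nonneg (Nat.cast_nonneg _) (Real.log_nonneg (by exact_mod_cast hA i hi))

/-- large primes are coprime to the smooth part -/
theorem coprime_WR_small (hA : A ⊆ Isml w w1 Q) {p : ℕ} (hp : p ∈ Wp w w1) :
    Nat.Coprime p (WR A) := by
  unfold WR
  rw [Wp, Finset.mem_filter, Finset.mem_Ioc] at hp
  refine Nat.Coprime.prod_right fun i hi => Nat.Coprime.pow_right _ ?_
  have h := Isml_prop (hA hi)
  rw [Nat.coprime_primes hp.2 h.1]
  have := h.2.2.2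
  omega

end parts

/-- the average over the random modulus, split into its smooth part and its large primes -/
theorem sum_wtR_Ic (π : ℕ × ℕ → ℝ) (w w1 Q : ℕ) (F : Finset (ℕ × ℕ) → ℝ) :
    ∑ R ∈ (Ic w w1 Q).powerset, wtR π (Ic w w1 Q) R * F R =
      ∑ A ∈ (Isml w w1 Q).powerset, wtR π (Isml w w1 Q) A *
        ∑ B ∈ (Wq w w1 Q).powerset, wtR (fun p => π (p, 1)) (Wq w w1 Q) B *
          F (A ∪ B.image it1) := by
  rw [Ic_split, sum_wtR_union π (Isml_disj w w1 Q)]
  refine Finset.sum_congr rfl fun A _ => ?_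
  rw [sum_wtR_image π it1 it1_inj]
  rfl

/-- the same with a bound on the cost -/
theorem sum_wtR_Ic_cost (π : ℕ × ℕ → ℝ) (w w1 Q : ℕ) (X : ℝ) (F : Finset (ℕ × ℕ) → ℝ) :
    ∑ R ∈ (Ic w w1 Q).powerset.filter (fun R => cost R ≤ X), wtR π (Ic w w1 Q) R * F R =
      ∑ A ∈ (Isml w w1 Q).powerset, wtR π (Isml w w1 Q) A *
        ∑ B ∈ (Wq w w1 Q).powerset.filter (fun B => cost A + ∑ p ∈ B, Real.log (p : ℕ) ≤ X),
          wtR (fun p => π (p, 1)) (Wq w w1 Q) B * F (A ∪ B.image it1) := by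
  rw [sum_wtR_filter, sum_wtR_Ic]
  refine Finset.sum_congr rfl fun A hA => ?_
  rw [sum_wtR_filter]
  congr 1
  refine Finset.sum_congr rfl fun B hB => ?_
  rw [cost_part (Finset.mem_powerset.1 hA) (Finset.mem_powerset.1 hB)]

end Vale.Agent.P042.SS
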