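import Vale.Agent.P042.SS.Spec
import Vale.Agent.P042.SS.Split
import Vale.Agent.P042.SS.EKLmi
import Vale.Agent.P042.SS.EKLeta

set_option autoImplicit false

/-! Block EKL: assembly. -/

namespace Vale.Agent.P042.SS

open Polynomial Finset

/-- the average of the MI part over the random modulus -/
theorem mi_avg (hE : EntStmt) (hP : PinEntStmt) (hD : DefectStmt) (hPt : PartStmt)
    (hC : CostStmt) :
    ∀ (k E K p0 : ℕ) (kap : ℕ → ℕ → ℝ), 1 ≤ k → 1 ≤ E → KapOK k E K p0 kap →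
    ∃ C : ℝ, 0 < C ∧
    ∀ (C2 Cg Cc : ℝ) (J m0 : ℕ), 0 < C2 → 0 < Cg → 0 < Cc → 2 ≤ J → 1 ≤ m0 →
    ∃ Jb : ℕ, 1 ≤ Jb ∧ ∀ c1 c1' : ℝ, 0 < c1 → c1 ≤ c1' → c1' ≤ C2 → ∃ P0 : ℝ, ∀ P : ℝ, P0 ≤ P →
    ∀ (N' Nmin t Q : ℕ) (η Φ : ℝ) (G : ℤ → ℝ) (ν : ℕ → ℤ → ℝ),
    Real.exp (7 / 8 * P) ≤ N' → 1 ≤ t → t ≤ N' → N' ≤ 16 * m0 * t →
    Pinned k N' Nmin (Wp ⌊c1 * P⌋₊ ⌊C2 * P⌋₊) (1 / (J : ℝ)) η Φ G ν →
    (∀ n, G n ≤ Real.exp (Cg * Real.sqrt P) * Φ) →
    ∑ R ∈ (Ic ⌊c1 * P⌋₊ ⌊C2 * P⌋₊ Q).powerset.filter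
        (fun R => cost R ≤ Cc * Real.sqrt P),
      wtR (fun i => kap i.1 i.2) (Ic ⌊c1 * P⌋₊ ⌊C2 * P⌋₊ Q) R *
        ∑ p ∈ (SOf ⌊c1 * P⌋₊ R).filter (fun p => ⌊c1' * P⌋₊ < p),
          MI (Icc (1 : ℤ) N') (fun n => G n / (N' * Φ)) (Xr p)
            (fun n => (XV Xr ((SOf ⌊c1 * P⌋₊ R).erase p) n,
              (Xr (rOf ⌊c1 * P⌋₊ R) n, tile N' t n))) ≤
    4 * J * (Jb * k / Real.sqrt (c1' * P)) *
      (8 * (Cg * Real.sqrt P + 1) * (Jb * k / Real.sqrt (c1 * P)) +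
        Real.log (16 * m0) + C * (Real.sqrt (c1 * P) + 1)) := by
  classical
  intro k E K p0 kap hk hE1 hkap
  obtain ⟨C, hC0, hCost⟩ := hC k E K p0 kap hk hE1 hkap
  refine ⟨C, hC0, fun C2 Cg Cc J m0 hC2 hCg hCc hJ hm0 => ?_⟩
  obtain ⟨Jb, hJb, hmi⟩ := mi_part hE hP hD hPt k E K p0 kap hk hE1 hkap C2 Cg Cc J m0 hC2 hCg hCc
    hJ hm0
  refine ⟨Jb, hJb, fun c1 c1' hc1 hcc hcC => ?_⟩
  obtain ⟨P0, hP0⟩ := hmi c1 c1' hc1 hcc hcC
  refine ⟨max P0 1, fun P hPP N' Nmin t Q η Φ G ν hN ht htN hNt hpin hGle => ?_⟩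
  have hP1 : (1 : ℝ) ≤ P := (le_max_right _ _).trans hPP
  have hPpos : 0 < P := by linarith only [hP1]
  have hmi' := hP0 P ((le_max_left _ _).trans hPP) N' Nmin t Q η Φ G ν hN ht htN hNt hpin hGle
  set w : ℕ := ⌊c1 * P⌋₊ with hw
  set w1 : ℕ := ⌊C2 * P⌋₊ with hw1
  have hc1P : 0 < c1 * P := mul_pos hc1 hPpos
  rw [sum_wtR_Ic_cost]
  set T : ℝ := 4 * J * (Jb * k / Real.sqrt (c1' * P)) with hT
  have hT0 : 0 ≤ T := by positivity
  set L : ℝ := 8 * (Cg * Real.sqrt P + 1) * (Jb * k / Real.sqrt (c1 * P)) +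
        Real.log (16 * m0) with hL
  have hprime : ∀ i ∈ Isml w w1 Q, i.1.Prime ∧ 1 ≤ i.2 ∧ i.1 ≤ w := fun i hi => by
    obtain ⟨h1, h2, -, h3⟩ := Isml_prop hi
    exact ⟨h1, h2, h3⟩
  have hwt0 : ∀ A ∈ (Isml w w1 Q).powerset, 0 ≤ wtR (fun i => kap i.1 i.2) (Isml w w1 Q) A :=
    fun A hA => wtR_nonneg _ _ _ (Finset.mem_powerset.1 hA) (fun i _ => hkap.nn _ _)
      (fun i _ => hkap.le1 _ _)
  calc ∑ A ∈ (Isml w w1 Q).powerset, wtR (fun i => kap i.1 i.2) (Isml w w1 Q) A *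
        ∑ B ∈ (Wq w w1 Q).powerset.filter
            (fun B => cost A + ∑ p ∈ B, Real.log (p : ℕ) ≤ Cc * Real.sqrt P),
          wtR (fun p => kap p 1) (Wq w w1 Q) B *
          ∑ p ∈ (SOf w (A ∪ B.image it1)).filter (fun p => ⌊c1' * P⌋₊ < p),
          MI (Icc (1 : ℤ) N') (fun n => G n / (N' * Φ)) (Xr p)
            (fun n => (XV Xr ((SOf w (A ∪ B.image it1)).erase p) n,
              (Xr (rOf w (A ∪ B.image it1)) n, tile N' t n)))
      ≤ ∑ A ∈ (Isml w w1 Q).powerset, wtR (fun i => kap i.1 i.2) (Isml w w1 Q) A *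
        (T * (L + cost A)) := by
        refine Finset.sum_le_sum fun A hA => mul_le_mul_of_nonneg_left ?_ (hwt0 A hA)
        have hA' := Finset.mem_powerset.1 hA
        have hcA : 0 ≤ cost A := cost_nonneg' fun i hi => (hprime i (hA' hi)).1.one_lt.le
        have hlogWR : Real.log (WR A) = cost A :=
          log_WR fun i hi => (hprime i (hA' hi)).1.one_lt.le
        have h1 := hmi' (WR A) (Cc * Real.sqrt P - cost A) (WR_small_pos hA')
          (by linarith only [hcA])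
        rw [hlogWR] at h1
        have e1 : ((Wp w w1).filter (fun p => p ≤ Q)) = Wq w w1 Q := rfl
        rw [e1] at h1
        refine le_trans (le_of_eq ?_) h1
        refine Finset.sum_congr ?_ ?_
        · ext B
          simp only [Finset.mem_filter, and_congr_right_iff]
          intro _
          constructor <;> intro h <;> linarith only [h]
        · intro B hB
          rw [Finset.mem_filter] at hB
          have hB' := Finset.mem_powerset.1 hB.1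
          rw [SOf_part hA' hB', rOf_part hA' hB']
    _ = T * (L * ∑ A ∈ (Isml w w1 Q).powerset, wtR (fun i => kap i.1 i.2) (Isml w w1 Q) A +
        ∑ A ∈ (Isml w w1 Q).powerset, wtR (fun i => kap i.1 i.2) (Isml w w1 Q) A * cost A) := by
        rw [Finset.mul_sum, ← Finset.sum_add_distrib, Finset.mul_sum]
        refine Finset.sum_congr rfl fun A _ => ?_
        ring
    _ ≤ T * (L * 1 + C * (Real.sqrt (c1 * P) + 1)) := by
        refine mul_le_mul_of_nonneg_left ?_ hT0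
        refine add_le_add (le_of_eq ?_) ?_
        · rw [sum_wtR]
        · have h2 : ∑ A ∈ (Isml w w1 Q).powerset,
              wtR (fun i => kap i.1 i.2) (Isml w w1 Q) A * cost A =
              ∑ i ∈ Isml w w1 Q, kap i.1 i.2 * ((i.2 : ℝ) * Real.log i.1) :=
            sum_wtR_cost (fun i : ℕ × ℕ => kap i.1 i.2)
              (fun i : ℕ × ℕ => (i.2 : ℝ) * Real.log i.1) (Isml w w1 Q)
          rw [h2]
          refine (hCost w (Isml w w1 Q) hprime).trans ?_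
          refine mul_le_mul_of_nonneg_left ?_ hC0.le
          have h3 : Real.sqrt (w : ℝ) ≤ Real.sqrt (c1 * P) :=
            Real.sqrt_le_sqrt (Nat.floor_le hc1P.le)
          linarith only [h3]
    _ = _ := by
        rw [mul_one]

/-- the asymptotics of the bound -/
lemma mi_asymp (k J Jb m0 : ℕ) (C Cg c1 c1' ε : ℝ) (hC : 0 < C) (hCg : 0 < Cg) (hc1 : 0 < c1)
    (hc1' : 0 < c1') (hε : 0 < ε) (hsmall : 4 * J * (Jb * k) * C * Real.sqrt c1 ≤
      ε * Real.sqrt c1') :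
    ∃ P0 : ℝ, ∀ P : ℝ, P0 ≤ P →
    4 * J * (Jb * k / Real.sqrt (c1' * P)) *
      (8 * (Cg * Real.sqrt P + 1) * (Jb * k / Real.sqrt (c1 * P)) +
        Real.log (16 * m0) + C * (Real.sqrt (c1 * P) + 1)) ≤ 2 * ε := by
  set a : ℝ := Real.sqrt c1' with ha
  set b : ℝ := Real.sqrt c1 with hb
  have ha0 : 0 < a := Real.sqrt_pos.2 hc1'
  have hb0 : 0 < b := Real.sqrt_pos.2 hc1
  have hlog : 0 ≤ Real.log (16 * m0) := by
    have h2 : 0 ≤ Real.log ((16 * m0 : ℕ) : ℝ) := Real.log_natCast_nonneg _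
    push_cast at h2
    exact h2
  set T : ℝ := 4 * J * (Jb * k / a) * (8 * (Cg + 1) * (Jb * k / b) + Real.log (16 * m0) + C)
    with hT
  have hT0 : 0 ≤ T := by positivity
  refine ⟨max 1 ((T / ε) ^ 2), fun P hP => ?_⟩
  have hP1 : (1 : ℝ) ≤ P := (le_max_left _ _).trans hP
  have hP2 : (T / ε) ^ 2 ≤ P := (le_max_right _ _).trans hP
  have hPpos : 0 < P := by linarith only [hP1]
  set s : ℝ := Real.sqrt P with hs
  have hs1 : 1 ≤ s := by
    rw [hs, Real.one_le_sqrt]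
    exact hP1
  have hs0 : 0 < s := by linarith only [hs1]
  have hsT : T / ε ≤ s := Real.le_sqrt_of_sq_le hP2
  have e1 : Real.sqrt (c1' * P) = a * s := Real.sqrt_mul hc1'.le P
  have e2 : Real.sqrt (c1 * P) = b * s := Real.sqrt_mul hc1.le P
  rw [e1, e2]
  have h1 : 8 * (Cg * s + 1) * (Jb * k / (b * s)) + Real.log (16 * m0) + C * (b * s + 1) ≤
      (8 * (Cg + 1) * (Jb * k / b) + Real.log (16 * m0) + C) + C * b * s := by
    have h2 : 8 * (Cg * s + 1) * (Jb * k / (b * s)) ≤ 8 * (Cg + 1) * (Jb * k / b) := by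
      have h3 : Cg * s + 1 ≤ (Cg + 1) * s := by linarith only [hs1]
      calc 8 * (Cg * s + 1) * (Jb * k / (b * s)) ≤ 8 * ((Cg + 1) * s) * (Jb * k / (b * s)) := by
            gcongr
        _ = 8 * (Cg + 1) * (Jb * k / b) := by
            field_simp
    linarith only [h2]
  calc 4 * J * (Jb * k / (a * s)) * (8 * (Cg * s + 1) * (Jb * k / (b * s)) +
        Real.log (16 * m0) + C * (b * s + 1))
      ≤ 4 * J * (Jb * k / (a * s)) * ((8 * (Cg + 1) * (Jb * k / b) + Real.log (16 * m0) + C) +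
        C * b * s) := mul_le_mul_of_nonneg_left h1 (by positivity)
    _ = T / s + 4 * J * (Jb * k) * C * b / a := by
        rw [hT]
        field_simp
    _ ≤ ε + ε := by
        refine add_le_add ?_ ?_
        · rw [div_le_iff₀ hs0]
          rw [div_le_iff₀ hε] at hsT
          linarith only [hsT]
        · rw [div_le_iff₀ ha0]
          exact hsmall
    _ = 2 * ε := by ring

theorem ekl_of (hE : EntStmt) (hP : PinEntStmt) (hD : DefectStmt) (hK : KLChainStmt)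
    (hC : CostStmt) (hPt : PartStmt) : EKLStmt := by
  classical
  intro k E K p0 kap hk hE1 hkap C2 Ce Cg Cc J m0 hC2 hCe hCg hCc hJ hm0 ε hε
  obtain ⟨Ca, hCa, heta⟩ := eta_part hK hC k E K p0 kap hk hE1 hkap
  obtain ⟨C, hC0, hmi⟩ := mi_avg hE hP hD hPt hC k E K p0 kap hk hE1 hkap
  obtain ⟨Jb, hJb, hmi⟩ := hmi C2 Cg Cc J m0 hC2 hCg hCc hJ hm0
  have hk0 : (0 : ℝ) < k := by exact_mod_cast hk
  have hJ0 : (0 : ℝ) < J := by
    have : 0 < J := by omega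
    exact_mod_cast this
  have hJb0 : (0 : ℝ) < Jb := by exact_mod_cast hJb
  -- choice of `c1'`
  obtain ⟨c1', hc1', hc1C, hc1e⟩ : ∃ c1' : ℝ, 0 < c1' ∧ c1' ≤ C2 ∧
      Ca * Ce * Real.sqrt c1' ≤ ε / 4 := by
    have h0 : 0 < ε / (4 * (Ca * Ce)) := by positivity
    refine ⟨min C2 ((ε / (4 * (Ca * Ce))) ^ 2), lt_min hC2 (by positivity), min_le_left _ _, ?_⟩
    have h1 : Real.sqrt (min C2 ((ε / (4 * (Ca * Ce))) ^ 2)) ≤ ε / (4 * (Ca * Ce)) := by
      refine (Real.sqrt_le_sqrt (min_le_right _ _)).trans (le_of_eq ?_)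
      exact Real.sqrt_sq h0.le
    calc Ca * Ce * Real.sqrt (min C2 ((ε / (4 * (Ca * Ce))) ^ 2))
        ≤ Ca * Ce * (ε / (4 * (Ca * Ce))) := mul_le_mul_of_nonneg_left h1 (by positivity)
      _ = ε / 4 := by
          field_simp
  -- choice of `c1`
  set D : ℝ := 4 * J * (Jb * k) * C with hDd
  have hD0 : 0 < D := by positivity
  obtain ⟨c1, hc1, hcc, hsm⟩ : ∃ c1 : ℝ, 0 < c1 ∧ c1 < c1' ∧
      D * Real.sqrt c1 ≤ ε / 8 * Real.sqrt c1' := by
    have h0 : 0 < ε / (8 * D) * Real.sqrt c1' := by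
      have := Real.sqrt_pos.2 hc1'
      positivity
    refine ⟨min (c1' / 2) ((ε / (8 * D) * Real.sqrt c1') ^ 2), lt_min (by positivity)
      (by positivity), lt_of_le_of_lt (min_le_left _ _) (by linarith only [hc1']), ?_⟩
    have h1 : Real.sqrt (min (c1' / 2) ((ε / (8 * D) * Real.sqrt c1') ^ 2)) ≤
        ε / (8 * D) * Real.sqrt c1' := by
      refine (Real.sqrt_le_sqrt (min_le_right _ _)).trans (le_of_eq ?_)
      exact Real.sqrt_sq h0.le
    calc D * Real.sqrt (min (c1' / 2) ((ε / (8 * D) * Real.sqrt c1') ^ 2))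
        ≤ D * (ε / (8 * D) * Real.sqrt c1') := mul_le_mul_of_nonneg_left h1 hD0.le
      _ = ε / 8 * Real.sqrt c1' := by
          field_simp
  refine ⟨c1, hc1, lt_of_lt_of_le hcc hc1C, ?_⟩
  obtain ⟨P1, hP1⟩ := heta C2 Ce Cc J m0 hCe hCc hJ hm0 c1 c1' (ε / 4) hc1 hcc.le
    (by positivity)
  obtain ⟨P2, hP2⟩ := hmi c1 c1' hc1 hcc.le hc1C
  obtain ⟨P3, hP3⟩ := mi_asymp k J Jb m0 C Cg c1 c1' (ε / 8) hC0 hCg hc1 hc1' (by positivity) hsm
  refine ⟨max P1 (max P2 P3), fun P hPP N' Nmin t Q Φ G ν h1 _ h3 h4 h5 h6 _ h8 h9 => ?_⟩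
  have hPP1 : P1 ≤ P := (le_max_left _ _).trans hPP
  have hPP2 : P2 ≤ P := ((le_max_left _ _).trans (le_max_right _ _)).trans hPP
  have hPP3 : P3 ≤ P := ((le_max_right _ _).trans (le_max_right _ _)).trans hPP
  have g1 := hP1 P hPP1 N' Nmin t Q Φ G ν h1 h3 h4 h5 h6 h8
  have g2 := hP2 P hPP2 N' Nmin t Q (Ce / Real.sqrt P) Φ G ν h1 h4 h5 h6 h8 h9
  have g3 := hP3 P hPP3
  refine g1.trans ?_
  have g4 := g2.trans g3
  linarith only [g4, hc1e, hε]

end Vale.Agent.P042.SS
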