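import Vale.Agent.P042.SS.Defs

set_option autoImplicit false

/-!
Combinatorial part of the entropy block: random set `S ⊆ W` with rates `π ≤ 1/4`, random colouring
`C ⊆ W`, supermodular defect function `f`.
-/

namespace Vale.Agent.P042.SS.EntC

open Finset

/-- adding a point costs at most the factor `(4/3) π p` -/
theorem wtR_insert_le (π : ℕ → ℝ) (W T : Finset ℕ) (p : ℕ) (hp : p ∈ W) (hpT : p ∉ T)
    (hT : T ⊆ W) (h0 : ∀ i ∈ W, 0 ≤ π i) (h1 : ∀ i ∈ W, π i ≤ 1 / 4) :
    wtR π W (insert p T) ≤ 4 / 3 * (π p * wtR π W T) := by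
  unfold wtR
  rw [Finset.prod_insert hpT]
  have hs : W \ T = insert p (W \ insert p T) := by
    ext x
    simp only [mem_sdiff, mem_insert]
    constructor
    · rintro ⟨h1, h2⟩
      by_cases hx : x = p
      · exact Or.inl hx
      · exact Or.inr ⟨h1, fun h => h.elim hx h2⟩
    · rintro (h | ⟨h1, h2⟩)
      · exact h ▸ ⟨hp, hpT⟩
      · exact ⟨h1, fun h => h2 (Or.inr h)⟩
  have hnot : p ∉ W \ insert p T := by simp
  rw [hs, Finset.prod_insert hnot]
  have hA : 0 ≤ ∏ i ∈ T, π i := prod_nonneg fun i hi => h0 i (hT hi)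
  have hB : 0 ≤ ∏ i ∈ W \ insert p T, (1 - π i) := prod_nonneg fun i hi => by
    have := h1 i (mem_sdiff.1 hi).1
    linarith
  have h3 := h0 p hp
  have h4 := h1 p hp
  have h5 : 0 ≤ 4 / 3 * (1 - π p) - 1 := by linarith
  have h6 := mul_nonneg (mul_nonneg (mul_nonneg h3 hA) hB) h5
  nlinarith [h6]

theorem wt_nonneg (π : ℕ → ℝ) (W S : Finset ℕ) (hS : S ⊆ W)
    (h0 : ∀ i ∈ W, 0 ≤ π i) (h1 : ∀ i ∈ W, π i ≤ 1 / 4) : 0 ≤ wtR π W S :=
  wtR_nonneg π W S hS h0 fun i hi => (h1 i hi).trans (by norm_num)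

/-- moving one point out of the random set -/
theorem lemA (π : ℕ → ℝ) (W : Finset ℕ) (Gc : Finset ℕ → Prop) [DecidablePred Gc]
    (h0 : ∀ i ∈ W, 0 ≤ π i) (h1 : ∀ i ∈ W, π i ≤ 1 / 4)
    (hG : ∀ S T : Finset ℕ, T ⊆ S → Gc S → Gc T)
    (g : ℕ → Finset ℕ → ℝ) (hg : ∀ p ∈ W, ∀ T ⊆ W, p ∉ T → 0 ≤ g p T) :
    ∑ S ∈ W.powerset.filter Gc, wtR π W S * ∑ p ∈ S, g p (S.erase p) ≤
      4 / 3 * ∑ S ∈ W.powerset.filter Gc, wtR π W S * ∑ p ∈ W \ S, π p * g p S := by
  have hL : ∑ S ∈ W.powerset.filter Gc, wtR π W S * ∑ p ∈ S, g p (S.erase p) =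
      ∑ p ∈ W, ∑ S ∈ (W.powerset.filter Gc).filter (fun S => p ∈ S),
        wtR π W S * g p (S.erase p) := by
    simp only [Finset.mul_sum]
    rw [Finset.sum_comm']
    intro S p
    simp only [mem_filter, mem_powerset]
    constructor
    · rintro ⟨⟨h1, h2⟩, h3⟩
      exact ⟨⟨⟨h1, h2⟩, h3⟩, h1 h3⟩
    · rintro ⟨⟨⟨h1, h2⟩, h3⟩, _⟩
      exact ⟨⟨h1, h2⟩, h3⟩
  have hR : 4 / 3 * ∑ S ∈ W.powerset.filter Gc, wtR π W S * ∑ p ∈ W \ S, π p * g p S =
      ∑ p ∈ W, ∑ S ∈ (W.powerset.filter Gc).filter (fun S => p ∉ S),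
        4 / 3 * (wtR π W S * (π p * g p S)) := by
    simp only [Finset.mul_sum]
    rw [Finset.sum_comm']
    intro S p
    simp only [mem_filter, mem_powerset, mem_sdiff]
    constructor
    · rintro ⟨⟨h1, h2⟩, h3, h4⟩
      exact ⟨⟨⟨h1, h2⟩, h4⟩, h3⟩
    · rintro ⟨⟨⟨h1, h2⟩, h3⟩, h4⟩
      exact ⟨⟨h1, h2⟩, h4, h3⟩
  rw [hL, hR]
  refine Finset.sum_le_sum fun p hp => ?_
  have hinj : Set.InjOn (fun S : Finset ℕ => S.erase p)
      ((W.powerset.filter Gc).filter (fun S => p ∈ S)) := by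
    intro S hS T hT hST
    have h2 : p ∈ S := (mem_filter.1 (mem_coe.1 hS)).2
    have h3 : p ∈ T := (mem_filter.1 (mem_coe.1 hT)).2
    have h4 : S.erase p = T.erase p := hST
    rw [← Finset.insert_erase h2, ← Finset.insert_erase h3, h4]
  calc ∑ S ∈ (W.powerset.filter Gc).filter (fun S => p ∈ S), wtR π W S * g p (S.erase p)
      ≤ ∑ S ∈ (W.powerset.filter Gc).filter (fun S => p ∈ S),
          4 / 3 * (wtR π W (S.erase p) * (π p * g p (S.erase p))) := by
        refine Finset.sum_le_sum fun S hS => ?_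
        have h2 := mem_filter.1 hS
        have h3 := mem_filter.1 h2.1
        have hSW := mem_powerset.1 h3.1
        have hsub : S.erase p ⊆ W := (Finset.erase_subset _ _).trans hSW
        have h4 := wtR_insert_le π W (S.erase p) p hp (Finset.notMem_erase p S) hsub h0 h1
        rw [Finset.insert_erase h2.2] at h4
        have h5 := hg p hp (S.erase p) hsub (Finset.notMem_erase p S)
        calc wtR π W S * g p (S.erase p)
            ≤ 4 / 3 * (π p * wtR π W (S.erase p)) * g p (S.erase p) :=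
              mul_le_mul_of_nonneg_right h4 h5
          _ = _ := by ring
    _ = ∑ T ∈ ((W.powerset.filter Gc).filter (fun S => p ∈ S)).image (fun S => S.erase p),
          4 / 3 * (wtR π W T * (π p * g p T)) := by
        rw [Finset.sum_image hinj]
    _ ≤ _ := by
        refine Finset.sum_le_sum_of_subset_of_nonneg ?_ ?_
        · intro T hT
          obtain ⟨S, hS, rfl⟩ := mem_image.1 hT
          have h2 := mem_filter.1 hS
          have h3 := mem_filter.1 h2.1
          refine mem_filter.2 ⟨mem_filter.2 ⟨mem_powerset.2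
            ((Finset.erase_subset _ _).trans (mem_powerset.1 h3.1)),
            hG S _ (Finset.erase_subset _ _) h3.2⟩, Finset.notMem_erase p S⟩
        · intro T hT _
          have h2 := mem_filter.1 hT
          have h3 := mem_filter.1 h2.1
          have hTW := mem_powerset.1 h3.1
          have h4 := wt_nonneg π W T hTW h0 h1
          have h5 := hg p hp T hTW h2.2
          have h6 := h0 p hp
          positivity

/-- colouring: a quantity that does not see the colour of `p` -/
theorem col_notMem (W : Finset ℕ) (p : ℕ) (hp : p ∈ W) (h : Finset ℕ → ℝ) :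
    ∑ C ∈ W.powerset, h (C.erase p) = 2 * ∑ C ∈ W.powerset.filter (fun C => p ∉ C), h C := by
  obtain ⟨W0, hW0, rfl⟩ : ∃ W0 : Finset ℕ, p ∉ W0 ∧ insert p W0 = W :=
    ⟨W.erase p, Finset.notMem_erase p W, Finset.insert_erase hp⟩
  rw [Finset.sum_powerset_insert hW0]
  have h1 : ∀ C ∈ W0.powerset, C.erase p = C := fun C hC =>
    Finset.erase_eq_of_notMem fun hpC => hW0 (mem_powerset.1 hC hpC)
  have h2 : ∀ C ∈ W0.powerset, (insert p C).erase p = C := fun C hC => by
    rw [Finset.erase_insert_eq_erase, h1 C hC]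
  have h3 : (insert p W0).powerset.filter (fun C => p ∉ C) = W0.powerset := by
    ext C
    simp only [mem_filter, mem_powerset]
    constructor
    · rintro ⟨h, h'⟩ x hx
      rcases mem_insert.1 (h hx) with h4 | h4
      · exact absurd (h4 ▸ hx) h'
      · exact h4
    · intro h
      exact ⟨h.trans (Finset.subset_insert _ _), fun h' => hW0 (h h')⟩
  rw [h3, Finset.sum_congr rfl fun C hC => by rw [h1 C hC],
    Finset.sum_congr (s₁ := W0.powerset) (f := fun C => h ((insert p C).erase p)) rfl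
      fun C hC => by rw [h2 C hC]]
  ring

/-- colouring: half of the colourings contain `p` -/
theorem col_mem (W : Finset ℕ) (p : ℕ) (hp : p ∈ W) (a : ℝ) :
    (W.powerset.card : ℝ) * a = 2 * ∑ C ∈ W.powerset, (if p ∈ C then a else 0) := by
  have h1 := col_notMem W p hp (fun _ => a)
  rw [Finset.sum_const, nsmul_eq_mul] at h1
  have h2 : ∑ C ∈ W.powerset.filter (fun C => p ∉ C), a =
      ∑ C ∈ W.powerset, (if p ∈ C then 0 else a) := by
    rw [Finset.sum_filter]
    refine Finset.sum_congr rfl fun C _ => ?_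
    by_cases h : p ∈ C <;> simp [h]
  have h3 : ∑ C ∈ W.powerset, (if p ∈ C then a else 0) +
      ∑ C ∈ W.powerset, (if p ∈ C then 0 else a) = (W.powerset.card : ℝ) * a := by
    rw [← Finset.sum_add_distrib, ← nsmul_eq_mul, ← Finset.sum_const]
    refine Finset.sum_congr rfl fun C _ => ?_
    by_cases h : p ∈ C <;> simp [h]
  rw [h2] at h1
  linarith

section super

variable (W : Finset ℕ) (f : Finset ℕ → ℝ)

/-- increments at the same base are bounded by the joint increment -/
theorem sup_one (fsup : ∀ T T' : Finset ℕ, T ⊆ T' → T' ⊆ W → ∀ s ∈ W, s ∉ T' →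
      f (insert s T) - f T ≤ f (insert s T') - f T')
    (T V : Finset ℕ) (hT : T ⊆ W) (hV : V ⊆ W) (hd : Disjoint V T) :
    ∑ s ∈ V, (f (insert s T) - f T) ≤ f (T ∪ V) - f T := by
  induction V using Finset.induction_on with
  | empty => simp
  | insert v V hv ih =>
    have hvW : v ∈ W := hV (mem_insert_self v V)
    have hVW : V ⊆ W := (Finset.subset_insert v V).trans hV
    have hd' : Disjoint V T := Finset.disjoint_of_subset_left (Finset.subset_insert v V) hd
    have hvT : v ∉ T := Finset.disjoint_left.1 hd (mem_insert_self v V)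
    rw [Finset.sum_insert hv]
    have h1 := ih hVW hd'
    have h2 := fsup T (T ∪ V) subset_union_left (union_subset hT hVW) v hvW
      (by rw [mem_union]; rintro (h | h); exacts [hvT h, hv h])
    rw [← Finset.union_insert] at h2
    linarith

/-- removing a whole set costs at most the sum of the last increments -/
theorem sup_two (fsup : ∀ T T' : Finset ℕ, T ⊆ T' → T' ⊆ W → ∀ s ∈ W, s ∉ T' →
      f (insert s T) - f T ≤ f (insert s T') - f T')
    (B S : Finset ℕ) (hB : B ⊆ W) (hS : S ⊆ W) (hd : Disjoint B S) :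
    f (B ∪ S) - f B ≤ ∑ s ∈ S, (f (B ∪ S) - f ((B ∪ S).erase s)) := by
  induction S using Finset.induction_on with
  | empty => simp
  | insert v S hv ih =>
    have hvW : v ∈ W := hS (mem_insert_self v S)
    have hSW : S ⊆ W := (Finset.subset_insert v S).trans hS
    have hd' : Disjoint B S := Finset.disjoint_of_subset_right (Finset.subset_insert v S) hd
    have hvB : v ∉ B := fun h => Finset.disjoint_left.1 hd h (mem_insert_self v S)
    have hvBS : v ∉ B ∪ S := by
      rw [mem_union]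
      rintro (h | h)
      exacts [hvB h, hv h]
    have h1 := ih hSW hd'
    rw [Finset.sum_insert hv, Finset.union_insert, Finset.erase_insert hvBS]
    have h2 : ∑ s ∈ S, (f (B ∪ S) - f ((B ∪ S).erase s)) ≤
        ∑ s ∈ S, (f (insert v (B ∪ S)) - f ((insert v (B ∪ S)).erase s)) := by
      refine Finset.sum_le_sum fun s hs => ?_
      have hsv : s ≠ v := fun h => hv (h ▸ hs)
      have hsBS : s ∈ B ∪ S := mem_union_right _ hs
      have h3 := fsup ((B ∪ S).erase s) ((insert v (B ∪ S)).erase s)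
        (Finset.erase_subset_erase s (Finset.subset_insert _ _))
        ((Finset.erase_subset _ _).trans (insert_subset hvW (union_subset hB hSW)))
        s (hSW hs) (Finset.notMem_erase _ _)
      rw [Finset.insert_erase hsBS, Finset.insert_erase (mem_insert_of_mem hsBS)] at h3
      exact h3
    linarith

end super

/-- the block part of a colour class -/
def bl (W' : Finset ℕ) (bk : ℕ → ℕ) (b : ℕ) (C : Finset ℕ) : Finset ℕ :=
  (W' ∩ C).filter (fun p => bk p = b)

theorem bl_erase (W' : Finset ℕ) (bk : ℕ → ℕ) (b : ℕ) (C : Finset ℕ) (s : ℕ) :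
    bl W' bk b (C.erase s) = (bl W' bk b C).erase s := by
  ext x
  simp only [bl, mem_filter, mem_inter, mem_erase]
  tauto

theorem bl_subset (W' : Finset ℕ) (bk : ℕ → ℕ) (b : ℕ) (C : Finset ℕ) :
    bl W' bk b C ⊆ W' ∩ C := Finset.filter_subset _ _

/-- the combinatorial heart of the entropy estimate -/
theorem comb (W W' : Finset ℕ) (hW' : W' ⊆ W) (f : Finset ℕ → ℝ) (m : ℕ → Finset ℕ → ℝ)
    (τ Dm E : ℝ) (π : ℕ → ℝ) (bk : ℕ → ℕ) (sb : ℕ → ℝ) (J : ℕ) (Gc : Finset ℕ → Prop)
    [DecidablePred Gc] (hτ : 0 < τ) (hDm : 0 ≤ Dm) (hE : 0 ≤ E)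
    (hπ : ∀ p ∈ W, 0 ≤ π p ∧ π p ≤ 1 / 4 ∧ π p ≤ sb (bk p) ∧ bk p < J) (hsb : ∀ b, 0 ≤ sb b)
    (hG : ∀ S T : Finset ℕ, T ⊆ S → Gc S → Gc T)
    (f0 : ∀ T ⊆ W, 0 ≤ f T)
    (fmono : ∀ T ⊆ W, ∀ s ∈ W, s ∉ T → f T ≤ f (insert s T))
    (fsup : ∀ T T' : Finset ℕ, T ⊆ T' → T' ⊆ W → ∀ s ∈ W, s ∉ T' →
      f (insert s T) - f T ≤ f (insert s T') - f T')
    (m0 : ∀ p ∈ W, ∀ S ⊆ W, 0 ≤ m p S)
    (hm : ∀ S ⊆ W, ∀ U ⊆ W, Disjoint U S → τ * ∑ p ∈ U, m p S ≤ f (U ∪ S) - f U + E)
    (hD : ∀ S ⊆ W, Gc S → ∀ b c : ℕ, ∀ U ⊆ W.filter (fun p => bk p = b),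
      ∀ V ⊆ W.filter (fun p => bk p = c), f (S ∪ U ∪ V) ≤ Dm) :
    ∑ S ∈ W.powerset.filter Gc, wtR π W S * ∑ p ∈ S ∩ W', m p (S.erase p) ≤
      4 / τ * (∑ b ∈ W'.image bk, sb b) * (4 * Dm * (∑ b ∈ range J, sb b) + E) := by
  classical
  have h0 : ∀ i ∈ W, 0 ≤ π i := fun i hi => (hπ i hi).1
  have h1 : ∀ i ∈ W, π i ≤ 1 / 4 := fun i hi => (hπ i hi).2.1
  set F := W.powerset.filter Gc with hF
  set N : ℝ := (W.powerset.card : ℝ) with hN
  have hNpos : 0 < N := by
    rw [hN, Finset.card_powerset]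
    positivity
  have hFW : ∀ S ∈ F, S ⊆ W := fun S hS => mem_powerset.1 (mem_filter.1 hS).1
  have hFG : ∀ S ∈ F, Gc S := fun S hS => (mem_filter.1 hS).2
  have hw : ∀ S ∈ F, 0 ≤ wtR π W S := fun S hS => wt_nonneg π W S (hFW S hS) h0 h1
  have hw1 : ∑ S ∈ F, wtR π W S ≤ 1 := by
    rw [← sum_wtR π W]
    exact Finset.sum_le_sum_of_subset_of_nonneg (Finset.filter_subset _ _)
      fun S hS _ => wt_nonneg π W S (mem_powerset.1 hS) h0 h1
  -- Step 1
  set g : ℕ → Finset ℕ → ℝ := fun p T => if p ∈ W' then m p T else 0 with hg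
  have step1 : ∑ S ∈ F, wtR π W S * ∑ p ∈ S ∩ W', m p (S.erase p) ≤
      4 / 3 * ∑ S ∈ F, wtR π W S * ∑ p ∈ W \ S, π p * g p S := by
    have h2 := lemA π W Gc h0 h1 hG g (fun p hp T hT _ => by
      simp only [hg]
      split_ifs
      · exact m0 p hp T hT
      · exact le_rfl)
    refine le_trans (le_of_eq ?_) h2
    refine Finset.sum_congr rfl fun S _ => ?_
    congr 1
    simp only [hg]
    rw [← Finset.sum_filter]
    refine Finset.sum_congr ?_ fun _ _ => rfl
    ext x
    simp only [mem_inter, mem_filter]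
  -- increments are bounded by the maximal defect
  set D : Finset ℕ → Finset ℕ → ℕ → ℝ := fun C S b =>
    f (bl W' bk b C ∪ S) - f (bl W' bk b C \ S) with hDdef
  have hAW : ∀ b C, bl W' bk b C ⊆ W := fun b C =>
    (bl_subset W' bk b C).trans (Finset.inter_subset_left.trans hW')
  have hAC : ∀ b C, bl W' bk b C ⊆ C := fun b C =>
    (bl_subset W' bk b C).trans Finset.inter_subset_right
  have hAb : ∀ b C, bl W' bk b C ⊆ W.filter (fun p => bk p = b) := fun b C x hx => by
    have h2 := mem_filter.1 hx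
    exact mem_filter.2 ⟨hW' (mem_inter.1 h2.1).1, h2.2⟩
  -- Step 2
  have step2 : ∀ S ∈ F, N * ∑ p ∈ W \ S, π p * g p S ≤
      2 / τ * ∑ C ∈ W.powerset, ∑ b ∈ W'.image bk, sb b * (D C S b + E) := by
    intro S hS
    have hSW := hFW S hS
    have hSG := hFG S hS
    have e1 : N * ∑ p ∈ W \ S, π p * g p S =
        2 * ∑ C ∈ W.powerset, ∑ p ∈ W \ S, (if p ∈ C then π p * g p S else 0) := by
      rw [Finset.mul_sum, Finset.sum_comm, Finset.mul_sum]
      refine Finset.sum_congr rfl fun p hp => ?_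
      exact col_mem W p (mem_sdiff.1 hp).1 (π p * g p S)
    rw [e1, div_mul_eq_mul_div, mul_div_assoc]
    refine mul_le_mul_of_nonneg_left ?_ (by norm_num)
    rw [Finset.sum_div]
    refine Finset.sum_le_sum fun C hC => ?_
    have hCW := mem_powerset.1 hC
    have e2 : ∑ p ∈ W \ S, (if p ∈ C then π p * g p S else 0) =
        ∑ p ∈ (W' ∩ C) \ S, π p * m p S := by
      rw [← Finset.sum_filter]
      have e3 : ∑ p ∈ (W \ S).filter (fun p => p ∈ C), π p * g p S =
          ∑ p ∈ ((W \ S).filter (fun p => p ∈ C)).filter (fun p => p ∈ W'), π p * m p S := by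
        rw [Finset.sum_filter (fun p => p ∈ W')]
        refine Finset.sum_congr rfl fun p _ => ?_
        simp only [hg]
        split_ifs <;> simp
      rw [e3]
      refine Finset.sum_congr ?_ fun _ _ => rfl
      ext x
      simp only [mem_filter, mem_sdiff, mem_inter]
      constructor
      · rintro ⟨⟨⟨h2, h3⟩, h4⟩, h5⟩
        exact ⟨⟨h5, h4⟩, h3⟩
      · rintro ⟨⟨h5, h4⟩, h3⟩
        exact ⟨⟨⟨hW' h5, h3⟩, h4⟩, h5⟩
    rw [e2]
    have e4 : ∑ p ∈ (W' ∩ C) \ S, π p * m p S =
        ∑ b ∈ W'.image bk, ∑ p ∈ ((W' ∩ C) \ S).filter (fun p => bk p = b), π p * m p S := by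
      rw [Finset.sum_fiberwise_of_maps_to]
      intro p hp
      exact mem_image_of_mem bk (mem_inter.1 (mem_sdiff.1 hp).1).1
    rw [e4, Finset.sum_div]
    refine Finset.sum_le_sum fun b hb => ?_
    have e5 : ((W' ∩ C) \ S).filter (fun p => bk p = b) = bl W' bk b C \ S := by
      ext x
      simp only [bl, mem_filter, mem_sdiff]
      tauto
    rw [e5]
    have hUW : bl W' bk b C \ S ⊆ W := Finset.sdiff_subset.trans (hAW b C)
    have e6 := hm S hSW (bl W' bk b C \ S) hUW Finset.sdiff_disjoint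
    rw [Finset.sdiff_union_self_eq_union] at e6
    calc ∑ p ∈ bl W' bk b C \ S, π p * m p S
        ≤ ∑ p ∈ bl W' bk b C \ S, sb b * m p S := by
          refine Finset.sum_le_sum fun p hp => ?_
          have hpW := hUW hp
          have h2 := (hπ p hpW).2.2.1
          have h3 : bk p = b := (mem_filter.1 (mem_sdiff.1 hp).1).2
          rw [h3] at h2
          exact mul_le_mul_of_nonneg_right h2 (m0 p hpW S hSW)
      _ = sb b * (∑ p ∈ bl W' bk b C \ S, m p S) := by rw [Finset.mul_sum]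
      _ ≤ sb b * ((D C S b + E) / τ) := by
          refine mul_le_mul_of_nonneg_left ?_ (hsb b)
          rw [le_div_iff₀ hτ, mul_comm]
          exact e6
      _ = _ := by ring
  -- Step 3
  have step3 : ∀ C ∈ W.powerset, ∀ b, ∑ S ∈ F, wtR π W S * D C S b ≤
      4 / 3 * ∑ S ∈ F, wtR π W S * ∑ s ∈ W \ S,
        π s * (f (insert s (bl W' bk b C ∪ S)) - f ((bl W' bk b C).erase s ∪ S)) := by
    intro C _ b
    have h2 := lemA π W Gc h0 h1 hG
      (fun s T => f (insert s (bl W' bk b C ∪ T)) - f ((bl W' bk b C).erase s ∪ T))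
      (fun s hs T hT hsT => by
        have h3 : s ∉ (bl W' bk b C).erase s ∪ T := by
          rw [mem_union]
          rintro (h | h)
          · exact Finset.notMem_erase _ _ h
          · exact hsT h
        have h4 := fmono ((bl W' bk b C).erase s ∪ T)
          (union_subset ((Finset.erase_subset _ _).trans (hAW b C)) hT) s hs h3
        have h5 : insert s ((bl W' bk b C).erase s ∪ T) = insert s (bl W' bk b C ∪ T) := by
          ext x
          simp only [mem_insert, mem_union, mem_erase]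
          tauto
        rw [h5] at h4
        linarith)
    refine le_trans ?_ h2
    refine Finset.sum_le_sum fun S hS => ?_
    refine mul_le_mul_of_nonneg_left ?_ (hw S hS)
    have hSW := hFW S hS
    have h3 := sup_two W f fsup (bl W' bk b C \ S) S (Finset.sdiff_subset.trans (hAW b C)) hSW
      Finset.sdiff_disjoint
    rw [Finset.sdiff_union_self_eq_union] at h3
    refine h3.trans (le_of_eq ?_)
    refine Finset.sum_congr rfl fun s hs => ?_
    have h4 : insert s (bl W' bk b C ∪ S.erase s) = bl W' bk b C ∪ S := by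
      ext x
      simp only [mem_insert, mem_union, mem_erase]
      constructor
      · rintro (h | h | h)
        · exact Or.inr (h ▸ hs)
        · exact Or.inl h
        · exact Or.inr h.2
      · rintro (h | h)
        · exact Or.inr (Or.inl h)
        · by_cases hx : x = s
          · exact Or.inl hx
          · exact Or.inr (Or.inr ⟨hx, h⟩)
    have h5 : (bl W' bk b C).erase s ∪ S.erase s = (bl W' bk b C ∪ S).erase s := by
      rw [Finset.erase_union_distrib]
    rw [h4, h5]
  -- Step 4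
  have step4 : ∀ S ∈ F, ∀ b, ∑ C ∈ W.powerset, ∑ s ∈ W \ S,
        π s * (f (insert s (bl W' bk b C ∪ S)) - f ((bl W' bk b C).erase s ∪ S)) ≤
      2 * N * (Dm * ∑ c ∈ range J, sb c) := by
    intro S hS b
    have hSW := hFW S hS
    have hSG := hFG S hS
    have e1 : ∑ C ∈ W.powerset, ∑ s ∈ W \ S,
        π s * (f (insert s (bl W' bk b C ∪ S)) - f ((bl W' bk b C).erase s ∪ S)) =
        2 * ∑ C ∈ W.powerset, ∑ s ∈ (W \ S).filter (fun s => s ∉ C),
          π s * (f (insert s (bl W' bk b C ∪ S)) - f (bl W' bk b C ∪ S)) := by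
      rw [Finset.sum_comm]
      have e2 : ∑ C ∈ W.powerset, ∑ s ∈ (W \ S).filter (fun s => s ∉ C),
          π s * (f (insert s (bl W' bk b C ∪ S)) - f (bl W' bk b C ∪ S)) =
          ∑ s ∈ W \ S, ∑ C ∈ W.powerset.filter (fun C => s ∉ C),
          π s * (f (insert s (bl W' bk b C ∪ S)) - f (bl W' bk b C ∪ S)) := by
        rw [Finset.sum_comm']
        intro C s
        simp only [mem_filter]
        tauto
      rw [e2, Finset.mul_sum]
      refine Finset.sum_congr rfl fun s hs => ?_
      have h2 := col_notMem W s (mem_sdiff.1 hs).1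
        (fun C => π s * (f (insert s (bl W' bk b C ∪ S)) - f (bl W' bk b C ∪ S)))
      rw [← h2]
      refine Finset.sum_congr rfl fun C _ => ?_
      have h3 : insert s (bl W' bk b (C.erase s) ∪ S) = insert s (bl W' bk b C ∪ S) := by
        rw [bl_erase]
        ext x
        simp only [mem_insert, mem_union, mem_erase]
        tauto
      rw [h3, bl_erase]
    rw [e1, mul_assoc]
    refine mul_le_mul_of_nonneg_left ?_ (by norm_num)
    rw [hN, ← nsmul_eq_mul, ← Finset.sum_const]
    refine Finset.sum_le_sum fun C hC => ?_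
    have e4 : ∑ s ∈ (W \ S).filter (fun s => s ∉ C),
          π s * (f (insert s (bl W' bk b C ∪ S)) - f (bl W' bk b C ∪ S)) =
        ∑ c ∈ range J, ∑ s ∈ ((W \ S).filter (fun s => s ∉ C)).filter (fun s => bk s = c),
          π s * (f (insert s (bl W' bk b C ∪ S)) - f (bl W' bk b C ∪ S)) := by
      rw [Finset.sum_fiberwise_of_maps_to]
      intro s hs
      exact mem_range.2 (hπ s (mem_sdiff.1 (mem_filter.1 hs).1).1).2.2.2
    rw [e4, Finset.mul_sum]
    refine Finset.sum_le_sum fun c _ => ?_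
    set V := ((W \ S).filter (fun s => s ∉ C)).filter (fun s => bk s = c) with hV
    have hVW : V ⊆ W := fun x hx => (mem_sdiff.1 (mem_filter.1 (mem_filter.1 hx).1).1).1
    have hAS : bl W' bk b C ∪ S ⊆ W := union_subset (hAW b C) hSW
    have hdis : Disjoint V (bl W' bk b C ∪ S) := by
      rw [Finset.disjoint_left]
      intro x hx hx2
      have h2 := mem_filter.1 (mem_filter.1 hx).1
      rcases mem_union.1 hx2 with h | h
      · exact h2.2 (hAC b C h)
      · exact (mem_sdiff.1 h2.1).2 h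
    have h2 := sup_one W f fsup (bl W' bk b C ∪ S) V hAS hVW hdis
    have h3 : f (bl W' bk b C ∪ S ∪ V) ≤ Dm := by
      have := hD S hSW hSG b c (bl W' bk b C) (hAb b C) V (fun x hx =>
        mem_filter.2 ⟨hVW hx, (mem_filter.1 hx).2⟩)
      rwa [Finset.union_comm S] at this
    have h4 := f0 (bl W' bk b C ∪ S) hAS
    calc ∑ s ∈ V, π s * (f (insert s (bl W' bk b C ∪ S)) - f (bl W' bk b C ∪ S))
        ≤ ∑ s ∈ V, sb c * (f (insert s (bl W' bk b C ∪ S)) - f (bl W' bk b C ∪ S)) := by
          refine Finset.sum_le_sum fun s hs => ?_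
          have hsW := hVW hs
          have h5 := (hπ s hsW).2.2.1
          rw [(mem_filter.1 hs).2] at h5
          refine mul_le_mul_of_nonneg_right h5 ?_
          have h6 := fmono (bl W' bk b C ∪ S) hAS s hsW (Finset.disjoint_left.1 hdis hs)
          linarith
      _ = sb c * ∑ s ∈ V, (f (insert s (bl W' bk b C ∪ S)) - f (bl W' bk b C ∪ S)) := by
          rw [Finset.mul_sum]
      _ ≤ sb c * Dm := mul_le_mul_of_nonneg_left (by linarith) (hsb c)
      _ = Dm * sb c := mul_comm _ _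
  -- assembly
  set Sg := ∑ c ∈ range J, sb c with hSg
  have hSg0 : 0 ≤ Sg := Finset.sum_nonneg fun c _ => hsb c
  have step5 : ∀ b, ∑ C ∈ W.powerset, ∑ S ∈ F, wtR π W S * (D C S b + E) ≤
      N * (8 / 3 * Dm * Sg + E) := by
    intro b
    have e1 : ∑ C ∈ W.powerset, ∑ S ∈ F, wtR π W S * (D C S b + E) =
        ∑ C ∈ W.powerset, ∑ S ∈ F, wtR π W S * D C S b +
        ∑ C ∈ W.powerset, ∑ S ∈ F, wtR π W S * E := by
      rw [← Finset.sum_add_distrib]
      refine Finset.sum_congr rfl fun C _ => ?_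
      rw [← Finset.sum_add_distrib]
      refine Finset.sum_congr rfl fun S _ => ?_
      ring
    have e2 : ∑ C ∈ W.powerset, ∑ S ∈ F, wtR π W S * E ≤ N * E := by
      rw [Finset.sum_const, nsmul_eq_mul, ← hN]
      refine mul_le_mul_of_nonneg_left ?_ hNpos.le
      rw [← Finset.sum_mul]
      nlinarith
    have e3 : ∑ C ∈ W.powerset, ∑ S ∈ F, wtR π W S * D C S b ≤ 8 / 3 * N * (Dm * Sg) := by
      calc ∑ C ∈ W.powerset, ∑ S ∈ F, wtR π W S * D C S b
          ≤ ∑ C ∈ W.powerset, 4 / 3 * ∑ S ∈ F, wtR π W S * ∑ s ∈ W \ S,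
            π s * (f (insert s (bl W' bk b C ∪ S)) - f ((bl W' bk b C).erase s ∪ S)) :=
            Finset.sum_le_sum fun C hC => step3 C hC b
        _ = 4 / 3 * ∑ S ∈ F, wtR π W S * ∑ C ∈ W.powerset, ∑ s ∈ W \ S,
            π s * (f (insert s (bl W' bk b C ∪ S)) - f ((bl W' bk b C).erase s ∪ S)) := by
            rw [← Finset.mul_sum, Finset.sum_comm]
            congr 1
            refine Finset.sum_congr rfl fun S _ => ?_
            rw [Finset.mul_sum]
        _ ≤ 4 / 3 * ∑ S ∈ F, wtR π W S * (2 * N * (Dm * Sg)) := by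
            refine mul_le_mul_of_nonneg_left ?_ (by norm_num)
            exact Finset.sum_le_sum fun S hS =>
              mul_le_mul_of_nonneg_left (step4 S hS b) (hw S hS)
        _ = 8 / 3 * N * (Dm * Sg) * ∑ S ∈ F, wtR π W S := by
            rw [← Finset.sum_mul]
            ring
        _ ≤ 8 / 3 * N * (Dm * Sg) * 1 := by
            refine mul_le_mul_of_nonneg_left hw1 ?_
            positivity
        _ = _ := mul_one _
    rw [e1]
    calc _ ≤ 8 / 3 * N * (Dm * Sg) + N * E := add_le_add e3 e2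
      _ = _ := by ring
  have step6 : N * ∑ S ∈ F, wtR π W S * ∑ p ∈ W \ S, π p * g p S ≤
      2 / τ * ((∑ b ∈ W'.image bk, sb b) * (N * (8 / 3 * Dm * Sg + E))) := by
    calc N * ∑ S ∈ F, wtR π W S * ∑ p ∈ W \ S, π p * g p S
        = ∑ S ∈ F, wtR π W S * (N * ∑ p ∈ W \ S, π p * g p S) := by
          rw [Finset.mul_sum]
          refine Finset.sum_congr rfl fun S _ => ?_
          ring
      _ ≤ ∑ S ∈ F, wtR π W S *
          (2 / τ * ∑ C ∈ W.powerset, ∑ b ∈ W'.image bk, sb b * (D C S b + E)) :=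
          Finset.sum_le_sum fun S hS => mul_le_mul_of_nonneg_left (step2 S hS) (hw S hS)
      _ = 2 / τ * ∑ S ∈ F, ∑ C ∈ W.powerset, ∑ b ∈ W'.image bk,
            sb b * (wtR π W S * (D C S b + E)) := by
          rw [Finset.mul_sum]
          refine Finset.sum_congr rfl fun S _ => ?_
          rw [mul_left_comm, Finset.mul_sum]
          congr 1
          refine Finset.sum_congr rfl fun C _ => ?_
          rw [Finset.mul_sum]
          refine Finset.sum_congr rfl fun b _ => ?_
          ring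
      _ = 2 / τ * ∑ b ∈ W'.image bk, sb b * ∑ C ∈ W.powerset, ∑ S ∈ F,
            wtR π W S * (D C S b + E) := by
          congr 1
          rw [Finset.sum_comm]
          have e7 : ∀ C ∈ W.powerset, ∑ S ∈ F, ∑ b ∈ W'.image bk,
              sb b * (wtR π W S * (D C S b + E)) =
              ∑ b ∈ W'.image bk, sb b * ∑ S ∈ F, wtR π W S * (D C S b + E) := by
            intro C _
            rw [Finset.sum_comm]
            refine Finset.sum_congr rfl fun b _ => ?_
            rw [Finset.mul_sum]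
          rw [Finset.sum_congr rfl e7, Finset.sum_comm]
          refine Finset.sum_congr rfl fun b _ => ?_
          rw [Finset.mul_sum]
      _ ≤ 2 / τ * ∑ b ∈ W'.image bk, sb b * (N * (8 / 3 * Dm * Sg + E)) := by
          refine mul_le_mul_of_nonneg_left ?_ (by positivity)
          exact Finset.sum_le_sum fun b _ => mul_le_mul_of_nonneg_left (step5 b) (hsb b)
      _ = _ := by rw [← Finset.sum_mul]
  have hB0 : 0 ≤ ∑ b ∈ W'.image bk, sb b := Finset.sum_nonneg fun b _ => hsb b
  have step7 : ∑ S ∈ F, wtR π W S * ∑ p ∈ W \ S, π p * g p S ≤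
      2 / τ * ((∑ b ∈ W'.image bk, sb b) * (8 / 3 * Dm * Sg + E)) := by
    refine le_of_mul_le_mul_left (step6.trans (le_of_eq ?_)) hNpos
    ring
  refine step1.trans ?_
  calc 4 / 3 * ∑ S ∈ F, wtR π W S * ∑ p ∈ W \ S, π p * g p S
      ≤ 4 / 3 * (2 / τ * ((∑ b ∈ W'.image bk, sb b) * (8 / 3 * Dm * Sg + E))) :=
        mul_le_mul_of_nonneg_left step7 (by norm_num)
    _ = (8 / 3) / τ * (∑ b ∈ W'.image bk, sb b) * (8 / 3 * Dm * Sg + E) := by ring
    _ ≤ 4 / τ * (∑ b ∈ W'.image bk, sb b) * (4 * Dm * Sg + E) := by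
        have h2 : 0 ≤ Dm * Sg := mul_nonneg hDm hSg0
        have h3 : (8 / 3) / τ ≤ 4 / τ := div_le_div_of_nonneg_right (by norm_num) hτ.le
        refine mul_le_mul (mul_le_mul_of_nonneg_right h3 hB0) (by nlinarith) (by nlinarith) ?_
        positivity

end Vale.Agent.P042.SS.EntC
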