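import Vale.Agent.P042.SS.EntLib

set_option autoImplicit false

/-!
Deterministic part of block ENT: the supermodular defect `f V = ∑ sz - Ent (XV X V)`.
-/

namespace Vale.Agent.P042.SS

section entdet

variable {Ω : Type*} {α β : Type*} {s : Finset Ω} {μ : Ω → ℝ}

/-- the defect -/
noncomputable def fE (s : Finset Ω) (μ : Ω → ℝ) (X : ℕ → Ω → ℤ) (sz : ℕ → ℝ) (V : Finset ℕ) : ℝ :=
  ∑ p ∈ V, sz p - Ent s μ (XV X V)

theorem fE_empty (h1 : ∑ ω ∈ s, μ ω = 1) (X : ℕ → Ω → ℤ) (sz : ℕ → ℝ) :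
    fE s μ X sz ∅ = 0 := by
  unfold fE
  rw [Ent_XV_empty h1, Finset.sum_empty, sub_zero]

/-- increments are nonnegative -/
theorem fE_delta_nonneg (hμ : ∀ ω ∈ s, 0 ≤ μ ω) (h1 : ∑ ω ∈ s, μ ω = 1) (X : ℕ → Ω → ℤ)
    (sz : ℕ → ℝ) {p : ℕ} {V : Finset ℕ} (hp : p ∉ V) (hsz : Ent s μ (X p) ≤ sz p) :
    0 ≤ fE s μ X sz (insert p V) - fE s μ X sz V := by
  have := Ent_pair_le_add hμ h1 (X p) (XV X V)
  unfold fE
  rw [Ent_XV_insert, Finset.sum_insert hp]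
  linarith

/-- increments grow -/
theorem fE_delta_mono (hμ : ∀ ω ∈ s, 0 ≤ μ ω) (h1 : ∑ ω ∈ s, μ ω = 1) (X : ℕ → Ω → ℤ)
    (sz : ℕ → ℝ) {p : ℕ} {V V' : Finset ℕ} (h : V ⊆ V') (hp : p ∉ V') :
    fE s μ X sz (insert p V) - fE s μ X sz V ≤
      fE s μ X sz (insert p V') - fE s μ X sz V' := by
  have := Ent_XV_insert_le hμ h1 X p h
  unfold fE
  rw [Finset.sum_insert hp, Finset.sum_insert (fun hh => hp (h hh))]
  linarith

/-- `f` is monotone -/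
theorem fE_mono (hμ : ∀ ω ∈ s, 0 ≤ μ ω) (h1 : ∑ ω ∈ s, μ ω = 1) (X : ℕ → Ω → ℤ)
    (sz : ℕ → ℝ) (U V : Finset ℕ) (hsz : ∀ p ∈ V, Ent s μ (X p) ≤ sz p) (hd : Disjoint U V) :
    fE s μ X sz U ≤ fE s μ X sz (U ∪ V) := by
  induction V using Finset.induction_on with
  | empty => rw [Finset.union_empty]
  | insert p V hp ih =>
    have hd' : Disjoint U V := hd.mono_right (Finset.subset_insert p V)
    have hpU : p ∉ U := fun hh => (Finset.disjoint_left.1 hd hh) (Finset.mem_insert_self p V)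
    have ih' := ih (fun q hq => hsz q (Finset.mem_insert_of_mem hq)) hd'
    have := fE_delta_nonneg hμ h1 X sz (p := p) (V := U ∪ V) (by simp [hpU, hp])
      (hsz p (Finset.mem_insert_self p V))
    rw [Finset.union_insert]
    linarith

theorem fE_nonneg (hμ : ∀ ω ∈ s, 0 ≤ μ ω) (h1 : ∑ ω ∈ s, μ ω = 1) (X : ℕ → Ω → ℤ)
    (sz : ℕ → ℝ) (V : Finset ℕ) (hsz : ∀ p ∈ V, Ent s μ (X p) ≤ sz p) :
    0 ≤ fE s μ X sz V := by
  have := fE_mono hμ h1 X sz ∅ V hsz (Finset.disjoint_empty_left V)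
  rw [fE_empty h1, Finset.empty_union] at this
  exact this

/-- mutual information of two disjoint families -/
theorem MI_XV_eq_fE (X : ℕ → Ω → ℤ) (sz : ℕ → ℝ) {U S : Finset ℕ} (hd : Disjoint U S) :
    MI s μ (XV X U) (XV X S) =
      fE s μ X sz (U ∪ S) - fE s μ X sz U - fE s μ X sz S := by
  rw [MI_XV]
  unfold fE
  rw [Finset.sum_union hd]
  ring

/-- `f(U ∪ S) - f(U) ≤ ∑_{p ∈ S} (f(U ∪ S) - f((U ∪ S) ∖ p))` -/
theorem fE_sub_le_sum_erase (hμ : ∀ ω ∈ s, 0 ≤ μ ω) (h1 : ∑ ω ∈ s, μ ω = 1) (X : ℕ → Ω → ℤ)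
    (sz : ℕ → ℝ) (U S : Finset ℕ) (hd : Disjoint U S) :
    fE s μ X sz (U ∪ S) - fE s μ X sz U ≤
      ∑ p ∈ S, (fE s μ X sz (U ∪ S) - fE s μ X sz ((U ∪ S).erase p)) := by
  induction S using Finset.induction_on with
  | empty => rw [Finset.union_empty, sub_self, Finset.sum_empty]
  | insert p S hp ih =>
    have hd' : Disjoint U S := hd.mono_right (Finset.subset_insert p S)
    have hpU : p ∉ U := fun hh => (Finset.disjoint_left.1 hd hh) (Finset.mem_insert_self p S)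
    have hpUS : p ∉ U ∪ S := by simp [hpU, hp]
    have ih' := ih hd'
    rw [Finset.union_insert, Finset.sum_insert hp, Finset.erase_insert hpUS]
    have hm : ∑ q ∈ S, (fE s μ X sz (U ∪ S) - fE s μ X sz ((U ∪ S).erase q)) ≤
        ∑ q ∈ S, (fE s μ X sz (insert p (U ∪ S)) -
          fE s μ X sz ((insert p (U ∪ S)).erase q)) := by
      refine Finset.sum_le_sum (fun q hq => ?_)
      have hqp : q ≠ p := fun hh => hp (hh ▸ hq)
      have hqU : q ∈ U ∪ S := Finset.mem_union_right U hq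
      have e1 : U ∪ S = insert q ((U ∪ S).erase q) := (Finset.insert_erase hqU).symm
      have e2 : insert p (U ∪ S) = insert q ((insert p (U ∪ S)).erase q) :=
        (Finset.insert_erase (Finset.mem_insert_of_mem hqU)).symm
      have := fE_delta_mono hμ h1 X sz (p := q) (V := (U ∪ S).erase q)
        (V' := (insert p (U ∪ S)).erase q)
        (Finset.erase_subset_erase q (Finset.subset_insert p _)) (Finset.notMem_erase q _)
      rw [← e1, ← e2] at this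
      exact this
    linarith

/-- `MI(X_U; X_S) ≤ ∑_{p ∈ S} Δ_p((U ∪ S) ∖ p)` -/
theorem MI_XV_le_sum_delta (hμ : ∀ ω ∈ s, 0 ≤ μ ω) (h1 : ∑ ω ∈ s, μ ω = 1) (X : ℕ → Ω → ℤ)
    (sz : ℕ → ℝ) (U S : Finset ℕ) (hd : Disjoint U S)
    (hsz : ∀ p ∈ S, Ent s μ (X p) ≤ sz p) :
    MI s μ (XV X U) (XV X S) ≤
      ∑ p ∈ S, (fE s μ X sz (U ∪ S) - fE s μ X sz ((U ∪ S).erase p)) := by
  have h2 := fE_sub_le_sum_erase hμ h1 X sz U S hd
  have h3 := fE_nonneg hμ h1 X sz S hsz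
  rw [MI_XV_eq_fE X sz hd]
  linarith

/-- `∑_{p ∈ V} Δ_p(A) ≤ f(A ∪ V) - f(A)` -/
theorem sum_delta_le_fE (hμ : ∀ ω ∈ s, 0 ≤ μ ω) (h1 : ∑ ω ∈ s, μ ω = 1) (X : ℕ → Ω → ℤ)
    (sz : ℕ → ℝ) (A V : Finset ℕ) (hd : Disjoint A V) :
    ∑ p ∈ V, (fE s μ X sz (insert p A) - fE s μ X sz A) ≤
      fE s μ X sz (A ∪ V) - fE s μ X sz A := by
  induction V using Finset.induction_on with
  | empty => rw [Finset.union_empty, sub_self, Finset.sum_empty]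
  | insert p V hp ih =>
    have hd' : Disjoint A V := hd.mono_right (Finset.subset_insert p V)
    have hpA : p ∉ A := fun hh => (Finset.disjoint_left.1 hd hh) (Finset.mem_insert_self p V)
    have ih' := ih hd'
    have := fE_delta_mono hμ h1 X sz (p := p) (V := A) (V' := A ∪ V)
      Finset.subset_union_left (by simp [hpA, hp])
    rw [Finset.sum_insert hp, Finset.union_insert]
    linarith

/-- `∑_{p ∈ V} Δ_p(A) ≤ f(A ∪ V)` -/
theorem sum_delta_le_fE' (hμ : ∀ ω ∈ s, 0 ≤ μ ω) (h1 : ∑ ω ∈ s, μ ω = 1) (X : ℕ → Ω → ℤ)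
    (sz : ℕ → ℝ) (A V : Finset ℕ) (hd : Disjoint A V)
    (hsz : ∀ p ∈ A, Ent s μ (X p) ≤ sz p) :
    ∑ p ∈ V, (fE s μ X sz (insert p A) - fE s μ X sz A) ≤ fE s μ X sz (A ∪ V) := by
  have h2 := sum_delta_le_fE hμ h1 X sz A V hd
  have h3 := fE_nonneg hμ h1 X sz A hsz
  linarith

/-- the pinning step: `τ ∑_{p∈U} MI(X_p;(X_S,Z)) ≤ MI(X_U;X_S) + Ent Z` -/
theorem pin_step {Ω β : Type} {s : Finset Ω} {μ : Ω → ℝ} (hμ : ∀ ω ∈ s, 0 ≤ μ ω)
    (h1 : ∑ ω ∈ s, μ ω = 1) (X : ℕ → Ω → ℤ)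
    (Z : Ω → β) (τ : ℝ) (U S : Finset ℕ)
    (hpin : ∀ (β' : Type) (Z' : Ω → β'),
      τ * ∑ p ∈ U, MI s μ (X p) Z' ≤ MI s μ (XV X U) Z') :
    τ * ∑ p ∈ U, MI s μ (X p) (fun ω => (XV X S ω, Z ω)) ≤
      MI s μ (XV X U) (XV X S) + Ent s μ Z :=
  (hpin _ _).trans (MI_pair_le_add_Ent hμ h1 (XV X U) (XV X S) Z)

end entdet

end Vale.Agent.P042.SS
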