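import Vale.Agent.P042.SS.Spec
import Vale.Agent.P042.SS.EntComb

set_option autoImplicit false

/-!
Entropy block: `EntStmt`.
-/

namespace Vale.Agent.P042.SS.EntC

open Finset

section ent

open scoped Classical

variable {Ω : Type*} {α β γ : Type*}

theorem pr_nonneg' (s : Finset Ω) (μ : Ω → ℝ) (hμ : ∀ ω ∈ s, 0 ≤ μ ω) (X : Ω → α) (ω : Ω) :
    0 ≤ pr s μ X ω := by
  unfold pr
  exact Finset.sum_nonneg fun ω' h => hμ ω' (mem_filter.1 h).1

theorem le_pr' (s : Finset Ω) (μ : Ω → ℝ) (hμ : ∀ ω ∈ s, 0 ≤ μ ω) (X : Ω → α) (ω : Ω)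
    (hω : ω ∈ s) : μ ω ≤ pr s μ X ω := by
  unfold pr
  exact Finset.single_le_sum (f := μ) (fun ω' h => hμ ω' (mem_filter.1 h).1)
    (mem_filter.2 ⟨hω, rfl⟩)

theorem pr_le_of (s : Finset Ω) (μ : Ω → ℝ) (hμ : ∀ ω ∈ s, 0 ≤ μ ω) (X : Ω → α) (Y : Ω → β)
    (ω : Ω) (h : ∀ ω' ∈ s, X ω' = X ω → Y ω' = Y ω) : pr s μ X ω ≤ pr s μ Y ω := by
  unfold pr
  refine Finset.sum_le_sum_of_subset_of_nonneg ?_ fun ω' h' _ => hμ ω' (mem_filter.1 h').1
  intro ω' h'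
  rw [mem_filter] at h' ⊢
  exact ⟨h'.1, h ω' h'.1 h'.2⟩

theorem pr_le_one' (s : Finset Ω) (μ : Ω → ℝ) (hμ : ∀ ω ∈ s, 0 ≤ μ ω)
    (h1 : ∑ ω ∈ s, μ ω = 1) (X : Ω → α) (ω : Ω) : pr s μ X ω ≤ 1 := by
  rw [← h1]
  unfold pr
  exact Finset.sum_le_sum_of_subset_of_nonneg (Finset.filter_subset _ _)
    fun ω' h' _ => hμ ω' h'

theorem pr_congr' (s : Finset Ω) (μ : Ω → ℝ) (X : Ω → α) (Y : Ω → β) (ω : Ω)
    (h : ∀ ω' ∈ s, (X ω' = X ω ↔ Y ω' = Y ω)) : pr s μ X ω = pr s μ Y ω := by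
  unfold pr
  refine Finset.sum_congr ?_ fun _ _ => rfl
  ext ω'
  simp only [mem_filter]
  constructor
  · rintro ⟨h1, h2⟩
    exact ⟨h1, (h ω' h1).1 h2⟩
  · rintro ⟨h1, h2⟩
    exact ⟨h1, (h ω' h1).2 h2⟩

theorem Ent_congr' (s : Finset Ω) (μ : Ω → ℝ) (X : Ω → α) (Y : Ω → β)
    (h : ∀ ω ∈ s, ∀ ω' ∈ s, (X ω' = X ω ↔ Y ω' = Y ω)) : Ent s μ X = Ent s μ Y := by
  unfold Ent
  congr 1
  refine Finset.sum_congr rfl fun ω hω => ?_
  rw [pr_congr' s μ X Y ω (h ω hω)]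

theorem Ent_nonneg' (s : Finset Ω) (μ : Ω → ℝ) (hμ : ∀ ω ∈ s, 0 ≤ μ ω)
    (h1 : ∑ ω ∈ s, μ ω = 1) (X : Ω → α) : 0 ≤ Ent s μ X := by
  unfold Ent
  rw [neg_nonneg]
  refine Finset.sum_nonpos fun ω hω => ?_
  exact mul_nonpos_of_nonneg_of_nonpos (hμ ω hω)
    (Real.log_nonpos (pr_nonneg' s μ hμ X ω) (pr_le_one' s μ hμ h1 X ω))

theorem Ent_const' (s : Finset Ω) (μ : Ω → ℝ) (h1 : ∑ ω ∈ s, μ ω = 1) (X : Ω → α)
    (h : ∀ ω ∈ s, ∀ ω' ∈ s, X ω' = X ω) : Ent s μ X = 0 := by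
  unfold Ent
  rw [neg_eq_zero]
  refine Finset.sum_eq_zero fun ω hω => ?_
  have : pr s μ X ω = 1 := by
    rw [← h1]
    unfold pr
    refine Finset.sum_congr ?_ fun _ _ => rfl
    ext ω'
    rw [mem_filter]
    exact ⟨fun h' => h'.1, fun h' => ⟨h', h ω hω ω' h'⟩⟩
  rw [this, Real.log_one, mul_zero]

theorem Ent_mono' (s : Finset Ω) (μ : Ω → ℝ) (hμ : ∀ ω ∈ s, 0 ≤ μ ω) (X : Ω → α) (Y : Ω → β)
    (h : ∀ ω ∈ s, ∀ ω' ∈ s, Y ω' = Y ω → X ω' = X ω) : Ent s μ X ≤ Ent s μ Y := by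
  unfold Ent
  rw [neg_le_neg_iff]
  refine Finset.sum_le_sum fun ω hω => ?_
  rcases (hμ ω hω).eq_or_lt with h0 | h0
  · rw [← h0, zero_mul, zero_mul]
  · refine mul_le_mul_of_nonneg_left ?_ h0.le
    have h2 : 0 < pr s μ Y ω := h0.trans_le (le_pr' s μ hμ Y ω hω)
    exact Real.log_le_log h2 (pr_le_of s μ hμ Y X ω (h ω hω))

/-- the total weight of a fibre, normalised by the fibre probability, is at most one -/
theorem fibre_le_one (s : Finset Ω) (μ : Ω → ℝ) (T : Ω → α)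
    (K : Finset Ω) (hK : K ⊆ s)
    (hKf : ∀ ω ∈ K, ∀ ω' ∈ s, (T ω' = T ω ↔ ω' ∈ K)) :
    ∑ ω ∈ K, μ ω / pr s μ T ω ≤ 1 := by
  have h1 : ∀ ω ∈ K, pr s μ T ω = ∑ ω' ∈ K, μ ω' := by
    intro ω hω
    unfold pr
    refine Finset.sum_congr ?_ fun _ _ => rfl
    ext ω'
    rw [mem_filter]
    exact ⟨fun h => (hKf ω hω ω' h.1).1 h.2, fun h => ⟨hK h, (hKf ω hω ω' (hK h)).2 h⟩⟩
  rw [Finset.sum_congr rfl fun ω hω => by rw [h1 ω hω], ← Finset.sum_div]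
  exact div_self_le_one _

theorem pr_eq_of (s : Finset Ω) (μ : Ω → ℝ) (X : Ω → α) (ω ω' : Ω) (h : X ω = X ω') :
    pr s μ X ω = pr s μ X ω' := by
  unfold pr
  rw [h]

/-- submodularity of the entropy -/
theorem Ent_submod (s : Finset Ω) (μ : Ω → ℝ) (hμ : ∀ ω ∈ s, 0 ≤ μ ω)
    (h1 : ∑ ω ∈ s, μ ω = 1) (X : Ω → α) (Y : Ω → β) (Z : Ω → γ) :
    Ent s μ (fun ω => (X ω, Y ω, Z ω)) + Ent s μ Z ≤
      Ent s μ (fun ω => (X ω, Z ω)) + Ent s μ (fun ω => (Y ω, Z ω)) := by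
  set pT := pr s μ (fun ω => (X ω, Y ω, Z ω)) with hpT
  set pA := pr s μ (fun ω => (X ω, Z ω)) with hpA
  set pB := pr s μ (fun ω => (Y ω, Z ω)) with hpB
  set pZ := pr s μ Z with hpZ
  have hpZ0 : ∀ ω, 0 ≤ pZ ω := fun ω => pr_nonneg' s μ hμ Z ω
  -- total mass of the ratio
  have key : ∑ ω ∈ s, μ ω * (pA ω * pB ω / (pT ω * pZ ω)) ≤ 1 := by
    have hA : ∀ ω, pA ω = ∑ ω1 ∈ s, if (X ω1 = X ω ∧ Z ω1 = Z ω) then μ ω1 else 0 := by
      intro ω
      rw [hpA]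
      unfold pr
      rw [Finset.sum_filter]
      refine Finset.sum_congr rfl fun ω1 _ => ?_
      simp only [Prod.mk.injEq]
    have hB : ∀ ω, pB ω = ∑ ω2 ∈ s, if (Y ω2 = Y ω ∧ Z ω2 = Z ω) then μ ω2 else 0 := by
      intro ω
      rw [hpB]
      unfold pr
      rw [Finset.sum_filter]
      refine Finset.sum_congr rfl fun ω1 _ => ?_
      simp only [Prod.mk.injEq]
    have e1 : ∑ ω ∈ s, μ ω * (pA ω * pB ω / (pT ω * pZ ω)) =
        ∑ ω1 ∈ s, ∑ ω2 ∈ s, ∑ ω ∈ s,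
          (if ((X ω1 = X ω ∧ Z ω1 = Z ω) ∧ (Y ω2 = Y ω ∧ Z ω2 = Z ω)) then
            μ ω1 * μ ω2 / pZ ω1 * (μ ω / pT ω) else 0) := by
      have e2 : ∀ ω ∈ s, μ ω * (pA ω * pB ω / (pT ω * pZ ω)) =
          ∑ ω1 ∈ s, ∑ ω2 ∈ s,
          (if ((X ω1 = X ω ∧ Z ω1 = Z ω) ∧ (Y ω2 = Y ω ∧ Z ω2 = Z ω)) then
            μ ω1 * μ ω2 / pZ ω1 * (μ ω / pT ω) else 0) := by
        intro ω _
        rw [hA ω, hB ω, Finset.sum_mul_sum, Finset.sum_div, Finset.mul_sum]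
        refine Finset.sum_congr rfl fun ω1 _ => ?_
        rw [Finset.sum_div, Finset.mul_sum]
        refine Finset.sum_congr rfl fun ω2 _ => ?_
        by_cases ha : (X ω1 = X ω ∧ Z ω1 = Z ω)
        · by_cases hb : (Y ω2 = Y ω ∧ Z ω2 = Z ω)
          · rw [if_pos ha, if_pos hb, if_pos ⟨ha, hb⟩]
            have hz : pZ ω1 = pZ ω := pr_eq_of s μ Z ω1 ω ha.2
            rw [hz]
            ring
          · rw [if_neg hb, if_neg (show ¬ ((X ω1 = X ω ∧ Z ω1 = Z ω) ∧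
              (Y ω2 = Y ω ∧ Z ω2 = Z ω)) from fun h => hb h.2)]
            ring
        · rw [if_neg ha, if_neg (show ¬ ((X ω1 = X ω ∧ Z ω1 = Z ω) ∧
              (Y ω2 = Y ω ∧ Z ω2 = Z ω)) from fun h => ha h.1)]
          ring
      rw [Finset.sum_congr rfl e2, Finset.sum_comm]
      refine Finset.sum_congr rfl fun ω1 _ => ?_
      rw [Finset.sum_comm]
    rw [e1]
    have e3 : ∀ ω1 ∈ s, ∑ ω2 ∈ s, ∑ ω ∈ s,
          (if ((X ω1 = X ω ∧ Z ω1 = Z ω) ∧ (Y ω2 = Y ω ∧ Z ω2 = Z ω)) then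
            μ ω1 * μ ω2 / pZ ω1 * (μ ω / pT ω) else 0) ≤ μ ω1 := by
      intro ω1 hω1
      have e4 : ∀ ω2 ∈ s, ∑ ω ∈ s,
          (if ((X ω1 = X ω ∧ Z ω1 = Z ω) ∧ (Y ω2 = Y ω ∧ Z ω2 = Z ω)) then
            μ ω1 * μ ω2 / pZ ω1 * (μ ω / pT ω) else 0) ≤
          if Z ω2 = Z ω1 then μ ω1 * μ ω2 / pZ ω1 else 0 := by
        intro ω2 hω2
        have hc : 0 ≤ μ ω1 * μ ω2 / pZ ω1 :=
          div_nonneg (mul_nonneg (hμ _ hω1) (hμ _ hω2)) (hpZ0 _)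
        rw [← Finset.sum_filter, ← Finset.mul_sum]
        by_cases hz : Z ω2 = Z ω1
        · rw [if_pos hz]
          refine mul_le_of_le_one_right hc ?_
          refine fibre_le_one s μ _ _ (Finset.filter_subset _ _) ?_
          intro ω hω ω' hω'
          rw [mem_filter] at hω
          rw [mem_filter]
          obtain ⟨_, ⟨h2, h3⟩, h4, h5⟩ := hω
          simp only [Prod.mk.injEq]
          constructor
          · rintro ⟨h6, h7, h8⟩
            exact ⟨hω', ⟨h2.trans h6.symm, h3.trans h8.symm⟩, h4.trans h7.symm, h5.trans h8.symm⟩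
          · rintro ⟨_, ⟨h6, h7⟩, h8, _⟩
            exact ⟨h6.symm.trans h2, h8.symm.trans h4, h7.symm.trans h3⟩
        · rw [if_neg hz, Finset.filter_false_of_mem, Finset.sum_empty, mul_zero]
          rintro ω _ ⟨⟨_, h3⟩, _, h5⟩
          exact hz (h5.trans h3.symm)
      refine (Finset.sum_le_sum e4).trans ?_
      rw [← Finset.sum_filter]
      have e5 : ∑ ω2 ∈ s.filter (fun ω2 => Z ω2 = Z ω1), μ ω1 * μ ω2 / pZ ω1 =
          μ ω1 * (pZ ω1 / pZ ω1) := by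
        rw [← Finset.sum_div, ← Finset.mul_sum, mul_div_assoc]
        rfl
      rw [e5]
      exact mul_le_of_le_one_right (hμ _ hω1) (div_self_le_one _)
    exact (Finset.sum_le_sum e3).trans h1.le
  have hlog : ∀ ω ∈ s, μ ω * (Real.log (pA ω) + Real.log (pB ω) - Real.log (pT ω) -
      Real.log (pZ ω)) ≤ μ ω * (pA ω * pB ω / (pT ω * pZ ω)) - μ ω := by
    intro ω hω
    rcases (hμ ω hω).eq_or_lt with h0 | h0
    · rw [← h0]
      simp
    · have hT : 0 < pT ω := h0.trans_le (le_pr' s μ hμ _ ω hω)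
      have hA : 0 < pA ω := h0.trans_le (le_pr' s μ hμ _ ω hω)
      have hB : 0 < pB ω := h0.trans_le (le_pr' s μ hμ _ ω hω)
      have hZ : 0 < pZ ω := h0.trans_le (le_pr' s μ hμ _ ω hω)
      have h2 := Real.log_le_sub_one_of_pos (show 0 < pA ω * pB ω / (pT ω * pZ ω) by positivity)
      rw [Real.log_div (by positivity) (by positivity), Real.log_mul hA.ne' hB.ne',
        Real.log_mul hT.ne' hZ.ne'] at h2
      have h3 := mul_le_mul_of_nonneg_left h2 h0.le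
      nlinarith [h3]
  have hsum := Finset.sum_le_sum hlog
  rw [Finset.sum_sub_distrib, h1] at hsum
  have e6 : ∑ ω ∈ s, μ ω * (Real.log (pA ω) + Real.log (pB ω) - Real.log (pT ω) -
      Real.log (pZ ω)) = ∑ ω ∈ s, μ ω * Real.log (pA ω) + ∑ ω ∈ s, μ ω * Real.log (pB ω) -
      ∑ ω ∈ s, μ ω * Real.log (pT ω) - ∑ ω ∈ s, μ ω * Real.log (pZ ω) := by
    rw [← Finset.sum_add_distrib, ← Finset.sum_sub_distrib, ← Finset.sum_sub_distrib]
    refine Finset.sum_congr rfl fun ω _ => ?_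
    ring
  rw [e6] at hsum
  unfold Ent
  linarith

theorem Ent_subadd (s : Finset Ω) (μ : Ω → ℝ) (hμ : ∀ ω ∈ s, 0 ≤ μ ω)
    (h1 : ∑ ω ∈ s, μ ω = 1) (X : Ω → α) (Y : Ω → β) :
    Ent s μ (fun ω => (X ω, Y ω)) ≤ Ent s μ X + Ent s μ Y := by
  have h2 := Ent_submod s μ hμ h1 X Y (fun _ => ())
  rw [Ent_const' s μ h1 (fun _ => ()) (fun _ _ _ _ => rfl)] at h2
  rw [Ent_congr' s μ (fun ω => (X ω, Y ω, ())) (fun ω => (X ω, Y ω))
    (fun ω _ ω' _ => by simp), Ent_congr' s μ (fun ω => (X ω, ())) X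
    (fun ω _ ω' _ => by simp), Ent_congr' s μ (fun ω => (Y ω, ())) Y
    (fun ω _ ω' _ => by simp)] at h2
  linarith

end ent

section fam

variable {Ω : Type*} (X : ℕ → Ω → ℤ)

theorem XV_eq_iff (V : Finset ℕ) (ω ω' : Ω) :
    XV X V ω' = XV X V ω ↔ ∀ p ∈ V, X p ω' = X p ω := by
  constructor
  · intro h p hp
    have := congrFun h p
    simpa [XV, hp] using this
  · intro h
    funext p
    by_cases hp : p ∈ V
    · simp [XV, hp, h p hp]
    · simp [XV, hp]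

end fam

end Vale.Agent.P042.SS.EntC

namespace Vale.Agent.P042.SS

open Finset EntC

theorem ent_holds : EntStmt := by
  intro Ω β s μ X W W' τ Dm sz π bk sb J Gc _ Z hμ h1 hτ hDm hsz hπ hsb hG hpin hD hW'
  set f : Finset ℕ → ℝ := fun V => ∑ p ∈ V, sz p - Ent s μ (XV X V) with hf
  have fins : ∀ (T : Finset ℕ) (p : ℕ), Ent s μ (XV X (insert p T)) =
      Ent s μ (fun ω => (X p ω, XV X T ω)) := by
    intro T p
    refine Ent_congr' s μ _ _ fun ω _ ω' _ => ?_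
    rw [XV_eq_iff, Prod.mk.injEq, XV_eq_iff]
    simp only [mem_insert, forall_eq_or_imp]
  have fmono : ∀ T ⊆ W, ∀ p ∈ W, p ∉ T → f T ≤ f (insert p T) := by
    intro T hT p hp hpT
    simp only [hf]
    rw [Finset.sum_insert hpT, fins T p]
    have h2 := Ent_subadd s μ hμ h1 (X p) (XV X T)
    have h3 := hsz p hp
    linarith
  have fsup : ∀ T T' : Finset ℕ, T ⊆ T' → T' ⊆ W → ∀ p ∈ W, p ∉ T' →
      f (insert p T) - f T ≤ f (insert p T') - f T' := by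
    intro T T' hTT hT' p hp hpT'
    have hpT : p ∉ T := fun h => hpT' (hTT h)
    simp only [hf]
    rw [Finset.sum_insert hpT, Finset.sum_insert hpT', fins T p]
    have h2 := Ent_submod s μ hμ h1 (X p) (XV X T') (XV X T)
    have e1 : Ent s μ (fun ω => (X p ω, XV X T' ω, XV X T ω)) = Ent s μ (XV X (insert p T')) := by
      refine Ent_congr' s μ _ _ fun ω _ ω' _ => ?_
      rw [XV_eq_iff, Prod.mk.injEq, Prod.mk.injEq, XV_eq_iff, XV_eq_iff]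
      simp only [mem_insert, forall_eq_or_imp]
      constructor
      · rintro ⟨h3, h4, _⟩
        exact ⟨h3, h4⟩
      · rintro ⟨h3, h4⟩
        exact ⟨h3, h4, fun q hq => h4 q (hTT hq)⟩
    have e2 : Ent s μ (fun ω => (XV X T' ω, XV X T ω)) = Ent s μ (XV X T') := by
      refine Ent_congr' s μ _ _ fun ω _ ω' _ => ?_
      rw [Prod.mk.injEq, XV_eq_iff, XV_eq_iff]
      exact ⟨fun h => h.1, fun h => ⟨h, fun q hq => h q (hTT hq)⟩⟩
    rw [e1, e2] at h2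
    linarith
  have f0 : ∀ T ⊆ W, 0 ≤ f T := by
    intro T
    induction T using Finset.induction_on with
    | empty =>
      intro _
      simp only [hf]
      rw [Finset.sum_empty, Ent_const' s μ h1 (XV X ∅)]
      · simp
      · intro ω _ ω' _
        rw [XV_eq_iff]
        simp
    | insert p T hpT ih =>
      intro hT
      have hTW : T ⊆ W := (Finset.subset_insert p T).trans hT
      exact (ih hTW).trans (fmono T hTW p (hT (mem_insert_self p T)) hpT)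
  refine comb W W' hW' f (fun p S => MI s μ (X p) (fun ω => (XV X S ω, Z ω))) τ Dm
    (Ent s μ Z) π bk sb J Gc hτ hDm (Ent_nonneg' s μ hμ h1 Z) hπ hsb hG f0 fmono fsup ?_ ?_ ?_
  · intro p _ S _
    unfold MI
    have h2 := Ent_subadd s μ hμ h1 (X p) (fun ω => (XV X S ω, Z ω))
    linarith
  · intro S hS U hU hUS
    refine (hpin U hU _ (fun ω => (XV X S ω, Z ω))).trans ?_
    unfold MI
    have h2 := Ent_subadd s μ hμ h1 (XV X S) Z
    have h3 : Ent s μ (XV X (U ∪ S)) ≤ Ent s μ (fun ω => (XV X U ω, (XV X S ω, Z ω))) := by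
      refine Ent_mono' s μ hμ _ _ fun ω _ ω' _ h => ?_
      rw [Prod.mk.injEq, Prod.mk.injEq, XV_eq_iff, XV_eq_iff] at h
      rw [XV_eq_iff]
      intro p hp
      rcases mem_union.1 hp with h4 | h4
      · exact h.1 p h4
      · exact h.2.1 p h4
    have h4 := f0 S hS
    simp only [hf] at h4 ⊢
    rw [Finset.sum_union hUS]
    linarith
  · intro S hS hSG b c U hU V hV
    exact hD S hS hSG b c U hU V hV

end Vale.Agent.P042.SS
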