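import Vale.Agent.P042.SS.Spec

set_option autoImplicit false

namespace Vale.Agent.P042.SS

open Polynomial Finset

/-! ### periodic functions -/

lemma per_congr {f : ℤ → ℝ} {p : ℕ} (hf : ∀ n, f (n + p) = f n) {a b : ℤ}
    (hab : a ≡ b [ZMOD (p : ℕ)]) : f a = f b := by
  have hper : Function.Periodic f (p : ℤ) := hf
  obtain ⟨t, ht⟩ := hab.dvd
  have h1 : b = a + t * (p : ℤ) := by linarith only [ht]
  rw [h1]
  exact ((hper.int_mul t) a).symm

lemma sum_affine {f : ℤ → ℝ} {p : ℕ} (hf : ∀ n, f (n + p) = f n) (hp : 0 < p) (b : ℤ) (L : ℕ)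
    (hL : Nat.Coprime L p) :
    ∑ x ∈ range p, f (b + L * x) = ∑ x ∈ range p, f x := by
  have hp' : (0 : ℤ) < p := by exact_mod_cast hp
  have hmem : ∀ x : ℕ, (((b + L * x) % (p : ℤ)).toNat : ℤ) = (b + L * x) % (p : ℤ) := fun x =>
    Int.toNat_of_nonneg (Int.emod_nonneg _ hp'.ne')
  have hlt : ∀ x : ℕ, ((b + L * x) % (p : ℤ)).toNat < p := fun x => by
    have := Int.emod_lt_of_pos (b + L * x) hp'
    rw [← hmem x] at this
    exact_mod_cast this
  have hinj : Set.InjOn (fun x : ℕ => ((b + L * x) % (p : ℤ)).toNat) (range p : Finset ℕ) := by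
    intro x hx y hy hxy
    rw [coe_range, Set.mem_Iio] at hx hy
    have h1 : (b + L * x) % (p : ℤ) = (b + L * y) % (p : ℤ) := by
      rw [← hmem x, ← hmem y]
      exact_mod_cast hxy
    have h2 : (b + L * x) ≡ (b + L * y) [ZMOD (p : ℕ)] := h1
    have h3 : (L * x : ℤ) ≡ (L * y : ℤ) [ZMOD (p : ℕ)] := Int.ModEq.add_left_cancel' b h2
    have h4 : L * x ≡ L * y [MOD p] := by
      rw [← Int.natCast_modEq_iff]
      exact_mod_cast h3
    have h5 : x ≡ y [MOD p] := Nat.ModEq.cancel_left_of_coprime (by rw [Nat.gcd_comm]; exact hL) h4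
    exact Nat.ModEq.eq_of_lt_of_lt h5 hx hy
  refine Finset.sum_nbij (fun x : ℕ => ((b + L * x) % (p : ℤ)).toNat) ?_ hinj ?_ ?_
  · intro x _
    exact mem_range.2 (hlt x)
  · refine Finset.surjOn_of_injOn_of_card_le _ ?_ hinj le_rfl
    intro x _
    exact mem_coe.2 (mem_range.2 (hlt x))
  · intro x _
    apply per_congr hf
    show _ = _
    rw [hmem, Int.emod_emod_of_dvd _ dvd_rfl]

/-! ### the compact set of weights -/

/-- weights normalised off `W` -/
def KW (W : Finset ℕ) : Set (ℕ → ℤ → ℝ) := {ν | Wts W ν ∧ ∀ p, p ∉ W → ∀ n, ν p n = 1}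

lemma KW_one (W : Finset ℕ) : (fun _ _ => 1 : ℕ → ℤ → ℝ) ∈ KW W := by
  refine ⟨⟨fun _ _ => zero_le_one, fun _ _ _ => rfl, fun p _ => ?_⟩, fun _ _ _ => rfl⟩
  simp

lemma Wts.le {W : Finset ℕ} {ν : ℕ → ℤ → ℝ} (h : Wts W ν) (p : ℕ) (hp : p ∈ W) (hp0 : 0 < p)
    (n : ℤ) : ν p n ≤ p := by
  have hp' : (0 : ℤ) < p := by exact_mod_cast hp0
  have h1 : (((n % (p : ℤ)).toNat : ℕ) : ℤ) = n % (p : ℤ) :=
    Int.toNat_of_nonneg (Int.emod_nonneg _ hp'.ne')
  have h2 : (n % (p : ℤ)).toNat ∈ range p := by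
    rw [mem_range]
    have := Int.emod_lt_of_pos n hp'
    rw [← h1] at this
    exact_mod_cast this
  have h3 : ν p n = ν p (((n % (p : ℤ)).toNat : ℕ) : ℤ) := by
    apply per_congr (h.per p hp)
    show _ = _
    rw [h1, Int.emod_emod_of_dvd _ dvd_rfl]
  rw [h3]
  calc ν p (((n % (p : ℤ)).toNat : ℕ) : ℤ) ≤ ∑ x ∈ range p, ν p x :=
        Finset.single_le_sum (f := fun x : ℕ => ν p x) (fun i _ => h.nn p i) h2
    _ = p := h.mean p hp

lemma KW_compact (W : Finset ℕ) (hW : ∀ p ∈ W, p.Prime) : IsCompact (KW W) := by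
  have hbig : IsCompact (Set.pi Set.univ
      (fun p : ℕ => Set.pi Set.univ (fun _ : ℤ => Set.Icc (0 : ℝ) (p + 1)))) :=
    isCompact_univ_pi fun p => isCompact_univ_pi fun _ => isCompact_Icc
  refine hbig.of_isClosed_subset ?_ ?_
  · have hcont : ∀ (p : ℕ) (n : ℤ), Continuous (fun ν : ℕ → ℤ → ℝ => ν p n) := fun p n =>
      (continuous_apply n).comp (continuous_apply p)
    have e : KW W = (⋂ p, ⋂ n, {ν : ℕ → ℤ → ℝ | 0 ≤ ν p n}) ∩
        (⋂ p ∈ W, ⋂ n : ℤ, {ν : ℕ → ℤ → ℝ | ν p (n + p) = ν p n}) ∩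
        (⋂ p ∈ W, {ν : ℕ → ℤ → ℝ | ∑ x ∈ range p, ν p x = p}) ∩
        (⋂ p, ⋂ (_ : p ∉ W), ⋂ n, {ν : ℕ → ℤ → ℝ | ν p n = 1}) := by
      ext ν
      simp only [KW, Set.mem_ofPred_eq, Set.mem_inter_iff, Set.mem_iInter]
      constructor
      · rintro ⟨⟨h1, h2, h3⟩, h4⟩
        exact ⟨⟨⟨h1, h2⟩, h3⟩, h4⟩
      · rintro ⟨⟨⟨h1, h2⟩, h3⟩, h4⟩
        exact ⟨⟨h1, h2, h3⟩, h4⟩
    rw [e]
    refine IsClosed.inter (IsClosed.inter (IsClosed.inter ?_ ?_) ?_) ?_
    · exact isClosed_iInter fun p => isClosed_iInter fun n =>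
        isClosed_le continuous_const (hcont p n)
    · exact isClosed_iInter fun p => isClosed_iInter fun _ => isClosed_iInter fun n =>
        isClosed_eq (hcont p _) (hcont p n)
    · exact isClosed_iInter fun p => isClosed_iInter fun _ =>
        isClosed_eq (continuous_finsetSum _ fun x _ => hcont p x) continuous_const
    · exact isClosed_iInter fun p => isClosed_iInter fun _ => isClosed_iInter fun n =>
        isClosed_eq (hcont p n) continuous_const
  · rintro ν ⟨h1, h2⟩ p _ n _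
    refine ⟨h1.nn p n, ?_⟩
    by_cases hp : p ∈ W
    · have := h1.le p hp (hW p hp).pos n
      linarith
    · rw [h2 p hp n]
      have : (0 : ℝ) ≤ p := Nat.cast_nonneg p
      linarith

/-- the value of a state -/
noncomputable def Sst (g : ℤ → ℝ) (W : Finset ℕ) (τ : ℝ) (l : ℕ) (ν : ℕ → ℤ → ℝ) : ℝ :=
  ∑ j ∈ Icc (1 : ℤ) l, g j * ∏ p ∈ W, (ν p j) ^ τ

lemma Sst_cont (g : ℤ → ℝ) (W : Finset ℕ) (τ : ℝ) (hτ : 0 ≤ τ) (l : ℕ) :
    Continuous (Sst g W τ l) := by
  unfold Sst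
  refine continuous_finsetSum _ fun j _ => continuous_const.mul ?_
  refine continuous_finsetProd _ fun p _ => ?_
  exact ((continuous_apply j).comp (continuous_apply p)).rpow_const fun _ => Or.inr hτ

/-- normalisation off `W` -/
lemma Sst_norm (g : ℤ → ℝ) (W : Finset ℕ) (τ : ℝ) (l : ℕ) (ν : ℕ → ℤ → ℝ) (hν : Wts W ν) :
    ∃ ν' ∈ KW W, Sst g W τ l ν' = Sst g W τ l ν := by
  classical
  refine ⟨fun p n => if p ∈ W then ν p n else 1, ⟨⟨?_, ?_, ?_⟩, ?_⟩, ?_⟩
  · intro p n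
    show (0 : ℝ) ≤ if p ∈ W then ν p n else 1
    split_ifs
    · exact hν.nn p n
    · exact zero_le_one
  · intro p hp n
    simp only [hp, if_true]
    exact hν.per p hp n
  · intro p hp
    simp only [hp, if_true]
    exact hν.mean p hp
  · intro p hp n
    simp only [hp, if_false]
  · unfold Sst
    refine Finset.sum_congr rfl fun j _ => ?_
    congr 1
    refine Finset.prod_congr rfl fun p hp => ?_
    simp only [hp, if_true]

/-- existence of a maximal state -/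
theorem exists_max_state {ι : Type*} (S : Finset ι) (hS : S.Nonempty) (g : ι → ℤ → ℝ) (l : ι → ℕ)
    (c : ι → ℝ) (W : Finset ℕ) (hW : ∀ p ∈ W, p.Prime) (τ : ℝ) (hτ : 0 ≤ τ) (hc : ∀ i, 0 ≤ c i) :
    ∃ i ∈ S, ∃ ν ∈ KW W, ∀ j ∈ S, ∀ ν', Wts W ν' →
      c j * Sst (g j) W τ (l j) ν' ≤ c i * Sst (g i) W τ (l i) ν := by
  have h1 : ∀ i : ι, ∃ ν ∈ KW W, ∀ ν' ∈ KW W,
      Sst (g i) W τ (l i) ν' ≤ Sst (g i) W τ (l i) ν := fun i => by
    obtain ⟨ν, hν, hmax⟩ := (KW_compact W hW).exists_isMaxOn ⟨_, KW_one W⟩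
      (Sst_cont (g i) W τ hτ (l i)).continuousOn
    exact ⟨ν, hν, fun ν' hν' => hmax hν'⟩
  choose ν hν hmax using h1
  obtain ⟨i, hi, him⟩ := Finset.exists_max_image S
    (fun i => c i * Sst (g i) W τ (l i) (ν i)) hS
  refine ⟨i, hi, ν i, hν i, fun j hj ν' hν' => ?_⟩
  obtain ⟨ν'', h2, h3⟩ := Sst_norm (g j) W τ (l j) ν' hν'
  rw [← h3]
  exact (mul_le_mul_of_nonneg_left (hmax j ν'' h2) (hc j)).trans (him j hj)

/-! ### progressions -/

/-- splitting a class mod `D` into classes mod `L` -/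
lemma mass_split {G : ℤ → ℝ} (G0 : ∀ n, 0 ≤ G n) (y : ℤ) (M D L : ℕ) (x : ℤ) (hD : 1 ≤ D)
    (hL : 1 ≤ L) (hDL : D ∣ L) :
    mass G y M D x ≤ ∑ c ∈ range (L / D), mass G y M L (x + D * c) := by
  classical
  obtain ⟨q, rfl⟩ := hDL
  have hq : 1 ≤ q := by
    rcases Nat.eq_zero_or_pos q with h | h
    · rw [h] at hL; omega
    · exact h
  rw [Nat.mul_div_cancel_left q hD]
  unfold mass
  simp only [Finset.sum_filter]
  rw [Finset.sum_comm]
  refine Finset.sum_le_sum fun n _ => ?_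
  split_ifs with hn
  · obtain ⟨t, ht⟩ := hn.symm.dvd
    have hq' : (0 : ℤ) < q := by exact_mod_cast hq
    have h1 : (((t % (q : ℤ)).toNat : ℕ) : ℤ) = t % (q : ℤ) :=
      Int.toNat_of_nonneg (Int.emod_nonneg _ hq'.ne')
    have h2 : (t % (q : ℤ)).toNat ∈ range q := by
      rw [mem_range]
      have := Int.emod_lt_of_pos t hq'
      rw [← h1] at this
      exact_mod_cast this
    have h3 : n ≡ x + D * (((t % (q : ℤ)).toNat : ℕ) : ℤ) [ZMOD ((D * q : ℕ) : ℕ)] := by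
      rw [h1]
      apply Int.ModEq.symm
      rw [Int.modEq_iff_dvd]
      refine ⟨t / q, ?_⟩
      have := Int.emod_add_mul_ediv t q
      push_cast
      linear_combination ht + (D : ℤ) * (-this)
    calc G n = if n ≡ x + D * (((t % (q : ℤ)).toNat : ℕ) : ℤ) [ZMOD ((D * q : ℕ) : ℕ)] then G n
          else 0 := by rw [if_pos h3]
      _ ≤ _ := Finset.single_le_sum
        (f := fun c : ℕ => if n ≡ x + D * (c : ℤ) [ZMOD ((D * q : ℕ) : ℕ)] then G n else 0)
        (fun i _ => by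
          split_ifs
          · exact G0 n
          · exact le_rfl) h2
  · exact Finset.sum_nonneg fun i _ => by
      split_ifs
      · exact G0 n
      · exact le_rfl

/-- the part of the window in a class lies in a block of the progression inside `[1, N']` -/
lemma prog_bound {G : ℤ → ℝ} {N' : ℕ} (G0 : ∀ n, 0 ≤ G n) (Gsupp : ∀ n, G n ≠ 0 → 1 ≤ n ∧ n ≤ N')
    (L M Nmin : ℕ) (hL : 1 ≤ L) (hM : L * Nmin ≤ M) (hN : L * Nmin ≤ N') (y c : ℤ) :
    ∃ (x : ℤ) (m : ℕ), Nmin ≤ m ∧ (m : ℝ) ≤ (M : ℝ) / L + 1 ∧ 1 ≤ x + L ∧ x + L * m ≤ N' ∧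
      x ≡ c [ZMOD (L : ℕ)] ∧
      mass G y M L c ≤ ∑ j ∈ Icc (1 : ℤ) m, G (x + L * j) := by
  classical
  have hL' : (0 : ℤ) < L := by exact_mod_cast hL
  -- representative in `(-L, 0]`
  obtain ⟨x0, hx0, hx1, hx2⟩ : ∃ x0 : ℤ, -(L : ℤ) < x0 ∧ x0 ≤ 0 ∧ x0 ≡ c [ZMOD (L : ℕ)] := by
    refine ⟨-((-c) % (L : ℤ)), ?_, ?_, ?_⟩
    · have := Int.emod_lt_of_pos (-c) hL'
      linarith only [this]
    · have := Int.emod_nonneg (-c) hL'.ne'
      linarith only [this]
    · have h : (-c) % (L : ℤ) ≡ -c [ZMOD (L : ℕ)] := Int.mod_modEq _ _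
      simpa using h.neg
  -- total number of terms
  set T : ℤ := (N' - x0) / L with hT
  set u : ℤ := (y - x0) / L with hu
  set s : ℤ := (M + L - 1) / L with hs
  have hN' : (L : ℤ) * Nmin ≤ N' := by exact_mod_cast hN
  have hM' : (L : ℤ) * Nmin ≤ M := by exact_mod_cast hM
  have hT1 : (Nmin : ℤ) ≤ T := by
    rw [hT, Int.le_ediv_iff_mul_le hL']
    linarith only [hN', hx1]
  have hT2 : x0 + L * T ≤ N' := by
    have := Int.mul_ediv_self_le (x := (N' : ℤ) - x0) (k := L) hL'.ne'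
    linarith only [this]
  have hT3 : ∀ i : ℤ, x0 + L * i ≤ N' → i ≤ T := by
    intro i hi
    rw [hT, Int.le_ediv_iff_mul_le hL']
    linarith only [hi]
  have hs1 : (Nmin : ℤ) ≤ s := by
    rw [hs, Int.le_ediv_iff_mul_le hL']
    linarith only [hM', hL']
  have hs2 : L * s ≤ M + L - 1 := Int.mul_ediv_self_le (x := (M : ℤ) + L - 1) (k := L) hL'.ne'
  have hs3 : (M : ℤ) ≤ L * s := by
    have := Int.lt_mul_ediv_self_add (x := (M : ℤ) + L - 1) hL'
    linarith only [this]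
  have hu1 : ∀ i : ℤ, y < x0 + L * i → u < i := by
    intro i hi
    rw [hu, Int.ediv_lt_iff_lt_mul hL']
    linarith only [hi]
  have hu2 : ∀ i : ℤ, x0 + L * i ≤ y + M → i ≤ u + s := by
    intro i hi
    have h1 := Int.lt_mul_ediv_self_add (x := y - x0) hL'
    rw [← hu] at h1
    have h2 : L * i < L * (u + s + 1) := by linarith only [h1, hi, hs3]
    have h3 := lt_of_mul_lt_mul_left h2 hL'.le
    linarith only [h3]
  -- the block
  obtain ⟨u', m, hu'0, hm1, hm2, hm3, hblock⟩ : ∃ (u' m : ℤ), 0 ≤ u' ∧ (Nmin : ℤ) ≤ m ∧ m ≤ s ∧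
      u' + m ≤ T ∧ ∀ i : ℤ, 1 ≤ i → i ≤ T → u < i → i ≤ u + s → u' < i ∧ i ≤ u' + m := by
    rcases le_total T s with h | h
    · exact ⟨0, T, le_rfl, hT1, h, by linarith only [], fun i h1 h2 _ _ =>
        ⟨by linarith only [h1], by linarith only [h2]⟩⟩
    · refine ⟨max 0 (min u (T - s)), s, le_max_left _ _, hs1, le_rfl, ?_, ?_⟩
      · have : max 0 (min u (T - s)) ≤ T - s :=
          max_le (by linarith only [h]) (min_le_right _ _)
        linarith only [this]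
      · intro i h1 h2 h3 h4
        constructor
        · refine max_lt (by linarith only [h1]) (lt_of_le_of_lt (min_le_left _ _) h3)
        · rcases le_total u (T - s) with h5 | h5
          · rw [min_eq_left h5]
            have := le_max_right 0 u
            linarith only [this, h4]
          · rw [min_eq_right h5]
            have := le_max_right 0 (T - s)
            linarith only [this, h2]
  have hm0 : 0 ≤ m := le_trans (Int.natCast_nonneg _) hm1
  obtain ⟨mm, rfl⟩ : ∃ mm : ℕ, (mm : ℤ) = m := ⟨m.toNat, Int.toNat_of_nonneg hm0⟩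
  refine ⟨x0 + L * u', mm, by exact_mod_cast hm1, ?_, ?_, ?_, ?_, ?_⟩
  · have h1 : (L : ℝ) * mm ≤ M + L - 1 := by
      have : (L : ℤ) * mm ≤ M + L - 1 := le_trans (mul_le_mul_of_nonneg_left hm2 hL'.le) hs2
      exact_mod_cast this
    have hLr : (0 : ℝ) < L := by exact_mod_cast hL
    rw [← sub_le_iff_le_add, le_div_iff₀ hLr]
    linarith only [h1]
  · have := mul_nonneg hL'.le hu'0
    linarith only [this, hx0]
  · have := mul_le_mul_of_nonneg_left hm3 hL'.le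
    linarith only [this, hT2]
  · have h1 : x0 + L * u' ≡ x0 + 0 [ZMOD (L : ℕ)] :=
      Int.ModEq.add_left _ (Int.modEq_zero_iff_dvd.2 ⟨u', rfl⟩)
    rw [add_zero] at h1
    exact h1.trans hx2
  · have hinj : Set.InjOn (fun j : ℤ => x0 + L * u' + L * j) (Icc (1 : ℤ) mm) := by
      intro a _ b _ hab
      have h1 : (L : ℤ) * a = L * b := by
        have : x0 + L * u' + L * a = x0 + L * u' + L * b := hab
        linarith only [this]
      exact mul_left_cancel₀ hL'.ne' h1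
    rw [← Finset.sum_image (f := G) hinj]
    unfold mass
    rw [← Finset.sum_filter_ne_zero]
    refine Finset.sum_le_sum_of_subset_of_nonneg ?_ (fun i _ _ => G0 i)
    intro n hn
    rw [Finset.mem_filter, Finset.mem_filter, Finset.mem_Ioc] at hn
    obtain ⟨⟨⟨h1, h2⟩, h3⟩, h4⟩ := hn
    obtain ⟨h5, h6⟩ := Gsupp n h4
    have h7 : n ≡ x0 [ZMOD (L : ℕ)] := h3.trans hx2.symm
    obtain ⟨i, hi⟩ := h7.symm.dvd
    have h8 : n = x0 + L * i := by linarith only [hi]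
    rw [h8] at h1 h2 h5 h6
    have h9 : 1 ≤ i := by
      have : (L : ℤ) * 0 < L * i := by linarith only [h5, hx1]
      exact lt_of_mul_lt_mul_left this hL'.le
    obtain ⟨h10, h11⟩ := hblock i h9 (hT3 i h6) (hu1 i h1) (hu2 i h2)
    rw [Finset.mem_image]
    refine ⟨i - u', Finset.mem_Icc.2 ⟨by linarith only [h10], by linarith only [h11]⟩, ?_⟩
    rw [h8]
    ring

end Vale.Agent.P042.SS
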