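import Vale.Agent.P042.SS.Spec

set_option autoImplicit false

/-!
Block EXT part b: stationarity (`marg`), pinning and the sup bound of the weights.
-/

namespace Vale.Agent.P042.SS

open Polynomial Finset

/-- maximality over the weights for a fixed progression (`g` is its indicator function) -/
structure WMax (N' : ℕ) (W : Finset ℕ) (τ : ℝ) (g : ℤ → ℝ) (ν : ℕ → ℤ → ℝ) : Prop where
  prime : ∀ p ∈ W, p.Prime
  wts : Wts W ν
  g0 : ∀ n, 0 ≤ g n
  pos : 0 < ∑ n ∈ Icc (1 : ℤ) N', g n * ∏ p ∈ W, (ν p n) ^ τ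
  max : ∀ ν', Wts W ν' → ∑ n ∈ Icc (1 : ℤ) N', g n * ∏ p ∈ W, (ν' p n) ^ τ ≤
    ∑ n ∈ Icc (1 : ℤ) N', g n * ∏ p ∈ W, (ν p n) ^ τ

theorem Wts.perInt {W : Finset ℕ} {ν : ℕ → ℤ → ℝ} (h : Wts W ν) {p : ℕ} (hp : p ∈ W) (n k : ℤ) :
    ν p (n + k * p) = ν p n := by
  have h1 : Function.Periodic (ν p) (p : ℤ) := h.per p hp
  exact h1.int_mul k n

theorem extb_per_emod {φ : ℤ → ℝ} {p : ℕ} (h : ∀ n, φ (n + p) = φ n) (n : ℤ) : φ (n % p) = φ n := by
  have h1 : Function.Periodic φ (p : ℤ) := h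
  have h2 := h1.int_mul (n / p) (n % p)
  rw [← h2]
  congr 1
  rw [mul_comm]
  exact Int.emod_add_mul_ediv n p

theorem mass_eq_filter (G : ℤ → ℝ) (N' p : ℕ) (x : ℤ) :
    mass G 0 N' p x = ∑ n ∈ (Icc (1 : ℤ) N').filter (fun n : ℤ => n ≡ x [ZMOD (p : ℕ)]), G n := by
  unfold mass
  congr 1
  ext n
  simp only [mem_filter, mem_Ioc, mem_Icc, zero_add]
  constructor
  · rintro ⟨⟨h1, h2⟩, h3⟩
    exact ⟨⟨by omega, h2⟩, h3⟩
  · rintro ⟨⟨h1, h2⟩, h3⟩
    exact ⟨⟨by omega, h2⟩, h3⟩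

theorem mass_emod (G : ℤ → ℝ) (y : ℤ) (M p : ℕ) (x : ℤ) :
    mass G y M p (x % p) = mass G y M p x := by
  unfold mass
  congr 1
  ext n
  simp only [mem_filter, and_congr_right_iff]
  intro _
  constructor
  · intro h
    exact h.trans (Int.mod_modEq x p)
  · intro h
    exact h.trans (Int.mod_modEq x p).symm

/-- grouping a sum against a periodic function into classes -/
theorem sum_per (G : ℤ → ℝ) (N' p : ℕ) (hp : 1 ≤ p) (φ : ℤ → ℝ) (h : ∀ n, φ (n + p) = φ n) :
    ∑ n ∈ Icc (1 : ℤ) N', G n * φ n = ∑ x ∈ range p, mass G 0 N' p x * φ x := by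
  have hp0 : (0 : ℤ) < p := by exact_mod_cast hp
  have hmaps : ∀ n ∈ Icc (1 : ℤ) N', (n % p).toNat ∈ range p := by
    intro n _
    rw [mem_range]
    have h1 := Int.emod_lt_of_pos n hp0
    have h2 := Int.emod_nonneg n hp0.ne'
    omega
  rw [← Finset.sum_fiberwise_of_maps_to hmaps]
  refine Finset.sum_congr rfl fun x hx => ?_
  rw [mem_range] at hx
  rw [mass_eq_filter, Finset.sum_mul]
  have hset : (Icc (1 : ℤ) N').filter (fun n : ℤ => (n % (p : ℤ)).toNat = x) =
      (Icc (1 : ℤ) N').filter (fun n : ℤ => n ≡ x [ZMOD (p : ℕ)]) := by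
    ext n
    simp only [mem_filter, and_congr_right_iff]
    intro _
    have h2 := Int.emod_nonneg n hp0.ne'
    unfold Int.ModEq
    have h3 : ((x : ℤ) % (p : ℤ)) = x := Int.emod_eq_of_lt (by positivity) (by exact_mod_cast hx)
    rw [h3]
    omega
  rw [hset]
  refine Finset.sum_congr rfl fun n hn => ?_
  rw [mem_filter] at hn
  have h4 : φ n = φ (x : ℤ) := by
    rw [← extb_per_emod h n, ← extb_per_emod h (x : ℤ)]
    rw [show n % (p : ℤ) = (x : ℤ) % p from hn.2]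
  rw [h4]

variable {N' : ℕ} {W : Finset ℕ} {τ : ℝ} {g : ℤ → ℝ} {ν : ℕ → ℤ → ℝ}

/-- replacing `ν p` by `ν p * F p` for `p ∈ U` -/
theorem WMax.mulF (hM : WMax N' W τ g ν) {G : ℤ → ℝ}
    (hG : ∀ n ∈ Icc (1 : ℤ) N', G n = g n * ∏ p ∈ W, (ν p n) ^ τ) {Φ : ℝ}
    (hΦ : ∑ n ∈ Icc (1 : ℤ) N', G n = N' * Φ) (U : Finset ℕ) (F : ℕ → ℤ → ℝ) (hU : U ⊆ W)
    (hF0 : ∀ p n, 0 ≤ F p n) (hFper : ∀ p ∈ U, ∀ n, F p (n + p) = F p n)
    (hFm : ∀ p ∈ U, ∑ x ∈ range p, ν p x * F p x = p) :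
    ∑ n ∈ Icc (1 : ℤ) N', G n * ∏ p ∈ U, (F p n) ^ τ ≤ N' * Φ := by
  classical
  set ν' : ℕ → ℤ → ℝ := fun p n => if p ∈ U then ν p n * F p n else ν p n with hν'
  have hw : Wts W ν' := by
    refine ⟨?_, ?_, ?_⟩
    · intro p n
      simp only [hν']
      split_ifs
      · exact mul_nonneg (hM.wts.nn p n) (hF0 p n)
      · exact hM.wts.nn p n
    · intro p hp n
      simp only [hν']
      split_ifs with h1
      · rw [hM.wts.per p hp n, hFper p h1 n]
      · exact hM.wts.per p hp n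
    · intro p hp
      simp only [hν']
      split_ifs with h1
      · exact hFm p h1
      · exact hM.wts.mean p hp
  have h1 := hM.max ν' hw
  have h2 : ∑ n ∈ Icc (1 : ℤ) N', g n * ∏ p ∈ W, (ν p n) ^ τ = N' * Φ := by
    rw [← hΦ]
    exact Finset.sum_congr rfl fun n hn => (hG n hn).symm
  rw [h2] at h1
  refine le_trans (le_of_eq ?_) h1
  refine Finset.sum_congr rfl fun n hn => ?_
  rw [hG n hn, mul_assoc]
  congr 1
  have h3 : ∏ p ∈ U, (F p n) ^ τ = ∏ p ∈ W, (if p ∈ U then (F p n) ^ τ else 1) := by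
    rw [← Finset.prod_filter]
    congr 1
    ext p
    simp only [mem_filter]
    exact ⟨fun h => ⟨hU h, h⟩, fun h => h.2⟩
  rw [h3, ← Finset.prod_mul_distrib]
  refine Finset.prod_congr rfl fun p _ => ?_
  simp only [hν']
  split_ifs
  · rw [Real.mul_rpow (hM.wts.nn p n) (hF0 p n)]
  · rw [mul_one]

theorem WMax.G0 (hM : WMax N' W τ g ν) {G : ℤ → ℝ}
    (hG : ∀ n ∈ Icc (1 : ℤ) N', G n = g n * ∏ p ∈ W, (ν p n) ^ τ) :
    ∀ n ∈ Icc (1 : ℤ) N', 0 ≤ G n := by
  intro n hn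
  rw [hG n hn]
  exact mul_nonneg (hM.g0 n) (Finset.prod_nonneg fun p _ => Real.rpow_nonneg (hM.wts.nn p n) _)

/-- stationarity: the law of `n mod p` under `G` is `ν p / p` -/
theorem WMax.marg (hM : WMax N' W τ g ν) (hτ0 : 0 < τ) {G : ℤ → ℝ}
    (hG : ∀ n ∈ Icc (1 : ℤ) N', G n = g n * ∏ p ∈ W, (ν p n) ^ τ) {Φ : ℝ}
    (hΦ : ∑ n ∈ Icc (1 : ℤ) N', G n = N' * Φ) :
    ∀ p ∈ W, ∀ x : ℤ, mass G 0 N' p x = N' * Φ * ν p x / p := by
  classical
  intro p hp
  have hpp : p.Prime := hM.prime p hp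
  have hp1 : 1 ≤ p := hpp.one_lt.le
  have hp0 : (0 : ℝ) < p := by exact_mod_cast hpp.pos
  have hS : (0 : ℝ) < N' * Φ := by
    rw [← hΦ, Finset.sum_congr rfl hG]
    exact hM.pos
  set S : ℝ := N' * Φ with hSdef
  have hm0 : ∀ x : ℤ, 0 ≤ mass G 0 N' p x := by
    intro x
    rw [mass_eq_filter]
    exact Finset.sum_nonneg fun n hn => hM.G0 hG n (mem_filter.1 hn).1
  -- `mass = 0` where `ν = 0`
  have hmz : ∀ x : ℤ, ν p x = 0 → mass G 0 N' p x = 0 := by
    intro x hx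
    rw [mass_eq_filter]
    refine Finset.sum_eq_zero fun n hn => ?_
    rw [mem_filter] at hn
    rw [hG n hn.1]
    have h1 : ν p n = 0 := by
      rw [← extb_per_emod (hM.wts.per p hp) n, show n % (p : ℤ) = x % p from hn.2,
        extb_per_emod (hM.wts.per p hp) x, hx]
    rw [Finset.prod_eq_zero hp (by rw [h1, Real.zero_rpow hτ0.ne']), mul_zero]
  have hmsum : ∑ x ∈ range p, mass G 0 N' p x = S := by
    have h1 := sum_per G N' p hp1 (fun _ => 1) (fun _ => rfl)
    simp only [mul_one] at h1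
    rw [← h1, hΦ]
  -- the test function
  set F : ℕ → ℤ → ℝ := fun _ x => p * mass G 0 N' p x / (S * ν p x) with hF
  have hmper : ∀ n : ℤ, mass G 0 N' p (n + p) = mass G 0 N' p n := by
    intro n
    rw [← mass_emod G 0 N' p (n + p), ← mass_emod G 0 N' p n, Int.add_emod_right]
  have hF0 : ∀ q n, 0 ≤ F q n := by
    intro q n
    simp only [hF]
    have h1 := hm0 n
    have h2 := hM.wts.nn p n
    positivity
  have hFper : ∀ q ∈ ({p} : Finset ℕ), ∀ n, F q (n + q) = F q n := by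
    intro q hq n
    rw [mem_singleton] at hq
    subst hq
    simp only [hF]
    rw [hmper, hM.wts.per q hp]
  have hFm : ∀ q ∈ ({p} : Finset ℕ), ∑ x ∈ range q, ν q x * F q x = q := by
    intro q hq
    rw [mem_singleton] at hq
    subst hq
    have h1 : ∀ x ∈ range q, ν q (x : ℤ) * F q x = q / S * mass G 0 N' q x := by
      intro x _
      simp only [hF]
      by_cases hz : ν q (x : ℤ) = 0
      · rw [hmz x hz, hz]
        simp
      · field_simp
    rw [Finset.sum_congr rfl h1, ← Finset.mul_sum, hmsum]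
    field_simp
  have key := hM.mulF hG hΦ {p} F (by simpa using hp) hF0 hFper hFm
  simp only [Finset.prod_singleton] at key
  rw [sum_per G N' p hp1 (fun n => (F p n) ^ τ) (fun n => by
    rw [hFper p (mem_singleton_self p) n])] at key
  -- pointwise inequality
  set f : ℕ → ℝ := fun x => mass G 0 N' p x * (F p x) ^ τ -
    (mass G 0 N' p x - τ * (S * ν p x / p - mass G 0 N' p x)) with hf
  have hpt : ∀ x : ℕ, 0 ≤ f x ∧ (f x = 0 → mass G 0 N' p x = S * ν p x / p) := by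
    intro x
    have hν0 := hM.wts.nn p (x : ℤ)
    rcases (hm0 x).eq_or_lt with h0 | h0
    · have h1 : f x = τ * (S * ν p x / p) := by
        simp only [hf]
        rw [← h0]
        ring
      constructor
      · rw [h1]
        positivity
      · intro h2
        rw [h1] at h2
        rw [← h0]
        rcases mul_eq_zero.1 h2 with h3 | h3
        · exact absurd h3 hτ0.ne'
        · exact h3.symm
    · have hνp : 0 < ν p (x : ℤ) := by
        rcases hν0.eq_or_lt with h1 | h1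
        · exact absurd (hmz x h1.symm) h0.ne'
        · exact h1
      have ht : 0 < S * ν p x / (p * mass G 0 N' p x) := by positivity
      set t : ℝ := S * ν p x / (p * mass G 0 N' p x) with htdef
      have hFt : F p x = t⁻¹ := by
        simp only [hF, htdef]
        rw [inv_div]
      have h1 : (F p x) ^ τ = Real.exp (-(τ * Real.log t)) := by
        rw [hFt, Real.rpow_def_of_pos (by positivity), Real.log_inv]
        congr 1
        ring
      have h2 : f x = mass G 0 N' p x * (Real.exp (-(τ * Real.log t)) - 1 + τ * (t - 1)) := by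
        simp only [hf]
        rw [h1]
        have h3 : S * ν p x / p = mass G 0 N' p x * t := by
          rw [htdef]
          field_simp
        rw [h3]
        ring
      have h3 : Real.log t ≤ t - 1 := Real.log_le_sub_one_of_pos ht
      have h4 : -(τ * Real.log t) + 1 ≤ Real.exp (-(τ * Real.log t)) := Real.add_one_le_exp _
      constructor
      · rw [h2]
        apply mul_nonneg h0.le
        nlinarith only [h3, h4, hτ0]
      · intro h5
        have h6 : t = 1 := by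
          by_contra hne
          have h7 : Real.log t < t - 1 := Real.log_lt_sub_one_of_pos ht hne
          have h8 : 0 < Real.exp (-(τ * Real.log t)) - 1 + τ * (t - 1) := by
            nlinarith only [h7, h4, hτ0]
          rw [h2] at h5
          have := mul_pos h0 h8
          linarith only [this, h5]
        rw [htdef, div_eq_one_iff_eq (by positivity)] at h6
        rw [h6]
        field_simp
  have hsumf : ∑ x ∈ range p, f x ≤ 0 := by
    simp only [hf]
    rw [Finset.sum_sub_distrib, Finset.sum_sub_distrib, ← Finset.mul_sum, Finset.sum_sub_distrib,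
      ← Finset.sum_div, ← Finset.mul_sum, hM.wts.mean p hp, hmsum]
    have h1 : S * (p : ℝ) / p = S := by field_simp
    rw [h1]
    linarith only [key]
  have hall : ∀ x ∈ range p, f x = 0 := by
    have h1 : ∑ x ∈ range p, f x = 0 :=
      le_antisymm hsumf (Finset.sum_nonneg fun x _ => (hpt x).1)
    exact (Finset.sum_eq_zero_iff_of_nonneg fun x _ => (hpt x).1).1 h1
  intro x
  have hp0' : (0 : ℤ) < p := by exact_mod_cast hpp.pos
  have h1 := Int.emod_lt_of_pos x hp0'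
  have h2 := Int.emod_nonneg x hp0'.ne'
  have h3 : (((x % (p : ℤ)).toNat : ℕ) : ℤ) = x % p := Int.toNat_of_nonneg h2
  have h4 := (hpt (x % (p : ℤ)).toNat).2 (hall _ (by rw [mem_range]; omega))
  rw [h3, mass_emod, extb_per_emod (hM.wts.per p hp)] at h4
  exact h4

/-- pinning -/
theorem WMax.pin (hM : WMax N' W τ g ν) (hτ0 : 0 < τ) {G : ℤ → ℝ}
    (hG : ∀ n ∈ Icc (1 : ℤ) N', G n = g n * ∏ p ∈ W, (ν p n) ^ τ) {Φ : ℝ}
    (hΦ : ∑ n ∈ Icc (1 : ℤ) N', G n = N' * Φ) :
    ∀ (U : Finset ℕ) (F : ℕ → ℤ → ℝ), U ⊆ W → (∀ p n, 0 ≤ F p n) →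
    (∀ p ∈ U, ∀ n, F p (n + p) = F p n) →
    (∀ p ∈ U, ∑ n ∈ Icc (1 : ℤ) N', G n * F p n = N' * Φ) →
    ∑ n ∈ Icc (1 : ℤ) N', G n * ∏ p ∈ U, (F p n) ^ τ ≤ N' * Φ := by
  intro U F hU hF0 hFper hFm
  refine hM.mulF hG hΦ U F hU hF0 hFper fun p hp => ?_
  have hpp : p.Prime := hM.prime p (hU hp)
  have hp1 : 1 ≤ p := hpp.one_lt.le
  have hp0 : (0 : ℝ) < p := by exact_mod_cast hpp.pos
  have hS : (0 : ℝ) < N' * Φ := by
    rw [← hΦ, Finset.sum_congr rfl hG]
    exact hM.pos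
  have h1 := hFm p hp
  rw [sum_per G N' p hp1 (F p) (hFper p hp)] at h1
  have h2 : ∀ x ∈ range p, mass G 0 N' p x * F p x = (N' * Φ) / p * (ν p x * F p x) := by
    intro x _
    rw [hM.marg hτ0 hG hΦ p (hU hp) x]
    ring
  rw [Finset.sum_congr rfl h2, ← Finset.mul_sum] at h1
  have h3 : (N' * Φ) / p * ∑ x ∈ range p, ν p x * F p x = (N' * Φ) / p * p := by
    rw [h1]
    field_simp
  exact mul_left_cancel₀ (by positivity) h3


/-- sup bound for the weights -/
theorem nu_holds : NuStmt := by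
  intro k N' Nmin W τ η Φ G ν hP hτ0 hτ1 hη hN' p hp hpk x
  have hpp : p.Prime := hP.prime p hp
  have hp1 : 1 ≤ p := hpp.one_lt.le
  have hp0 : (0 : ℝ) < p := by exact_mod_cast hpp.pos
  have hp1' : (1 : ℝ) ≤ p := by exact_mod_cast hp1
  have hN0 : (0 : ℝ) < N' := by exact_mod_cast hN'
  have h1 := hP.sb p N' 0 x hp1 hpk hpk
  have hfil : W.filter (fun q => q ∣ p) = {p} := by
    ext q
    simp only [mem_filter, mem_singleton]
    constructor
    · rintro ⟨hq, hqp⟩
      exact (Nat.prime_dvd_prime_iff_eq (hP.prime q hq) hpp).1 hqp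
    · rintro rfl
      exact ⟨hp, dvd_rfl⟩
  rw [hfil, Finset.prod_singleton, hP.marg p hp x] at h1
  have h2 : (N' : ℝ) * (p : ℝ) ^ k / N' = (p : ℝ) ^ k := by field_simp
  rw [h2] at h1
  set b : ℝ := (1 + (p : ℝ) ^ k / N') * ((p : ℝ) ^ k) ^ η with hb
  have hb1 : 1 ≤ b := by
    have h3 : (1 : ℝ) ≤ 1 + (p : ℝ) ^ k / N' := by
      have : (0 : ℝ) ≤ (p : ℝ) ^ k / N' := by positivity
      linarith
    have h4 : (1 : ℝ) ≤ ((p : ℝ) ^ k) ^ η := Real.one_le_rpow (one_le_pow₀ hp1') hη.le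
    calc (1 : ℝ) = 1 * 1 := by ring
      _ ≤ b := mul_le_mul h3 h4 zero_le_one (by linarith)
  have hν0 := hP.wts.nn p x
  have h5 : ν p x ≤ b * (ν p x) ^ τ := by
    have h6 : (N' : ℝ) * Φ * ν p x / p ≤ (N' * Φ / p) * (b * (ν p x) ^ τ) := by
      refine h1.trans (le_of_eq ?_)
      rw [hb]
      ring
    have h7 : (0 : ℝ) < N' * Φ / p := by
      have := hP.Φpos
      positivity
    have h8 : (N' * Φ / p) * ν p x ≤ (N' * Φ / p) * (b * (ν p x) ^ τ) := by
      refine le_trans (le_of_eq ?_) h6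
      ring
    exact le_of_mul_le_mul_left h8 h7
  rcases le_or_gt (ν p x) 1 with h9 | h9
  · calc ν p x ≤ 1 := h9
      _ ≤ b ^ 2 := one_le_pow₀ hb1
  · have h10 : (ν p x) ^ τ ≤ (ν p x) ^ (1 / 2 : ℝ) :=
      Real.rpow_le_rpow_of_exponent_le h9.le hτ1
    have h11 : (ν p x) ^ (1 / 2 : ℝ) = Real.sqrt (ν p x) := (Real.sqrt_eq_rpow _).symm
    rw [h11] at h10
    have h12 : Real.sqrt (ν p x) * Real.sqrt (ν p x) = ν p x := Real.mul_self_sqrt hν0
    have h13 : 0 < Real.sqrt (ν p x) := Real.sqrt_pos.2 (by linarith)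
    have h14 : Real.sqrt (ν p x) ≤ b := by
      have h15 : Real.sqrt (ν p x) * Real.sqrt (ν p x) ≤ b * Real.sqrt (ν p x) := by
        rw [h12]
        exact h5.trans (mul_le_mul_of_nonneg_left h10 (by linarith))
      exact le_of_mul_le_mul_right h15 h13
    calc ν p x = Real.sqrt (ν p x) ^ 2 := (Real.sq_sqrt hν0).symm
      _ ≤ b ^ 2 := pow_le_pow_left₀ h13.le h14 2

end Vale.Agent.P042.SS
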