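import Vale.Agent.P042.SS.ExtB

set_option autoImplicit false

/-!
Block EXT: product weights over full periods and the bound for the mean over blocks.
-/

namespace Vale.Agent.P042.SS

open Polynomial Finset

/-- Chinese remainder theorem for sums of products of periodic functions -/
theorem sum_crt (a b : ℕ) (hab : Nat.Coprime a b) (ha : 1 ≤ a) (hb : 1 ≤ b) (φ ψ : ℤ → ℝ)
    (hφ : ∀ n, φ (n + a) = φ n) (hψ : ∀ n, ψ (n + b) = ψ n) :
    ∑ x ∈ range (a * b), φ x * ψ x = (∑ x ∈ range a, φ x) * ∑ x ∈ range b, ψ x := by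
  rw [Finset.sum_mul_sum, ← Finset.sum_product']
  refine Finset.sum_bij' (fun x _ => (x % a, x % b))
    (fun uv _ => (Nat.chineseRemainder hab uv.1 uv.2 : ℕ)) ?_ ?_ ?_ ?_ ?_
  · intro x _
    rw [mem_product, mem_range, mem_range]
    exact ⟨Nat.mod_lt _ ha, Nat.mod_lt _ hb⟩
  · intro uv _
    rw [mem_range]
    exact Nat.chineseRemainder_lt_mul hab _ _ (by omega) (by omega)
  · intro x hx
    rw [mem_range] at hx
    have h1 := Nat.chineseRemainder_modEq_unique hab (Nat.mod_modEq x a).symm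
      (Nat.mod_modEq x b).symm
    exact (Nat.ModEq.eq_of_lt_of_lt h1 hx
      (Nat.chineseRemainder_lt_mul hab _ _ (by omega) (by omega))).symm
  · intro uv huv
    rw [mem_product, mem_range, mem_range] at huv
    have h1 := (Nat.chineseRemainder hab uv.1 uv.2).2
    have h2 : (Nat.chineseRemainder hab uv.1 uv.2 : ℕ) % a = uv.1 := by
      rw [h1.1, Nat.mod_eq_of_lt huv.1]
    have h3 : (Nat.chineseRemainder hab uv.1 uv.2 : ℕ) % b = uv.2 := by
      rw [h1.2, Nat.mod_eq_of_lt huv.2]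
    exact Prod.ext h2 h3
  · intro x _
    have h1 : φ ((x % a : ℕ) : ℤ) = φ (x : ℤ) := by
      rw [Int.natCast_mod]
      exact extb_per_emod hφ _
    have h2 : ψ ((x % b : ℕ) : ℤ) = ψ (x : ℤ) := by
      rw [Int.natCast_mod]
      exact extb_per_emod hψ _
    simp only [h1, h2]

theorem exth_psi_per {W : Finset ℕ} {ν : ℕ → ℤ → ℝ} (hW : Wts W ν) (V : Finset ℕ) (hV : V ⊆ W) (n : ℤ) :
    ∏ p ∈ V, ν p (n + (∏ p ∈ V, p : ℕ)) = ∏ p ∈ V, ν p n := by
  refine Finset.prod_congr rfl fun p hp => ?_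
  obtain ⟨c, hc⟩ := Finset.dvd_prod_of_mem (fun p : ℕ => p) hp
  rw [hc]
  have h1 := hW.perInt (hV hp) n c
  rw [← h1]
  congr 2
  push_cast
  ring

/-- the mean of the product weight over a full period -/
theorem psi_mean {W : Finset ℕ} {ν : ℕ → ℤ → ℝ} (hW : Wts W ν) (hprime : ∀ p ∈ W, p.Prime)
    (V : Finset ℕ) (hV : V ⊆ W) :
    ∑ x ∈ range (∏ p ∈ V, p), ∏ p ∈ V, ν p (x : ℤ) = ((∏ p ∈ V, p : ℕ) : ℝ) := by
  classical
  induction V using Finset.induction_on with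
  | empty => simp
  | insert q V hq ih =>
    have hqW : q ∈ W := hV (mem_insert_self q V)
    have hVW : V ⊆ W := fun p hp => hV (mem_insert_of_mem hp)
    rw [Finset.prod_insert hq]
    have hco : Nat.Coprime q (∏ p ∈ V, p) := by
      refine Nat.Coprime.prod_right fun p hp => ?_
      exact (Nat.coprime_primes (hprime q hqW) (hprime p (hVW hp))).2
        (fun h => hq (h ▸ hp))
    have hpos : 1 ≤ ∏ p ∈ V, p := Finset.prod_pos fun p hp => (hprime p (hVW hp)).pos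
    have h1 : ∑ x ∈ range (q * ∏ p ∈ V, p), ∏ p ∈ insert q V, ν p (x : ℤ) =
        ∑ x ∈ range (q * ∏ p ∈ V, p), ν q (x : ℤ) * ∏ p ∈ V, ν p (x : ℤ) :=
      Finset.sum_congr rfl fun x _ => by rw [Finset.prod_insert hq]
    rw [h1, sum_crt q (∏ p ∈ V, p) hco (hprime q hqW).one_lt.le hpos (ν q)
      (fun n => ∏ p ∈ V, ν p n) (hW.per q hqW) (exth_psi_per hW V hVW), hW.mean q hqW, ih hVW]
    push_cast
    ring

theorem sum_Icc_eq_range (f : ℤ → ℝ) (L : ℕ) :
    ∑ n ∈ Icc (1 : ℤ) L, f n = ∑ i ∈ range L, f ((i : ℤ) + 1) := by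
  induction L with
  | zero => simp
  | succ L ih =>
    rw [Finset.sum_range_succ, ← ih]
    have h1 : Icc (1 : ℤ) ((L + 1 : ℕ) : ℤ) = insert ((L : ℤ) + 1) (Icc (1 : ℤ) L) := by
      ext n
      simp only [mem_Icc, mem_insert]
      push_cast
      omega
    rw [h1, Finset.sum_insert (by simp), add_comm]

/-- sum of a periodic function over a multiple of the period -/
theorem sum_Icc_per (f : ℤ → ℝ) (M K : ℕ) (hf : ∀ n, f (n + M) = f n) :
    ∑ n ∈ Icc (1 : ℤ) (K * M : ℕ), f n = K * ∑ x ∈ range M, f x := by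
  have hper : Function.Periodic f (M : ℤ) := hf
  have h0 : ∑ i ∈ range M, f ((i : ℤ) + 1) = ∑ i ∈ range M, f (i : ℤ) := by
    have h1 := Finset.sum_range_succ' (fun i : ℕ => f (i : ℤ)) M
    have h2 := Finset.sum_range_succ (fun i : ℕ => f (i : ℤ)) M
    have h3 : f (M : ℤ) = f ((0 : ℕ) : ℤ) := by
      have := hf 0
      rw [zero_add] at this
      rw [this]
      norm_num
    simp only [Nat.cast_add, Nat.cast_one] at h1
    rw [h2] at h1
    linarith only [h1, h3]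
  rw [sum_Icc_eq_range]
  induction K with
  | zero => simp
  | succ K ih =>
    rw [add_mul, one_mul, Finset.sum_range_add, ih]
    have h1 : ∀ i ∈ range M, f (((K * M + i : ℕ) : ℤ) + 1) = f ((i : ℤ) + 1) := by
      intro i _
      have h2 := hper.int_mul (K : ℤ) ((i : ℤ) + 1)
      rw [← h2]
      congr 1
      push_cast
      ring
    rw [Finset.sum_congr rfl h1, h0]
    push_cast
    ring

/-- sum over an interval at least as long as the period -/
theorem sum_Icc_psi_le {W : Finset ℕ} {ν : ℕ → ℤ → ℝ} (hW : Wts W ν)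
    (hprime : ∀ p ∈ W, p.Prime) (V : Finset ℕ) (hV : V ⊆ W) (l : ℕ) (hl : ∏ p ∈ V, p ≤ l) :
    ∑ n ∈ Icc (1 : ℤ) l, ∏ p ∈ V, ν p n ≤ 2 * l := by
  set M : ℕ := ∏ p ∈ V, p with hM
  have hpos : 0 < M := Finset.prod_pos fun p hp => (hprime p (hV hp)).pos
  have h1 : l ≤ (l / M + 1) * M := by
    have h2 := Nat.div_add_mod l M
    have h3 := Nat.mod_lt l hpos
    nlinarith only [h2, h3]
  have h2 : (l / M + 1) * M ≤ 2 * l := by
    have h3 := Nat.div_mul_le_self l M
    nlinarith only [h3, hl]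
  have h3 : ∑ n ∈ Icc (1 : ℤ) l, ∏ p ∈ V, ν p n ≤
      ∑ n ∈ Icc (1 : ℤ) ((l / M + 1) * M : ℕ), ∏ p ∈ V, ν p n := by
    refine Finset.sum_le_sum_of_subset_of_nonneg ?_ ?_
    · intro n hn
      rw [mem_Icc] at hn ⊢
      refine ⟨hn.1, hn.2.trans ?_⟩
      exact_mod_cast h1
    · intro n _ _
      exact Finset.prod_nonneg fun p _ => hW.nn p n
  rw [sum_Icc_per (fun n => ∏ p ∈ V, ν p n) M (l / M + 1) (exth_psi_per hW V hV),
    psi_mean hW hprime V hV] at h3
  refine h3.trans ?_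
  rw [← hM]
  have h4 : (((l / M + 1) * M : ℕ) : ℝ) ≤ ((2 * l : ℕ) : ℝ) := by exact_mod_cast h2
  rw [Nat.cast_mul, Nat.cast_mul] at h4
  exact h4

/-- Hoelder (here: the arithmetic-geometric mean inequality) over the blocks -/
theorem hoelder_blocks (l J : ℕ) (W : Finset ℕ) (blk : ℕ → ℕ) (ν : ℕ → ℤ → ℝ) (hW : Wts W ν)
    (hprime : ∀ p ∈ W, p.Prime) (hJ : 1 ≤ J) (hblk : ∀ p ∈ W, blk p < J)
    (hM : ∀ i < J, ∏ p ∈ W.filter (fun p => blk p = i), p ≤ l) :
    ∑ n ∈ Icc (1 : ℤ) l, ∏ p ∈ W, (ν p n) ^ (1 / (J : ℝ)) ≤ 2 * l := by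
  have hJ0 : (0 : ℝ) < J := by exact_mod_cast hJ
  have h1 : ∀ n ∈ Icc (1 : ℤ) l, ∏ p ∈ W, (ν p n) ^ (1 / (J : ℝ)) ≤
      ∑ i ∈ range J, 1 / (J : ℝ) * ∏ p ∈ W.filter (fun p => blk p = i), ν p n := by
    intro n _
    have h2 : ∏ p ∈ W, (ν p n) ^ (1 / (J : ℝ)) =
        ∏ i ∈ range J, (∏ p ∈ W.filter (fun p => blk p = i), ν p n) ^ (1 / (J : ℝ)) := by
      rw [← Finset.prod_fiberwise_of_maps_to (g := blk) (t := range J)
        (fun p hp => mem_range.2 (hblk p hp))]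
      refine Finset.prod_congr rfl fun i _ => ?_
      exact Real.finsetProd_rpow _ _ (fun p _ => hW.nn p n) _
    rw [h2]
    refine Real.geom_mean_le_arith_mean_weighted (range J) (fun _ => 1 / (J : ℝ))
      (fun i => ∏ p ∈ W.filter (fun p => blk p = i), ν p n) (fun i _ => by positivity) ?_
      (fun i _ => Finset.prod_nonneg fun p _ => hW.nn p n)
    rw [Finset.sum_const, Finset.card_range, nsmul_eq_mul]
    field_simp
  refine (Finset.sum_le_sum h1).trans ?_
  rw [Finset.sum_comm]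
  have h2 : ∀ i ∈ range J, ∑ n ∈ Icc (1 : ℤ) l,
      1 / (J : ℝ) * ∏ p ∈ W.filter (fun p => blk p = i), ν p n ≤ 1 / (J : ℝ) * (2 * l) := by
    intro i hi
    rw [← Finset.mul_sum]
    refine mul_le_mul_of_nonneg_left ?_ (by positivity)
    exact sum_Icc_psi_le hW hprime _ (Finset.filter_subset _ _) l (hM i (mem_range.1 hi))
  refine (Finset.sum_le_sum h2).trans (le_of_eq ?_)
  rw [Finset.sum_const, Finset.card_range, nsmul_eq_mul]
  field_simp

end Vale.Agent.P042.SS
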