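import Vale.Agent.P042.SS.Spec
import Vale.Agent.P042.SS.ExtA0
import Vale.Agent.P042.SS.ExtB
import Vale.Agent.P042.SS.ExtH

set_option autoImplicit false

/-! Block EXT: the extremal state (part a). -/

namespace Vale.Agent.P042.SS

open Polynomial Finset Pointwise

/-- admissible states `(d, a, l)` -/
def Adm (lam : ℕ → ℕ) (N Nmin : ℕ) (d : ℕ) (a : ℤ) (l : ℕ) : Prop :=
  1 ≤ d ∧ Nmin ≤ l ∧ 1 ≤ a + lam d ∧ a + lam d * l ≤ N

open Classical in
/-- indicator of `A` along the progression -/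
noncomputable def gA (lam : ℕ → ℕ) (A : Finset ℤ) (d : ℕ) (a : ℤ) (j : ℤ) : ℝ :=
  if a + lam d * j ∈ A then 1 else 0

lemma gA_nonneg (lam : ℕ → ℕ) (A : Finset ℤ) (d : ℕ) (a j : ℤ) : 0 ≤ gA lam A d a j := by
  unfold gA
  split_ifs
  · exact zero_le_one
  · exact le_rfl

lemma gA_le_one (lam : ℕ → ℕ) (A : Finset ℤ) (d : ℕ) (a j : ℤ) : gA lam A d a j ≤ 1 := by
  unfold gA
  split_ifs
  · exact le_rfl
  · exact zero_le_one

/-- the numerical estimate in `sb` -/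
lemma sb_num (L D M N' : ℕ) (Dk η : ℝ) (hL : 1 ≤ L) (hD : 1 ≤ D) (hM : 1 ≤ M)
    (hDk : (L : ℝ) ≤ Dk) (hη : 0 < η) :
    ((L : ℝ) / D) * (((M : ℝ) / L + 1) ^ (1 - η) * (N' : ℝ) ^ η) ≤
      (M : ℝ) / D * (1 + Dk / M) * ((N' * Dk / M) ^ η) := by
  have hL0 : (0 : ℝ) < L := by exact_mod_cast hL
  have hD0 : (0 : ℝ) < D := by exact_mod_cast hD
  have hM0 : (0 : ℝ) < M := by exact_mod_cast hM
  have hN0 : (0 : ℝ) ≤ N' := Nat.cast_nonneg _
  have hDk0 : (0 : ℝ) < Dk := lt_of_lt_of_le hL0 hDk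
  have e1 : (M : ℝ) / L + 1 = ((M : ℝ) / L) * (1 + L / M) := by
    field_simp
  have h1 : (1 : ℝ) ≤ 1 + L / M := by
    have : (0 : ℝ) ≤ L / M := by positivity
    linarith only [this]
  have h2 : ((M : ℝ) / L + 1) ^ (1 - η) ≤ ((M : ℝ) / L) ^ (1 - η) * (1 + L / M) := by
    rw [e1, Real.mul_rpow (by positivity) (by positivity)]
    refine mul_le_mul_of_nonneg_left ?_ (by positivity)
    calc (1 + (L : ℝ) / M) ^ (1 - η) ≤ (1 + (L : ℝ) / M) ^ (1 : ℝ) :=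
          Real.rpow_le_rpow_of_exponent_le h1 (by linarith only [hη])
      _ = 1 + (L : ℝ) / M := Real.rpow_one _
  have e2 : ((M : ℝ) / L) ^ (1 - η) = ((M : ℝ) / L) * ((L : ℝ) / M) ^ η := by
    rw [Real.rpow_sub (by positivity), Real.rpow_one, div_eq_mul_inv,
      ← Real.inv_rpow (by positivity), inv_div]
  calc ((L : ℝ) / D) * (((M : ℝ) / L + 1) ^ (1 - η) * (N' : ℝ) ^ η)
      ≤ ((L : ℝ) / D) * ((((M : ℝ) / L) ^ (1 - η) * (1 + L / M)) * (N' : ℝ) ^ η) := by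
        gcongr
    _ = (M : ℝ) / D * (1 + (L : ℝ) / M) * ((N' : ℝ) ^ η * ((L : ℝ) / M) ^ η) := by
        rw [e2]
        field_simp
    _ = (M : ℝ) / D * (1 + (L : ℝ) / M) * ((N' * (L : ℝ) / M) ^ η) := by
        rw [← Real.mul_rpow hN0 (by positivity), mul_div_assoc]
    _ ≤ (M : ℝ) / D * (1 + Dk / M) * ((N' * Dk / M) ^ η) := by
        gcongr

section aux
variable {h : ℤ[X]} {lam : ℕ → ℕ} {r : ℕ → ℤ} {Hh : ℕ → ℤ[X]} {R : ℕ}

lemma aux_lam_one (hA : AuxData h lam r Hh R) : lam 1 = 1 := by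
  have h1 := hA.hmul 1 1 le_rfl le_rfl
  rw [mul_one] at h1
  have h2 := hA.lam_pos 1 le_rfl
  have h3 : lam 1 * 1 = lam 1 * lam 1 := by rw [mul_one]; exact h1
  exact (Nat.eq_of_mul_eq_mul_left h2 h3).symm

lemma aux_H_one (hA : AuxData h lam r Hh R) : Hh 1 = h := by
  have h1 := hA.hH 1 le_rfl
  have h2 := hA.hr 1 le_rfl
  have h3 : r 1 = 0 := by
    have h4 := h2.1
    have h5 := h2.2
    push_cast at h4
    linarith only [h4, h5, Int.lt_iff_add_one_le.1 h4]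
  rw [aux_lam_one hA, h3] at h1
  simpa using h1

lemma aux_le_lam (hA : AuxData h lam r Hh R) (d : ℕ) (hd : 1 ≤ d) : d ≤ lam d :=
  Nat.le_of_dvd (hA.lam_pos d hd) (hA.hdvd d hd).1

lemma Adm.bounds (hA : AuxData h lam r Hh R) {N Nmin d l : ℕ} {a : ℤ} (hN : 2 ≤ Nmin)
    (hs : Adm lam N Nmin d a l) :
    (d : ℤ) * (l - 1) ≤ N - 1 ∧ l ≤ N ∧ d ≤ N ∧ -(N : ℤ) ≤ a ∧ a ≤ N := by
  obtain ⟨h1, h2, h3, h4⟩ := hs
  have h5 : (d : ℤ) ≤ lam d := by exact_mod_cast aux_le_lam hA d h1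
  have h6 : (2 : ℤ) ≤ l := by exact_mod_cast hN.trans h2
  have h7 : (1 : ℤ) ≤ d := by exact_mod_cast h1
  have h8 : (lam d : ℤ) * (l - 1) ≤ N - 1 := by linarith only [h3, h4]
  have h9 : (d : ℤ) * (l - 1) ≤ lam d * (l - 1) :=
    mul_le_mul_of_nonneg_right h5 (by linarith only [h6])
  have h10 : (lam d : ℤ) * 1 ≤ lam d * (l - 1) :=
    mul_le_mul_of_nonneg_left (by linarith only [h6]) (by linarith only [h5, h7])
  have h11 : 1 * ((l : ℤ) - 1) ≤ d * (l - 1) :=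
    mul_le_mul_of_nonneg_right h7 (by linarith only [h6])
  have h12 : (0 : ℤ) ≤ lam d * l := by positivity
  refine ⟨h9.trans h8, ?_, ?_, ?_, ?_⟩
  · have : (l : ℤ) ≤ N := by linarith only [h8, h9, h11]
    exact_mod_cast this
  · have : (d : ℤ) ≤ N := by linarith only [h8, h10, h5]
    exact_mod_cast this
  · linarith only [h3, h8, h10]
  · linarith only [h4, h12]

lemma Adm.zero (hA : AuxData h lam r Hh R) {N Nmin : ℕ} (hNN : Nmin ≤ N) :
    Adm lam N Nmin 1 0 N := by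
  have h1 := aux_lam_one hA
  refine ⟨le_rfl, hNN, ?_, ?_⟩
  · rw [h1]
    norm_num
  · rw [h1]
    norm_num

theorem max_state (hA : AuxData h lam r Hh R) {N Nmin : ℕ} (A : Finset ℤ) (hN : 2 ≤ Nmin)
    (hNN : Nmin ≤ N) (W : Finset ℕ) (hW : ∀ p ∈ W, p.Prime) (τ η : ℝ) (hτ : 0 ≤ τ) :
    ∃ (d : ℕ) (a : ℤ) (l : ℕ) (ν : ℕ → ℤ → ℝ), Adm lam N Nmin d a l ∧ Wts W ν ∧
      ∀ (d' : ℕ) (a' : ℤ) (l' : ℕ) (ν' : ℕ → ℤ → ℝ), Adm lam N Nmin d' a' l' → Wts W ν' →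
        (l' : ℝ) ^ (η - 1) * Sst (gA lam A d' a') W τ l' ν' ≤
          (l : ℝ) ^ (η - 1) * Sst (gA lam A d a) W τ l ν := by
  classical
  set S : Finset (ℕ × ℤ × ℕ) := ((Icc 0 N) ×ˢ (Icc (-(N : ℤ)) N) ×ˢ (Icc 0 N)).filter
    (fun s => Adm lam N Nmin s.1 s.2.1 s.2.2) with hS
  have hmem : ∀ d a l, Adm lam N Nmin d a l → (d, a, l) ∈ S := by
    intro d a l hs
    obtain ⟨-, h1, h2, h3, h4⟩ := hs.bounds hA hN
    rw [hS, Finset.mem_filter, Finset.mem_product, Finset.mem_product, Finset.mem_Icc,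
      Finset.mem_Icc, Finset.mem_Icc]
    exact ⟨⟨⟨Nat.zero_le _, h2⟩, ⟨h3, h4⟩, ⟨Nat.zero_le _, h1⟩⟩, hs⟩
  have h0 : Adm lam N Nmin 1 0 N := Adm.zero hA hNN
  obtain ⟨⟨d, a, l⟩, hi, ν, hν, hmax⟩ := exists_max_state S ⟨_, hmem _ _ _ h0⟩
    (fun s => gA lam A s.1 s.2.1) (fun s => s.2.2) (fun s => (s.2.2 : ℝ) ^ (η - 1)) W hW τ hτ
    (fun s => Real.rpow_nonneg (Nat.cast_nonneg _) _)
  refine ⟨d, a, l, ν, (Finset.mem_filter.1 hi).2, hν.1, fun d' a' l' ν' h1 h2 => ?_⟩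
  exact hmax (d', a', l') (hmem _ _ _ h1) ν' h2

/-- the weight of the state -/
noncomputable def Gst (lam : ℕ → ℕ) (A : Finset ℤ) (W : Finset ℕ) (τ : ℝ) (d : ℕ) (a : ℤ)
    (l : ℕ) (ν : ℕ → ℤ → ℝ) (n : ℤ) : ℝ :=
  if 1 ≤ n ∧ n ≤ l then gA lam A d a n * ∏ p ∈ W, (ν p n) ^ τ else 0

lemma prod_nonneg' {W : Finset ℕ} {ν : ℕ → ℤ → ℝ} (hν : ∀ p n, 0 ≤ ν p n) (τ : ℝ) (n : ℤ) :
    0 ≤ ∏ p ∈ W, (ν p n) ^ τ :=
  Finset.prod_nonneg fun p _ => Real.rpow_nonneg (hν p n) _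

lemma Gst_nonneg (A : Finset ℤ) {W : Finset ℕ} (τ : ℝ) (d : ℕ) (a : ℤ)
    (l : ℕ) {ν : ℕ → ℤ → ℝ} (hν : ∀ p n, 0 ≤ ν p n) (n : ℤ) :
    0 ≤ Gst lam A W τ d a l ν n := by
  unfold Gst
  split_ifs
  · exact mul_nonneg (gA_nonneg _ _ _ _ _) (prod_nonneg' hν τ n)
  · exact le_rfl

lemma Gst_supp {A : Finset ℤ} {W : Finset ℕ} {τ : ℝ} {d : ℕ} {a : ℤ}
    {l : ℕ} {ν : ℕ → ℤ → ℝ} (n : ℤ) (hn : Gst lam A W τ d a l ν n ≠ 0) :
    (1 ≤ n ∧ n ≤ l) ∧ a + lam d * n ∈ A := by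
  unfold Gst gA at hn
  split_ifs at hn with h1 h2
  · exact ⟨h1, h2⟩
  · simp at hn
  · simp at hn

lemma Gst_sum (A : Finset ℤ) (W : Finset ℕ) (τ : ℝ) (d : ℕ) (a : ℤ)
    (l : ℕ) (ν : ℕ → ℤ → ℝ) :
    ∑ n ∈ Icc (1 : ℤ) l, Gst lam A W τ d a l ν n = Sst (gA lam A d a) W τ l ν := by
  unfold Sst
  refine Finset.sum_congr rfl fun n hn => ?_
  rw [Finset.mem_Icc] at hn
  unfold Gst
  rw [if_pos hn]

/-- the value of a block in terms of a new state -/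
lemma block_eq (hA : AuxData h lam r Hh R) (A : Finset ℤ) {W : Finset ℕ}
    (hW : ∀ p ∈ W, p.Prime) (τ : ℝ) (d : ℕ) (a : ℤ) (hd : 1 ≤ d)
    (l : ℕ) {ν : ℕ → ℤ → ℝ} (hν : Wts W ν) (D m : ℕ) (hD : 1 ≤ D) (x : ℤ) (h1 : 1 ≤ x + lam D)
    (h2 : x + lam D * m ≤ l) :
    ∃ ν' : ℕ → ℤ → ℝ, Wts W ν' ∧
      ∑ j ∈ Icc (1 : ℤ) m, Gst lam A W τ d a l ν (x + lam D * j) =
      Sst (gA lam A (d * D) (a + lam d * x)) W τ m ν' *
        ∏ p ∈ W.filter (fun p => p ∣ D), (ν p x) ^ τ := by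
  classical
  have hDl : D ∣ lam D := (hA.hdvd D hD).1
  have hlD : lam D ∣ D ^ h.natDegree := (hA.hdvd D hD).2
  have hl1 : (1 : ℤ) ≤ lam D := by exact_mod_cast hA.lam_pos D hD
  refine ⟨fun p j => if ¬ p ∣ D then ν p (x + lam D * j) else 1, ⟨?_, ?_, ?_⟩, ?_⟩
  · intro p n
    show (0 : ℝ) ≤ if ¬ p ∣ D then ν p (x + lam D * n) else 1
    split_ifs
    · exact zero_le_one
    · exact hν.nn _ _
  · intro p hp n
    by_cases hpD : p ∣ D
    · simp only [hpD, not_true_eq_false, if_false]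
    · simp only [hpD, not_false_eq_true, if_true]
      apply per_congr (hν.per p hp)
      apply Int.ModEq.add_left
      rw [mul_add]
      have : (lam D : ℤ) * n + lam D * p ≡ lam D * n + 0 [ZMOD (p : ℕ)] :=
        Int.ModEq.add_left _ (Int.modEq_zero_iff_dvd.2 ⟨lam D, mul_comm _ _⟩)
      rwa [add_zero] at this
  · intro p hp
    by_cases hpD : p ∣ D
    · simp only [hpD, not_true_eq_false, if_false]
      simp
    · simp only [hpD, not_false_eq_true, if_true]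
      have hpp := hW p hp
      have hcop : Nat.Coprime (lam D) p := by
        rw [Nat.coprime_comm, hpp.coprime_iff_not_dvd]
        intro hdv
        exact hpD (hpp.dvd_of_dvd_pow (hdv.trans hlD))
      rw [sum_affine (hν.per p hp) hpp.pos x (lam D) hcop]
      exact hν.mean p hp
  · unfold Sst
    rw [Finset.sum_mul]
    refine Finset.sum_congr rfl fun j hj => ?_
    rw [Finset.mem_Icc] at hj
    have h3 : 1 ≤ x + lam D * j ∧ x + lam D * j ≤ l := by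
      have h4 : (lam D : ℤ) * 1 ≤ lam D * j := mul_le_mul_of_nonneg_left hj.1 (by linarith only [hl1])
      have h5 : (lam D : ℤ) * j ≤ lam D * m := mul_le_mul_of_nonneg_left hj.2 (by linarith only [hl1])
      constructor <;> linarith only [h4, h5, h1, h2]
    unfold Gst
    rw [if_pos h3, mul_assoc]
    congr 1
    · unfold gA
      have e1 : a + lam d * (x + lam D * j) = a + lam d * x + lam (d * D) * j := by
        rw [hA.hmul d D hd hD]
        push_cast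
        ring
      rw [e1]
    · rw [Finset.prod_filter, ← Finset.prod_mul_distrib]
      refine Finset.prod_congr rfl fun p hp => ?_
      by_cases hpD : p ∣ D
      · simp only [hpD, not_true_eq_false, if_false, if_true, Real.one_rpow, one_mul]
        congr 1
        apply per_congr (hν.per p hp)
        have h4 : (p : ℤ) ∣ lam D * j :=
          Dvd.dvd.mul_right (by exact_mod_cast hpD.trans hDl) j
        have h5 : x + lam D * j ≡ x + 0 [ZMOD (p : ℕ)] :=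
          Int.ModEq.add_left _ (Int.modEq_zero_iff_dvd.2 h4)
        rwa [add_zero] at h5
      · simp only [hpD, not_false_eq_true, if_true, if_false, mul_one]

/-- the bound for windows in residue classes -/
theorem sb_state (hA : AuxData h lam r Hh R) {N Nmin : ℕ} (A : Finset ℤ) (hNmin : 2 ≤ Nmin)
    {W : Finset ℕ} (hW : ∀ p ∈ W, p.Prime) (τ η : ℝ) (hη : 0 < η) (hη1 : η ≤ 1)
    {d : ℕ} {a : ℤ} {l : ℕ} {ν : ℕ → ℤ → ℝ} (hs : Adm lam N Nmin d a l) (hν : Wts W ν)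
    (hmax : ∀ (d' : ℕ) (a' : ℤ) (l' : ℕ) (ν' : ℕ → ℤ → ℝ), Adm lam N Nmin d' a' l' → Wts W ν' →
        (l' : ℝ) ^ (η - 1) * Sst (gA lam A d' a') W τ l' ν' ≤
          (l : ℝ) ^ (η - 1) * Sst (gA lam A d a) W τ l ν)
    (Φ : ℝ) (hΦ0 : 0 ≤ Φ) (hΦ : Sst (gA lam A d a) W τ l ν = l * Φ)
    (D M : ℕ) (y x : ℤ) (hD : 1 ≤ D) (hM : D ^ h.natDegree * Nmin ≤ M)
    (hl : D ^ h.natDegree * Nmin ≤ l) :
    mass (Gst lam A W τ d a l ν) y M D x ≤
      (M : ℝ) / D * Φ * (1 + (D : ℝ) ^ h.natDegree / M) *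
        ((l * (D : ℝ) ^ h.natDegree / M) ^ η) * ∏ p ∈ W.filter (fun p => p ∣ D), (ν p x) ^ τ := by
  classical
  obtain ⟨hd, hlmin, hs1, hs2⟩ := hs
  have hDl : D ∣ lam D := (hA.hdvd D hD).1
  have hlD : lam D ≤ D ^ h.natDegree := hA.lam_le D hD
  have hL : 1 ≤ lam D := hA.lam_pos D hD
  have hld : 1 ≤ lam d := hA.lam_pos d hd
  have hG0 := Gst_nonneg (lam := lam) A (W := W) τ d a l hν.nn
  have hGs : ∀ n, Gst lam A W τ d a l ν n ≠ 0 → 1 ≤ n ∧ n ≤ l := fun n hn => (Gst_supp n hn).1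
  have hl0 : (0 : ℝ) < l := by
    have : 0 < l := by omega
    exact_mod_cast this
  set Pr : ℝ := ∏ p ∈ W.filter (fun p => p ∣ D), (ν p x) ^ τ with hPr
  have hPr0 : 0 ≤ Pr := Finset.prod_nonneg fun p _ => Real.rpow_nonneg (hν.nn p x) _
  have hM1 : 1 ≤ M := by
    have : 1 ≤ D ^ h.natDegree := Nat.one_le_pow _ _ hD
    have : 1 * 1 ≤ D ^ h.natDegree * Nmin := Nat.mul_le_mul this (by omega)
    omega
  have hclass : ∀ c : ℕ, mass (Gst lam A W τ d a l ν) y M (lam D) (x + D * c) ≤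
      ((M : ℝ) / lam D + 1) ^ (1 - η) * (l : ℝ) ^ η * Φ * Pr := by
    intro c
    obtain ⟨x', m, hm1, hm2, hm3, hm4, hm5, hm6⟩ := prog_bound hG0 hGs (lam D) M Nmin hL
      ((Nat.mul_le_mul_right _ hlD).trans hM) ((Nat.mul_le_mul_right _ hlD).trans hl) y
      (x + D * c)
    obtain ⟨ν', hν', hb⟩ := block_eq hA A hW τ d a hd l hν D m hD x' hm3 hm4
    have hx' : ∀ p ∈ W.filter (fun p => p ∣ D), (ν p x') ^ τ = (ν p x) ^ τ := by
      intro p hp
      rw [Finset.mem_filter] at hp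
      congr 1
      apply per_congr (hν.per p hp.1)
      have h1 : x' ≡ x + D * c [ZMOD (p : ℕ)] := hm5.of_dvd (by exact_mod_cast hp.2.trans hDl)
      have h2 : x + (D : ℤ) * c ≡ x + 0 [ZMOD (p : ℕ)] :=
        Int.ModEq.add_left _ (Int.modEq_zero_iff_dvd.2
          (Dvd.dvd.mul_right (by exact_mod_cast hp.2) _))
      rw [add_zero] at h2
      exact h1.trans h2
    rw [hb, Finset.prod_congr rfl hx', ← hPr] at hm6
    have hadm : Adm lam N Nmin (d * D) (a + lam d * x') m := by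
      refine ⟨Nat.mul_pos hd hD, hm1, ?_, ?_⟩
      · rw [hA.hmul d D hd hD]
        push_cast
        have h1 : (lam d : ℤ) * 1 ≤ lam d * (x' + lam D) :=
          mul_le_mul_of_nonneg_left hm3 (Int.natCast_nonneg _)
        linarith only [h1, hs1]
      · rw [hA.hmul d D hd hD]
        push_cast
        have h1 : (lam d : ℤ) * (x' + lam D * m) ≤ lam d * l :=
          mul_le_mul_of_nonneg_left hm4 (Int.natCast_nonneg _)
        linarith only [h1, hs2]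
    have h3 := hmax _ _ _ ν' hadm hν'
    rw [hΦ] at h3
    have hm0 : (0 : ℝ) < m := by
      have : 0 < m := by omega
      exact_mod_cast this
    -- value of the new state
    have h4 : Sst (gA lam A (d * D) (a + lam d * x')) W τ m ν' ≤
        (m : ℝ) ^ (1 - η) * (l : ℝ) ^ η * Φ := by
      have e1 : (m : ℝ) ^ (1 - η) * (m : ℝ) ^ (η - 1) = 1 := by
        rw [← Real.rpow_add hm0]
        norm_num
      have e2 : (l : ℝ) ^ (η - 1) * (l : ℝ) = (l : ℝ) ^ η := by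
        rw [← Real.rpow_add_one hl0.ne']
        norm_num
      calc Sst (gA lam A (d * D) (a + lam d * x')) W τ m ν'
          = (m : ℝ) ^ (1 - η) * ((m : ℝ) ^ (η - 1) *
            Sst (gA lam A (d * D) (a + lam d * x')) W τ m ν') := by
            rw [← mul_assoc, e1, one_mul]
        _ ≤ (m : ℝ) ^ (1 - η) * ((l : ℝ) ^ (η - 1) * (l * Φ)) :=
            mul_le_mul_of_nonneg_left h3 (Real.rpow_nonneg hm0.le _)
        _ = (m : ℝ) ^ (1 - η) * (l : ℝ) ^ η * Φ := by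
            rw [← e2]
            ring
    have h5 : (m : ℝ) ^ (1 - η) ≤ ((M : ℝ) / lam D + 1) ^ (1 - η) :=
      Real.rpow_le_rpow hm0.le hm2 (by linarith only [hη1])
    have h6 : 0 ≤ (l : ℝ) ^ η := Real.rpow_nonneg hl0.le _
    calc mass (Gst lam A W τ d a l ν) y M (lam D) (x + D * c)
        ≤ Sst (gA lam A (d * D) (a + lam d * x')) W τ m ν' * Pr := hm6
      _ ≤ ((m : ℝ) ^ (1 - η) * (l : ℝ) ^ η * Φ) * Pr := mul_le_mul_of_nonneg_right h4 hPr0
      _ ≤ ((M : ℝ) / lam D + 1) ^ (1 - η) * (l : ℝ) ^ η * Φ * Pr := by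
          gcongr
  have hsum := mass_split hG0 y M D (lam D) x hD hL hDl
  refine hsum.trans ((Finset.sum_le_sum fun c _ => hclass c).trans ?_)
  rw [Finset.sum_const, Finset.card_range, nsmul_eq_mul]
  have e3 : ((lam D / D : ℕ) : ℝ) = (lam D : ℝ) / D := Nat.cast_div hDl (by
    have : D ≠ 0 := by omega
    exact_mod_cast this)
  rw [e3]
  have h7 := sb_num (lam D) D M l ((D : ℝ) ^ h.natDegree) η hL hD hM1 (by exact_mod_cast hlD) hη
  calc (lam D : ℝ) / D * (((M : ℝ) / lam D + 1) ^ (1 - η) * (l : ℝ) ^ η * Φ * Pr)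
      = ((lam D : ℝ) / D * (((M : ℝ) / lam D + 1) ^ (1 - η) * (l : ℝ) ^ η)) * (Φ * Pr) := by ring
    _ ≤ ((M : ℝ) / D * (1 + (D : ℝ) ^ h.natDegree / M) *
        ((l * (D : ℝ) ^ h.natDegree / M) ^ η)) * (Φ * Pr) :=
        mul_le_mul_of_nonneg_right h7 (mul_nonneg hΦ0 hPr0)
    _ = _ := by ring

end aux


theorem ext_holds : ExtStmt := by
  classical
  intro h lam r Hh R hA hk N Nmin J A α η W blk hAN hfree hα hcard hNmin hNN hη hη1 hJ hWb hblk
  have hW : ∀ p ∈ W, p.Prime := fun p hp => (hWb p hp).1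
  have hJ0 : (0 : ℝ) < J := by
    have : 0 < J := by omega
    exact_mod_cast this
  have hτ0 : (0 : ℝ) < 1 / (J : ℝ) := by positivity
  have hτ1 : 1 / (J : ℝ) < 1 := by
    rw [div_lt_one hJ0]
    have : 1 < J := by omega
    exact_mod_cast this
  obtain ⟨d, a, l, ν, hs, hν, hmax⟩ := max_state hA A hNmin hNN W hW (1 / (J : ℝ)) η hτ0.le
  have hs' := hs
  obtain ⟨hd, hlmin, hs1, hs2⟩ := hs'
  obtain ⟨hb1, hb2, -, -, -⟩ := hs.bounds hA hNmin
  have hlpos : 0 < l := by omega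
  have hl0 : (0 : ℝ) < l := by exact_mod_cast hlpos
  have hNpos : 0 < N := by omega
  have hN0 : (0 : ℝ) < N := by exact_mod_cast hNpos
  set τ : ℝ := 1 / (J : ℝ) with hτ
  set Φ : ℝ := Sst (gA lam A d a) W τ l ν / l with hΦdef
  have hΦ : Sst (gA lam A d a) W τ l ν = l * Φ := by
    rw [hΦdef]
    field_simp
  -- the value of the initial state
  have hone : Wts W (fun _ _ => 1 : ℕ → ℤ → ℝ) := (KW_one W).1
  have hinit : Sst (gA lam A 1 0) W τ N (fun _ _ => 1 : ℕ → ℤ → ℝ) = A.card := by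
    unfold Sst gA
    simp only [Real.one_rpow, Finset.prod_const_one, mul_one, aux_lam_one hA, Nat.cast_one,
      zero_add, one_mul]
    rw [Finset.sum_ite_mem, Finset.inter_eq_right.2 hAN]
    simp
  have h1 := hmax 1 0 N _ (Adm.zero hA hNN) hone
  rw [hinit, hΦ] at h1
  have e1 : ∀ t : ℝ, 0 < t → t ^ (η - 1) * t = t ^ η := fun t ht => by
    rw [← Real.rpow_add_one ht.ne']
    norm_num
  have h2 : α * (N : ℝ) ^ η ≤ Φ * (l : ℝ) ^ η := by
    calc α * (N : ℝ) ^ η = (N : ℝ) ^ (η - 1) * (α * N) := by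
          rw [← e1 N hN0]
          ring
      _ ≤ (N : ℝ) ^ (η - 1) * A.card :=
          mul_le_mul_of_nonneg_left hcard (Real.rpow_nonneg hN0.le _)
      _ ≤ (l : ℝ) ^ (η - 1) * (l * Φ) := h1
      _ = Φ * (l : ℝ) ^ η := by
          rw [← e1 l hl0]
          ring
  have hNη : 0 < (N : ℝ) ^ η := Real.rpow_pos_of_pos hN0 _
  have hlη : 0 < (l : ℝ) ^ η := Real.rpow_pos_of_pos hl0 _
  have hΦ0 : 0 < Φ := by
    have h3 : 0 < α * (N : ℝ) ^ η := mul_pos hα hNη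
    have h4 : 0 < Φ * (l : ℝ) ^ η := lt_of_lt_of_le h3 h2
    exact (mul_pos_iff_of_pos_right hlη).1 h4
  have h3 : α ≤ Φ := by
    have h4 : (l : ℝ) ^ η ≤ (N : ℝ) ^ η :=
      Real.rpow_le_rpow hl0.le (by exact_mod_cast hb2) hη.le
    have h5 : α * (N : ℝ) ^ η ≤ Φ * (N : ℝ) ^ η :=
      h2.trans (mul_le_mul_of_nonneg_left h4 hΦ0.le)
    exact le_of_mul_le_mul_right h5 hNη
  have h4 : Φ ≤ 2 := by
    have h5 := hoelder_blocks l J W blk ν hν hW (by omega) (fun p hp => (hWb p hp).2)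
      (fun i hi => (hblk i hi).trans hlmin)
    have h6 : Sst (gA lam A d a) W τ l ν ≤ 2 * l := by
      refine le_trans ?_ h5
      unfold Sst
      refine Finset.sum_le_sum fun n _ => ?_
      have h7 := prod_nonneg' (W := W) hν.nn τ n
      calc gA lam A d a n * ∏ p ∈ W, (ν p n) ^ τ ≤ 1 * ∏ p ∈ W, (ν p n) ^ τ :=
            mul_le_mul_of_nonneg_right (gA_le_one _ _ _ _ _) h7
        _ = _ := one_mul _
    rw [hΦdef, div_le_iff₀ hl0]
    exact h6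
  -- the maximality over the weights
  have hsum : ∑ n ∈ Icc (1 : ℤ) l, Gst lam A W τ d a l ν n = l * Φ := by
    rw [Gst_sum, hΦ]
  have hWM : WMax l W τ (gA lam A d a) ν := by
    refine ⟨hW, hν, fun n => gA_nonneg _ _ _ _ _, ?_, ?_⟩
    · have : 0 < (l : ℝ) * Φ := mul_pos hl0 hΦ0
      rw [← hΦ] at this
      exact this
    · intro ν' hν'
      have h5 := hmax d a l ν' hs hν'
      exact le_of_mul_le_mul_left h5 (Real.rpow_pos_of_pos hl0 _)
  have hG : ∀ n ∈ Icc (1 : ℤ) l, Gst lam A W τ d a l ν n =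
      gA lam A d a n * ∏ p ∈ W, (ν p n) ^ τ := by
    intro n hn
    rw [Finset.mem_Icc] at hn
    unfold Gst
    rw [if_pos hn]
  refine ⟨d, l, Φ, Gst lam A W τ d a l ν, ν, hd, hlmin, hb2, ?_, h3, h4, h2, ?_, ?_⟩
  · have h5 : ((d * (l - 1) : ℕ) : ℤ) ≤ N := by
      push_cast [Nat.cast_sub (show 1 ≤ l by omega)]
      linarith only [hb1]
    exact_mod_cast h5
  · refine ⟨hW, hν, hΦ0, Gst_nonneg A τ d a l hν.nn, fun n hn => (Gst_supp n hn).1, hsum, ?_,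
      hWM.marg hτ0 hG hsum, ?_, hWM.pin hτ0 hG hsum⟩
    · intro n
      have h7 := prod_nonneg' (W := W) hν.nn τ n
      unfold Gst
      split_ifs
      · calc gA lam A d a n * ∏ p ∈ W, (ν p n) ^ τ ≤ 1 * ∏ p ∈ W, (ν p n) ^ τ :=
            mul_le_mul_of_nonneg_right (gA_le_one _ _ _ _ _) h7
          _ = _ := one_mul _
      · exact h7
    · intro D M y x hD hM hl
      exact sb_state hA A hNmin hW τ η hη hη1 hs hν hmax Φ hΦ0.le hΦ D M y x hD hM hl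
  · intro n m hn hm x hx hxe
    set B : Finset ℤ := (Icc (1 : ℤ) l).filter (fun n => a + lam d * n ∈ A) with hB
    have hfree1 : DiffFree (Hh 1) A := by
      rw [aux_H_one hA]
      exact hfree
    have h5 : DiffFree (Hh (1 * d)) B := hA.diffFree_sub 1 d le_rfl hd A hfree1 a B
      (fun j hj => (Finset.mem_filter.1 hj).2)
    rw [one_mul] at h5
    have hmem : ∀ n, Gst lam A W τ d a l ν n ≠ 0 → n ∈ B := fun n hn => by
      obtain ⟨h6, h7⟩ := Gst_supp n hn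
      exact Finset.mem_filter.2 ⟨Finset.mem_Icc.2 h6, h7⟩
    have h6 : n - m ∈ ((B : Set ℤ) - (B : Set ℤ)) ∩
        {y : ℤ | ∃ n : ℕ, 1 ≤ n ∧ (Hh d).eval (n : ℤ) = y} :=
      ⟨Set.sub_mem_sub (Finset.mem_coe.2 (hmem n hn)) (Finset.mem_coe.2 (hmem m hm)),
        x, hx, hxe.symm⟩
    have h7 := h5 h6
    rw [Set.mem_singleton_iff] at h7
    linarith only [h7]

end Vale.Agent.P042.SS
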