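import Vale.Agent.P042.SS.Spec

set_option autoImplicit false

/-!
Final assembly, part A: the finite algebra of the comparison.
-/

namespace Vale.Agent.P042.SS

open Polynomial Finset

lemma cnt_le (N' : ℕ) (y : ℤ) (M : ℕ) : cnt N' y M ≤ M := by
  unfold cnt
  refine (card_filter_le _ _).trans ?_
  rw [Int.card_Ioc]
  omega

lemma cnt_eq_zero (N' : ℕ) (y : ℤ) (M : ℕ) (h : (N' : ℤ) ≤ y ∨ y + M ≤ 0) : cnt N' y M = 0 := by
  unfold cnt
  rw [card_eq_zero, filter_eq_empty_iff]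
  intro n hn
  rw [mem_Ioc] at hn
  rintro ⟨h1, h2⟩
  rcases h with h | h
  · omega
  · omega

lemma cnt_full (N' : ℕ) (y : ℤ) (M : ℕ) (h0 : 0 ≤ y) (h1 : y + M ≤ N') : cnt N' y M = M := by
  unfold cnt
  rw [filter_true_of_mem, Int.card_Ioc]
  · omega
  · intro n hn
    rw [mem_Ioc] at hn
    exact ⟨by omega, by omega⟩

/-- sum of squares of the window counts -/
lemma sum_cnt_sq (N' H : ℕ) (y0 : ℤ) (h8 : 8 * H ≤ N') :
    ∑ y ∈ Icc (-(N' : ℤ)) (2 * N'), ((cnt N' (y + y0) H : ℕ) : ℝ) ^ 2 ≤ 2 * N' * (H : ℝ) ^ 2 := by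
  have h1 : ∀ y ∈ Icc (-(N' : ℤ)) (2 * N'), ((cnt N' (y + y0) H : ℕ) : ℝ) ^ 2 ≤
      if (-(H : ℤ) < y + y0 ∧ y + y0 < N') then (H : ℝ) ^ 2 else 0 := by
    intro y _
    split_ifs with hc
    · have := cnt_le N' (y + y0) H
      have h2 : ((cnt N' (y + y0) H : ℕ) : ℝ) ≤ H := by exact_mod_cast this
      exact pow_le_pow_left₀ (Nat.cast_nonneg _) h2 2
    · rw [cnt_eq_zero]
      · simp
      · by_contra hcon
        push Not at hcon
        exact hc ⟨by linarith only [hcon.2], hcon.1⟩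
  refine (sum_le_sum h1).trans ?_
  rw [← sum_filter, sum_const, nsmul_eq_mul]
  have h3 : ((Icc (-(N' : ℤ)) (2 * N')).filter
      (fun y => -(H : ℤ) < y + y0 ∧ y + y0 < N')).card ≤ 2 * N' := by
    have h4 : (Icc (-(N' : ℤ)) (2 * N')).filter
        (fun y => -(H : ℤ) < y + y0 ∧ y + y0 < N') ⊆ Ioo (-(H : ℤ) - y0) (N' - y0) := by
      intro y hy
      rw [mem_filter] at hy
      rw [mem_Ioo]
      constructor
      · linarith only [hy.2.1]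
      · linarith only [hy.2.2]
    refine (card_le_card h4).trans ?_
    rw [Int.card_Ioo]
    omega
  have h5 : (((Icc (-(N' : ℤ)) (2 * N')).filter
      (fun y => -(H : ℤ) < y + y0 ∧ y + y0 < N')).card : ℝ) ≤ 2 * N' := by exact_mod_cast h3
  exact mul_le_mul_of_nonneg_right h5 (by positivity)

/-- lower bound of the main count -/
lemma sum_cnt_cnt (N' H : ℕ) (h8 : 8 * H ≤ N') (hH : 1 ≤ H) :
    1 / 2 * N' * (H : ℝ) ^ 2 ≤ ∑ y ∈ Icc (-(N' : ℤ)) (2 * N'),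
      ((cnt N' (y + H) H : ℕ) : ℝ) * (cnt N' (y - 2 * H - 1) H : ℕ) := by
  have h1 : ∑ y ∈ Icc (2 * (H : ℤ) + 1) (N' - 2 * H), (H : ℝ) ^ 2 ≤
      ∑ y ∈ Icc (-(N' : ℤ)) (2 * N'),
      ((cnt N' (y + H) H : ℕ) : ℝ) * (cnt N' (y - 2 * H - 1) H : ℕ) := by
    refine le_trans (sum_le_sum (fun y hy => ?_)) (sum_le_sum_of_subset_of_nonneg ?_ ?_)
    · rw [mem_Icc] at hy
      rw [cnt_full N' (y + H) H (by omega) (by omega),
        cnt_full N' (y - 2 * H - 1) H (by omega) (by omega), sq]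
    · intro y hy
      rw [mem_Icc] at hy ⊢
      omega
    · intro y _ _
      positivity
  refine le_trans ?_ h1
  rw [sum_const, Int.card_Icc, nsmul_eq_mul]
  have h2 : 1 / 2 * (N' : ℝ) ≤ (((N' : ℤ) - 2 * H + 1 - (2 * H + 1)).toNat : ℝ) := by
    have h3 : (((N' : ℤ) - 2 * H + 1 - (2 * H + 1)).toNat) = N' - 4 * H := by omega
    rw [h3, Nat.cast_sub (by omega)]
    push_cast
    have : (8 : ℝ) * H ≤ N' := by exact_mod_cast h8
    linarith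
  exact mul_le_mul_of_nonneg_right h2 (by positivity)

/-- error of the comparison at one frequency -/
lemma bil_cmp (Y : Finset ℤ) (u v : ℤ → ℂ) (mu mv : ℤ → ℝ) (π : ℂ) (lam : ℝ) (hlam : 0 < lam) :
    ‖∑ y ∈ Y, u y * (starRingEnd ℂ) (v y) -
        ((∑ y ∈ Y, mu y * mv y : ℝ) : ℂ) * ((‖π‖ ^ 2 : ℝ) : ℂ)‖ ≤
      lam / 2 * (∑ y ∈ Y, mu y ^ 2 + ∑ y ∈ Y, mv y ^ 2) * ‖π‖ ^ 2 +
      (1 / (2 * lam) + 1 / 2) *
        (∑ y ∈ Y, ‖u y - (mu y : ℂ) * π‖ ^ 2 + ∑ y ∈ Y, ‖v y - (mv y : ℂ) * π‖ ^ 2) := by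
  have h1 : ∑ y ∈ Y, u y * (starRingEnd ℂ) (v y) -
        ((∑ y ∈ Y, mu y * mv y : ℝ) : ℂ) * ((‖π‖ ^ 2 : ℝ) : ℂ) =
      ∑ y ∈ Y, ((mu y : ℂ) * π * (starRingEnd ℂ) (v y - (mv y : ℂ) * π) +
        (u y - (mu y : ℂ) * π) * ((mv y : ℂ) * (starRingEnd ℂ) π) +
        (u y - (mu y : ℂ) * π) * (starRingEnd ℂ) (v y - (mv y : ℂ) * π)) := by
    rw [Complex.ofReal_sum, sum_mul, ← sum_sub_distrib]
    refine sum_congr rfl fun y _ => ?_
    have h2 : ((‖π‖ ^ 2 : ℝ) : ℂ) = π * (starRingEnd ℂ) π := by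
      rw [Complex.mul_conj, Complex.normSq_eq_norm_sq]
    rw [h2, map_sub, map_mul, Complex.conj_ofReal]
    push_cast
    ring
  rw [h1]
  refine (norm_sum_le _ _).trans ?_
  have h3 : ∀ y ∈ Y, ‖(mu y : ℂ) * π * (starRingEnd ℂ) (v y - (mv y : ℂ) * π) +
        (u y - (mu y : ℂ) * π) * ((mv y : ℂ) * (starRingEnd ℂ) π) +
        (u y - (mu y : ℂ) * π) * (starRingEnd ℂ) (v y - (mv y : ℂ) * π)‖ ≤
      lam / 2 * (mu y ^ 2 + mv y ^ 2) * ‖π‖ ^ 2 + (1 / (2 * lam) + 1 / 2) *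
        (‖u y - (mu y : ℂ) * π‖ ^ 2 + ‖v y - (mv y : ℂ) * π‖ ^ 2) := by
    intro y _
    refine (norm_add_le _ _).trans ((add_le_add_left (norm_add_le _ _) _).trans ?_)
    simp only [norm_mul, RCLike.norm_conj, Complex.norm_real, Real.norm_eq_abs]
    set a := ‖u y - (mu y : ℂ) * π‖ with ha
    set b := ‖v y - (mv y : ℂ) * π‖ with hb
    have key : ∀ x z : ℝ, x * z ≤ lam / 2 * x ^ 2 + 1 / (2 * lam) * z ^ 2 := by
      intro x z
      have h4 : 0 ≤ (lam * x - z) ^ 2 / (2 * lam) := by positivity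
      have h5 : (lam * x - z) ^ 2 / (2 * lam) =
          lam / 2 * x ^ 2 + 1 / (2 * lam) * z ^ 2 - x * z := by
        field_simp
        ring
      linarith only [h4, h5]
    have k1 := key (|mu y| * ‖π‖) b
    have k2 := key (|mv y| * ‖π‖) a
    have k3 : a * b ≤ 1 / 2 * a ^ 2 + 1 / 2 * b ^ 2 := by nlinarith only [sq_nonneg (a - b)]
    have e1 : (|mu y| * ‖π‖) ^ 2 = mu y ^ 2 * ‖π‖ ^ 2 := by rw [mul_pow, sq_abs]
    have e2 : (|mv y| * ‖π‖) ^ 2 = mv y ^ 2 * ‖π‖ ^ 2 := by rw [mul_pow, sq_abs]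
    rw [e1] at k1
    rw [e2] at k2
    linarith only [k1, k2, k3]
  refine (sum_le_sum h3).trans (le_of_eq ?_)
  rw [sum_add_distrib, ← sum_mul, ← mul_sum, ← mul_sum, sum_add_distrib, sum_add_distrib]

theorem finA (N' H Q w w1 : ℕ) (f : ℤ[X]) (kap : ℕ → ℕ → ℝ) (ν : ℕ → ℤ → ℝ) (G : ℤ → ℝ)
    (Φ e2 E0 lam εu εc δ0 : ℝ) (h8 : 8 * H ≤ N') (hH : 1 ≤ H) (hΦ : 0 < Φ) (hlam : 0 < lam)
    (hkap0 : ∀ p j, 0 ≤ kap p j) (he2 : 0 ≤ e2)
    (hGam : ∀ (q : ℕ) (a : ℤ), 1 ≤ q → IsCoprime a (q : ℤ) → ‖Gam f a q‖ ≤ kapProd kap q)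
    (hAN : ‖∑ q ∈ Icc 1 Q, ∑ a ∈ (range q).filter (Nat.Coprime q),
      Gam f a q * Bil G N' H ((a : ℝ) / q)‖ ≤ δ0 * (N' * (H : ℝ) ^ 2 * Φ ^ 2))
    (hM1 : e2 ≤ (∑ q ∈ (Icc 1 Q).filter (Cov w w1), ∑ a ∈ (range q).filter (Nat.Coprime q),
        Gam f a q * ((‖pihat (Wp w w1) ν q a‖ ^ 2 : ℝ) : ℂ)).re)
    (hM2 : ∑ q ∈ (Icc 1 Q).filter (Cov w w1), kapProd kap q *
      ∑ a ∈ (range q).filter (Nat.Coprime q), ‖pihat (Wp w w1) ν q a‖ ^ 2 ≤ E0)
    (hU : ∀ y : ℤ, ∑ q ∈ (Icc 1 Q).filter (fun q => ¬ Cov w w1 q),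
      kapProd kap q * enG G y H q ≤ εu * ((H : ℝ) ^ 2 * Φ ^ 2))
    (hc : ∀ y0 : ℤ, ∑ q ∈ (Icc 1 Q).filter (Cov w w1), kapProd kap q *
      ∑ y ∈ Icc (-(N' : ℤ)) (2 * N'), ∑ a ∈ (range q).filter (Nat.Coprime q),
        ‖Fw G (y + y0) H ((a : ℝ) / q) -
          (Φ * cnt N' (y + y0) H : ℝ) * pihat (Wp w w1) ν q a‖ ^ 2 ≤
      εc * (N' * (H : ℝ) ^ 2 * Φ ^ 2)) :
    1 / 2 * e2 ≤ 2 * lam * E0 + (1 / lam + 1) * εc + 4 * εu + δ0 := by
  set X : ℝ := N' * (H : ℝ) ^ 2 * Φ ^ 2 with hX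
  have hHr : (1 : ℝ) ≤ H := by exact_mod_cast hH
  have hN8 : (8 : ℝ) * H ≤ N' := by exact_mod_cast h8
  have hNr : (8 : ℝ) ≤ N' := by linarith
  have hXpos : 0 < X := by positivity
  have hκ0 : ∀ q, 0 ≤ kapProd kap q := fun q => prod_nonneg fun p _ => hkap0 _ _
  set Y : Finset ℤ := Icc (-(N' : ℤ)) (2 * N') with hY
  -- the main count
  set M2 : ℝ := ∑ y ∈ Y, (Φ * (cnt N' (y + H) H : ℕ)) * (Φ * (cnt N' (y - 2 * H - 1) H : ℕ))
    with hM2d
  have hM2ge : 1 / 2 * X ≤ M2 := by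
    have h1 := sum_cnt_cnt N' H h8 hH
    have h2 : M2 = Φ ^ 2 * ∑ y ∈ Y, ((cnt N' (y + H) H : ℕ) : ℝ) * (cnt N' (y - 2 * H - 1) H : ℕ) := by
      rw [hM2d, mul_sum]
      refine sum_congr rfl fun y _ => ?_
      ring
    rw [h2, hX]
    have h3 := mul_le_mul_of_nonneg_left h1 (sq_nonneg Φ)
    linarith only [h3]
  -- covered part
  have hcop : ∀ q a : ℕ, a ∈ (range q).filter (Nat.Coprime q) → IsCoprime (a : ℤ) (q : ℤ) := by
    intro q a ha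
    rw [mem_filter] at ha
    exact (Nat.isCoprime_iff_coprime.mpr ha.2).symm
  have hcov : ‖∑ q ∈ (Icc 1 Q).filter (Cov w w1), ∑ a ∈ (range q).filter (Nat.Coprime q),
      Gam f a q * Bil G N' H ((a : ℝ) / q) -
      (M2 : ℂ) * ∑ q ∈ (Icc 1 Q).filter (Cov w w1), ∑ a ∈ (range q).filter (Nat.Coprime q),
        Gam f a q * ((‖pihat (Wp w w1) ν q a‖ ^ 2 : ℝ) : ℂ)‖ ≤
      (2 * lam * E0 + (1 / lam + 1) * εc) * X := by
    rw [mul_sum, ← sum_sub_distrib]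
    refine (norm_sum_le _ _).trans ?_
    have h1 : ∀ q ∈ (Icc 1 Q).filter (Cov w w1),
        ‖∑ a ∈ (range q).filter (Nat.Coprime q), Gam f a q * Bil G N' H ((a : ℝ) / q) -
          (M2 : ℂ) * ∑ a ∈ (range q).filter (Nat.Coprime q),
            Gam f a q * ((‖pihat (Wp w w1) ν q a‖ ^ 2 : ℝ) : ℂ)‖ ≤
        2 * lam * X * (kapProd kap q *
          ∑ a ∈ (range q).filter (Nat.Coprime q), ‖pihat (Wp w w1) ν q a‖ ^ 2) +
        (1 / (2 * lam) + 1 / 2) * (kapProd kap q *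
          ∑ y ∈ Y, ∑ a ∈ (range q).filter (Nat.Coprime q),
            ‖Fw G (y + H) H ((a : ℝ) / q) -
              (Φ * cnt N' (y + H) H : ℝ) * pihat (Wp w w1) ν q a‖ ^ 2 +
          kapProd kap q *
          ∑ y ∈ Y, ∑ a ∈ (range q).filter (Nat.Coprime q),
            ‖Fw G (y + (-2 * H - 1)) H ((a : ℝ) / q) -
              (Φ * cnt N' (y + (-2 * H - 1)) H : ℝ) * pihat (Wp w w1) ν q a‖ ^ 2) := by
      intro q hq
      rw [mem_filter, mem_Icc] at hq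
      rw [mul_sum, ← sum_sub_distrib]
      refine (norm_sum_le _ _).trans ?_
      have h2 : ∀ a ∈ (range q).filter (Nat.Coprime q),
          ‖Gam f a q * Bil G N' H ((a : ℝ) / q) -
            (M2 : ℂ) * (Gam f a q * ((‖pihat (Wp w w1) ν q a‖ ^ 2 : ℝ) : ℂ))‖ ≤
          kapProd kap q * (2 * lam * X * ‖pihat (Wp w w1) ν q a‖ ^ 2 +
            (1 / (2 * lam) + 1 / 2) * (∑ y ∈ Y, ‖Fw G (y + H) H ((a : ℝ) / q) -
              (Φ * cnt N' (y + H) H : ℝ) * pihat (Wp w w1) ν q a‖ ^ 2 +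
              ∑ y ∈ Y, ‖Fw G (y + (-2 * H - 1)) H ((a : ℝ) / q) -
              (Φ * cnt N' (y + (-2 * H - 1)) H : ℝ) * pihat (Wp w w1) ν q a‖ ^ 2)) := by
        intro a ha
        have e1 : Gam f a q * Bil G N' H ((a : ℝ) / q) -
            (M2 : ℂ) * (Gam f a q * ((‖pihat (Wp w w1) ν q a‖ ^ 2 : ℝ) : ℂ)) =
            Gam f a q * (Bil G N' H ((a : ℝ) / q) -
              (M2 : ℂ) * ((‖pihat (Wp w w1) ν q a‖ ^ 2 : ℝ) : ℂ)) := by ring
        rw [e1, norm_mul]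
        refine mul_le_mul (hGam q a hq.1.1 (hcop q a ha)) ?_ (norm_nonneg _) (hκ0 q)
        have h3 := bil_cmp Y (fun y => Fw G (y + H) H ((a : ℝ) / q))
          (fun y => Fw G (y - 2 * H - 1) H ((a : ℝ) / q))
          (fun y => Φ * (cnt N' (y + H) H : ℕ)) (fun y => Φ * (cnt N' (y - 2 * H - 1) H : ℕ))
          (pihat (Wp w w1) ν q a) lam hlam
        refine h3.trans ?_
        have hs1 : ∑ y ∈ Y, (Φ * ((cnt N' (y + H) H : ℕ) : ℝ)) ^ 2 ≤ 2 * X := by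
          have := sum_cnt_sq N' H H h8
          simp only [mul_pow, ← mul_sum]
          have h4 := mul_le_mul_of_nonneg_left this (sq_nonneg Φ)
          rw [hX]
          linarith only [h4]
        have hs2 : ∑ y ∈ Y, (Φ * ((cnt N' (y - 2 * H - 1) H : ℕ) : ℝ)) ^ 2 ≤ 2 * X := by
          have := sum_cnt_sq N' H (-2 * H - 1) h8
          have e2 : ∀ y : ℤ, y - 2 * H - 1 = y + (-2 * H - 1) := fun y => by ring
          simp only [mul_pow, ← mul_sum, e2]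
          have h4 := mul_le_mul_of_nonneg_left this (sq_nonneg Φ)
          rw [hX]
          linarith only [h4]
        have e2 : ∀ y : ℤ, y - 2 * H - 1 = y + (-2 * H - 1) := fun y => by ring
        simp only [e2] at hs2 ⊢
        refine add_le_add ?_ le_rfl
        refine mul_le_mul_of_nonneg_right ?_ (sq_nonneg _)
        nlinarith only [hs1, hs2, hlam]
      refine (sum_le_sum h2).trans (le_of_eq ?_)
      rw [← mul_sum, sum_add_distrib, ← mul_sum, ← mul_sum, sum_add_distrib]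
      rw [sum_comm (s := Y), sum_comm (s := Y)]
      ring
    refine (sum_le_sum h1).trans ?_
    rw [sum_add_distrib, ← mul_sum, ← mul_sum, sum_add_distrib]
    have h5 := hc H
    have h6 := hc (-2 * H - 1)
    have h7 := mul_le_mul_of_nonneg_left hM2 (by positivity : 0 ≤ 2 * lam * X)
    have h8' := mul_le_mul_of_nonneg_left (add_le_add h5 h6)
      (by positivity : 0 ≤ 1 / (2 * lam) + 1 / 2)
    refine (add_le_add h7 h8').trans (le_of_eq ?_)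
    field_simp
    ring
  -- uncovered part
  have hunc : ‖∑ q ∈ (Icc 1 Q).filter (fun q => ¬ Cov w w1 q),
      ∑ a ∈ (range q).filter (Nat.Coprime q), Gam f a q * Bil G N' H ((a : ℝ) / q)‖ ≤
      4 * εu * X := by
    refine (norm_sum_le _ _).trans ?_
    have h1 : ∀ q ∈ (Icc 1 Q).filter (fun q => ¬ Cov w w1 q),
        ‖∑ a ∈ (range q).filter (Nat.Coprime q), Gam f a q * Bil G N' H ((a : ℝ) / q)‖ ≤
        ∑ y ∈ Y, (1 / 2 * (kapProd kap q * enG G (y + H) H q) +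
          1 / 2 * (kapProd kap q * enG G (y - 2 * H - 1) H q)) := by
      intro q hq
      rw [mem_filter, mem_Icc] at hq
      refine (norm_sum_le _ _).trans ?_
      have h2 : ∀ a ∈ (range q).filter (Nat.Coprime q),
          ‖Gam f a q * Bil G N' H ((a : ℝ) / q)‖ ≤ kapProd kap q * ∑ y ∈ Y,
            (1 / 2 * ‖Fw G (y + H) H ((a : ℝ) / q)‖ ^ 2 +
              1 / 2 * ‖Fw G (y - 2 * H - 1) H ((a : ℝ) / q)‖ ^ 2) := by
        intro a ha
        rw [norm_mul]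
        refine mul_le_mul (hGam q a hq.1.1 (hcop q a ha)) ?_ (norm_nonneg _) (hκ0 q)
        unfold Bil
        refine (norm_sum_le _ _).trans (sum_le_sum fun y _ => ?_)
        rw [norm_mul, RCLike.norm_conj]
        nlinarith only [sq_nonneg (‖Fw G (y + H) H ((a : ℝ) / q)‖ -
          ‖Fw G (y - 2 * H - 1) H ((a : ℝ) / q)‖)]
      refine (sum_le_sum h2).trans (le_of_eq ?_)
      rw [← mul_sum, sum_comm, mul_sum]
      refine sum_congr rfl fun y _ => ?_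
      unfold enG
      rw [sum_add_distrib, ← mul_sum, ← mul_sum]
      ring
    refine (sum_le_sum h1).trans ?_
    rw [sum_comm]
    have h3 : ∀ y ∈ Y, ∑ q ∈ (Icc 1 Q).filter (fun q => ¬ Cov w w1 q),
        (1 / 2 * (kapProd kap q * enG G (y + H) H q) +
          1 / 2 * (kapProd kap q * enG G (y - 2 * H - 1) H q)) ≤ εu * ((H : ℝ) ^ 2 * Φ ^ 2) := by
      intro y _
      rw [sum_add_distrib, ← mul_sum, ← mul_sum]
      have := hU (y + H)
      have := hU (y - 2 * H - 1)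
      linarith
    refine (sum_le_sum h3).trans ?_
    rw [sum_const, nsmul_eq_mul]
    have hεu : 0 ≤ εu * ((H : ℝ) ^ 2 * Φ ^ 2) := by
      refine le_trans (sum_nonneg fun q _ => mul_nonneg (hκ0 q) ?_) (hU 0)
      exact sum_nonneg fun a _ => sq_nonneg _
    have hcard : (Y.card : ℝ) ≤ 4 * N' := by
      have h4 : Y.card ≤ 4 * N' := by
        rw [hY, Int.card_Icc]
        have : 1 ≤ N' := by exact_mod_cast (by linarith : (1 : ℝ) ≤ N')
        omega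
      exact_mod_cast h4
    refine (mul_le_mul_of_nonneg_right hcard hεu).trans (le_of_eq ?_)
    rw [hX]
    ring
  -- combine
  have hsplit : ∑ q ∈ Icc 1 Q, ∑ a ∈ (range q).filter (Nat.Coprime q),
      Gam f a q * Bil G N' H ((a : ℝ) / q) =
      ∑ q ∈ (Icc 1 Q).filter (Cov w w1), ∑ a ∈ (range q).filter (Nat.Coprime q),
        Gam f a q * Bil G N' H ((a : ℝ) / q) +
      ∑ q ∈ (Icc 1 Q).filter (fun q => ¬ Cov w w1 q),
        ∑ a ∈ (range q).filter (Nat.Coprime q), Gam f a q * Bil G N' H ((a : ℝ) / q) :=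
    (sum_filter_add_sum_filter_not _ _ _).symm
  rw [hsplit] at hAN
  set Tc := ∑ q ∈ (Icc 1 Q).filter (Cov w w1), ∑ a ∈ (range q).filter (Nat.Coprime q),
        Gam f a q * Bil G N' H ((a : ℝ) / q) with hTc
  set Tu := ∑ q ∈ (Icc 1 Q).filter (fun q => ¬ Cov w w1 q),
        ∑ a ∈ (range q).filter (Nat.Coprime q), Gam f a q * Bil G N' H ((a : ℝ) / q) with hTu
  set Z := ∑ q ∈ (Icc 1 Q).filter (Cov w w1), ∑ a ∈ (range q).filter (Nat.Coprime q),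
        Gam f a q * ((‖pihat (Wp w w1) ν q a‖ ^ 2 : ℝ) : ℂ) with hZ
  have r1 : ((M2 : ℂ) * Z).re = M2 * Z.re := by rw [Complex.re_ofReal_mul]
  have r2 : |((M2 : ℂ) * Z).re| ≤ ‖(M2 : ℂ) * Z‖ := Complex.abs_re_le_norm _
  have r3 : ‖(M2 : ℂ) * Z‖ ≤ ‖Tc + Tu‖ + ‖Tc - (M2 : ℂ) * Z‖ + ‖Tu‖ := by
    have e1 : (M2 : ℂ) * Z = (Tc + Tu) - (Tc - (M2 : ℂ) * Z) - Tu := by ring
    calc ‖(M2 : ℂ) * Z‖ = ‖(Tc + Tu) - (Tc - (M2 : ℂ) * Z) - Tu‖ := by rw [← e1]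
      _ ≤ ‖(Tc + Tu) - (Tc - (M2 : ℂ) * Z)‖ + ‖Tu‖ := norm_sub_le _ _
      _ ≤ _ := by
        have := norm_sub_le (Tc + Tu) (Tc - (M2 : ℂ) * Z)
        linarith only [this]
  have r4 : 1 / 2 * X * e2 ≤ M2 * Z.re := mul_le_mul hM2ge hM1 he2 (by linarith only [hM2ge, hXpos])
  have r5 : M2 * Z.re ≤ |((M2 : ℂ) * Z).re| := by rw [r1]; exact le_abs_self _
  have r6 : 1 / 2 * X * e2 ≤ (2 * lam * E0 + (1 / lam + 1) * εc + 4 * εu + δ0) * X := by
    have := hcov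
    linarith only [r2, r3, r4, r5, hcov, hunc, hAN]
  have r7 : (1 / 2 * e2) * X ≤ (2 * lam * E0 + (1 / lam + 1) * εc + 4 * εu + δ0) * X := by
    linarith only [r6]
  exact le_of_mul_le_mul_right r7 hXpos

end Vale.Agent.P042.SS
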