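import Vale.Agent.P042.SS.Spec

set_option autoImplicit false

/-!
Final assembly, part B: items, random modulus, and the comparison error on covered moduli.
-/

namespace Vale.Agent.P042.SS

open Polynomial Finset

section items
variable {w w1 Q : ℕ} {R : Finset (ℕ × ℕ)}

lemma mem_Ic {i : ℕ × ℕ} : i ∈ Ic w w1 Q ↔
    i.1.Prime ∧ 1 ≤ i.2 ∧ i.1 ^ i.2 ≤ Q ∧ (i.1 ≤ w ∨ (i.1 ≤ w1 ∧ i.2 = 1)) := by
  unfold Ic
  rw [mem_filter, mem_product, mem_range, mem_range]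
  constructor
  · rintro ⟨_, h⟩; exact h
  · rintro h
    refine ⟨⟨?_, ?_⟩, h⟩
    · have h1 := h.1.two_le
      have h2 : i.1 ^ 1 ≤ i.1 ^ i.2 := Nat.pow_le_pow_right (by omega) h.2.1
      rw [pow_one] at h2
      have := h.2.2.1
      omega
    · have h1 := h.1.two_le
      have h2 : i.2 < i.1 ^ i.2 := Nat.lt_pow_self (by omega)
      have := h.2.2.1
      omega

lemma SOf_subset (hR : R ⊆ Ic w w1 Q) : SOf w R ⊆ Wp w w1 := by
  intro p hp
  unfold SOf at hp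
  rw [mem_image] at hp
  obtain ⟨i, hi, rfl⟩ := hp
  rw [mem_filter] at hi
  have h1 := mem_Ic.1 (hR hi.1)
  unfold Wp
  rw [mem_filter, mem_Ioc]
  refine ⟨⟨hi.2, ?_⟩, h1.1⟩
  rcases h1.2.2.2 with h | h
  · omega
  · exact h.1

lemma item_large (hR : R ⊆ Ic w w1 Q) {i : ℕ × ℕ} (hi : i ∈ R) (hw : w < i.1) : i.2 = 1 := by
  rcases (mem_Ic.1 (hR hi)).2.2.2 with h | h
  · omega
  · exact h.2

lemma WR_eq (hR : R ⊆ Ic w w1 Q) : WR R = rOf w R * ∏ p ∈ SOf w R, p := by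
  unfold WR rOf SOf
  rw [← prod_filter_mul_prod_filter_not R (fun i => i.1 ≤ w)]
  congr 1
  have hinj : Set.InjOn Prod.fst ((R.filter (fun i => w < i.1) : Finset (ℕ × ℕ)) : Set (ℕ × ℕ)) := by
    intro i hi j hj hij
    rw [mem_coe, mem_filter] at hi hj
    exact Prod.ext hij ((item_large hR hi.1 hi.2).trans (item_large hR hj.1 hj.2).symm)
  rw [prod_image hinj]
  have e1 : R.filter (fun i => ¬ i.1 ≤ w) = R.filter (fun i => w < i.1) :=
    filter_congr fun i _ => not_le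
  rw [e1]
  refine prod_congr rfl fun i hi => ?_
  rw [mem_filter] at hi
  rw [item_large hR hi.1 hi.2, pow_one]

lemma rOf_pos (hR : R ⊆ Ic w w1 Q) : 1 ≤ rOf w R := by
  unfold rOf
  refine Nat.one_le_iff_ne_zero.2 (prod_ne_zero_iff.2 fun i hi => ?_)
  rw [mem_filter] at hi
  exact pow_ne_zero _ (mem_Ic.1 (hR hi.1)).1.pos.ne'

lemma rOf_coprime (hR : R ⊆ Ic w w1 Q) {p : ℕ} (hp : p ∈ Wp w w1) : Nat.Coprime p (rOf w R) := by
  unfold Wp at hp
  rw [mem_filter, mem_Ioc] at hp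
  unfold rOf
  refine Nat.Coprime.prod_right fun i hi => ?_
  rw [mem_filter] at hi
  refine Nat.Coprime.pow_right _ ?_
  rw [Nat.coprime_primes hp.2 (mem_Ic.1 (hR hi.1)).1]
  omega

lemma WR_pos' (hR : R ⊆ Ic w w1 Q) : 1 ≤ WR R := by
  unfold WR
  refine Nat.one_le_iff_ne_zero.2 (prod_ne_zero_iff.2 fun i hi => ?_)
  exact pow_ne_zero _ (mem_Ic.1 (hR hi)).1.pos.ne'

lemma log_WR' (hR : R ⊆ Ic w w1 Q) : Real.log (WR R) = cost R := by
  unfold WR cost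
  push_cast
  rw [Real.log_prod]
  · refine sum_congr rfl fun i _ => ?_
    rw [Real.log_pow]
  · intro i hi
    have := (mem_Ic.1 (hR hi)).1.pos
    positivity

/-- the items of a modulus -/
def Uc (q : ℕ) : Finset (ℕ × ℕ) := q.primeFactors.image (fun p => (p, q.factorization p))

lemma Uc_inj (q : ℕ) : Set.InjOn (fun p => (p, q.factorization p)) (q.primeFactors : Set ℕ) :=
  fun _ _ _ _ h => (Prod.ext_iff.1 h).1

lemma Uc_subset {q : ℕ} (hq1 : 1 ≤ q) (hq : q ≤ Q) (hc : Cov w w1 q) : Uc q ⊆ Ic w w1 Q := by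
  intro i hi
  unfold Uc at hi
  rw [mem_image] at hi
  obtain ⟨p, hp, rfl⟩ := hi
  have hpp := Nat.prime_of_mem_primeFactors hp
  rw [mem_Ic]
  refine ⟨hpp, ?_, ?_, hc p hp⟩
  · exact (hpp.factorization_pos_of_dvd (by omega) (Nat.dvd_of_mem_primeFactors hp))
  · exact (Nat.le_of_dvd hq1 (Nat.ordProj_dvd q p)).trans hq

lemma cost_Uc {q : ℕ} (hq1 : 1 ≤ q) : cost (Uc q) = Real.log q := by
  unfold cost Uc
  rw [sum_image (Uc_inj q)]
  conv_rhs => rw [← Nat.prod_factorization_pow_eq_self (by omega : q ≠ 0)]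
  rw [Finsupp.prod, Nat.support_factorization]
  push_cast
  rw [Real.log_prod]
  · refine sum_congr rfl fun p _ => ?_
    rw [Real.log_pow]
  · intro p hp
    have := (Nat.prime_of_mem_primeFactors hp).pos
    positivity

lemma kapProd_Uc (kap : ℕ → ℕ → ℝ) (q : ℕ) : ∏ i ∈ Uc q, kap i.1 i.2 = kapProd kap q := by
  unfold Uc kapProd
  rw [prod_image (Uc_inj q)]

lemma dvd_WR {q : ℕ} (hq1 : 1 ≤ q) (hU : Uc q ⊆ R) : q ∣ WR R := by
  have h1 : q = ∏ i ∈ Uc q, i.1 ^ i.2 := by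
    unfold Uc
    rw [prod_image (Uc_inj q)]
    conv_lhs => rw [← Nat.prod_factorization_pow_eq_self (by omega : q ≠ 0)]
    rfl
  rw [h1]
  exact prod_dvd_prod_of_subset _ _ _ hU

end items

/-- total comparison error at one modulus -/
noncomputable def Ecmp (W : Finset ℕ) (ν : ℕ → ℤ → ℝ) (G : ℤ → ℝ) (Φ : ℝ) (N' H : ℕ) (y0 : ℤ)
    (q : ℕ) : ℝ :=
  ∑ y ∈ Icc (-(N' : ℤ)) (2 * N'), ∑ a ∈ (range q).filter (Nat.Coprime q),
    ‖Fw G (y + y0) H ((a : ℝ) / q) - (Φ * cnt N' (y + y0) H : ℝ) * pihat W ν q a‖ ^ 2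

lemma Ecmp_nonneg (W : Finset ℕ) (ν : ℕ → ℤ → ℝ) (G : ℤ → ℝ) (Φ : ℝ) (N' H : ℕ) (y0 : ℤ)
    (q : ℕ) : 0 ≤ Ecmp W ν G Φ N' H y0 q :=
  sum_nonneg fun _ _ => sum_nonneg fun _ _ => sq_nonneg _

lemma fin_psi_per {W : Finset ℕ} {ν : ℕ → ℤ → ℝ} (hW : Wts W ν) {S : Finset ℕ} (hS : S ⊆ W) (D : ℕ)
    (hD : ∀ p ∈ S, p ∣ D) (n : ℤ) : psi ν S (n + D) = psi ν S n := by
  unfold psi
  refine prod_congr rfl fun p hp => ?_
  obtain ⟨c, rfl⟩ := hD p hp
  have h1 : ∀ c : ℕ, ν p (n + ((p * c : ℕ) : ℤ)) = ν p n := by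
    intro c
    induction c with
    | zero => simp
    | succ c ih =>
      have e1 : n + ((p * (c + 1) : ℕ) : ℤ) = (n + ((p * c : ℕ) : ℤ)) + p := by push_cast; ring
      rw [e1, hW.per p (hS hp), ih]
  exact h1 c

/-- covered comparison error through the random modulus -/
theorem cov_err (hRM : RMStmt) (hKL2 : KL2Stmt) (hPh : PihatStmt)
    (kap : ℕ → ℕ → ℝ) (hk0 : ∀ p j, 0 ≤ kap p j) (hk1 : ∀ p j, kap p j ≤ 1)
    (k N' Nmin w w1 Q t m0 : ℕ) (τ η Φ : ℝ) (G : ℤ → ℝ) (ν : ℕ → ℤ → ℝ)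
    (hpin : Pinned k N' Nmin (Wp w w1) τ η Φ G ν)
    (Ms ℓ0 X0 ε1 : ℝ) (ht : 1 ≤ t) (hm0 : 1 ≤ m0) (h2 : 2 * m0 * t ≤ N') (hMs : 1 ≤ Ms)
    (hℓ0 : 0 ≤ ℓ0) (hX0 : 0 < X0) (hQ1 : 1 ≤ Q) (hQ : Real.log Q ≤ ℓ0)
    (hX : ∑ i ∈ Ic w w1 Q, kap i.1 i.2 * (i.2 * Real.log i.1) ≤ X0)
    (hψ : ∀ R ⊆ Ic w w1 Q, cost R ≤ ℓ0 + 2 * X0 → ∀ n, psi ν (SOf w R) n ≤ Ms)
    (hmass : ∀ R ⊆ Ic w w1 Q, cost R ≤ ℓ0 + 2 * X0 → ∀ y x : ℤ,
      mass G y t (WR R) x ≤ Ms * Φ * t / (WR R : ℕ))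
    (hKL : ∑ R ∈ (Ic w w1 Q).powerset.filter (fun R => cost R ≤ ℓ0 + 2 * X0),
      wtR (fun i => kap i.1 i.2) (Ic w w1 Q) R * KLt N' t (WR R) G Φ (psi ν (SOf w R)) ≤ ε1)
    (y0 : ℤ) :
    ∑ q ∈ (Icc 1 Q).filter (Cov w w1), kapProd kap q * Ecmp (Wp w w1) ν G Φ N' (m0 * t) y0 q ≤
      2 * (8 * Ms * ε1 + 1000 * Ms ^ 2 / (m0 : ℝ) ^ 2) *
        (N' * ((m0 * t : ℕ) : ℝ) ^ 2 * Φ ^ 2) := by
  classical
  set X : ℝ := N' * ((m0 * t : ℕ) : ℝ) ^ 2 * Φ ^ 2 with hXd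
  have hX0' : 0 ≤ X := by positivity
  set B : Finset (ℕ × ℕ) → ℝ := fun R =>
    if R ⊆ Ic w w1 Q ∧ cost R ≤ ℓ0 + 2 * X0 then
      X * (8 * Ms * KLt N' t (WR R) G Φ (psi ν (SOf w R)) + 1000 * Ms ^ 2 / (m0 : ℝ) ^ 2)
    else 0 with hB
  have hprime : ∀ p ∈ Wp w w1, p.Prime := hpin.prime
  -- the KL2 bound for one R
  have key : ∀ R ⊆ Ic w w1 Q, cost R ≤ ℓ0 + 2 * X0 →
      ∑ q ∈ ((Icc 1 Q).filter (Cov w w1)).filter (fun q => Uc q ⊆ R),
        Ecmp (Wp w w1) ν G Φ N' (m0 * t) y0 q ≤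
      X * (8 * Ms * KLt N' t (WR R) G Φ (psi ν (SOf w R)) + 1000 * Ms ^ 2 / (m0 : ℝ) ^ 2) := by
    intro R hR hc
    have hS := SOf_subset hR
    have hWR := WR_eq hR
    have hD1 : 1 ≤ WR R := WR_pos' hR
    have hpd : ∀ p ∈ SOf w R, p ∣ WR R := by
      intro p hp
      rw [hWR]
      exact Dvd.dvd.mul_left (dvd_prod_of_mem _ hp) _
    have hph0 : ph (psi ν (SOf w R)) (WR R) 0 = 1 := by
      have h1 := hPh (Wp w w1) ν hprime hpin.wts (SOf w R) (rOf w R) 1 0 hS (rOf_pos hR)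
        (fun p hp => rOf_coprime hR hp) le_rfl (one_dvd _) (Nat.coprime_one_left 0)
      rw [← hWR] at h1
      simp only [Nat.cast_zero, Nat.cast_one, div_one] at h1
      rw [h1]
      unfold pihat
      rw [if_pos ⟨squarefree_one, by simp⟩]
      unfold ph psi
      simp [e]
    have hmean : ∑ x ∈ range (WR R), psi ν (SOf w R) x = (WR R : ℝ) := by
      have h1 : (∑ x ∈ range (WR R), (psi ν (SOf w R) x : ℂ)) / (WR R : ℂ) = 1 := by
        rw [← hph0]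
        unfold ph
        congr 1
        refine sum_congr rfl fun x _ => ?_
        simp [e]
      have h0 : ((WR R : ℕ) : ℂ) ≠ 0 := by
        exact_mod_cast (by omega : WR R ≠ 0)
      rw [div_eq_one_iff_eq h0] at h1
      exact_mod_cast h1
    have h3 := hKL2 N' t m0 (WR R) G Φ Ms (psi ν (SOf w R))
      (((Icc 1 Q).filter (Cov w w1)).filter (fun q => Uc q ⊆ R)) y0 ht hm0 h2 hD1 hpin.Φpos hMs
      hpin.G0 hpin.Gsupp hpin.Gsum
      (fun n => prod_nonneg fun p _ => hpin.wts.nn p n)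
      (fin_psi_per hpin.wts hS (WR R) hpd) hmean (hψ R hR hc)
      (by
        intro n hn
        unfold psi
        refine prod_ne_zero_iff.2 fun p hp => ?_
        have hm := hpin.marg p (hS hp) n
        intro h0
        rw [h0, mul_zero, zero_div] at hm
        have h4 : G n ≤ mass G 0 N' p n := by
          unfold mass
          refine single_le_sum (f := G) (fun m _ => hpin.G0 m) ?_
          rw [mem_filter, mem_Ioc]
          have := hpin.Gsupp n hn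
          exact ⟨⟨by omega, by omega⟩, Int.ModEq.refl _⟩
        rw [hm] at h4
        exact hn (le_antisymm h4 (hpin.G0 n)))
      (hmass R hR hc)
      (by
        intro q hq
        rw [mem_filter, mem_filter, mem_Icc] at hq
        exact ⟨hq.1.1.1, dvd_WR hq.1.1.1 hq.2⟩)
    refine le_trans (le_of_eq ?_) h3
    unfold Ecmp
    rw [sum_comm]
    refine sum_congr rfl fun y _ => ?_
    refine sum_congr rfl fun q hq => ?_
    rw [mem_filter, mem_filter, mem_Icc] at hq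
    refine sum_congr rfl fun a ha => ?_
    rw [mem_filter] at ha
    have h1 := hPh (Wp w w1) ν hprime hpin.wts (SOf w R) (rOf w R) q a hS (rOf_pos hR)
        (fun p hp => rOf_coprime hR hp) hq.1.1.1 (by rw [← hWR]; exact dvd_WR hq.1.1.1 hq.2) ha.2
    rw [← hWR] at h1
    rw [h1]
  have hBnn : ∀ R, 0 ≤ B R := by
    intro R
    simp only [hB]
    split_ifs with hc
    · exact le_trans (sum_nonneg fun q _ => Ecmp_nonneg _ _ _ _ _ _ _ _) (key R hc.1 hc.2)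
    · exact le_rfl
  have hcost : ∀ R : Finset (ℕ × ℕ), ∑ i ∈ R, (i.2 : ℝ) * Real.log i.1 = cost R := fun R => rfl
  have hmain := hRM (Ic w w1 Q) (fun i => kap i.1 i.2) (fun i => (i.2 : ℝ) * Real.log i.1) ℓ0 X0
    ((Icc 1 Q).filter (Cov w w1)) Uc (Ecmp (Wp w w1) ν G Φ N' (m0 * t) y0) B
    (fun i _ => hk0 _ _) (fun i _ => hk1 _ _)
    (fun i hi => mul_nonneg (Nat.cast_nonneg _) (Real.log_natCast_nonneg _)) hℓ0 hX0 hX
    (fun q hq => by
      rw [mem_filter, mem_Icc] at hq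
      exact Uc_subset hq.1.1 hq.1.2 hq.2)
    (fun q hq => by
      rw [mem_filter, mem_Icc] at hq
      rw [hcost, cost_Uc hq.1.1]
      refine le_trans (Real.log_le_log (by exact_mod_cast hq.1.1) (by exact_mod_cast hq.1.2)) hQ)
    (fun q _ => Ecmp_nonneg _ _ _ _ _ _ _ _) hBnn
    (fun R hR hc => by
      rw [hcost] at hc
      simp only [hB]
      rw [if_pos ⟨hR, hc⟩]
      exact key R hR hc)
  simp only [kapProd_Uc, hcost] at hmain
  refine hmain.trans ?_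
  have hwt : ∀ R ∈ (Ic w w1 Q).powerset.filter (fun R => cost R ≤ ℓ0 + 2 * X0),
      wtR (fun i => kap i.1 i.2) (Ic w w1 Q) R * B R =
      X * (8 * Ms) * (wtR (fun i => kap i.1 i.2) (Ic w w1 Q) R *
        KLt N' t (WR R) G Φ (psi ν (SOf w R))) +
      X * (1000 * Ms ^ 2 / (m0 : ℝ) ^ 2) * wtR (fun i => kap i.1 i.2) (Ic w w1 Q) R := by
    intro R hR
    rw [mem_filter, mem_powerset] at hR
    simp only [hB]
    rw [if_pos ⟨hR.1, hR.2⟩]
    ring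
  rw [sum_congr rfl hwt, sum_add_distrib, ← mul_sum, ← mul_sum]
  have hsum1 : ∑ R ∈ (Ic w w1 Q).powerset.filter (fun R => cost R ≤ ℓ0 + 2 * X0),
      wtR (fun i => kap i.1 i.2) (Ic w w1 Q) R ≤ 1 := by
    rw [← sum_wtR (fun i : ℕ × ℕ => kap i.1 i.2) (Ic w w1 Q)]
    refine sum_le_sum_of_subset_of_nonneg (filter_subset _ _) fun R hR _ => ?_
    rw [mem_powerset] at hR
    exact wtR_nonneg _ _ _ hR (fun i _ => hk0 _ _) (fun i _ => hk1 _ _)
  have h5 := mul_le_mul_of_nonneg_left hKL (by positivity : 0 ≤ X * (8 * Ms))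
  have h6 := mul_le_mul_of_nonneg_left hsum1 (by positivity : 0 ≤ X * (1000 * Ms ^ 2 / (m0 : ℝ) ^ 2))
  linarith only [h5, h6]

end Vale.Agent.P042.SS
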