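import Vale.Agent.P042.SS.Spec

set_option autoImplicit false

/-!
Final assembly, part C: consequences of the pinned state.
-/

namespace Vale.Agent.P042.SS

open Polynomial Finset

structure Hyp (k N' Nmin w w1 : ℕ) (τ η ζ Φ : ℝ) (G : ℤ → ℝ) (ν : ℕ → ℤ → ℝ) : Prop where
  pin : Pinned k N' Nmin (Wp w w1) τ η Φ G ν
  τ0 : 0 < τ
  τ1 : τ ≤ 1 / 2
  η0 : 0 < η
  ζ0 : 0 ≤ ζ
  hζ : (w1 : ℝ) ^ k ≤ ζ * N'
  hζ1 : ζ * w1 ≤ 1 / 100
  hmin : w1 ^ k * Nmin ≤ N'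
  N1 : 1 ≤ N'

variable {k N' Nmin w w1 : ℕ} {τ η ζ Φ : ℝ} {G : ℤ → ℝ} {ν : ℕ → ℤ → ℝ}

lemma fin_Wp_mem {p : ℕ} : p ∈ Wp w w1 ↔ w < p ∧ p ≤ w1 ∧ p.Prime := by
  unfold Wp
  rw [mem_filter, mem_Ioc]
  tauto

lemma Wp_card : (Wp w w1).card ≤ w1 := by
  unfold Wp
  refine (card_filter_le _ _).trans ?_
  rw [Nat.card_Ioc]
  omega

lemma Hyp.nu_exp (hH : Hyp k N' Nmin w w1 τ η ζ Φ G ν) (hNu : NuStmt) {p : ℕ}
    (hp : p ∈ Wp w w1) (x : ℤ) : ν p x ≤ Real.exp (2 * (ζ + k * η * Real.log p)) := by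
  obtain ⟨h1, h2, h3⟩ := fin_Wp_mem.1 hp
  have hN : (0 : ℝ) < N' := by exact_mod_cast hH.N1
  have hp0 : (0 : ℝ) < p := by exact_mod_cast h3.pos
  have hk : p ^ k * Nmin ≤ N' :=
    (Nat.mul_le_mul_right _ (Nat.pow_le_pow_left h2 k)).trans hH.hmin
  refine (hNu k N' Nmin (Wp w w1) τ η Φ G ν hH.pin hH.τ0 hH.τ1 hH.η0 hH.N1 p hp hk x).trans ?_
  have h4 : (1 + (p : ℝ) ^ k / N') ≤ Real.exp ζ := by
    have h5 : (p : ℝ) ^ k / N' ≤ ζ := by
      rw [div_le_iff₀ hN]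
      refine le_trans ?_ hH.hζ
      exact pow_le_pow_left₀ hp0.le (by exact_mod_cast h2) k
    have := Real.add_one_le_exp ζ
    linarith
  have h6 : ((p : ℝ) ^ k) ^ η = Real.exp (k * η * Real.log p) := by
    rw [← Real.rpow_natCast, ← Real.rpow_mul hp0.le, Real.rpow_def_of_pos hp0]
    congr 1
    ring
  rw [h6]
  have h7 : (1 + (p : ℝ) ^ k / N') * Real.exp (k * η * Real.log p) ≤
      Real.exp (ζ + k * η * Real.log p) := by
    rw [Real.exp_add]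
    exact mul_le_mul_of_nonneg_right h4 (Real.exp_pos _).le
  calc ((1 + (p : ℝ) ^ k / N') * Real.exp (k * η * Real.log p)) ^ 2
      ≤ Real.exp (ζ + k * η * Real.log p) ^ 2 := pow_le_pow_left₀ (by positivity) h7 2
    _ = Real.exp (2 * (ζ + k * η * Real.log p)) := by
      rw [← Real.exp_nat_mul]
      norm_num

lemma Hyp.sum_zeta (hH : Hyp k N' Nmin w w1 τ η ζ Φ G ν) {S : Finset ℕ} (hS : S ⊆ Wp w w1) :
    ∑ _p ∈ S, ζ ≤ 1 / 100 := by
  rw [sum_const, nsmul_eq_mul]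
  refine le_trans ?_ hH.hζ1
  rw [mul_comm]
  refine mul_le_mul_of_nonneg_left ?_ hH.ζ0
  exact_mod_cast (card_le_card hS).trans Wp_card

lemma Hyp.psi_exp (hH : Hyp k N' Nmin w w1 τ η ζ Φ G ν) (hNu : NuStmt) {S : Finset ℕ}
    (hS : S ⊆ Wp w w1) (n : ℤ) :
    psi ν S n ≤ Real.exp (1 / 50 + 2 * k * η * ∑ p ∈ S, Real.log p) := by
  unfold psi
  calc ∏ p ∈ S, ν p n ≤ ∏ p ∈ S, Real.exp (2 * (ζ + k * η * Real.log p)) :=
        prod_le_prod (fun p _ => hH.pin.wts.nn p n) fun p hp => hH.nu_exp hNu (hS hp) n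
    _ = Real.exp (∑ p ∈ S, 2 * (ζ + k * η * Real.log p)) := (Real.exp_sum _ _).symm
    _ ≤ _ := by
      apply Real.exp_le_exp.2
      rw [← mul_sum, sum_add_distrib, ← mul_sum]
      have := hH.sum_zeta hS
      linarith

lemma Hyp.prodtau (hH : Hyp k N' Nmin w w1 τ η ζ Φ G ν) (hNu : NuStmt) {S : Finset ℕ}
    (hS : S ⊆ Wp w w1) (n : ℤ) :
    ∏ p ∈ S, (ν p n) ^ τ ≤ Real.exp (τ * (1 / 50 + 2 * k * η * ∑ p ∈ S, Real.log p)) := by
  rw [Real.finsetProd_rpow _ _ (fun p _ => hH.pin.wts.nn p n)]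
  refine (Real.rpow_le_rpow (prod_nonneg fun p _ => hH.pin.wts.nn p n)
    (hH.psi_exp hNu hS n) hH.τ0.le).trans (le_of_eq ?_)
  rw [← Real.exp_mul]
  congr 1
  ring

lemma sum_log_dvd {S : Finset ℕ} (hS : ∀ p ∈ S, p.Prime) {D : ℕ} (hD : 1 ≤ D)
    (hd : ∀ p ∈ S, p ∣ D) : ∑ p ∈ S, Real.log p ≤ Real.log D := by
  have h1 : ∏ p ∈ S, p ∣ D := Finset.prod_primes_dvd D (fun p hp => (hS p hp).prime) hd
  have h2 : (∏ p ∈ S, p : ℕ) ≤ D := Nat.le_of_dvd hD h1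
  have h3 : ∑ p ∈ S, Real.log p = Real.log ((∏ p ∈ S, p : ℕ) : ℝ) := by
    push_cast
    rw [Real.log_prod]
    intro p hp
    have := (hS p hp).pos
    positivity
  rw [h3]
  apply Real.log_le_log
  · have : 0 < ∏ p ∈ S, p := prod_pos fun p hp => (hS p hp).pos
    exact_mod_cast this
  · exact_mod_cast h2

lemma Hyp.G_exp (hH : Hyp k N' Nmin w w1 τ η ζ Φ G ν) (hNu : NuStmt) (n : ℤ) :
    G n ≤ Real.exp (τ * (1 / 50 + 2 * k * η * ∑ p ∈ Wp w w1, Real.log p)) :=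
  (hH.pin.Gle n).trans (hH.prodtau hNu (Subset.refl _) n)

/-- simplified mass bound -/
lemma Hyp.mass_exp (hH : Hyp k N' Nmin w w1 τ η ζ Φ G ν) (hNu : NuStmt) (D M : ℕ) (y x : ℤ)
    (hD : 1 ≤ D) (hM : 1 ≤ M) (h1 : D ^ k * Nmin ≤ M) (h2 : D ^ k * Nmin ≤ N')
    (h3 : (D : ℝ) ^ k ≤ 1 / 100 * M) (h4 : ((N' : ℝ) / M) ^ η ≤ 3 / 2) :
    mass G y M D x ≤ 3 * (D : ℝ) ^ (2 * k * η) * Φ * M / D := by
  have hDr : (1 : ℝ) ≤ D := by exact_mod_cast hD
  have hD0 : (0 : ℝ) < D := by linarith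
  have hMr : (0 : ℝ) < M := by exact_mod_cast hM
  have hΦ := hH.pin.Φpos
  have hN : (0 : ℝ) < N' := by exact_mod_cast hH.N1
  refine (hH.pin.sb D M y x hD h1 h2).trans ?_
  have hsub : (Wp w w1).filter (fun p => p ∣ D) ⊆ Wp w w1 := filter_subset _ _
  have e1 := hH.prodtau hNu hsub x
  have e2 : ∑ p ∈ (Wp w w1).filter (fun p => p ∣ D), Real.log p ≤ Real.log D :=
    sum_log_dvd (fun p hp => (fin_Wp_mem.1 (mem_filter.1 hp).1).2.2) hD
      (fun p hp => (mem_filter.1 hp).2)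
  have hlogD : 0 ≤ Real.log D := Real.log_nonneg hDr
  have hkη : 0 ≤ (k : ℝ) * η := mul_nonneg (Nat.cast_nonneg _) hH.η0.le
  have e3 : ∏ p ∈ (Wp w w1).filter (fun p => p ∣ D), (ν p x) ^ τ ≤
      Real.exp (1 / 100) * Real.exp (k * η * Real.log D) := by
    refine e1.trans ?_
    rw [← Real.exp_add]
    apply Real.exp_le_exp.2
    have h5 : 0 ≤ (1 / 50 + 2 * k * η * ∑ p ∈ (Wp w w1).filter (fun p => p ∣ D), Real.log p) := by
      have : 0 ≤ ∑ p ∈ (Wp w w1).filter (fun p => p ∣ D), Real.log (p : ℝ) :=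
        sum_nonneg fun p _ => Real.log_natCast_nonneg p
      nlinarith only [hkη, this]
    have h6 := mul_le_mul_of_nonneg_right hH.τ1 h5
    have h7 := mul_le_mul_of_nonneg_left e2 hkη
    linarith only [h6, h7]
  have e4 : (N' * (D : ℝ) ^ k / M) ^ η ≤ 3 / 2 * Real.exp (k * η * Real.log D) := by
    have h5 : N' * (D : ℝ) ^ k / M = (N' / M) * (D : ℝ) ^ k := by ring
    rw [h5, Real.mul_rpow (by positivity) (by positivity)]
    have h6 : ((D : ℝ) ^ k) ^ η = Real.exp (k * η * Real.log D) := by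
      rw [← Real.rpow_natCast, ← Real.rpow_mul hD0.le, Real.rpow_def_of_pos hD0]
      congr 1
      ring
    rw [h6]
    exact mul_le_mul_of_nonneg_right h4 (Real.exp_pos _).le
  have e5 : 1 + (D : ℝ) ^ k / M ≤ 101 / 100 := by
    have : (D : ℝ) ^ k / M ≤ 1 / 100 := by rw [div_le_iff₀ hMr]; exact h3
    linarith
  have e6 : Real.exp (1 / 100) ≤ 11 / 10 := by
    have := Real.exp_bound_div_one_sub_of_interval (x := 1 / 100) (by norm_num) (by norm_num)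
    refine this.trans (by norm_num)
  have e7 : (D : ℝ) ^ (2 * k * η) = Real.exp (k * η * Real.log D) * Real.exp (k * η * Real.log D) := by
    rw [Real.rpow_def_of_pos hD0, ← Real.exp_add]
    congr 1
    ring
  rw [e7]
  set X := Real.exp (k * η * Real.log D) with hX
  have hXp : 0 < X := Real.exp_pos _
  have hMD : 0 < (M : ℝ) / D * Φ := by positivity
  have hprod0 : 0 ≤ ∏ p ∈ (Wp w w1).filter (fun p => p ∣ D), (ν p x) ^ τ :=
    prod_nonneg fun p _ => Real.rpow_nonneg (hH.pin.wts.nn p x) _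
  calc (M : ℝ) / D * Φ * (1 + (D : ℝ) ^ k / M) * ((N' * (D : ℝ) ^ k / M) ^ η) *
        ∏ p ∈ (Wp w w1).filter (fun p => p ∣ D), (ν p x) ^ τ
      ≤ (M : ℝ) / D * Φ * (101 / 100) * (3 / 2 * X) * (11 / 10 * X) := by
        refine mul_le_mul ?_ (e3.trans (mul_le_mul_of_nonneg_right e6 hXp.le)) hprod0
          (by positivity)
        refine mul_le_mul ?_ e4 (by positivity) (by positivity)
        exact mul_le_mul_of_nonneg_left e5 hMD.le
    _ ≤ 3 * (X * X) * Φ * M / D := by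
      have h8 : (M : ℝ) / D * Φ * (101 / 100) * (3 / 2 * X) * (11 / 10 * X) =
          (101 / 100 * (3 / 2) * (11 / 10)) * ((M : ℝ) / D * Φ * (X * X)) := by ring
      have h9 : 3 * (X * X) * Φ * M / D = 3 * ((M : ℝ) / D * Φ * (X * X)) := by ring
      rw [h8, h9]
      refine mul_le_mul_of_nonneg_right (by norm_num) (by positivity)

/-- level one energies at small primes -/
lemma Hyp.th_small (hH : Hyp k N' Nmin w w1 τ η ζ Φ G ν) (hNu : NuStmt) (hTh : ThStmt) {p : ℕ}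
    (hp : p ∈ Wp w w1) (hs : 2 * (ζ + k * η * Real.log p) ≤ 1) :
    0 ≤ th ν p ∧ th ν p ≤ 4 * (ζ + k * η * Real.log p) := by
  obtain ⟨h1, h2⟩ := hTh p ν (Real.exp (2 * (ζ + k * η * Real.log p))) (fin_Wp_mem.1 hp).2.2
    (hH.pin.wts.nn p) (hH.pin.wts.per p hp) (hH.pin.wts.mean p hp)
    (fun n => hH.nu_exp hNu hp n)
  refine ⟨h1, h2.trans ?_⟩
  have h0 : 0 ≤ 2 * (ζ + k * η * Real.log p) := by
    have : 0 ≤ (k : ℝ) * η * Real.log p :=
      mul_nonneg (mul_nonneg (Nat.cast_nonneg _) hH.η0.le) (Real.log_natCast_nonneg p)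
    linarith [hH.ζ0]
  set u := 2 * (ζ + k * η * Real.log p) with hu
  have h3 : Real.exp u ≤ 1 + 2 * u := by
    have h4 := Real.exp_bound' h0 hs (n := 2) (by norm_num)
    norm_num [Finset.sum_range_succ, Nat.factorial] at h4
    nlinarith only [h4, h0, hs]
  linarith

end Vale.Agent.P042.SS
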