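import Vale.Agent.P042.SS.FinA
import Vale.Agent.P042.SS.FinB
import Vale.Agent.P042.SS.FinC

set_option autoImplicit false

/-!
Final assembly, part D: the steps of the argument at one scale.
-/

namespace Vale.Agent.P042.SS

open Polynomial Finset

/-- lower bound for the length of the extremal progression -/
lemma n_lower (A Ce Cη s P Φ : ℝ) (N N' : ℕ) (hsP : s * s = P) (hs1 : 1 ≤ s) (hA : 0 < A)
    (hCη : 0 < Cη) (hCe : Ce = Cη * A) (hN1 : 1 ≤ N) (hN : Real.log N = P) (hN' : 1 ≤ N')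
    (hΦ0 : 0 < Φ) (hΦ2 : Φ ≤ 2) (hAs : 1 ≤ A * s)
    (h : Real.exp (-(A * s)) * (N : ℝ) ^ (Ce / s) ≤ Φ * (N' : ℝ) ^ (Ce / s)) :
    Real.exp (P - 2 * P / Cη) ≤ N' := by
  have hNr : (0 : ℝ) < N := by exact_mod_cast hN1
  have hNr' : (0 : ℝ) < N' := by exact_mod_cast hN'
  have hs0 : 0 < s := by linarith
  have hη : 0 < Ce / s := by rw [hCe]; positivity
  have h1 := Real.log_le_log (by positivity) h
  rw [Real.log_mul (Real.exp_pos _).ne' (Real.rpow_pos_of_pos hNr _).ne', Real.log_exp,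
    Real.log_rpow hNr, Real.log_mul hΦ0.ne' (Real.rpow_pos_of_pos hNr' _).ne',
    Real.log_rpow hNr', hN] at h1
  have h2 : Real.log Φ ≤ 1 := by
    have h3 := Real.log_le_log hΦ0 hΦ2
    have h4 := Real.log_two_lt_d9
    linarith
  have h5 : Ce / s * (P - Real.log N') ≤ A * s + 1 := by linarith only [h1, h2]
  have h6 : Ce / s * (P - Real.log N') ≤ Ce / s * (2 * P / Cη) := by
    have e1 : Ce / s * (2 * P / Cη) = 2 * (A * s) := by
      rw [hCe, ← hsP]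
      field_simp
    rw [e1]
    linarith only [h5, hAs]
  have h7 := le_of_mul_le_mul_left h6 hη
  rw [← Real.exp_log hNr']
  apply Real.exp_le_exp.2
  linarith only [h7]

/-- `∑_{p ∈ Wp} log p ≤ log 4 * w1` -/
lemma theta_Wp (w w1 : ℕ) : ∑ p ∈ Wp w w1, Real.log p ≤ Real.log 4 * w1 := by
  have h1 : ∑ p ∈ Wp w w1, Real.log p ≤ ∑ p ∈ (Ioc 0 w1).filter Nat.Prime, Real.log p := by
    refine sum_le_sum_of_subset_of_nonneg ?_ (fun p _ _ => Real.log_natCast_nonneg p)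
    unfold Wp
    intro p hp
    rw [mem_filter, mem_Ioc] at hp ⊢
    exact ⟨⟨by omega, hp.1.2⟩, hp.2⟩
  refine h1.trans ?_
  have h2 := Chebyshev.theta_le_log4_mul_x (x := (w1 : ℝ)) (Nat.cast_nonneg _)
  refine le_trans (le_of_eq ?_) h2
  rw [Chebyshev.theta_eq_sum_Icc]
  rw [Nat.floor_natCast]
  refine sum_congr ?_ fun _ _ => rfl
  ext p
  simp only [mem_filter, mem_Ioc, mem_Icc]
  constructor
  · rintro ⟨⟨a, b⟩, c⟩
    exact ⟨⟨by omega, b⟩, c⟩
  · rintro ⟨⟨a, b⟩, c⟩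
    exact ⟨⟨c.pos, b⟩, c⟩

/-- the constant `C0`: total weighted level one energy -/
lemma C0_bound {k N' Nmin w w1 Y : ℕ} {τ η ζ Φ : ℝ} {G : ℤ → ℝ} {ν : ℕ → ℤ → ℝ}
    (hH : Hyp k N' Nmin w w1 τ η ζ Φ G ν) (hNu : NuStmt) (hTh : ThStmt) (hThEn : ThEnStmt)
    (kap : ℕ → ℕ → ℝ) (CM cY Ce s : ℝ) (hkap1 : ∀ p ∈ Wp w w1, kap p 1 ≤ k / Real.sqrt p)
    (hk0 : ∀ p j, 0 ≤ kap p j) (hCe : 0 < Ce) (hs : 0 < s) (hη : η = Ce / s)
    (hcY : 0 ≤ cY) (hYs : Real.sqrt Y ≤ Real.sqrt cY * s)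
    (hsmall : ∀ p ∈ Wp w w1, 2 * (ζ + k * η * Real.log p) ≤ 1)
    (hlev : ∑ p ∈ Wp Y w1, 1 / Real.sqrt p * enG G 0 N' p ≤ CM * (N' : ℝ) ^ 2 * Φ ^ 2) :
    ∑ p ∈ Wp w w1, kap p 1 * th ν p ≤ k + 12 * (k : ℝ) ^ 2 * Ce * Real.sqrt cY + k * CM := by
  have hk : (0 : ℝ) ≤ k := Nat.cast_nonneg _
  have hΦ := hH.pin.Φpos
  have hN : (0 : ℝ) < N' := by exact_mod_cast hH.N1
  have hth : ∀ p ∈ Wp w w1, 0 ≤ th ν p ∧ th ν p ≤ 4 * (ζ + k * η * Real.log p) :=
    fun p hp => hH.th_small hNu hTh hp (hsmall p hp)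
  have hη0 := hH.η0
  rw [← sum_filter_add_sum_filter_not (Wp w w1) (fun p => p ≤ Y)]
  -- small primes
  have h1 : ∑ p ∈ (Wp w w1).filter (fun p => p ≤ Y), kap p 1 * th ν p ≤
      k + 12 * (k : ℝ) ^ 2 * Ce * Real.sqrt cY := by
    have h2 : ∀ p ∈ (Wp w w1).filter (fun p => p ≤ Y), kap p 1 * th ν p ≤
        4 * k * ζ + 4 * k ^ 2 * η * (Real.log p / Real.sqrt p) := by
      intro p hp
      rw [mem_filter] at hp
      have hpp := (fin_Wp_mem.1 hp.1).2.2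
      have hp1 : (1 : ℝ) ≤ p := by exact_mod_cast hpp.one_le
      have hsq : 1 ≤ Real.sqrt p := Real.one_le_sqrt.2 hp1
      have hsq0 : 0 < Real.sqrt p := by linarith
      have h3 := mul_le_mul (hkap1 p hp.1) (hth p hp.1).2 (hth p hp.1).1 (by positivity)
      refine h3.trans ?_
      have h4 : (k : ℝ) / Real.sqrt p * (4 * (ζ + k * η * Real.log p)) =
          4 * k * ζ * (1 / Real.sqrt p) + 4 * k ^ 2 * η * (Real.log p / Real.sqrt p) := by
        field_simp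
      rw [h4]
      have h5 : 4 * k * ζ * (1 / Real.sqrt p) ≤ 4 * k * ζ := by
        have : 1 / Real.sqrt p ≤ 1 := by rw [div_le_one hsq0]; exact hsq
        exact mul_le_of_le_one_right (by have := hH.ζ0; positivity) this
      linarith
    refine (sum_le_sum h2).trans ?_
    rw [sum_add_distrib]
    have e2 : ∑ p ∈ (Wp w w1).filter (fun p => p ≤ Y),
        4 * (k : ℝ) ^ 2 * η * (Real.log p / Real.sqrt p) = 4 * (k : ℝ) ^ 2 * η *
        ∑ p ∈ (Wp w w1).filter (fun p => p ≤ Y), Real.log p / Real.sqrt p := by rw [mul_sum]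
    rw [e2]
    have h5 : ∑ _p ∈ (Wp w w1).filter (fun p => p ≤ Y), 4 * k * ζ ≤ (k : ℝ) := by
      have h6 := hH.sum_zeta (filter_subset (fun p => p ≤ Y) (Wp w w1))
      rw [← mul_sum]
      nlinarith only [h6, hk]
    have h7 : ∑ p ∈ (Wp w w1).filter (fun p => p ≤ Y), Real.log p / Real.sqrt p ≤
        Real.log 4 * (2 * Real.sqrt Y) := by
      refine le_trans (sum_le_sum_of_subset_of_nonneg ?_ ?_) (sum_log_div_sqrt Y)
      · intro p hp
        rw [mem_filter] at hp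
        rw [mem_filter, mem_range]
        exact ⟨by omega, (fin_Wp_mem.1 hp.1).2.2⟩
      · intro p _ _
        exact div_nonneg (Real.log_natCast_nonneg p) (Real.sqrt_nonneg _)
    have h8 : Real.log 4 ≤ 3 / 2 := by
      have : Real.log 4 = 2 * Real.log 2 := by
        rw [show (4 : ℝ) = 2 ^ 2 by norm_num, Real.log_pow]; norm_num
      rw [this]
      have := Real.log_two_lt_d9
      linarith
    have h9 : 4 * (k : ℝ) ^ 2 * η * ∑ p ∈ (Wp w w1).filter (fun p => p ≤ Y),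
        Real.log p / Real.sqrt p ≤ 12 * (k : ℝ) ^ 2 * Ce * Real.sqrt cY := by
      have h10 : Real.log 4 * (2 * Real.sqrt Y) ≤ 3 * (Real.sqrt cY * s) := by
        have := Real.sqrt_nonneg (Y : ℝ)
        nlinarith only [h8, hYs, this]
      have h11 := mul_le_mul_of_nonneg_left (h7.trans h10)
        (by positivity : 0 ≤ 4 * (k : ℝ) ^ 2 * η)
      refine h11.trans (le_of_eq ?_)
      rw [hη]
      field_simp
      ring
    linarith
  -- large primes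
  have h2 : ∑ p ∈ (Wp w w1).filter (fun p => ¬ p ≤ Y), kap p 1 * th ν p ≤ k * CM := by
    have h3 : ∀ p ∈ (Wp w w1).filter (fun p => ¬ p ≤ Y), kap p 1 * th ν p ≤
        k / (N' * Φ) ^ 2 * (1 / Real.sqrt p * enG G 0 N' p) := by
      intro p hp
      rw [mem_filter] at hp
      rw [hThEn k N' Nmin (Wp w w1) τ η Φ G ν hH.pin p hp.1]
      have e1 : (k : ℝ) / (N' * Φ) ^ 2 * (1 / Real.sqrt p * ((N' * Φ) ^ 2 * th ν p)) =
          k / Real.sqrt p * th ν p := by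
        field_simp
      rw [e1]
      exact mul_le_mul_of_nonneg_right (hkap1 p hp.1) (hth p hp.1).1
    refine (sum_le_sum h3).trans ?_
    rw [← mul_sum]
    have h4 : ∑ p ∈ (Wp w w1).filter (fun p => ¬ p ≤ Y), 1 / Real.sqrt p * enG G 0 N' p ≤
        ∑ p ∈ Wp Y w1, 1 / Real.sqrt p * enG G 0 N' p := by
      refine sum_le_sum_of_subset_of_nonneg ?_ ?_
      · intro p hp
        rw [mem_filter] at hp
        rw [fin_Wp_mem]
        have := fin_Wp_mem.1 hp.1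
        exact ⟨by omega, this.2.1, this.2.2⟩
      · intro p _ _
        refine mul_nonneg (by positivity) (sum_nonneg fun _ _ => sq_nonneg _)
    have h5 := mul_le_mul_of_nonneg_left (h4.trans hlev) (by positivity : 0 ≤ (k : ℝ) / (N' * Φ) ^ 2)
    refine h5.trans (le_of_eq ?_)
    field_simp
  linarith

/-- the circle method bound in the needed form -/
lemma AN_apply {k N' Nmin w w1 : ℕ} {τ η ζ Φ : ℝ} {G : ℤ → ℝ} {ν : ℕ → ℤ → ℝ}
    (hH : Hyp k N' Nmin w w1 τ η ζ Φ G ν) (Gm δ δ0 : ℝ) (H : ℕ) (T : ℂ)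
    (hGm : ∀ n, G n ≤ Gm) (hδ0 : 0 ≤ δ) (hδ : δ * Gm ≤ δ0 * Φ)
    (hT : ‖T‖ ≤ δ * (H : ℝ) ^ 2 * ∑ n ∈ Icc (1 : ℤ) N', G n ^ 2) :
    ‖T‖ ≤ δ0 * (N' * (H : ℝ) ^ 2 * Φ ^ 2) := by
  have h1 : ∑ n ∈ Icc (1 : ℤ) N', G n ^ 2 ≤ Gm * (N' * Φ) := by
    rw [← hH.pin.Gsum, mul_sum]
    refine sum_le_sum fun n _ => ?_
    rw [sq]
    exact mul_le_mul_of_nonneg_right (hGm n) (hH.pin.G0 n)
  refine hT.trans ?_
  have h2 := mul_le_mul_of_nonneg_left h1 (by positivity : 0 ≤ δ * (H : ℝ) ^ 2)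
  refine h2.trans ?_
  have hΦ := hH.pin.Φpos
  have h3 := mul_le_mul_of_nonneg_right hδ (by positivity : 0 ≤ (H : ℝ) ^ 2 * (N' * Φ))
  linarith only [h3]

end Vale.Agent.P042.SS
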