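import Vale.Agent.P042.SS.FinD

set_option autoImplicit false

/-!
Final assembly, part E: numeric lemmas at one scale.
-/

namespace Vale.Agent.P042.SS

open Polynomial Finset

lemma exp_five : (100 : ℝ) ≤ Real.exp 5 := by
  have h1 : Real.exp 5 = Real.exp 1 ^ 5 := by rw [← Real.exp_nat_mul]; norm_num
  have h2 : (2.7 : ℝ) ≤ Real.exp 1 := by have := Real.exp_one_gt_d9; linarith
  rw [h1]
  calc (100 : ℝ) ≤ 2.7 ^ 5 := by norm_num
    _ ≤ _ := pow_le_pow_left₀ (by norm_num) h2 5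

lemma Gm_bound {k N' Nmin w w1 : ℕ} {τ η ζ Φ : ℝ} {G : ℤ → ℝ} {ν : ℕ → ℤ → ℝ}
    (hH : Hyp k N' Nmin w w1 τ η ζ Φ G ν) (hNu : NuStmt) (A Ce Cg s P : ℝ) (hA : 0 ≤ A)
    (hCe : 0 < Ce)
    (hs : 1 ≤ s) (hsP : s * s = P) (hη : η = Ce / s) (hCg : Cg = k * Ce + A + 1)
    (hθ : τ * ∑ p ∈ Wp w w1, Real.log p ≤ P / 8) (hΦ : Real.exp (-(A * s)) ≤ Φ) (n : ℤ) :
    G n ≤ Real.exp (Cg * s) * Φ := by
  refine (hH.G_exp hNu n).trans ?_
  have h1 : Real.exp (τ * (1 / 50 + 2 * k * η * ∑ p ∈ Wp w w1, Real.log p)) ≤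
      Real.exp (Cg * s) * Real.exp (-(A * s)) := by
    rw [← Real.exp_add]
    apply Real.exp_le_exp.2
    have hs0 : 0 < s := by linarith
    have hkη : 0 ≤ 2 * (k : ℝ) * η := by have := hH.η0; positivity
    have h2 := mul_le_mul_of_nonneg_left hθ hkη
    have h3 : 2 * (k : ℝ) * η * (P / 8) = k * Ce * s / 4 := by
      rw [hη, ← hsP]
      field_simp
      ring
    rw [h3] at h2
    have h4 : τ * (1 / 50) ≤ 1 := by have := hH.τ1; linarith
    have h5 : 0 ≤ (k : ℝ) * Ce * s := by positivity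
    rw [hCg]
    nlinarith only [h2, h4, h5, hs]
  exact h1.trans (mul_le_mul_of_nonneg_left hΦ (Real.exp_pos _).le)

lemma massOK_of {k N' Nmin w w1 : ℕ} {τ η ζ Φ : ℝ} {G : ℤ → ℝ} {ν : ℕ → ℤ → ℝ}
    (hH : Hyp k N' Nmin w w1 τ η ζ Φ G ν) (hNu : NuStmt) (Ce Cg s P : ℝ) (hk : 1 ≤ k)
    (hCe : 0 < Ce) (hs : 3 ≤ s) (hsP : s * s = P) (hη : η = Ce / s)
    (hGm : ∀ n, G n ≤ Real.exp (Cg * s) * Φ)
    (hNmin : (Nmin : ℝ) ≤ Real.exp (P / 2) + 1) (M : ℕ) (y : ℤ)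
    (hM : Real.exp (3 / 4 * P) ≤ M) (hMN : M ≤ N') (h4 : ((N' : ℝ) / M) ^ η ≤ 3 / 2) :
    MassOK P Cg (2 * k * Ce) (1 / (8 * k)) M G y Φ (Real.exp (Cg * s) * Φ) := by
  have hs0 : 0 < s := by linarith
  have hP9 : 9 ≤ P := by rw [← hsP]; nlinarith
  have hsq : Real.sqrt P = s := by rw [← hsP]; exact Real.sqrt_mul_self hs0.le
  have hkr : (1 : ℝ) ≤ k := by exact_mod_cast hk
  have hMpos : (0 : ℝ) < M := lt_of_lt_of_le (Real.exp_pos _) hM
  have hM1 : 1 ≤ M := by exact_mod_cast hMpos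
  refine ⟨hH.pin.Φpos, hH.pin.G0, hGm, by rw [hsq], ?_, ?_⟩
  · refine le_trans (Real.exp_le_exp.2 ?_) hM
    linarith
  · intro D hD hDle x
    rw [hsq]
    have hDr : (1 : ℝ) ≤ D := by exact_mod_cast hD
    have hDk : (D : ℝ) ^ k ≤ Real.exp (P / 8) := by
      calc (D : ℝ) ^ k ≤ (Real.exp (1 / (8 * k) * P)) ^ k :=
            pow_le_pow_left₀ (by linarith) hDle k
        _ = Real.exp (P / 8) := by
          rw [← Real.exp_nat_mul]
          congr 1
          field_simp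
    have e1 : (D : ℝ) ^ k * Nmin ≤ M := by
      have h5 : (D : ℝ) ^ k * Nmin ≤ Real.exp (P / 8) * (Real.exp (P / 2) + 1) :=
        mul_le_mul hDk hNmin (Nat.cast_nonneg _) (Real.exp_pos _).le
      have h6 : Real.exp (P / 2) + 1 ≤ Real.exp (5 / 8 * P) := by
        have h7 : Real.exp (5 / 8 * P) = Real.exp (P / 2) * Real.exp (P / 8) := by
          rw [← Real.exp_add]; congr 1; ring
        have h8 : 2 ≤ Real.exp (P / 8) := by
          have := Real.add_one_le_exp (P / 8)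
          linarith
        have h9 : 1 ≤ Real.exp (P / 2) := Real.one_le_exp (by linarith)
        rw [h7]
        nlinarith only [h8, h9]
      have h10 : Real.exp (P / 8) * Real.exp (5 / 8 * P) = Real.exp (3 / 4 * P) := by
        rw [← Real.exp_add]; congr 1; ring
      calc (D : ℝ) ^ k * Nmin ≤ Real.exp (P / 8) * (Real.exp (P / 2) + 1) := h5
        _ ≤ Real.exp (P / 8) * Real.exp (5 / 8 * P) :=
          mul_le_mul_of_nonneg_left h6 (Real.exp_pos _).le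
        _ = Real.exp (3 / 4 * P) := h10
        _ ≤ M := hM
    have e1' : D ^ k * Nmin ≤ M := by exact_mod_cast e1
    have e2 : (D : ℝ) ^ k ≤ 1 / 100 * M := by
      have h5 : Real.exp (3 / 4 * P) = Real.exp (P / 8) * Real.exp (5 / 8 * P) := by
        rw [← Real.exp_add]; congr 1; ring
      have h6 : 100 ≤ Real.exp (5 / 8 * P) := by
        refine exp_five.trans (Real.exp_le_exp.2 (by linarith))
      have h7 := Real.exp_pos (P / 8)
      rw [h5] at hM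
      nlinarith only [hM, hDk, h6, h7]
    have h5 := hH.mass_exp hNu D M y x hD hM1 e1' (e1'.trans hMN) e2 h4
    have h6 : (2 * (k : ℝ) * Ce / s) = 2 * k * η := by rw [hη]; ring
    rw [h6]
    exact h5

/-- `(c)^η ≤ 3/2` when `η` is small -/
lemma rpow_small (c η : ℝ) (hc : 1 ≤ c) (h : η * Real.log c ≤ 2 / 5) : c ^ η ≤ 3 / 2 := by
  have hc0 : 0 < c := by linarith
  rw [Real.rpow_def_of_pos hc0]
  have h1 : Real.log c * η ≤ 2 / 5 := by linarith [mul_comm η (Real.log c)]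
  refine (Real.exp_le_exp.2 h1).trans ?_
  have h2 : Real.exp (2 / 5) ^ 5 ≤ (3 / 2 : ℝ) ^ 5 := by
    rw [← Real.exp_nat_mul]
    have h3 : Real.exp (((5 : ℕ) : ℝ) * (2 / 5)) = Real.exp 1 ^ 2 := by
      rw [← Real.exp_nat_mul]; norm_num
    rw [h3]
    have h4 : Real.exp 1 ≤ 2.7182818286 := Real.exp_one_lt_d9.le
    calc Real.exp 1 ^ 2 ≤ 2.7182818286 ^ 2 := pow_le_pow_left₀ (Real.exp_pos _).le h4 2
      _ ≤ _ := by norm_num
  exact le_of_pow_le_pow_left₀ (by norm_num) (by norm_num) h2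

end Vale.Agent.P042.SS
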