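import Vale.Agent.P042.SS.Spec

set_option autoImplicit false

/-!
Final assembly: numeric structures and the statement of the contradiction at one scale.
-/

namespace Vale.Agent.P042.SS

open Polynomial Finset

/-- numeric facts at one scale: `P = log N`, `s = √P` -/
structure Sc (k p0 m0 J : ℕ) (A Cη Ce C0 C2 Cc c1 s P : ℝ) : Prop where
  s8 : 8 ≤ s
  sP : s * s = P
  As : 1 ≤ A * s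
  big : 200 * (C2 * P + 1) ^ (k + 2) ≤ Real.exp (P / 16)
  c1P : (p0 : ℝ) + 1 ≤ c1 * P
  c1C2 : c1 ≤ C2
  C2P : 3 ≤ C2 * P
  Ces : 7 * Ce ≤ s
  m0s : 5 * Ce * Real.log (16 * m0) ≤ 2 * s
  Ccs : 8 * k * Cc ≤ s
  log1 : 10 * k * Ce * Real.log (C2 * P + 2) ≤ s
  log2 : (5 * C0 + 1) * Real.log (C2 * P + 2) ≤ s

/-- constants of the argument and their relations -/
structure Kst (k E2 K2 S m0 : ℕ) (A Cη Ce Cg CQ cY CM C0 C2 Ccost Cc Ms lam εu ε1 s : ℝ) :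
    Prop where
  k2 : 2 ≤ k
  hE2 : 1 ≤ E2
  hK2 : 1 ≤ K2
  hS : 1 ≤ S
  hm : 1 ≤ m0
  hA : 0 < A
  hCη : Cη = 64 * k * E2
  hCe : Ce = Cη * A
  hCg : Cg = k * Ce + A + 1
  hCQ : CQ = E2 * (Cg + 1) + 1
  hcY : 0 < cY
  hCM : 0 < CM
  hC0 : C0 = k + 12 * (k : ℝ) ^ 2 * Ce * Real.sqrt cY + k * CM
  hC2 : 0 < C2
  hCcost : 0 < Ccost
  hCc : Cc = CQ + 2 * (Ccost * (Real.sqrt C2 + 1))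
  hMs : Ms = 3 * Real.exp (2 * k * Ce * Cc + 1)
  hlam : lam = Real.exp (-(3 * C0)) / 64
  hεu : εu ≤ Real.exp (-(2 * C0)) / 200
  hε1 : (1 / lam + 1) * (2 * (8 * Ms * ε1 + 1000 * Ms ^ 2 / (m0 : ℝ) ^ 2)) ≤
    Real.exp (-(2 * C0)) / 32
  s1 : Real.log 2 + E2 * Real.log K2 ≤ s
  s2 : 2 * (E2 * (Real.log K2 + 2 * Real.log S + k + CQ + (Cg + 1))) ≤ s
  s3 : 2 * C0 + 5 ≤ s
  s4 : Real.log (16 * m0) + 1 ≤ s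

/-- the contradiction at one scale -/
def ScaleStmt : Prop :=
  ∀ (h : ℤ[X]) (lam0 : ℕ → ℕ) (r : ℕ → ℤ) (Hh : ℕ → ℤ[X]) (R : ℕ)
    (hAux : AuxData h lam0 r Hh R) (k E2 K2 S p0 m0 J : ℕ) (hk : h.natDegree = k)
    (hpos : 0 < h.leadingCoeff)
    (hcoef : ∀ d : ℕ, 1 ≤ d → (∀ j : ℕ, |(Hh d).coeff j| ≤ S * (Hh d).leadingCoeff) ∧
      (Hh d).leadingCoeff ≤ S * (d : ℤ) ^ h.natDegree)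
    (hANi : ∀ (f : ℤ[X]) (N' H Q : ℕ) (δ B : ℝ) (G : ℤ → ℝ), f.natDegree = k →
      0 < f.leadingCoeff → (∀ g : ℤ, (∀ j : ℕ, 1 ≤ j → g ∣ f.coeff j) → g ∣ (R : ℤ)) →
      0 < δ → δ ≤ 1 → 1 ≤ B → (∀ j : ℕ, |(f.coeff j : ℝ)| ≤ B) →
      8 * H ≤ N' → N' ≤ 16 * H → (K2 / δ) ^ E2 ≤ (Q : ℝ) → (K2 * B * Q / δ) ^ E2 ≤ (N' : ℝ) →
      (∀ n, 0 ≤ G n) → (∀ n, G n ≠ 0 → 1 ≤ n ∧ n ≤ N') →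
      (∀ n m : ℤ, G n ≠ 0 → G m ≠ 0 → ∀ x : ℕ, 1 ≤ x → n - m = f.eval (x : ℤ) → n = m) →
      ‖∑ q ∈ Icc 1 Q, ∑ a ∈ (range q).filter (Nat.Coprime q),
        Gam f a q * Bil G N' H ((a : ℝ) / q)‖ ≤
        δ * (H : ℝ) ^ 2 * ∑ n ∈ Icc (1 : ℤ) N', G n ^ 2)
    (kap : ℕ → ℕ → ℝ) (hk0 : ∀ p j, 0 ≤ kap p j) (hk1 : ∀ p j, kap p j ≤ 1)
    (hkap1 : ∀ p, p.Prime → p0 < p → kap p 1 ≤ k / Real.sqrt p)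
    (hGam : ∀ f : ℤ[X], f.natDegree = k → 0 < f.leadingCoeff →
      (∀ g : ℤ, (∀ j : ℕ, 1 ≤ j → g ∣ f.coeff j) → g ∣ (R : ℤ)) →
      ∀ (q : ℕ) (a : ℤ), 1 ≤ q → IsCoprime a (q : ℤ) → ‖Gam f a q‖ ≤ kapProd kap q)
    (A Cη Ce Cg CQ cY CM C0 C2 Ccost Cc Ms lam εu ε1 c1 s P : ℝ)
    (hK : Kst k E2 K2 S m0 A Cη Ce Cg CQ cY CM C0 C2 Ccost Cc Ms lam εu ε1 s)
    (hsc : Sc k p0 m0 J A Cη Ce C0 C2 Cc c1 s P) (hJ : 12 * C2 + 2 ≤ J)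
    (hCost : ∀ (Y : ℕ) (I : Finset (ℕ × ℕ)),
      (∀ i ∈ I, i.1.Prime ∧ 1 ≤ i.2 ∧ i.1 ≤ Y) →
      ∑ i ∈ I, kap i.1 i.2 * (i.2 * Real.log i.1) ≤ Ccost * (Real.sqrt Y + 1))
    (hU1 : ∀ (M : ℕ) (G : ℤ → ℝ) (y : ℤ) (Φ Gm : ℝ),
      MassOK P Cg (2 * k * Ce) (1 / (8 * k)) M G y Φ Gm →
      ∑ p ∈ Wp ⌊cY * P⌋₊ ⌊C2 * P⌋₊, 1 / Real.sqrt p * enG G y M p ≤
        CM * (M : ℝ) ^ 2 * Φ ^ 2)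
    (hU2 : ∀ (Q M : ℕ) (G : ℤ → ℝ) (y : ℤ) (Φ Gm : ℝ), (Q : ℝ) ≤ Real.exp (CQ * Real.sqrt P) →
      MassOK P Cg (2 * k * Ce) (1 / (8 * k)) M G y Φ Gm →
      ∑ q ∈ (Icc 1 Q).filter (fun q => ¬ Cov ⌊c1 * P⌋₊ ⌊C2 * P⌋₊ q),
        kapProd kap q * enG G y M q ≤ εu * (M : ℝ) ^ 2 * Φ ^ 2)
    (hE : ∀ (N' Nmin t Q : ℕ) (Φ : ℝ) (G : ℤ → ℝ) (ν : ℕ → ℤ → ℝ),
      Real.exp (7 / 8 * P) ≤ N' → (N' : ℝ) ≤ Real.exp P → (Nmin : ℝ) ≤ Real.exp (P / 2) + 1 →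
      1 ≤ t → t ≤ N' → N' ≤ 16 * m0 * t → (Q : ℝ) ≤ Real.exp (Cc * Real.sqrt P) →
      Pinned k N' Nmin (Wp ⌊c1 * P⌋₊ ⌊C2 * P⌋₊) (1 / (J : ℝ)) (Ce / Real.sqrt P) Φ G ν →
      (∀ n, G n ≤ Real.exp (Cg * Real.sqrt P) * Φ) →
      ∑ R ∈ (Ic ⌊c1 * P⌋₊ ⌊C2 * P⌋₊ Q).powerset.filter
          (fun R => cost R ≤ Cc * Real.sqrt P),
        wtR (fun i => kap i.1 i.2) (Ic ⌊c1 * P⌋₊ ⌊C2 * P⌋₊ Q) R *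
          KLt N' t (WR R) G Φ (psi ν (SOf ⌊c1 * P⌋₊ R)) ≤ ε1)
    (N : ℕ) (hN1 : 1 ≤ N) (hN : Real.log N = P) (A0 : Finset ℤ) (hA0 : A0 ⊆ Icc (1 : ℤ) N)
    (hfree : DiffFree h A0) (hcard : Real.exp (-(A * s)) * N ≤ A0.card), False

end Vale.Agent.P042.SS
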