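import Vale.Agent.P042.SS.FinE
import Vale.Agent.P042.SS.FinG0

set_option autoImplicit false

/-!
Final assembly, part E2: more numeric lemmas.
-/

namespace Vale.Agent.P042.SS

open Polynomial Finset

/-- facts on `Q = ⌈(K2/δ)^E2⌉` -/
lemma Q_facts (E2 K2 : ℕ) (Cg CQ s : ℝ) (hE2 : 1 ≤ E2) (hK2 : 1 ≤ K2) (hCg : 1 ≤ Cg)
    (hs : 1 ≤ s) (hCQ : CQ = E2 * (Cg + 1) + 1) (h1 : Real.log 2 + E2 * Real.log K2 ≤ s)
    (Q : ℕ) (hQ : Q = ⌈(K2 / Real.exp (-((Cg + 1) * s))) ^ E2⌉₊) :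
    (K2 / Real.exp (-((Cg + 1) * s))) ^ E2 ≤ (Q : ℝ) ∧ 1 ≤ Q ∧ Real.log Q ≤ CQ * s ∧
      s ≤ Real.log Q ∧ (Q : ℝ) ≤ Real.exp (CQ * s) := by
  have hE2r : (1 : ℝ) ≤ E2 := by exact_mod_cast hE2
  have hK2r : (1 : ℝ) ≤ K2 := by exact_mod_cast hK2
  have hs0 : 0 < s := by linarith
  set δ := Real.exp (-((Cg + 1) * s)) with hδ
  have hδpos : 0 < δ := Real.exp_pos _
  have hδ1 : δ ≤ 1 := by
    rw [hδ]
    apply Real.exp_le_one_iff.2
    nlinarith only [hCg, hs0]
  have hQge : (K2 / δ) ^ E2 ≤ (Q : ℝ) := by rw [hQ]; exact Nat.le_ceil _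
  have hK2δ : (1 : ℝ) ≤ K2 / δ := by
    rw [le_div_iff₀ hδpos, one_mul]
    linarith
  have hQ1r : (1 : ℝ) ≤ Q := (one_le_pow₀ hK2δ).trans hQge
  have hQ1 : 1 ≤ Q := by exact_mod_cast hQ1r
  have hpowexp : (K2 / δ) ^ E2 = Real.exp (E2 * (Real.log K2 + (Cg + 1) * s)) := by
    have h1 : (K2 : ℝ) / δ = Real.exp (Real.log K2 + (Cg + 1) * s) := by
      rw [Real.exp_add, Real.exp_log (by linarith), hδ, Real.exp_neg]
      field_simp
    rw [h1, ← Real.exp_nat_mul]
  have hlogQle : Real.log Q ≤ CQ * s := by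
    have h3 : (Q : ℝ) ≤ 2 * (K2 / δ) ^ E2 := by
      have h2 := (Nat.ceil_lt_add_one (by positivity : 0 ≤ (K2 / δ) ^ E2)).le
      have h3 := one_le_pow₀ hK2δ (n := E2)
      rw [← hQ] at h2
      linarith
    have h2 := Real.log_le_log (by linarith) h3
    rw [Real.log_mul (by norm_num) (by positivity), hpowexp, Real.log_exp] at h2
    rw [hCQ]
    linarith
  have hlogQge : s ≤ Real.log Q := by
    have h2 := Real.log_le_log (by positivity) hQge
    rw [hpowexp, Real.log_exp] at h2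
    refine le_trans ?_ h2
    have h3 : 0 ≤ Real.log K2 := Real.log_nonneg hK2r
    nlinarith only [h3, hE2r, hCg, hs0, mul_nonneg (by linarith : (0 : ℝ) ≤ E2 - 1) hs0.le,
      mul_nonneg (by linarith : (0 : ℝ) ≤ E2) (mul_nonneg (by linarith : (0 : ℝ) ≤ Cg) hs0.le),
      mul_nonneg (by linarith : (0 : ℝ) ≤ E2) h3]
  refine ⟨hQge, hQ1, hlogQle, hlogQge, ?_⟩
  rw [← Real.exp_log (by linarith : (0 : ℝ) < Q)]
  exact Real.exp_le_exp.2 hlogQle

/-- the size condition of the circle method -/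
lemma KBQ_bound (k E2 K2 S Q : ℕ) (Cη Cg CQ s P : ℝ) (hk : 2 ≤ k) (hE2 : 1 ≤ E2) (hK2 : 1 ≤ K2)
    (hS : 1 ≤ S) (hs : 8 ≤ s) (hsP : s * s = P) (hCη : Cη = 64 * k * E2)
    (hs2 : 2 * (E2 * (Real.log K2 + 2 * Real.log S + k + CQ + (Cg + 1))) ≤ s)
    (hQ : (Q : ℝ) ≤ Real.exp (CQ * s)) :
    (K2 * ((S : ℝ) * (S * (2 * Real.exp (2 * P / Cη)) ^ k)) * Q /
      Real.exp (-((Cg + 1) * s))) ^ E2 ≤ Real.exp (7 / 8 * P) := by
  have hkr : (2 : ℝ) ≤ k := by exact_mod_cast hk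
  have hE2r : (1 : ℝ) ≤ E2 := by exact_mod_cast hE2
  have hK2r : (1 : ℝ) ≤ K2 := by exact_mod_cast hK2
  have hSr : (1 : ℝ) ≤ S := by exact_mod_cast hS
  have hs0 : 0 < s := by linarith
  have hP : 0 < P := by rw [← hsP]; positivity
  have h1 : (K2 * ((S : ℝ) * (S * (2 * Real.exp (2 * P / Cη)) ^ k)) * Q /
      Real.exp (-((Cg + 1) * s))) ≤ Real.exp (Real.log K2 + 2 * Real.log S + k +
      2 * k * P / Cη + CQ * s + (Cg + 1) * s) := by
    have e1 : ((S : ℝ) * (S * (2 * Real.exp (2 * P / Cη)) ^ k)) ≤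
        Real.exp (2 * Real.log S + k + 2 * k * P / Cη) := by
      have e2 : (2 * Real.exp (2 * P / Cη)) ^ k ≤ Real.exp (k + 2 * k * P / Cη) := by
        have e3 : 2 * Real.exp (2 * P / Cη) ≤ Real.exp (1 + 2 * P / Cη) := by
          rw [Real.exp_add]
          have := Real.add_one_le_exp (1 : ℝ)
          exact mul_le_mul_of_nonneg_right (by linarith) (Real.exp_pos _).le
        calc (2 * Real.exp (2 * P / Cη)) ^ k ≤ Real.exp (1 + 2 * P / Cη) ^ k :=
              pow_le_pow_left₀ (by positivity) e3 k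
          _ = Real.exp (k + 2 * k * P / Cη) := by
            rw [← Real.exp_nat_mul]
            congr 1
            ring
      have e4 : (S : ℝ) = Real.exp (Real.log S) := (Real.exp_log (by linarith)).symm
      have e5 : Real.exp (2 * Real.log S + k + 2 * k * P / Cη) =
          Real.exp (Real.log S) * (Real.exp (Real.log S) * Real.exp (k + 2 * k * P / Cη)) := by
        rw [← Real.exp_add, ← Real.exp_add]
        congr 1
        ring
      rw [e5, ← e4]
      exact mul_le_mul_of_nonneg_left (mul_le_mul_of_nonneg_left e2 (by linarith))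
        (by linarith)
    have e7 : (K2 : ℝ) = Real.exp (Real.log K2) := (Real.exp_log (by linarith)).symm
    have e8 : Real.exp (Real.log K2 + 2 * Real.log S + k + 2 * k * P / Cη +
        CQ * s + (Cg + 1) * s) = Real.exp (Real.log K2) *
        Real.exp (2 * Real.log S + k + 2 * k * P / Cη) * Real.exp (CQ * s) *
        Real.exp ((Cg + 1) * s) := by
      rw [← Real.exp_add, ← Real.exp_add, ← Real.exp_add]
      congr 1
      ring
    rw [e8, ← e7, Real.exp_neg, div_inv_eq_mul]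
    refine mul_le_mul_of_nonneg_right ?_ (Real.exp_pos _).le
    refine mul_le_mul ?_ hQ (Nat.cast_nonneg _) (by positivity)
    exact mul_le_mul_of_nonneg_left e1 (by linarith)
  calc _ ≤ Real.exp (Real.log K2 + 2 * Real.log S + k + 2 * k * P / Cη +
      CQ * s + (Cg + 1) * s) ^ E2 := pow_le_pow_left₀ (by positivity) h1 E2
    _ = Real.exp (E2 * (Real.log K2 + 2 * Real.log S + k + 2 * k * P / Cη +
      CQ * s + (Cg + 1) * s)) := (Real.exp_nat_mul _ _).symm
    _ ≤ Real.exp (7 / 8 * P) := by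
      apply Real.exp_le_exp.2
      have e1 : (E2 : ℝ) * (2 * k * P / Cη) = P / 32 := by
        rw [hCη]
        field_simp
        ring
      have e2 : (E2 : ℝ) * (Real.log K2 + 2 * Real.log S + k + CQ * s + (Cg + 1) * s) ≤
          P / 2 := by
        have h4 : 0 ≤ Real.log K2 := Real.log_nonneg hK2r
        have h5 : 0 ≤ Real.log S := Real.log_nonneg hSr
        have h6 : (E2 : ℝ) * (Real.log K2 + 2 * Real.log S + k + CQ * s + (Cg + 1) * s) ≤
            E2 * (Real.log K2 + 2 * Real.log S + k + CQ + (Cg + 1)) * s := by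
          have h7 : Real.log K2 + 2 * Real.log S + k ≤
              (Real.log K2 + 2 * Real.log S + k) * s := by
            have h8 : 0 ≤ Real.log K2 + 2 * Real.log S + k := by positivity
            nlinarith only [h8, hs]
          have h9 := mul_le_mul_of_nonneg_left h7 (by linarith : (0 : ℝ) ≤ E2)
          linarith only [h9]
        have h10 := mul_le_mul_of_nonneg_right hs2 hs0.le
        rw [hsP] at h10
        linarith only [h6, h10]
      linarith only [e1, e2, hP]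

/-- the coefficient bound -/
lemma coeff_B (k S d : ℕ) (f : ℤ[X]) (X : ℝ) (hS : 1 ≤ S) (hX : 1 ≤ X)
    (h1 : ∀ j : ℕ, |f.coeff j| ≤ S * f.leadingCoeff) (h2 : f.leadingCoeff ≤ S * (d : ℤ) ^ k)
    (hd : (d : ℝ) ≤ 2 * X) :
    1 ≤ (S : ℝ) * (S * (2 * X) ^ k) ∧ ∀ j : ℕ, |(f.coeff j : ℝ)| ≤ (S : ℝ) * (S * (2 * X) ^ k) := by
  have hSr : (1 : ℝ) ≤ S := by exact_mod_cast hS
  constructor
  · have h1 : (1 : ℝ) ≤ (2 * X) ^ k := one_le_pow₀ (by linarith)
    have h2 : (1 : ℝ) ≤ S * (2 * X) ^ k := by nlinarith only [h1, hSr]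
    nlinarith only [h2, hSr]
  · intro j
    have h3 : |(f.coeff j : ℝ)| ≤ S * (f.leadingCoeff : ℝ) := by
      have := h1 j
      exact_mod_cast this
    have h4 : (f.leadingCoeff : ℝ) ≤ S * (d : ℝ) ^ k := by exact_mod_cast h2
    have h5 : (d : ℝ) ^ k ≤ (2 * X) ^ k := pow_le_pow_left₀ (Nat.cast_nonneg _) hd k
    calc |(f.coeff j : ℝ)| ≤ S * (f.leadingCoeff : ℝ) := h3
      _ ≤ S * (S * (d : ℝ) ^ k) := mul_le_mul_of_nonneg_left h4 (by linarith)
      _ ≤ _ := mul_le_mul_of_nonneg_left (mul_le_mul_of_nonneg_left h5 (by linarith)) (by linarith)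

/-- lower bound of the main term -/
lemma e2_bound (C0 s C2 P : ℝ) (Q w1 : ℕ) (hC0 : 0 ≤ C0) (hw1 : 2 ≤ w1)
    (hw1le : (w1 : ℝ) ≤ C2 * P) (hs : s ≤ Real.log Q)
    (hlog2 : (5 * C0 + 1) * Real.log (C2 * P + 2) ≤ s) :
    Real.exp (-(2 * C0)) / 2 ≤
      Real.exp (-(2 * C0)) - Real.exp (3 * C0 - Real.log Q / Real.log w1) := by
  have hw1r : (2 : ℝ) ≤ w1 := by exact_mod_cast hw1
  have h1 : 0 < Real.log w1 := Real.log_pos (by linarith)
  have h2 : Real.log w1 ≤ Real.log (C2 * P + 2) := Real.log_le_log (by linarith) (by linarith)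
  have h3 : 5 * C0 + 1 ≤ Real.log Q / Real.log w1 := by
    rw [le_div_iff₀ h1]
    have h5 : (5 * C0 + 1) * Real.log w1 ≤ (5 * C0 + 1) * Real.log (C2 * P + 2) :=
      mul_le_mul_of_nonneg_left h2 (by linarith)
    linarith
  have h4 : Real.exp (3 * C0 - Real.log Q / Real.log w1) ≤ Real.exp (-(2 * C0) + -1) := by
    apply Real.exp_le_exp.2
    linarith
  rw [Real.exp_add] at h4
  have h5 : Real.exp (-1) ≤ 1 / 2 := by
    rw [Real.exp_neg, inv_eq_one_div]
    apply one_div_le_one_div_of_le (by norm_num)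
    have := Real.add_one_le_exp (1 : ℝ)
    linarith
  have h6 := Real.exp_pos (-(2 * C0))
  nlinarith only [h4, h5, h6]

/-- the final numeric contradiction -/
lemma final_num (C0 s lam εu εc : ℝ) (hlam : lam = Real.exp (-(3 * C0)) / 64)
    (hεu : εu ≤ Real.exp (-(2 * C0)) / 200)
    (hε1 : (1 / lam + 1) * εc ≤ Real.exp (-(2 * C0)) / 32) (hs3 : 2 * C0 + 5 ≤ s)
    (hfin : 1 / 2 * (Real.exp (-(2 * C0)) / 2) ≤ 2 * lam * Real.exp C0 +
      (1 / lam + 1) * εc + 4 * εu + Real.exp (-s)) : False := by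
  have hE0pos := Real.exp_pos (-(2 * C0))
  have f1 : 2 * lam * Real.exp C0 = Real.exp (-(2 * C0)) / 32 := by
    rw [hlam]
    have : Real.exp (-(3 * C0)) * Real.exp C0 = Real.exp (-(2 * C0)) := by
      rw [← Real.exp_add]; congr 1; ring
    linarith
  have f2 : Real.exp (-s) ≤ Real.exp (-(2 * C0)) / 100 := by
    have h1 : Real.exp (-s) ≤ Real.exp (-(2 * C0) + -5) := Real.exp_le_exp.2 (by linarith)
    rw [Real.exp_add] at h1
    have h2 : Real.exp (-5) ≤ 1 / 100 := by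
      rw [Real.exp_neg, inv_eq_one_div]
      exact one_div_le_one_div_of_le (by norm_num) exp_five
    nlinarith only [h1, h2, hE0pos]
  linarith

/-- psi and mass bounds for the moduli of small cost -/
lemma R_bounds {k N' Nmin w w1 Q t : ℕ} {τ η ζ Φ : ℝ} {G : ℤ → ℝ} {ν : ℕ → ℤ → ℝ}
    (hH : Hyp k N' Nmin w w1 τ η ζ Φ G ν) (hNu : NuStmt) (Ce Cg Cc Ms s P : ℝ) (hk : 1 ≤ k)
    (hs : 0 < s) (hsP : s * s = P) (hη : η = Ce / s) (hCcs : 8 * k * Cc ≤ s)
    (hMs : Ms = 3 * Real.exp (2 * k * Ce * Cc + 1)) (Gm : ℝ)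
    (hmt : ∀ y : ℤ, MassOK P Cg (2 * k * Ce) (1 / (8 * k)) t G y Φ Gm)
    (R : Finset (ℕ × ℕ)) (hR : R ⊆ Ic w w1 Q) (hc : cost R ≤ Cc * s) :
    (∀ n, psi ν (SOf w R) n ≤ Ms) ∧
    ∀ y x : ℤ, mass G y t (WR R) x ≤ Ms * Φ * t / (WR R : ℕ) := by
  have hsq : Real.sqrt P = s := by rw [← hsP]; exact Real.sqrt_mul_self hs.le
  have hkr : (1 : ℝ) ≤ k := by exact_mod_cast hk
  have hkη : (k : ℝ) * η * (Cc * s) = k * Ce * Cc := by
    rw [hη]; field_simp
  have hkη0 : 0 ≤ (k : ℝ) * η := mul_nonneg (by linarith) hH.η0.le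
  have hΦpos := hH.pin.Φpos
  have hSlog : ∑ p ∈ SOf w R, Real.log p ≤ cost R := by
    rw [← log_WR' hR]
    refine sum_log_dvd (fun p hp => (fin_Wp_mem.1 (SOf_subset hR hp)).2.2) (WR_pos' hR) ?_
    intro p hp
    rw [WR_eq hR]
    exact Dvd.dvd.mul_left (dvd_prod_of_mem _ hp) _
  constructor
  · intro n
    refine (hH.psi_exp hNu (SOf_subset hR) n).trans ?_
    have h1 : Real.exp (1 / 50 + 2 * k * η * ∑ p ∈ SOf w R, Real.log p) ≤
        Real.exp (2 * k * Ce * Cc + 1) := by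
      apply Real.exp_le_exp.2
      have h2 := mul_le_mul_of_nonneg_left (hSlog.trans hc) hkη0
      rw [hkη] at h2
      linarith
    rw [hMs]
    have := Real.exp_pos (2 * k * Ce * Cc + 1)
    linarith
  · intro y x
    have hD1 := WR_pos' hR
    have hDr : (1 : ℝ) ≤ (WR R : ℕ) := by exact_mod_cast hD1
    have hlogD : Real.log (WR R : ℕ) ≤ Cc * s := by rw [log_WR' hR]; exact hc
    have hDle : ((WR R : ℕ) : ℝ) ≤ Real.exp (1 / (8 * k) * P) := by
      rw [← Real.exp_log (by linarith : (0 : ℝ) < (WR R : ℕ))]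
      apply Real.exp_le_exp.2
      refine hlogD.trans ?_
      have h1 := mul_le_mul_of_nonneg_right hCcs hs.le
      rw [hsP] at h1
      rw [one_div, inv_mul_eq_div, le_div_iff₀ (by positivity)]
      linarith
    have h1 := (hmt y).mass_le (WR R) hD1 hDle x
    rw [hsq] at h1
    refine h1.trans ?_
    have h2 : 3 * ((WR R : ℕ) : ℝ) ^ (2 * k * Ce / s) ≤ Ms := by
      rw [Real.rpow_def_of_pos (by linarith), hMs]
      have h3 : Real.exp (Real.log (WR R : ℕ) * (2 * k * Ce / s)) ≤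
          Real.exp (2 * k * Ce * Cc + 1) := by
        apply Real.exp_le_exp.2
        have h4 := mul_le_mul_of_nonneg_left hlogD hkη0
        rw [hkη] at h4
        have h5 : Real.log (WR R : ℕ) * (2 * k * Ce / s) = 2 * (k * η * Real.log (WR R : ℕ)) := by
          rw [hη]; ring
        rw [h5]
        linarith
      linarith
    have h6 : 0 ≤ Φ * t / (WR R : ℕ) := by positivity
    have h7 := mul_le_mul_of_nonneg_right h2 h6
    calc 3 * ((WR R : ℕ) : ℝ) ^ (2 * k * Ce / s) * Φ * t / (WR R : ℕ)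
        = 3 * ((WR R : ℕ) : ℝ) ^ (2 * k * Ce / s) * (Φ * t / (WR R : ℕ)) := by ring
      _ ≤ Ms * (Φ * t / (WR R : ℕ)) := h7
      _ = Ms * Φ * t / (WR R : ℕ) := by ring

/-- geometry of windows: `t = N'/(8 m0)`, `H = m0 t` -/
lemma window_facts (N' m0 : ℕ) (s P : ℝ) (hm : 1 ≤ m0) (hs : 8 ≤ s) (hsP : s * s = P)
    (hs4 : Real.log (16 * m0) + 1 ≤ s) (hN : Real.exp (7 / 8 * P) ≤ N') (t : ℕ)
    (ht : t = N' / (8 * m0)) :
    1 ≤ t ∧ 8 * m0 * t ≤ N' ∧ N' ≤ 16 * m0 * t ∧ t ≤ N' ∧ Real.exp (3 / 4 * P) ≤ t := by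
  have hm1r : (1 : ℝ) ≤ m0 := by exact_mod_cast hm
  have h8m : 0 < 8 * m0 := by omega
  have htN : 8 * m0 * t ≤ N' := by rw [ht]; exact Nat.mul_div_le N' (8 * m0)
  have hNt : N' < 8 * m0 * (t + 1) := by rw [ht]; exact Nat.lt_mul_div_succ N' h8m
  have hlog : (16 * m0 : ℝ) ≤ Real.exp (P / 8) := by
    have h4 : (16 * m0 : ℝ) = Real.exp (Real.log (16 * m0)) := by
      rw [Real.exp_log (by positivity)]
    rw [h4]
    apply Real.exp_le_exp.2
    have h2 : s ≤ P / 8 := by rw [← hsP]; nlinarith only [hs]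
    linarith
  have hbigN : (16 * m0 : ℝ) ≤ N' := by
    refine hlog.trans (le_trans (Real.exp_le_exp.2 ?_) hN)
    have : 0 < P := by rw [← hsP]; nlinarith only [hs]
    linarith
  have hbigN' : 16 * m0 ≤ N' := by exact_mod_cast hbigN
  have ht1 : 1 ≤ t := by
    rw [ht, Nat.le_div_iff_mul_le h8m]
    omega
  have hN16 : N' ≤ 16 * m0 * t := by
    have h1 : 8 * m0 * (t + 1) ≤ 16 * m0 * t := by nlinarith only [ht1, hm]
    omega
  refine ⟨ht1, htN, hN16, ?_, ?_⟩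
  · calc t ≤ 8 * m0 * t := by nlinarith only [hm, ht1]
      _ ≤ N' := htN
  · have h1 : Real.exp (7 / 8 * P) ≤ 16 * m0 * t := by
      refine hN.trans ?_
      exact_mod_cast hN16
    have h2 : Real.exp (7 / 8 * P) = Real.exp (3 / 4 * P) * Real.exp (P / 8) := by
      rw [← Real.exp_add]; congr 1; ring
    rw [h2] at h1
    have h4 : Real.exp (3 / 4 * P) * (16 * m0) ≤ t * (16 * m0) := by
      have := mul_le_mul_of_nonneg_left hlog (Real.exp_pos (3 / 4 * P)).le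
      linarith
    exact le_of_mul_le_mul_right h4 (by positivity)

end Vale.Agent.P042.SS
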