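import Vale.Agent.P042.SS.FinE
import Vale.Agent.P042.SS.FinG0

set_option autoImplicit false

/-!
Final assembly, part F: the pinned state at one scale and the contradiction.
-/

namespace Vale.Agent.P042.SS

open Polynomial Finset

section

variable {k p0 m0 J : ℕ} {A Cη Ce C0 C2 Cc c1 s P : ℝ}

lemma Sc.P64 (h : Sc k p0 m0 J A Cη Ce C0 C2 Cc c1 s P) : 64 ≤ P := by
  rw [← h.sP]; nlinarith [h.s8]

lemma Sc.sqrt (h : Sc k p0 m0 J A Cη Ce C0 C2 Cc c1 s P) : Real.sqrt P = s := by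
  rw [← h.sP]; exact Real.sqrt_mul_self (by linarith [h.s8])

end

/-- the pinned state at one scale -/
lemma exists_state (hExt : ExtStmt) (hPart : PartStmt)
    {h : ℤ[X]} {lam : ℕ → ℕ} {r : ℕ → ℤ} {Hh : ℕ → ℤ[X]} {R : ℕ}
    (hAux : AuxData h lam r Hh R) (k p0 m0 J : ℕ) (hk : h.natDegree = k) (hk2 : 2 ≤ k)
    (A Cη Ce C0 C2 Cc c1 s P : ℝ) (hsc : Sc k p0 m0 J A Cη Ce C0 C2 Cc c1 s P)
    (hA : 0 < A) (hCη : 64 ≤ Cη) (hCe : Ce = Cη * A) (hC0 : 0 ≤ C0) (hC2 : 0 < C2)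
    (hJ : 12 * C2 + 2 ≤ J)
    (N : ℕ) (hN1 : 1 ≤ N) (hN : Real.log N = P) (A0 : Finset ℤ) (hA0 : A0 ⊆ Icc (1 : ℤ) N)
    (hfree : DiffFree h A0) (hcard : Real.exp (-(A * s)) * N ≤ A0.card) :
    ∃ (d N' Nmin : ℕ) (Φ : ℝ) (G : ℤ → ℝ) (ν : ℕ → ℤ → ℝ), 1 ≤ d ∧
      (d : ℝ) ≤ 2 * Real.exp (2 * P / Cη) ∧ Real.exp (7 / 8 * P) ≤ N' ∧
      (N' : ℝ) ≤ Real.exp P ∧ (Nmin : ℝ) ≤ Real.exp (P / 2) + 1 ∧
      Real.exp (-(A * s)) ≤ Φ ∧
      (∀ n m : ℤ, G n ≠ 0 → G m ≠ 0 → ∀ x : ℕ, 1 ≤ x → n - m = (Hh d).eval (x : ℤ) → n = m) ∧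
      (1 / (J : ℝ)) * ∑ p ∈ Wp ⌊c1 * P⌋₊ ⌊C2 * P⌋₊, Real.log p ≤ P / 8 ∧
      Hyp k N' Nmin ⌊c1 * P⌋₊ ⌊C2 * P⌋₊ (1 / (J : ℝ)) (Ce / s)
        ((⌊C2 * P⌋₊ : ℝ) ^ k / N') Φ G ν := by
  have hs8 := hsc.s8
  have hs0 : 0 < s := by linarith
  have hP := hsc.P64
  have hNr : (0 : ℝ) < N := by exact_mod_cast hN1
  have hNexp : (N : ℝ) = Real.exp P := by rw [← hN, Real.exp_log hNr]
  have hCepos : 0 < Ce := by rw [hCe]; positivity
  set w := ⌊c1 * P⌋₊ with hw
  set w1 := ⌊C2 * P⌋₊ with hw1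
  have hw1le : (w1 : ℝ) ≤ C2 * P := Nat.floor_le (by positivity)
  have hJr : (2 : ℝ) ≤ J := by linarith
  have hJ2 : 2 ≤ J := by exact_mod_cast hJr
  have hlogw1 : ∀ p ∈ Wp w w1, 1 ≤ p ∧ Real.log p ≤ P / 8 := by
    intro p hp
    obtain ⟨h1, h2, h3⟩ := fin_Wp_mem.1 hp
    refine ⟨h3.one_le, ?_⟩
    have h4 : Real.log p ≤ Real.log (C2 * P + 2) := by
      apply Real.log_le_log
      · exact_mod_cast h3.pos
      · have : (p : ℝ) ≤ w1 := by exact_mod_cast h2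
        linarith
    have h5 := hsc.log2
    have h6 : 0 ≤ Real.log (C2 * P + 2) := Real.log_nonneg (by have := hsc.C2P; linarith)
    have h7 : Real.log (C2 * P + 2) ≤ s := by nlinarith only [h5, h6, hC0]
    have h8 : s ≤ P / 8 := by rw [← hsc.sP]; nlinarith only [hs8]
    linarith
  have hlog4 : Real.log 4 ≤ 3 / 2 := by
    have : Real.log 4 = 2 * Real.log 2 := by
      rw [show (4 : ℝ) = 2 ^ 2 by norm_num, Real.log_pow]; norm_num
    rw [this]
    have := Real.log_two_lt_d9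
    linarith
  have hθ : ∑ p ∈ Wp w w1, Real.log p ≤ (J - 1) * (P / 8) := by
    refine (theta_Wp w w1).trans ?_
    have h1 : Real.log 4 * w1 ≤ 3 / 2 * (C2 * P) :=
      mul_le_mul hlog4 hw1le (Nat.cast_nonneg _) (by norm_num)
    have h2 : 12 * C2 * (P / 8) ≤ (J - 1) * (P / 8) :=
      mul_le_mul_of_nonneg_right (by linarith) (by linarith)
    linarith
  obtain ⟨bk, hbk1, hbk2⟩ := hPart (Wp w w1) (P / 8) J (by linarith) hlogw1 hθ (by omega)
  set Nmin := ⌈Real.exp (P / 2)⌉₊ with hNmin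
  have hNminle : (Nmin : ℝ) ≤ Real.exp (P / 2) + 1 := (Nat.ceil_lt_add_one (Real.exp_pos _).le).le
  have hNminge : Real.exp (P / 2) ≤ Nmin := Nat.le_ceil _
  have hprod : ∀ i < J, ∏ p ∈ (Wp w w1).filter (fun p => bk p = i), p ≤ Nmin := by
    intro i _
    have h1 := hbk2 i
    have h2 : ∑ p ∈ (Wp w w1).filter (fun p => bk p = i), Real.log p =
        Real.log ((∏ p ∈ (Wp w w1).filter (fun p => bk p = i), p : ℕ) : ℝ) := by
      push_cast
      rw [Real.log_prod]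
      intro p hp
      have := (fin_Wp_mem.1 (mem_filter.1 hp).1).2.2.pos
      positivity
    have hpos : (0 : ℝ) < ((∏ p ∈ (Wp w w1).filter (fun p => bk p = i), p : ℕ) : ℝ) := by
      have : 0 < ∏ p ∈ (Wp w w1).filter (fun p => bk p = i), p :=
        prod_pos fun p hp => (fin_Wp_mem.1 (mem_filter.1 hp).1).2.2.pos
      exact_mod_cast this
    rw [h2] at h1
    have h3 : ((∏ p ∈ (Wp w w1).filter (fun p => bk p = i), p : ℕ) : ℝ) ≤ Real.exp (P / 2) := by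
      rw [← Real.exp_log hpos]
      exact Real.exp_le_exp.2 (by linarith)
    exact_mod_cast h3.trans hNminge
  have hη0 : 0 < Ce / s := by positivity
  have hη1 : Ce / s ≤ 1 := by
    rw [div_le_one hs0]
    have := hsc.Ces
    linarith
  have hNmin2 : 2 ≤ Nmin := by
    have h1 : (2 : ℝ) ≤ Nmin := by
      refine le_trans ?_ hNminge
      have := Real.add_one_le_exp (P / 2)
      linarith
    exact_mod_cast h1
  have hNminN : Nmin ≤ N := by
    have h1 : (Nmin : ℝ) ≤ N := by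
      refine hNminle.trans ?_
      rw [hNexp]
      have h2 : Real.exp P = Real.exp (P / 2) * Real.exp (P / 2) := by
        rw [← Real.exp_add]; congr 1; ring
      have h3 : 2 ≤ Real.exp (P / 2) := by
        have := Real.add_one_le_exp (P / 2)
        linarith
      rw [h2]
      nlinarith only [h3]
    exact_mod_cast h1
  obtain ⟨d, N', Φ, G, ν, hd1, hNN', hN'N, hdN, hαΦ, hΦ2, hmax, hpin, hdf⟩ :=
    hExt h lam r Hh R hAux (by omega) N Nmin J A0 (Real.exp (-(A * s))) (Ce / s) (Wp w w1) bk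
      hA0 hfree (Real.exp_pos _) hcard hNmin2 hNminN hη0 hη1 hJ2
      (fun p hp => ⟨(fin_Wp_mem.1 hp).2.2, hbk1 p hp⟩) hprod
  rw [hk] at hpin
  have hN'1 : 1 ≤ N' := by omega
  have hN'r : (0 : ℝ) < N' := by exact_mod_cast hN'1
  have hΦpos := hpin.Φpos
  have hlow := n_lower A Ce Cη s P Φ N N' hsc.sP (by linarith) hA (by linarith) hCe hN1 hN hN'1
    hΦpos hΦ2 hsc.As hmax
  have hlow2 : Real.exp (7 / 8 * P) ≤ N' := by
    refine le_trans (Real.exp_le_exp.2 ?_) hlow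
    have h1 : 2 * P / Cη ≤ P / 8 := by
      rw [div_le_iff₀ (by linarith)]
      nlinarith only [hCη, hP]
    linarith
  have hN'le : (N' : ℝ) ≤ Real.exp P := by
    rw [← hNexp]; exact_mod_cast hN'N
  have hbig := hsc.big
  have hC2P := hsc.C2P
  have hx1 : (1 : ℝ) ≤ C2 * P + 1 := by linarith
  have hw1k : (w1 : ℝ) ^ k ≤ (C2 * P + 1) ^ (k + 2) := by
    calc (w1 : ℝ) ^ k ≤ (C2 * P + 1) ^ k :=
          pow_le_pow_left₀ (Nat.cast_nonneg _) (by linarith) k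
      _ ≤ (C2 * P + 1) ^ (k + 2) := pow_le_pow_right₀ hx1 (by omega)
  refine ⟨d, N', Nmin, Φ, G, ν, hd1, ?_, hlow2, hN'le, hNminle, hαΦ, hdf, ?_, ?_⟩
  · -- bound for d
    have h1 : (d : ℝ) * (N' - 1 : ℕ) ≤ N := by exact_mod_cast hdN
    have h2 : (N' : ℝ) / 2 ≤ ((N' - 1 : ℕ) : ℝ) := by
      have h3 : 2 ≤ N' := le_trans hNmin2 hNN'
      rw [Nat.cast_sub (by omega)]
      have : (2 : ℝ) ≤ N' := by exact_mod_cast h3
      push_cast
      linarith
    have h4 : (d : ℝ) * (N' / 2) ≤ N :=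
      (mul_le_mul_of_nonneg_left h2 (Nat.cast_nonneg _)).trans h1
    rw [hNexp] at h4
    have h5 : Real.exp P = Real.exp (2 * P / Cη) * Real.exp (P - 2 * P / Cη) := by
      rw [← Real.exp_add]; congr 1; ring
    have h6 : Real.exp P ≤ Real.exp (2 * P / Cη) * N' := by
      rw [h5]
      exact mul_le_mul_of_nonneg_left hlow (Real.exp_pos _).le
    have h7 : (d : ℝ) * N' ≤ (2 * Real.exp (2 * P / Cη)) * N' := by linarith only [h4, h6]
    exact le_of_mul_le_mul_right h7 hN'r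
  · -- theta
    have h1 := mul_le_mul_of_nonneg_left hθ (by positivity : 0 ≤ 1 / (J : ℝ))
    refine h1.trans ?_
    rw [← mul_assoc]
    have h2 : 1 / (J : ℝ) * ((J : ℝ) - 1) ≤ 1 := by
      rw [one_div, inv_mul_le_iff₀ (by linarith)]
      linarith
    have := mul_le_mul_of_nonneg_right h2 (by linarith : 0 ≤ P / 8)
    linarith
  · -- Hyp
    refine ⟨hpin, by positivity, ?_, hη0, by positivity, ?_, ?_, ?_, hN'1⟩
    · rw [div_le_div_iff₀ (by linarith) (by norm_num)]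
      linarith
    · rw [div_mul_cancel₀ _ hN'r.ne']
    · rw [div_mul_eq_mul_div, div_le_iff₀ hN'r, ← pow_succ]
      have h1 : (w1 : ℝ) ^ (k + 1) ≤ (C2 * P + 1) ^ (k + 2) := by
        calc (w1 : ℝ) ^ (k + 1) ≤ (C2 * P + 1) ^ (k + 1) :=
              pow_le_pow_left₀ (Nat.cast_nonneg _) (by linarith) _
          _ ≤ (C2 * P + 1) ^ (k + 2) := pow_le_pow_right₀ hx1 (by omega)
      have h2 : Real.exp (P / 16) ≤ N' := by
        refine le_trans (Real.exp_le_exp.2 ?_) hlow2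
        linarith
      linarith
    · have h1 : (w1 : ℝ) ^ k * Nmin ≤ N' := by
        have h2 : (w1 : ℝ) ^ k ≤ Real.exp (P / 16) / 200 := by
          rw [le_div_iff₀ (by norm_num)]
          linarith
        have h3 : (Nmin : ℝ) ≤ 2 * Real.exp (P / 2) := by
          have : 1 ≤ Real.exp (P / 2) := Real.one_le_exp (by linarith)
          linarith
        have h4 := mul_le_mul h2 h3 (Nat.cast_nonneg _) (by positivity)
        refine h4.trans (le_trans ?_ hlow2)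
        have h5 : Real.exp (P / 16) * Real.exp (P / 2) ≤ Real.exp (7 / 8 * P) := by
          rw [← Real.exp_add]
          exact Real.exp_le_exp.2 (by linarith)
        have h6 := Real.exp_pos (7 / 8 * P)
        linarith
      exact_mod_cast h1

end Vale.Agent.P042.SS
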