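import Vale.Agent.P042.SS.FinF
import Vale.Agent.P042.SS.FinE2

set_option autoImplicit false

/-!
Final assembly, part G: the contradiction at one scale.
-/

namespace Vale.Agent.P042.SS

open Polynomial Finset

/-- smallness at the primes of the window -/
lemma small_primes {k N' Nmin w w1 : ℕ} {τ η ζ Φ : ℝ} {G : ℤ → ℝ} {ν : ℕ → ℤ → ℝ}
    (hH : Hyp k N' Nmin w w1 τ η ζ Φ G ν) (C2 Ce s P : ℝ) (hs : 0 < s) (hη : η = Ce / s)
    (hw1 : 1 ≤ w1) (hw1le : (w1 : ℝ) ≤ C2 * P)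
    (hlog1 : 10 * k * Ce * Real.log (C2 * P + 2) ≤ s) :
    (∀ p ∈ Wp w w1, k * η * Real.log p ≤ 1 / 10) ∧
    (∀ p ∈ Wp w w1, 2 * (ζ + k * η * Real.log p) ≤ 1) := by
  have hζle : ζ ≤ 1 / 100 := by
    have h1 := hH.hζ1
    have h2 : (1 : ℝ) ≤ w1 := by exact_mod_cast hw1
    have h3 := hH.ζ0
    nlinarith only [h1, h2, h3]
  have hpW : ∀ p ∈ Wp w w1, k * η * Real.log p ≤ 1 / 10 := by
    intro p hp
    obtain ⟨h1, h2, h3⟩ := fin_Wp_mem.1 hp
    have h4 : Real.log p ≤ Real.log (C2 * P + 2) := by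
      apply Real.log_le_log
      · exact_mod_cast h3.pos
      · have : (p : ℝ) ≤ w1 := by exact_mod_cast h2
        linarith
    have h6 : (k : ℝ) * η * Real.log p ≤ k * η * Real.log (C2 * P + 2) :=
      mul_le_mul_of_nonneg_left h4 (mul_nonneg (Nat.cast_nonneg _) hH.η0.le)
    refine h6.trans ?_
    have h7 : (k : ℝ) * η * Real.log (C2 * P + 2) = k * Ce * Real.log (C2 * P + 2) / s := by
      rw [hη]; ring
    rw [h7, div_le_iff₀ hs]
    linarith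
  refine ⟨hpW, fun p hp => ?_⟩
  have := hpW p hp
  linarith

/-- the three mass conditions -/
lemma three_masses {k N' Nmin w w1 m0 t : ℕ} {τ η ζ Φ : ℝ} {G : ℤ → ℝ} {ν : ℕ → ℤ → ℝ}
    (hH : Hyp k N' Nmin w w1 τ η ζ Φ G ν) (hNu : NuStmt) (Ce Cg s P : ℝ) (hk : 1 ≤ k)
    (hCe : 0 < Ce) (hs : 3 ≤ s) (hsP : s * s = P) (hη : η = Ce / s)
    (hGm : ∀ n, G n ≤ Real.exp (Cg * s) * Φ)
    (hNmin : (Nmin : ℝ) ≤ Real.exp (P / 2) + 1) (hm : 1 ≤ m0) (ht : 1 ≤ t)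
    (h8 : 8 * m0 * t ≤ N') (h16 : N' ≤ 16 * m0 * t) (hexpt : Real.exp (3 / 4 * P) ≤ t)
    (hm0s : 5 * Ce * Real.log (16 * m0) ≤ 2 * s) :
    (∀ y : ℤ, MassOK P Cg (2 * k * Ce) (1 / (8 * k)) (m0 * t) G y Φ (Real.exp (Cg * s) * Φ)) ∧
    (∀ y : ℤ, MassOK P Cg (2 * k * Ce) (1 / (8 * k)) t G y Φ (Real.exp (Cg * s) * Φ)) ∧
    MassOK P Cg (2 * k * Ce) (1 / (8 * k)) N' G 0 Φ (Real.exp (Cg * s) * Φ) := by
  have hs0 : 0 < s := by linarith
  have hm1r : (1 : ℝ) ≤ m0 := by exact_mod_cast hm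
  have htr : (0 : ℝ) < t := by exact_mod_cast ht
  have hN'r : (0 : ℝ) < N' := by exact_mod_cast hH.N1
  have hH1 : 1 ≤ m0 * t := Nat.mul_pos hm ht
  have hHr : (0 : ℝ) < (m0 * t : ℕ) := by exact_mod_cast hH1
  have hlog16 : η * Real.log (16 * m0) ≤ 2 / 5 := by
    rw [hη, div_mul_eq_mul_div, div_le_iff₀ hs0]
    linarith
  have hlog16' : η * Real.log 16 ≤ 2 / 5 := by
    refine le_trans ?_ hlog16
    refine mul_le_mul_of_nonneg_left ?_ hH.η0.le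
    exact Real.log_le_log (by norm_num) (by linarith)
  have hratH : ((N' : ℝ) / (m0 * t : ℕ)) ^ η ≤ 3 / 2 := by
    have h1 : (N' : ℝ) / (m0 * t : ℕ) ≤ 16 := by
      rw [div_le_iff₀ hHr]
      have : N' ≤ 16 * (m0 * t) := by
        calc N' ≤ 16 * m0 * t := h16
          _ = 16 * (m0 * t) := by ring
      exact_mod_cast this
    refine (Real.rpow_le_rpow (by positivity) h1 hH.η0.le).trans ?_
    exact rpow_small 16 η (by norm_num) hlog16'
  have hratt : ((N' : ℝ) / t) ^ η ≤ 3 / 2 := by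
    have h1 : (N' : ℝ) / t ≤ 16 * m0 := by
      rw [div_le_iff₀ htr]
      exact_mod_cast h16
    refine (Real.rpow_le_rpow (by positivity) h1 hH.η0.le).trans ?_
    exact rpow_small (16 * m0) η (by linarith) hlog16
  have hratN : ((N' : ℝ) / N') ^ η ≤ 3 / 2 := by
    rw [div_self hN'r.ne', Real.one_rpow]
    norm_num
  have htH : t ≤ m0 * t := by nlinarith only [hm, ht]
  have hHN : m0 * t ≤ N' := by
    refine le_trans ?_ h8
    nlinarith only [hH1]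
  have hexpH : Real.exp (3 / 4 * P) ≤ (m0 * t : ℕ) := hexpt.trans (by exact_mod_cast htH)
  have hexpN : Real.exp (3 / 4 * P) ≤ N' := hexpH.trans (by exact_mod_cast hHN)
  refine ⟨fun y => ?_, fun y => ?_, ?_⟩
  · exact massOK_of hH hNu Ce Cg s P hk hCe hs hsP hη hGm hNmin (m0 * t) y hexpH hHN hratH
  · exact massOK_of hH hNu Ce Cg s P hk hCe hs hsP hη hGm hNmin t y hexpt (htH.trans hHN) hratt
  · exact massOK_of hH hNu Ce Cg s P hk hCe hs hsP hη hGm hNmin N' 0 hexpN le_rfl hratN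

theorem scale_holds (hExt : ExtStmt) (hNu : NuStmt) (hKL2 : KL2Stmt) (hPh : PihatStmt)
    (hMain : MainStmt) (hTh : ThStmt) (hThEn : ThEnStmt) (hPart : PartStmt) (hRM : RMStmt) :
    ScaleStmt := by
  intro h lam0 r Hh R hAux k E2 K2 S p0 m0 J hk hpos hcoef hANi kap hk0 hk1 hkap1 hGam
    A Cη Ce Cg CQ cY CM C0 C2 Ccost Cc Ms lam εu ε1 c1 s P hK hsc hJ hCost hU1 hU2 hE
    N hN1 hN A0 hA0 hfree hcard
  have hk2 := hK.k2
  have hkr : (2 : ℝ) ≤ k := by exact_mod_cast hk2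
  have hs8 := hsc.s8
  have hs0 : 0 < s := by linarith
  have hP := hsc.P64
  have hsq := hsc.sqrt
  have hA := hK.hA
  have hE2r : (1 : ℝ) ≤ E2 := by exact_mod_cast hK.hE2
  have hm1 := hK.hm
  have hCη64 : 64 ≤ Cη := by
    rw [hK.hCη]
    nlinarith only [hkr, hE2r]
  have hCepos : 0 < Ce := by rw [hK.hCe]; positivity
  have hCg1 : 1 ≤ Cg := by
    rw [hK.hCg]
    have : 0 ≤ (k : ℝ) * Ce := by positivity
    linarith
  have hC0nn : 0 ≤ C0 := by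
    rw [hK.hC0]
    have := hK.hCM
    have := Real.sqrt_nonneg cY
    positivity
  have hC2pos := hK.hC2
  rw [hsq] at hU2 hE
  obtain ⟨d, N', Nmin, Φ, G, ν, hd1, hdle, hN'ge, hN'le, hNminle, hΦge, hdf, hθ, hH⟩ :=
    exists_state hExt hPart hAux k p0 m0 J hk hk2 A Cη Ce C0 C2 Cc c1 s P hsc hA hCη64 hK.hCe
      hC0nn hC2pos hJ N hN1 hN A0 hA0 hfree hcard
  set w := ⌊c1 * P⌋₊ with hw
  set w1 := ⌊C2 * P⌋₊ with hw1
  have hw1le : (w1 : ℝ) ≤ C2 * P := Nat.floor_le (by positivity)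
  have hw12 : 2 ≤ w1 := by
    rw [hw1]
    refine Nat.le_floor ?_
    have := hsc.C2P
    push_cast
    linarith
  have hΦpos := hH.pin.Φpos
  have hGm : ∀ n, G n ≤ Real.exp (Cg * s) * Φ := fun n =>
    Gm_bound hH hNu A Ce Cg s P hA.le hCepos (by linarith) hsc.sP rfl hK.hCg hθ hΦge n
  obtain ⟨ht1, htN, hN16, htN', hexpt⟩ :=
    window_facts N' m0 s P hm1 hs8 hsc.sP hK.s4 hN'ge (N' / (8 * m0)) rfl
  set t := N' / (8 * m0) with ht
  have h8H : 8 * (m0 * t) ≤ N' := by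
    calc 8 * (m0 * t) = 8 * m0 * t := by ring
      _ ≤ N' := htN
  have hN16H : N' ≤ 16 * (m0 * t) := by
    calc N' ≤ 16 * m0 * t := hN16
      _ = 16 * (m0 * t) := by ring
  have hH1 : 1 ≤ m0 * t := Nat.mul_pos hm1 ht1
  obtain ⟨hmassH, hmasst, hmassN⟩ := three_masses hH hNu Ce Cg s P (by omega) hCepos (by linarith)
    hsc.sP rfl hGm hNminle hm1 ht1 htN hN16 hexpt hsc.m0s
  obtain ⟨hpW, hsmall⟩ := small_primes hH C2 Ce s P hs0 rfl (by omega) hw1le hsc.log1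
  have hlarge : ∀ p ∈ Wp w w1, p0 < p := by
    intro p hp
    obtain ⟨h1, h2, h3⟩ := fin_Wp_mem.1 hp
    have h4 : p0 < w := by
      have : p0 + 1 ≤ w := by
        refine Nat.le_floor ?_
        push_cast
        exact hsc.c1P
      omega
    omega
  have hkapW : ∀ p ∈ Wp w w1, kap p 1 ≤ k / Real.sqrt p := fun p hp =>
    hkap1 p (fin_Wp_mem.1 hp).2.2 (hlarge p hp)
  have hC0 : ∑ p ∈ Wp w w1, kap p 1 * th ν p ≤ C0 := by
    rw [hK.hC0]
    refine C0_bound hH hNu hTh hThEn kap CM cY Ce s hkapW hk0 hCepos hs0 rfl hK.hcY.le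
      (Y := ⌊cY * P⌋₊) ?_ hsmall (hU1 N' G 0 Φ _ hmassN)
    have h1 : ((⌊cY * P⌋₊ : ℕ) : ℝ) ≤ cY * P := Nat.floor_le (by have := hK.hcY; positivity)
    refine (Real.sqrt_le_sqrt h1).trans (le_of_eq ?_)
    rw [Real.sqrt_mul hK.hcY.le, hsq]
  have hC0' : ∀ p ∈ Wp w w1, kap p 1 * th ν p ≤ 1 / 2 := by
    intro p hp
    obtain ⟨h1, h2⟩ := hH.th_small hNu hTh hp (hsmall p hp)
    have h3 := hpW p hp
    have h5 := hH.hζ1
    have h6 : (1 : ℝ) ≤ w1 := by exact_mod_cast (by omega : 1 ≤ w1)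
    have h7 := hH.ζ0
    have h4 : th ν p ≤ 1 / 2 := by nlinarith only [h2, h3, h5, h6, h7]
    calc kap p 1 * th ν p ≤ 1 * th ν p := mul_le_mul_of_nonneg_right (hk1 _ _) h1
      _ ≤ 1 / 2 := by rw [one_mul]; exact h4
  have hfdeg : (Hh d).natDegree = k := by rw [hAux.natDegree_H (by omega) d hd1, hk]
  have hflead : 0 < (Hh d).leadingCoeff := hAux.lead_pos (by omega) hpos d hd1
  have hfcont := hAux.hgcd d hd1
  obtain ⟨hQge, hQ1, hlogQle, hlogQge, hQexp⟩ := Q_facts E2 K2 Cg CQ s hK.hE2 hK.hK2 hCg1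
    (by linarith) hK.hCQ hK.s1 _ rfl
  set Q := ⌈(K2 / Real.exp (-((Cg + 1) * s))) ^ E2⌉₊ with hQ
  have hδ1 : Real.exp (-((Cg + 1) * s)) ≤ 1 := by
    apply Real.exp_le_one_iff.2
    nlinarith only [hCg1, hs0]
  have hcoef' := hcoef d hd1
  rw [hk] at hcoef'
  obtain ⟨hB1, hBc⟩ := coeff_B k S d (Hh d) (Real.exp (2 * P / Cη)) hK.hS
    (Real.one_le_exp (by positivity)) hcoef'.1 hcoef'.2 hdle
  have hKBQ := (KBQ_bound k E2 K2 S Q Cη Cg CQ s P hk2 hK.hE2 hK.hK2 hK.hS hs8 hsc.sP hK.hCη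
    hK.s2 hQexp).trans hN'ge
  have hANres := hANi (Hh d) N' (m0 * t) Q _ _ G hfdeg hflead hfcont (Real.exp_pos _) hδ1 hB1 hBc
    h8H hN16H hQge hKBQ hH.pin.G0 hH.pin.Gsupp hdf
  have hANf := AN_apply hH (Real.exp (Cg * s) * Φ) _ (Real.exp (-s)) (m0 * t) _ hGm
    (Real.exp_pos _).le
    (by
      rw [← mul_assoc, ← Real.exp_add]
      apply le_of_eq
      congr 2
      ring) hANres
  have hGamf := hGam (Hh d) hfdeg hflead hfcont
  obtain ⟨hM1, hM2⟩ := hMain (Hh d) kap w w1 Q ν C0 hk0 hH.pin.wts hw12 hQ1 hGamf hC0 hC0'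
  have hX0pos : 0 < Ccost * (Real.sqrt C2 + 1) * s := by
    have := hK.hCcost
    positivity
  have hCQ0 : 0 ≤ CQ * s := (by linarith [hlogQge] : (0 : ℝ) ≤ Real.log Q).trans hlogQle
  have hcap : CQ * s + 2 * (Ccost * (Real.sqrt C2 + 1) * s) = Cc * s := by
    rw [hK.hCc]; ring
  have hCc0 : 0 ≤ Cc * s := by rw [← hcap]; linarith
  have hX : ∑ i ∈ Ic w w1 Q, kap i.1 i.2 * (i.2 * Real.log i.1) ≤
      Ccost * (Real.sqrt C2 + 1) * s := by
    have hww : w ≤ w1 := Nat.floor_le_floor (mul_le_mul_of_nonneg_right hsc.c1C2 (by linarith))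
    have h1 := hCost w1 (Ic w w1 Q) (by
      intro i hi
      have := mem_Ic.1 hi
      refine ⟨this.1, this.2.1, ?_⟩
      rcases this.2.2.2 with h2 | h2
      · exact h2.trans hww
      · exact h2.1)
    refine h1.trans ?_
    have h2 : Real.sqrt w1 ≤ Real.sqrt C2 * s := by
      refine (Real.sqrt_le_sqrt hw1le).trans (le_of_eq ?_)
      rw [Real.sqrt_mul hC2pos.le, hsq]
    have h3 : Real.sqrt w1 + 1 ≤ (Real.sqrt C2 + 1) * s := by linarith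
    have h4 := mul_le_mul_of_nonneg_left h3 hK.hCcost.le
    linarith
  have hMs1 : 1 ≤ Ms := by
    rw [hK.hMs]
    have h0 : 0 ≤ Cc := by
      by_contra hneg
      push Not at hneg
      nlinarith only [hneg, hCc0, hs0]
    have h1 : 0 ≤ 2 * (k : ℝ) * Ce * Cc + 1 := by positivity
    have := Real.one_le_exp h1
    linarith
  have hRb : ∀ R ⊆ Ic w w1 Q, cost R ≤ CQ * s + 2 * (Ccost * (Real.sqrt C2 + 1) * s) →
      (∀ n, psi ν (SOf w R) n ≤ Ms) ∧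
      ∀ y x : ℤ, mass G y t (WR R) x ≤ Ms * Φ * t / (WR R : ℕ) := by
    intro R hR hc
    rw [hcap] at hc
    exact R_bounds hH hNu Ce Cg Cc Ms s P (by omega) hs0 hsc.sP rfl hsc.Ccs hK.hMs _ hmasst R hR
      hc
  have hQexp2 : (Q : ℝ) ≤ Real.exp (Cc * s) := by
    refine hQexp.trans (Real.exp_le_exp.2 ?_)
    rw [← hcap]
    linarith
  have hKL := hE N' Nmin t Q Φ G ν hN'ge hN'le hNminle ht1 htN' hN16 hQexp2
    hH.pin hGm
  have h2mt : 2 * m0 * t ≤ N' := by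
    calc 2 * m0 * t ≤ 8 * m0 * t := by nlinarith only [hm1, ht1]
      _ ≤ N' := htN
  have hcov := cov_err hRM hKL2 hPh kap hk0 hk1 k N' Nmin w w1 Q t m0 (1 / (J : ℝ)) (Ce / s) Φ G ν
    hH.pin Ms (CQ * s) (Ccost * (Real.sqrt C2 + 1) * s) ε1 ht1 hm1 h2mt hMs1 hCQ0 hX0pos hQ1
    hlogQle hX (fun R hR hc => (hRb R hR hc).1) (fun R hR hc => (hRb R hR hc).2)
    (by rw [hcap]; exact hKL)
  have hunc : ∀ y : ℤ, ∑ q ∈ (Icc 1 Q).filter (fun q => ¬ Cov w w1 q),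
      kapProd kap q * enG G y (m0 * t) q ≤ εu * (((m0 * t : ℕ) : ℝ) ^ 2 * Φ ^ 2) := by
    intro y
    have := hU2 Q (m0 * t) G y Φ _ hQexp (hmassH y)
    linarith
  have he2 := e2_bound C0 s C2 P Q w1 hC0nn hw12 hw1le hlogQge hsc.log2
  have hE0pos := Real.exp_pos (-(2 * C0))
  have hlampos : 0 < lam := by rw [hK.hlam]; positivity
  have hfin := finA N' (m0 * t) Q w w1 (Hh d) kap ν G Φ (Real.exp (-(2 * C0)) / 2) (Real.exp C0)
    lam εu (2 * (8 * Ms * ε1 + 1000 * Ms ^ 2 / (m0 : ℝ) ^ 2)) (Real.exp (-s)) h8H hH1 hΦpos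
    hlampos hk0 (by positivity) hGamf hANf (he2.trans hM1) hM2 hunc hcov
  exact final_num C0 s lam εu _ hK.hlam hK.hεu hK.hε1 hK.s3 hfin

end Vale.Agent.P042.SS
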