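import Vale.Agent.P042.SS.Spec

set_option autoImplicit false

/-!
Block UNC: the level inequality for weights satisfying `MassOK`, and the level one bound.
-/

namespace Vale.Agent.P042.SS

open Polynomial Finset

theorem Fw_div (G : ℤ → ℝ) (c : ℝ) (y : ℤ) (M : ℕ) (θ : ℝ) :
    Fw (fun n => G n / c) y M θ = Fw G y M θ / (c : ℂ) := by
  unfold Fw
  rw [Finset.sum_div]
  refine Finset.sum_congr rfl fun n _ => ?_
  push_cast
  ring

theorem enG_div (G : ℤ → ℝ) (c : ℝ) (y : ℤ) (M q : ℕ) :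
    enG (fun n => G n / c) y M q = enG G y M q / c ^ 2 := by
  unfold enG
  rw [Finset.sum_div]
  refine Finset.sum_congr rfl fun a _ => ?_
  rw [Fw_div, norm_div, div_pow, Complex.norm_real, Real.norm_eq_abs, sq_abs]

theorem mass_div (G : ℤ → ℝ) (c : ℝ) (y : ℤ) (M D : ℕ) (x : ℤ) :
    mass (fun n => G n / c) y M D x = mass G y M D x / c := by
  unfold mass
  rw [Finset.sum_div]

theorem enG_zero {G : ℤ → ℝ} (hG : ∀ n, G n = 0) (y : ℤ) (M q : ℕ) : enG G y M q = 0 := by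
  unfold enG Fw
  refine Finset.sum_eq_zero fun a _ => ?_
  rw [Finset.sum_eq_zero fun n _ => by rw [hG n, Complex.ofReal_zero, zero_mul]]
  simp

theorem enG_nonneg (G : ℤ → ℝ) (y : ℤ) (M q : ℕ) : 0 ≤ enG G y M q :=
  Finset.sum_nonneg fun _ _ => by positivity

/-- the level inequality for a weight satisfying `MassOK` -/
theorem li_mass (hLI : LIStmt) {P Cg Cs c3 : ℝ} {M : ℕ} {G : ℤ → ℝ} {y : ℤ} {Φ Gm : ℝ}
    (hMass : MassOK P Cg Cs c3 M G y Φ Gm) (hP : 0 < P) (hCs : 0 < Cs)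
    (Pr : Finset ℕ) (g : ℕ → ℕ) (W D m : ℕ) (ρ L : ℝ) (Fm : Finset (Finset ℕ)) (Qs : Finset ℕ)
    (h1 : ∀ p ∈ Pr, p.Prime) (h2 : ∀ p ∈ Pr, 1 ≤ g p) (hW : 1 ≤ W) (hm : 2 ≤ m) (hρ0 : 0 ≤ ρ)
    (hρ : 36 * m * ρ ≤ 1) (hF1 : ∀ S ∈ Fm, S ⊆ Pr) (hF2 : ∀ S ∈ Fm, ∀ T, T ⊆ S → T ∈ Fm)
    (hF3 : ∀ S ∈ Fm, ∏ p ∈ S, p ^ g p ≤ D) (_hD : 1 ≤ D)
    (hsz : W * D ^ (2 * m + 1) * Fm.card ^ (2 * m) ≤ M) (hL : 0 ≤ L)
    (hWD : ((W * D : ℕ) : ℝ) ≤ Real.exp (c3 * P))
    (hWDL : Cs * Real.log ((W * D : ℕ) : ℝ) ≤ L * Real.sqrt P)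
    (hQ : ∀ q ∈ Qs, 1 ≤ q ∧ goodg Pr g W q ∧ Ug W q ∈ Fm) :
    ∑ q ∈ Qs, ρ ^ (Ug W q).card * enG G y M q ≤
      (M : ℝ) ^ 2 * Φ ^ 2 * (18 * Real.exp (2 * L) * (1 + Real.exp (Cg * Real.sqrt P / m))) := by
  have hΦ := hMass.Φpos
  rcases le_or_gt Gm 0 with hGm | hGm
  · have hG : ∀ n, G n = 0 := fun n => le_antisymm ((hMass.Gle n).trans hGm) (hMass.G0 n)
    rw [Finset.sum_eq_zero fun q _ => by rw [enG_zero hG, mul_zero]]
    positivity
  have hsP : 0 < Real.sqrt P := Real.sqrt_pos.2 hP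
  have hm0 : (0 : ℝ) < m := by
    have : 0 < m := by omega
    exact_mod_cast this
  set β : ℝ := 3 * Real.exp L * Φ / Gm with hβ
  have hβ0 : 0 < β := by positivity
  have key := hLI Pr g W D m M β ρ (fun n => G n / Gm) y Fm Qs h1 h2 hW hm hβ0 hρ0 hρ
    (fun n => div_nonneg (hMass.G0 n) hGm.le)
    (fun n => (div_le_one hGm).2 (hMass.Gle n)) hF1 hF2 hF3 hsz ?_ hQ
  · have hL' : ∑ q ∈ Qs, ρ ^ (Ug W q).card * enG G y M q =
        Gm ^ 2 * ∑ q ∈ Qs, ρ ^ (Ug W q).card * enG (fun n => G n / Gm) y M q := by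
      rw [Finset.mul_sum]
      refine Finset.sum_congr rfl fun q _ => ?_
      rw [enG_div]
      field_simp
    rw [hL']
    have hβ1 : β ^ (-(1 / (m : ℝ))) ≤ Real.exp (Cg * Real.sqrt P / m) := by
      rw [Real.rpow_neg hβ0.le, ← Real.inv_rpow hβ0.le]
      have h3 : β⁻¹ ≤ Real.exp (Cg * Real.sqrt P) := by
        rw [hβ, inv_div, div_le_iff₀ (by positivity)]
        have h4 : Gm ≤ Real.exp (Cg * Real.sqrt P) * Φ := hMass.Gm_le
        have h5 : (1 : ℝ) ≤ 3 * Real.exp L := by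
          have := Real.one_le_exp hL
          linarith
        have h6 : 0 ≤ Real.exp (Cg * Real.sqrt P) * Φ := by positivity
        nlinarith only [h4, h5, h6]
      have h4 : (β⁻¹) ^ (1 / (m : ℝ)) ≤ (Real.exp (Cg * Real.sqrt P)) ^ (1 / (m : ℝ)) :=
        Real.rpow_le_rpow (by positivity) h3 (by positivity)
      refine h4.trans (le_of_eq ?_)
      rw [← Real.exp_mul]
      congr 1
      ring
    have h7 : Gm ^ 2 * ((M : ℝ) ^ 2 * (2 * β ^ 2 * (1 + β ^ (-(1 / (m : ℝ)))))) =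
        (M : ℝ) ^ 2 * Φ ^ 2 * (18 * Real.exp (2 * L) * (1 + β ^ (-(1 / (m : ℝ))))) := by
      have h8 : Real.exp (2 * L) = Real.exp L ^ 2 := by
        rw [← Real.exp_nat_mul]
        norm_num
      have h9 : Gm ^ 2 * β ^ 2 = 9 * Real.exp (2 * L) * Φ ^ 2 := by
        rw [hβ, h8]
        field_simp
        norm_num
      linear_combination (2 * (M : ℝ) ^ 2 * (1 + β ^ (-(1 / (m : ℝ))))) * h9
    calc Gm ^ 2 * ∑ q ∈ Qs, ρ ^ (Ug W q).card * enG (fun n => G n / Gm) y M q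
        ≤ Gm ^ 2 * ((M : ℝ) ^ 2 * (2 * β ^ 2 * (1 + β ^ (-(1 / (m : ℝ)))))) :=
          mul_le_mul_of_nonneg_left key (by positivity)
      _ = (M : ℝ) ^ 2 * Φ ^ 2 * (18 * Real.exp (2 * L) * (1 + β ^ (-(1 / (m : ℝ))))) := h7
      _ ≤ _ := by
          refine mul_le_mul_of_nonneg_left ?_ (by positivity)
          refine mul_le_mul_of_nonneg_left ?_ (by positivity)
          linarith only [hβ1]
  · intro S hS x
    rw [mass_div]
    set D' : ℕ := W * ∏ p ∈ S, p ^ g p with hD'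
    have hD'1 : 1 ≤ D' := by
      have : 0 < ∏ p ∈ S, p ^ g p :=
        Finset.prod_pos fun p hp => pow_pos (h1 p (hF1 S hS hp)).pos _
      exact Nat.mul_pos hW this
    have hD'0 : (0 : ℝ) < D' := by exact_mod_cast hD'1
    have hD'le : D' ≤ W * D := Nat.mul_le_mul_left W (hF3 S hS)
    have hD'le' : (D' : ℝ) ≤ ((W * D : ℕ) : ℝ) := by exact_mod_cast hD'le
    have h3 := hMass.mass_le D' hD'1 (hD'le'.trans hWD) x
    have h4 : (D' : ℝ) ^ (Cs / Real.sqrt P) ≤ Real.exp L := by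
      rw [Real.rpow_def_of_pos hD'0]
      apply Real.exp_le_exp.2
      have h5 : Real.log D' ≤ Real.log ((W * D : ℕ) : ℝ) := Real.log_le_log hD'0 hD'le'
      rw [← mul_div_assoc, div_le_iff₀ hsP]
      nlinarith only [h5, hWDL, hCs]
    rw [hβ]
    rw [div_le_iff₀ hGm]
    calc mass G y M D' x ≤ 3 * (D' : ℝ) ^ (Cs / Real.sqrt P) * Φ * M / D' := h3
      _ ≤ 3 * Real.exp L * Φ * M / D' := by
          gcongr
      _ = 3 * Real.exp L * Φ / Gm * (M / D') * Gm := by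
          field_simp

theorem ev_log (C : ℝ) (hC : 0 < C) (ε : ℝ) (hε : 0 < ε) :
    ∀ᶠ P : ℝ in Filter.atTop, Real.log (C * P + 1) ≤ ε * Real.sqrt P := by
  have h1 : Filter.Tendsto (fun P : ℝ => C * P + 1) Filter.atTop Filter.atTop :=
    Filter.tendsto_atTop_add_const_right _ _ (Filter.tendsto_id.const_mul_atTop hC)
  have hs : 0 < Real.sqrt (C + 1) := Real.sqrt_pos.2 (by linarith)
  have h2 := (isLittleO_log_rpow_atTop (r := (1 / 2 : ℝ)) (by norm_num)).bound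
    (div_pos hε hs)
  have h3 := h1.eventually h2
  filter_upwards [h3, Filter.eventually_ge_atTop (1 : ℝ)] with P hP hP1
  have h4 : 0 < C * P + 1 := by positivity
  rw [Real.norm_eq_abs, Real.norm_eq_abs, ← Real.sqrt_eq_rpow,
    abs_of_nonneg (Real.sqrt_nonneg _)] at hP
  have h5 : Real.sqrt (C * P + 1) ≤ Real.sqrt (C + 1) * Real.sqrt P := by
    rw [← Real.sqrt_mul (by linarith)]
    apply Real.sqrt_le_sqrt
    nlinarith only [hP1, hC]
  calc Real.log (C * P + 1) ≤ |Real.log (C * P + 1)| := le_abs_self _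
    _ ≤ ε / Real.sqrt (C + 1) * Real.sqrt (C * P + 1) := hP
    _ ≤ ε / Real.sqrt (C + 1) * (Real.sqrt (C + 1) * Real.sqrt P) :=
        mul_le_mul_of_nonneg_left h5 (by positivity)
    _ = ε * Real.sqrt P := by field_simp

/-- the first conjunct of `UncStmt` with `cY = 1296` and an explicit constant -/
theorem level_one_of (hLI : LIStmt) (Cg Cs c3 : ℝ) (hCg : 0 < Cg) (hCs : 0 < Cs) (hc3 : 0 < c3)
    (C2 : ℝ) (hC2 : 0 < C2) : ∃ P0 : ℝ, ∀ P : ℝ, P0 ≤ P →
      ∀ (M : ℕ) (G : ℤ → ℝ) (y : ℤ) (Φ Gm : ℝ), MassOK P Cg Cs c3 M G y Φ Gm →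
      ∑ p ∈ Wp ⌊(1296 : ℝ) * P⌋₊ ⌊C2 * P⌋₊, 1 / Real.sqrt p * enG G y M p ≤
        (18 * Real.exp (2 * Cs) * (1 + Real.exp (2 * Cg))) * (M : ℝ) ^ 2 * Φ ^ 2 := by
  classical
  have hev : ∀ᶠ P : ℝ in Filter.atTop, 16 ≤ P ∧ Real.log (C2 * P + 1) ≤ 1 / 10 * Real.sqrt P ∧
      Real.log (C2 * P + 1) ≤ c3 * Real.sqrt P := by
    filter_upwards [Filter.eventually_ge_atTop (16 : ℝ), ev_log C2 hC2 (1 / 10) (by norm_num),
      ev_log C2 hC2 c3 hc3] with P h1 h2 h3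
    exact ⟨h1, h2, h3⟩
  obtain ⟨P0, hP0⟩ := Filter.eventually_atTop.1 hev
  refine ⟨P0, fun P hP M G y Φ Gm hMass => ?_⟩
  obtain ⟨hP16, hlog, hlog3⟩ := hP0 P hP
  have hPpos : 0 < P := by linarith
  have hs4 : 4 ≤ Real.sqrt P := by
    rw [show (4 : ℝ) = Real.sqrt 16 by
      rw [show (16 : ℝ) = 4 ^ 2 by norm_num, Real.sqrt_sq (by norm_num)]]
    exact Real.sqrt_le_sqrt hP16
  have hsP : Real.sqrt P * Real.sqrt P = P := Real.mul_self_sqrt hPpos.le
  set m : ℕ := ⌊Real.sqrt P⌋₊ with hm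
  have hm1 : (m : ℝ) ≤ Real.sqrt P := Nat.floor_le (by linarith)
  have hm2 : Real.sqrt P < m + 1 := Nat.lt_floor_add_one _
  have hm3 : (3 : ℝ) < m := by linarith
  have hm4 : 2 ≤ m := by
    have : 3 < m := by exact_mod_cast hm3
    omega
  have hm0 : (0 : ℝ) < m := by linarith
  set Y : ℕ := ⌊(1296 : ℝ) * P⌋₊ with hY
  set Z : ℕ := ⌊C2 * P⌋₊ with hZ
  have hZ1 : (Z : ℝ) ≤ C2 * P := Nat.floor_le (by positivity)
  have hY1 : 1296 * P < Y + 1 := Nat.lt_floor_add_one _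
  set Pr : Finset ℕ := Wp Y Z with hPr
  have hPr' : ∀ p ∈ Pr, Y < p ∧ p ≤ Z ∧ p.Prime := by
    intro p hp
    rw [hPr, Wp, mem_filter, mem_Ioc] at hp
    exact ⟨hp.1.1, hp.1.2, hp.2⟩
  have hPrc : Pr.card ≤ Z := by
    calc Pr.card ≤ (Ioc Y Z).card := Finset.card_le_card (Finset.filter_subset _ _)
      _ ≤ Z := by rw [Nat.card_Ioc]; omega
  set Fm : Finset (Finset ℕ) := insert ∅ (Pr.image (fun p => ({p} : Finset ℕ))) with hFm
  have hFmc : Fm.card ≤ Z + 1 := by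
    calc Fm.card ≤ (Pr.image (fun p => ({p} : Finset ℕ))).card + 1 := Finset.card_insert_le _ _
      _ ≤ Pr.card + 1 := by
          have := Finset.card_image_le (s := Pr) (f := fun p => ({p} : Finset ℕ))
          omega
      _ ≤ Z + 1 := by omega
  have hFmm : ∀ S ∈ Fm, S = ∅ ∨ ∃ p ∈ Pr, S = {p} := by
    intro S hS
    rw [hFm, mem_insert, mem_image] at hS
    rcases hS with h | ⟨p, hp, h⟩
    · exact Or.inl h
    · exact Or.inr ⟨p, hp, h.symm⟩
  have hD : ((Z + 1 : ℕ) : ℝ) ≤ C2 * P + 1 := by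
    push_cast
    linarith only [hZ1]
  have hlogD : Real.log ((Z + 1 : ℕ) : ℝ) ≤ Real.log (C2 * P + 1) :=
    Real.log_le_log (by positivity) hD
  have hρeq : ∀ p ∈ Pr, 1 / Real.sqrt p ≤ 1 / (36 * (m : ℝ)) := by
    intro p hp
    obtain ⟨h1, h2, h3⟩ := hPr' p hp
    have h4 : (Y : ℝ) + 1 ≤ p := by exact_mod_cast h1
    have h5 : (36 * (m : ℝ)) ^ 2 ≤ p := by nlinarith only [h4, hY1, hm1, hm0, hsP]
    have h6 : 36 * (m : ℝ) ≤ Real.sqrt p := Real.le_sqrt_of_sq_le h5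
    exact one_div_le_one_div_of_le (by positivity) h6
  have key := li_mass hLI hMass hPpos hCs Pr (fun _ => 1) 1 (Z + 1) m (1 / (36 * (m : ℝ))) Cs Fm Pr
    (fun p hp => (hPr' p hp).2.2) (fun _ _ => le_refl 1) (le_refl 1) hm4 (by positivity)
    (le_of_eq (by field_simp)) ?_ ?_ ?_ (by omega) ?_ hCs.le ?_ ?_ ?_
  · calc ∑ p ∈ Pr, 1 / Real.sqrt p * enG G y M p
        ≤ ∑ q ∈ Pr, (1 / (36 * (m : ℝ))) ^ (Ug 1 q).card * enG G y M q := by
          refine Finset.sum_le_sum fun p hp => ?_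
          have h1 : (Ug 1 p).card = 1 := by
            rw [Ug, (hPr' p hp).2.2.primeFactors, Finset.filter_singleton, if_pos,
              Finset.card_singleton]
            rw [(hPr' p hp).2.2.factorization_self, pow_one]
            intro h
            exact (hPr' p hp).2.2.one_lt.ne' (Nat.dvd_one.1 h)
          rw [h1, pow_one]
          exact mul_le_mul_of_nonneg_right (hρeq p hp) (enG_nonneg _ _ _ _)
      _ ≤ _ := key
      _ ≤ _ := by
          have h1 : Cg * Real.sqrt P / m ≤ 2 * Cg := by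
            rw [div_le_iff₀ hm0]
            nlinarith only [hm2, hm3, hCg]
          have h2 := Real.exp_le_exp.2 h1
          have h3 : 0 < Real.exp (2 * Cs) := Real.exp_pos _
          calc (M : ℝ) ^ 2 * Φ ^ 2 *
                (18 * Real.exp (2 * Cs) * (1 + Real.exp (Cg * Real.sqrt P / m)))
              ≤ (M : ℝ) ^ 2 * Φ ^ 2 * (18 * Real.exp (2 * Cs) * (1 + Real.exp (2 * Cg))) := by
                gcongr
            _ = _ := by ring
  · intro S hS
    rcases hFmm S hS with h | ⟨p, hp, h⟩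
    · rw [h]; exact Finset.empty_subset _
    · rw [h]; exact Finset.singleton_subset_iff.2 hp
  · intro S hS T hT
    rcases hFmm S hS with h | ⟨p, hp, h⟩
    · rw [h, Finset.subset_empty] at hT
      rw [hT]
      exact mem_insert_self _ _
    · rw [h, Finset.subset_singleton_iff] at hT
      rcases hT with h' | h'
      · rw [h']; exact mem_insert_self _ _
      · rw [h', hFm]
        exact mem_insert_of_mem (mem_image.2 ⟨p, hp, rfl⟩)
  · intro S hS
    rcases hFmm S hS with h | ⟨p, hp, h⟩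
    · rw [h]; simp
    · rw [h, Finset.prod_singleton, pow_one]
      have := (hPr' p hp).2.1
      omega
  · have h1 : Fm.card ^ (2 * m) ≤ (Z + 1) ^ (2 * m) := Nat.pow_le_pow_left hFmc _
    have h2 : 1 * (Z + 1) ^ (2 * m + 1) * Fm.card ^ (2 * m) ≤ (Z + 1) ^ (4 * m + 1) := by
      calc 1 * (Z + 1) ^ (2 * m + 1) * Fm.card ^ (2 * m)
          ≤ 1 * (Z + 1) ^ (2 * m + 1) * (Z + 1) ^ (2 * m) := Nat.mul_le_mul_left _ h1
        _ = (Z + 1) ^ (4 * m + 1) := by rw [one_mul, ← pow_add]; congr 1; omega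
    have h3 : (((Z + 1) ^ (4 * m + 1) : ℕ) : ℝ) ≤ M := by
      refine le_trans ?_ hMass.M_ge
      rw [Nat.cast_pow]
      have h4 : (0 : ℝ) < ((Z + 1 : ℕ) : ℝ) := by positivity
      rw [← Real.exp_log (pow_pos h4 _), Real.log_pow]
      apply Real.exp_le_exp.2
      push_cast at hlogD ⊢
      have h5 : Real.log ((Z : ℝ) + 1) ≤ 1 / 10 * Real.sqrt P := hlogD.trans hlog
      have h6 : (0 : ℝ) ≤ Real.log ((Z : ℝ) + 1) := Real.log_nonneg (by
        have : (0 : ℝ) ≤ Z := by positivity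
        linarith)
      calc (4 * (m : ℝ) + 1) * Real.log ((Z : ℝ) + 1)
          ≤ (5 * Real.sqrt P) * (1 / 10 * Real.sqrt P) := by
            apply mul_le_mul _ h5 h6 (by positivity)
            linarith
        _ = P / 2 := by linear_combination (1 / 2) * hsP
    exact h2.trans (by exact_mod_cast h3)
  · rw [one_mul]
    calc ((Z + 1 : ℕ) : ℝ) = Real.exp (Real.log ((Z + 1 : ℕ) : ℝ)) :=
          (Real.exp_log (by positivity)).symm
      _ ≤ Real.exp (c3 * P) := by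
          apply Real.exp_le_exp.2
          refine (hlogD.trans hlog3).trans ?_
          refine mul_le_mul_of_nonneg_left ?_ hc3.le
          nlinarith only [hs4, hsP]
  · rw [one_mul]
    refine mul_le_mul_of_nonneg_left ?_ hCs.le
    refine (hlogD.trans hlog).trans ?_
    linarith only [hs4]
  · intro q hq
    obtain ⟨h1, h2, h3⟩ := hPr' q hq
    refine ⟨h3.one_lt.le, ?_, ?_⟩
    · intro p hp
      rw [h3.primeFactors, mem_singleton] at hp
      subst hp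
      right
      refine ⟨hq, ?_⟩
      rw [h3.factorization_self]
    · have h4 : Ug 1 q = {q} := by
        rw [Ug, h3.primeFactors, Finset.filter_singleton, if_pos]
        rw [h3.factorization_self, pow_one]
        intro h
        exact h3.one_lt.ne' (Nat.dvd_one.1 h)
      rw [h4, hFm]
      exact mem_insert_of_mem (mem_image.2 ⟨q, hq, rfl⟩)

end Vale.Agent.P042.SS
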