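import Vale.Agent.P042.SS.FinG0
import Vale.Agent.P042.SS.UncA

set_option autoImplicit false

/-!
Last step of the assembly: the choice of the constants, and the theorem for all `N`.
-/

namespace Vale.Agent.P042.SS

open Polynomial Finset

/-- everything that is needed of `P` -/
theorem ev_sc (k E2 K2 S p0 m0 J : ℕ) (A Cη Ce C0 C2 Cc c1 Cg CQ : ℝ) (hA : 0 < A)
    (hC2 : 0 < C2) (hc1 : 0 < c1) (hc12 : c1 ≤ C2) (hCe : 0 < Ce) (hC0 : 0 < C0) (hk : 1 ≤ k) :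
    ∀ᶠ P : ℝ in Filter.atTop, Sc k p0 m0 J A Cη Ce C0 C2 Cc c1 (Real.sqrt P) P ∧
      Real.log 2 + E2 * Real.log K2 ≤ Real.sqrt P ∧
      2 * (E2 * (Real.log K2 + 2 * Real.log S + k + CQ + (Cg + 1))) ≤ Real.sqrt P ∧
      2 * C0 + 5 ≤ Real.sqrt P ∧ Real.log (16 * m0) + 1 ≤ Real.sqrt P := by
  have hs : Filter.Tendsto Real.sqrt Filter.atTop Filter.atTop := Real.tendsto_sqrt_atTop
  have hge : ∀ c : ℝ, ∀ᶠ P : ℝ in Filter.atTop, c ≤ Real.sqrt P :=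
    fun c => hs.eventually_ge_atTop c
  have hgeP : ∀ c : ℝ, ∀ᶠ P : ℝ in Filter.atTop, c ≤ P := fun c => Filter.eventually_ge_atTop c
  have hk0 : (0 : ℝ) < k := by exact_mod_cast hk
  have hlog : ∀ c : ℝ, 0 < c → ∀ᶠ P : ℝ in Filter.atTop,
      c * Real.log (C2 * P + 2) ≤ Real.sqrt P := by
    intro c hc
    filter_upwards [ev_log (C2 + 1) (by linarith) (1 / c) (by positivity), hgeP 1] with P h1 h2
    have h3 : Real.log (C2 * P + 2) ≤ Real.log ((C2 + 1) * P + 1) := by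
      apply Real.log_le_log (by positivity)
      linarith
    calc c * Real.log (C2 * P + 2) ≤ c * (1 / c * Real.sqrt P) :=
          mul_le_mul_of_nonneg_left (h3.trans h1) hc.le
      _ = Real.sqrt P := by field_simp
  filter_upwards [hge 8, hgeP 1, hge (1 / A), ev_log C2 hC2 (1 / (32 * (k + 2))) (by positivity),
    hgeP (32 * Real.log 200), hgeP ((p0 + 1) / c1), hgeP (3 / C2), hge (7 * Ce),
    hge (5 * Ce * Real.log (16 * m0) / 2), hge (8 * k * Cc), hlog (10 * k * Ce) (by positivity),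
    hlog (5 * C0 + 1) (by positivity), hge (Real.log 2 + E2 * Real.log K2),
    hge (2 * (E2 * (Real.log K2 + 2 * Real.log S + k + CQ + (Cg + 1)))), hge (2 * C0 + 5),
    hge (Real.log (16 * m0) + 1)] with
    P h8 hP1 hAs hlg hP200 hc1P hC2P hCes hm0s hCcs hl1 hl2 h1 h2 h3 h4
  have hP0 : 0 < P := by linarith
  have hss : Real.sqrt P * Real.sqrt P = P := Real.mul_self_sqrt hP0.le
  refine ⟨⟨h8, hss, ?_, ?_, ?_, hc12, ?_, hCes, ?_, hCcs, hl1, hl2⟩, h1, h2, h3, h4⟩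
  · rw [div_le_iff₀ hA] at hAs
    linarith
  · have h5 : 0 < C2 * P + 1 := by positivity
    have h6 : (200 : ℝ) * (C2 * P + 1) ^ (k + 2) =
        Real.exp (Real.log 200 + (k + 2) * Real.log (C2 * P + 1)) := by
      rw [Real.exp_add, Real.exp_log (by norm_num)]
      congr 1
      have h7 : ((k : ℝ) + 2) * Real.log (C2 * P + 1) =
          ((k + 2 : ℕ) : ℝ) * Real.log (C2 * P + 1) := by push_cast; ring
      rw [h7, ← Real.log_pow, Real.exp_log (by positivity)]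
    rw [h6]
    apply Real.exp_le_exp.2
    have h7 : ((k : ℝ) + 2) * Real.log (C2 * P + 1) ≤ Real.sqrt P / 32 := by
      calc ((k : ℝ) + 2) * Real.log (C2 * P + 1)
          ≤ (k + 2) * (1 / (32 * (k + 2)) * Real.sqrt P) :=
            mul_le_mul_of_nonneg_left hlg (by positivity)
        _ = Real.sqrt P / 32 := by field_simp
    have h8' : Real.sqrt P ≤ P := by nlinarith only [h8, hss]
    linarith
  · rw [div_le_iff₀ hc1] at hc1P
    linarith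
  · rw [div_le_iff₀ hC2] at hC2P
    linarith
  · linarith

/-- the final theorem from the blocks -/
theorem final_of (hSc : ScaleStmt) (hUnc : UncStmt) (hEKL : EKLStmt) (hAN : ANStmt)
    (hCost : CostStmt) : FinalStmt := by
  classical
  intro h hdeg hpos hint A hA
  obtain ⟨k, hk⟩ : ∃ k : ℕ, h.natDegree = k := ⟨_, rfl⟩
  have hk2 : 2 ≤ k := hk ▸ hdeg
  have hk1 : 1 ≤ k := by omega
  have hk' : 1 ≤ h.natDegree := by omega
  have hkr : (0 : ℝ) < k := by exact_mod_cast hk1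
  obtain ⟨lam0, r, Hh, R, hR, hH, hmul, hdvd, hr, hrr, hgcd⟩ := exists_aux h hk' hpos hint
  have hAux : AuxData h lam0 r Hh R := ⟨hR, hH, hmul, hdvd, hr, hrr, hgcd⟩
  obtain ⟨S, hS, hcoef⟩ := hAux.coeff_bound hk' hpos
  obtain ⟨E2, hE2, hAN2⟩ := hAN k hk2
  obtain ⟨K2, hK2, hANi⟩ := hAN2 R hR
  obtain ⟨E, hE, hcomp⟩ := complete_sums k hk1
  obtain ⟨K, p0, kap, hK, hkap0, hkap1, hkapK, hkapp1, hkappj, hkapS⟩ := hcomp R hR
  have hKap : KapOK k E K p0 kap := ⟨hkap0, hkap1, hkapK, hkapp1, hkappj⟩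
  have hE2r : (0 : ℝ) < E2 := by exact_mod_cast hE2
  obtain ⟨Cη, hCη⟩ : ∃ x : ℝ, x = 64 * k * E2 := ⟨_, rfl⟩
  obtain ⟨Ce, hCe⟩ : ∃ x : ℝ, x = Cη * A := ⟨_, rfl⟩
  obtain ⟨Cg, hCg⟩ : ∃ x : ℝ, x = k * Ce + A + 1 := ⟨_, rfl⟩
  obtain ⟨CQ, hCQ⟩ : ∃ x : ℝ, x = E2 * (Cg + 1) + 1 := ⟨_, rfl⟩
  have hCη0 : 0 < Cη := by rw [hCη]; positivity
  have hCe0 : 0 < Ce := by rw [hCe]; positivity
  have hCg0 : 0 < Cg := by rw [hCg]; positivity
  have hCQ0 : 0 < CQ := by rw [hCQ]; positivity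
  obtain ⟨cY, CM, hcY, hCM, hU1, hU2⟩ := hUnc k E K p0 kap hk1 hE hKap CQ Cg (2 * k * Ce)
    (1 / (8 * k)) hCQ0 hCg0 (by positivity) (by positivity)
  obtain ⟨C0, hC0⟩ : ∃ x : ℝ, x = k + 12 * (k : ℝ) ^ 2 * Ce * Real.sqrt cY + k * CM := ⟨_, rfl⟩
  have hC00 : 0 < C0 := by rw [hC0]; positivity
  obtain ⟨εu, hεu⟩ : ∃ x : ℝ, x = Real.exp (-(2 * C0)) / 200 := ⟨_, rfl⟩
  have hεu0 : 0 < εu := by rw [hεu]; positivity
  obtain ⟨C2, hC2, hU2'⟩ := hU2 εu hεu0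
  obtain ⟨Pa, hU1'⟩ := hU1 C2 hC2
  obtain ⟨Ccost, hCcost, hCost'⟩ := hCost k E K p0 kap hk1 hE hKap
  obtain ⟨Cc, hCc⟩ : ∃ x : ℝ, x = CQ + 2 * (Ccost * (Real.sqrt C2 + 1)) := ⟨_, rfl⟩
  have hCc0 : 0 < Cc := by rw [hCc]; positivity
  obtain ⟨Ms, hMs⟩ : ∃ x : ℝ, x = 3 * Real.exp (2 * k * Ce * Cc + 1) := ⟨_, rfl⟩
  have hMs0 : 0 < Ms := by rw [hMs]; positivity
  obtain ⟨lam, hlam⟩ : ∃ x : ℝ, x = Real.exp (-(3 * C0)) / 64 := ⟨_, rfl⟩
  have hlam0 : 0 < lam := by rw [hlam]; positivity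
  obtain ⟨J, hJ⟩ : ∃ J : ℕ, 12 * C2 + 2 ≤ (J : ℝ) := exists_nat_ge _
  have hJ2 : 2 ≤ J := by
    have h1 : (2 : ℝ) ≤ J := by linarith
    exact_mod_cast h1
  obtain ⟨e0, he0⟩ : ∃ x : ℝ, x = Real.exp (-(2 * C0)) / 64 := ⟨_, rfl⟩
  have he00 : 0 < e0 := by rw [he0]; positivity
  obtain ⟨m0, hm0⟩ : ∃ m0 : ℕ, (1 / lam + 1) * 2000 * Ms ^ 2 / e0 + 1 ≤ (m0 : ℝ) := exists_nat_ge _
  have hm0pos : (0 : ℝ) < (1 / lam + 1) * 2000 * Ms ^ 2 / e0 := by positivity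
  have hm01 : (1 : ℝ) ≤ m0 := by linarith
  have hm01' : 1 ≤ m0 := by exact_mod_cast hm01
  obtain ⟨ε1, hε1⟩ : ∃ x : ℝ, x = e0 / ((1 / lam + 1) * 16 * Ms) := ⟨_, rfl⟩
  have hε10 : 0 < ε1 := by rw [hε1]; positivity
  have hεfin : (1 / lam + 1) * (2 * (8 * Ms * ε1 + 1000 * Ms ^ 2 / (m0 : ℝ) ^ 2)) ≤
      Real.exp (-(2 * C0)) / 32 := by
    have h1 : (1 / lam + 1) * (2 * (8 * Ms * ε1)) = e0 := by
      rw [hε1]
      field_simp
      norm_num
    have h2 : (1 / lam + 1) * (2 * (1000 * Ms ^ 2 / (m0 : ℝ) ^ 2)) ≤ e0 := by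
      have h3 : (1 / lam + 1) * (2 * (1000 * Ms ^ 2 / (m0 : ℝ) ^ 2)) =
          (1 / lam + 1) * 2000 * Ms ^ 2 / (m0 : ℝ) ^ 2 := by ring
      rw [h3, div_le_iff₀ (by positivity)]
      have h4 : (1 / lam + 1) * 2000 * Ms ^ 2 ≤ e0 * m0 := by
        have h5 : (1 / lam + 1) * 2000 * Ms ^ 2 / e0 ≤ m0 := by linarith
        rw [div_le_iff₀ he00] at h5
        linarith
      refine h4.trans (mul_le_mul_of_nonneg_left ?_ he00.le)
      nlinarith only [hm01]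
    have h3 : Real.exp (-(2 * C0)) / 32 = e0 + e0 := by rw [he0]; ring
    rw [h3]
    have h4 : (1 / lam + 1) * (2 * (8 * Ms * ε1 + 1000 * Ms ^ 2 / (m0 : ℝ) ^ 2)) =
        (1 / lam + 1) * (2 * (8 * Ms * ε1)) +
          (1 / lam + 1) * (2 * (1000 * Ms ^ 2 / (m0 : ℝ) ^ 2)) := by ring
    rw [h4]
    linarith
  obtain ⟨c1, hc1, hc12, Pb, hE3⟩ := hEKL k E K p0 kap hk1 hE hKap C2 Ce Cg Cc J m0 hC2 hCe0 hCg0
    hCc0 hJ2 hm01' ε1 hε10
  obtain ⟨Pc, hU3⟩ := hU2' c1 hc1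
  obtain ⟨Pd, hPd⟩ := Filter.eventually_atTop.1
    (ev_sc k E2 K2 S p0 m0 J A Cη Ce C0 C2 Cc c1 Cg CQ hA hC2 hc1 hc12.le hCe0 hC00 hk1)
  obtain ⟨Ps, hPs⟩ : ∃ x : ℝ, x = max (max (max Pa Pb) (max Pc Pd)) 0 := ⟨_, rfl⟩
  have hPa : Pa ≤ Ps := by
    rw [hPs]; exact (le_max_left _ _).trans ((le_max_left _ _).trans (le_max_left _ _))
  have hPb : Pb ≤ Ps := by
    rw [hPs]; exact (le_max_right _ _).trans ((le_max_left _ _).trans (le_max_left _ _))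
  have hPc : Pc ≤ Ps := by
    rw [hPs]; exact (le_max_left _ _).trans ((le_max_right _ _).trans (le_max_left _ _))
  have hPd' : Pd ≤ Ps := by
    rw [hPs]; exact (le_max_right _ _).trans ((le_max_right _ _).trans (le_max_left _ _))
  refine ⟨Real.exp (A * Real.sqrt Ps), Real.exp_pos _, fun N hN => ?_⟩
  have hN0 : (0 : ℝ) < N := by exact_mod_cast hN
  -- it is enough to bound the size of each set
  have hred : ∀ B : ℝ, 0 ≤ B → (∀ A0 : Finset ℤ, A0 ⊆ Icc (1 : ℤ) N → DiffFree h A0 →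
      (A0.card : ℝ) ≤ B) → (rMax h N : ℝ) ≤ B := by
    intro B hB hall
    have h1 : rMax h N ≤ ⌊B⌋₊ := by
      unfold rMax
      refine Finset.sup_le fun A0 hA0 => ?_
      rw [mem_filter, mem_powerset] at hA0
      exact Nat.le_floor (hall A0 hA0.1 hA0.2)
    exact (Nat.cast_le.2 h1).trans (Nat.floor_le hB)
  rcases lt_or_ge (Real.log N) Ps with hlt | hge
  · have h1 : (rMax h N : ℝ) ≤ N := by
      refine hred N hN0.le fun A0 hA0 _ => ?_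
      have h2 := Finset.card_le_card hA0
      rw [Int.card_Icc] at h2
      have h3 : A0.card ≤ N := by omega
      exact_mod_cast h3
    have h2 : Real.sqrt (Real.log N) ≤ Real.sqrt Ps := Real.sqrt_le_sqrt hlt.le
    have h3 : (1 : ℝ) ≤ Real.exp (A * Real.sqrt Ps) * Real.exp (-(A * Real.sqrt (Real.log N))) := by
      rw [← Real.exp_add]
      apply Real.one_le_exp
      nlinarith only [h2, hA]
    calc (rMax h N : ℝ) ≤ N := h1
      _ = N * 1 := (mul_one _).symm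
      _ ≤ N * (Real.exp (A * Real.sqrt Ps) * Real.exp (-(A * Real.sqrt (Real.log N)))) :=
          mul_le_mul_of_nonneg_left h3 hN0.le
      _ = _ := by ring
  · obtain ⟨P, hP⟩ : ∃ x : ℝ, x = Real.log N := ⟨_, rfl⟩
    rw [← hP] at hge ⊢
    obtain ⟨hsc, hs1, hs2, hs3, hs4⟩ := hPd P (hPd'.trans hge)
    have hKst : Kst k E2 K2 S m0 A Cη Ce Cg CQ cY CM C0 C2 Ccost Cc Ms lam εu ε1
        (Real.sqrt P) :=
      ⟨hk2, hE2, hK2, hS, hm01', hA, hCη, hCe, hCg, hCQ, hcY, hCM, hC0, hC2, hCcost, hCc, hMs,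
        hlam, hεu.le, hεfin, hs1, hs2, hs3, hs4⟩
    have h1 : (rMax h N : ℝ) ≤ Real.exp (-(A * Real.sqrt P)) * N := by
      refine hred _ (by positivity) fun A0 hA0 hfree => ?_
      by_contra hcon
      rw [not_le] at hcon
      exact hSc h lam0 r Hh R hAux k E2 K2 S p0 m0 J hk hpos hcoef hANi kap hkap0 hkap1 hkapp1
        (fun f hf hl hg q a hq hqa => by
          have h2 := hkapS f hf hl hg q a hq hqa
          have hq0 : (0 : ℝ) < q := by exact_mod_cast hq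
          unfold Gam kapProd
          rw [norm_div, Complex.norm_natCast, div_le_iff₀ hq0]
          exact h2)
        A Cη Ce Cg CQ cY CM C0 C2 Ccost Cc Ms lam εu ε1 c1 (Real.sqrt P) P hKst hsc hJ hCost'
        (hU1' P (hPa.trans hge)) (hU3 P (hPc.trans hge)) (hE3 P (hPb.trans hge)) N hN hP.symm A0
        hA0 hfree hcon.le
    have h2 : (1 : ℝ) ≤ Real.exp (A * Real.sqrt Ps) := Real.one_le_exp (by positivity)
    calc (rMax h N : ℝ) ≤ Real.exp (-(A * Real.sqrt P)) * N := h1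
      _ = 1 * (N * Real.exp (-(A * Real.sqrt P))) := by ring
      _ ≤ Real.exp (A * Real.sqrt Ps) * (N * Real.exp (-(A * Real.sqrt P))) :=
          mul_le_mul_of_nonneg_right h2 (by positivity)
      _ = _ := by ring

end Vale.Agent.P042.SS
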