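import Vale.Agent.P042.SS.Spec
import Mathlib.Analysis.SpecialFunctions.Trigonometric.DerivHyp
import Mathlib.Algebra.Order.Chebyshev

set_option autoImplicit false
set_option linter.unusedSectionVars false

/-!
Block KL2 of Theorem S: from relative entropy to square means.
-/

namespace Vale.Agent.P042.SS

open Polynomial Finset

namespace KL2

/-! ### the pointwise inequality -/

lemma log_lower {x : ℝ} (hx : 1 ≤ x) :
    (x - 1) + (x - 1) ^ 2 / (2 * x) ≤ x * Real.log x := by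
  have hx0 : 0 < x := by linarith
  have hx1 : 0 < 1 / x := by positivity
  obtain ⟨u, hu⟩ : ∃ u : ℝ, u = 1 - 1 / x := ⟨_, rfl⟩
  have hu0 : 0 ≤ u := by
    rw [hu, sub_nonneg, div_le_one hx0]; exact hx
  have hu1 : u < 1 := by rw [hu]; linarith
  have hs := Real.hasSum_pow_div_log_of_abs_lt_one (x := u)
    (by rw [abs_of_nonneg hu0]; exact hu1)
  have h1 : ∑ n ∈ Finset.range 2, u ^ (n + 1) / ((n : ℝ) + 1) ≤ - Real.log (1 - u) :=
    sum_le_hasSum _ (fun i _ => by positivity) hs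
  have h2 : - Real.log (1 - u) = Real.log x := by
    have h3 : 1 - u = x⁻¹ := by rw [hu, one_div]; ring
    rw [h3, Real.log_inv, neg_neg]
  rw [h2, Finset.sum_range_succ, Finset.sum_range_one] at h1
  have h4 : u + u ^ 2 / 2 ≤ Real.log x := by
    refine le_trans (le_of_eq ?_) h1
    norm_num
  have h5 : x * (u + u ^ 2 / 2) ≤ x * Real.log x := mul_le_mul_of_nonneg_left h4 hx0.le
  refine le_trans (le_of_eq ?_) h5
  rw [hu]
  field_simp

lemma ent_pt {P Q K : ℝ} (hP : 0 ≤ P) (hQ : 0 ≤ Q) (hPK : P ≤ K) (hQK : Q ≤ K)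
    (h0 : Q = 0 → P = 0) :
    (P - Q) ^ 2 ≤ 2 * K * (P * Real.log (P / Q) - P + Q) := by
  rcases hQ.eq_or_lt with h | hQ0
  · have hP0 := h0 h.symm
    rw [← h, hP0]; simp
  rcases hP.eq_or_lt with h | hP0
  · rw [← h]
    simp only [zero_sub, zero_div, Real.log_zero, mul_zero, zero_sub, neg_zero, zero_add]
    nlinarith
  rcases le_total Q P with h | h
  · have hx : 1 ≤ P / Q := by rw [le_div_iff₀ hQ0]; linarith
    have h1 := log_lower hx
    have h2 : Q * ((P / Q - 1) + (P / Q - 1) ^ 2 / (2 * (P / Q))) ≤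
        Q * (P / Q * Real.log (P / Q)) := mul_le_mul_of_nonneg_left h1 hQ
    have h3 : Q * ((P / Q - 1) + (P / Q - 1) ^ 2 / (2 * (P / Q))) =
        (P - Q) + (P - Q) ^ 2 / (2 * P) := by field_simp
    have h4 : Q * (P / Q * Real.log (P / Q)) = P * Real.log (P / Q) := by field_simp
    rw [h3, h4] at h2
    have h5 : 0 ≤ (P - Q) ^ 2 / (2 * P) := by positivity
    have h6 : (P - Q) ^ 2 = 2 * P * ((P - Q) ^ 2 / (2 * P)) := by field_simp
    calc (P - Q) ^ 2 = 2 * P * ((P - Q) ^ 2 / (2 * P)) := h6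
      _ ≤ 2 * K * ((P - Q) ^ 2 / (2 * P)) := by gcongr
      _ ≤ 2 * K * (P * Real.log (P / Q) - P + Q) := by
        apply mul_le_mul_of_nonneg_left _ (by linarith)
        linarith
  · have hs : 1 ≤ Q / P := by rw [le_div_iff₀ hP0]; linarith
    have hl : 0 ≤ Real.log (Q / P) := Real.log_nonneg hs
    have h1 := Real.self_le_sinh_iff.2 hl
    rw [Real.sinh_log (by positivity)] at h1
    have h2 : P * Real.log (Q / P) ≤ P * ((Q / P - (Q / P)⁻¹) / 2) :=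
      mul_le_mul_of_nonneg_left h1 hP
    have h3 : P * ((Q / P - (Q / P)⁻¹) / 2) = (Q - P ^ 2 / Q) / 2 := by
      field_simp
    have h4 : Real.log (P / Q) = - Real.log (Q / P) := by
      rw [← Real.log_inv, inv_div]
    rw [h3] at h2
    have h6 : (P - Q) ^ 2 = 2 * Q * ((P - Q) ^ 2 / (2 * Q)) := by field_simp
    have h7 : (P - Q) ^ 2 / (2 * Q) = Q / 2 + P ^ 2 / Q / 2 - P := by
      field_simp
      ring
    have h5 : 0 ≤ (P - Q) ^ 2 / (2 * Q) := by positivity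
    calc (P - Q) ^ 2 = 2 * Q * ((P - Q) ^ 2 / (2 * Q)) := h6
      _ ≤ 2 * K * ((P - Q) ^ 2 / (2 * Q)) := by gcongr
      _ ≤ 2 * K * (P * Real.log (P / Q) - P + Q) := by
        apply mul_le_mul_of_nonneg_left _ (by linarith)
        rw [h7, h4]
        linarith

/-! ### Fourier side -/

section Z

variable {D : ℕ} [NeZero D]

lemma std_int (n : ℤ) {q a : ℕ} (hq : 1 ≤ q) (hqD : q ∣ D) :
    (ZMod.stdAddChar (-((n : ZMod D) * ((a * (D / q) : ℕ) : ZMod D))) : ℂ) =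
      e (-((n : ℝ) * ((a : ℝ) / q))) := by
  obtain ⟨c, hc⟩ := hqD
  have hD : 0 < D := Nat.pos_of_ne_zero (NeZero.ne D)
  have hc' : D / q = c := by rw [hc, Nat.mul_div_cancel_left _ (by omega)]
  have hc0 : (c : ℝ) ≠ 0 := by
    intro h
    have h' : c = 0 := by exact_mod_cast h
    rw [h', mul_zero] at hc; omega
  have hq0 : (q : ℝ) ≠ 0 := by
    have : q ≠ 0 := by omega
    exact_mod_cast this
  have h3 : (-((n : ZMod D) * ((a * (D / q) : ℕ) : ZMod D))) =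
      ((-(n * (a * (c : ℤ))) : ℤ) : ZMod D) := by
    rw [hc']
    push_cast
    ring
  rw [h3, ← e_eq_std]
  congr 1
  have hDr : (D : ℝ) = q * c := by rw [hc]; push_cast; ring
  rw [hDr]
  push_cast
  field_simp

lemma parseval (c : ZMod D → ℝ) (qs : Finset ℕ) (hqs : ∀ q ∈ qs, 1 ≤ q ∧ q ∣ D) :
    ∑ q ∈ qs, ∑ a ∈ (range q).filter (Nat.Coprime q),
      ‖ftz (fun z => (c z : ℂ)) ((a * (D / q) : ℕ) : ZMod D)‖ ^ 2 ≤ D * ∑ z, c z ^ 2 := by
  classical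
  set T : Finset (Σ _ : ℕ, ℕ) :=
    qs.sigma (fun q => (Finset.range q).filter (Nat.Coprime q)) with hTdef
  have hT : ∀ t ∈ T, 1 ≤ t.1 ∧ t.1 ∣ D ∧ t.2 < t.1 ∧ Nat.Coprime t.1 t.2 := by
    intro t ht
    simp only [hTdef, Finset.mem_sigma, Finset.mem_filter, Finset.mem_range] at ht
    exact ⟨(hqs _ ht.1).1, (hqs _ ht.1).2, ht.2.1, ht.2.2⟩
  have hinj := freq_inj (n := D) T hT
  have h1 : ∑ q ∈ qs, ∑ a ∈ (range q).filter (Nat.Coprime q),
      ‖ftz (fun z => (c z : ℂ)) ((a * (D / q) : ℕ) : ZMod D)‖ ^ 2 =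
      ∑ t ∈ T, ‖ftz (fun z => (c z : ℂ)) ((t.2 * (D / t.1) : ℕ) : ZMod D)‖ ^ 2 := by
    rw [hTdef, Finset.sum_sigma]
  rw [h1]
  have h4 : ∑ t ∈ T, ‖ftz (fun z => (c z : ℂ)) ((t.2 * (D / t.1) : ℕ) : ZMod D)‖ ^ 2 ≤
      ∑ ξ : ZMod D, ‖ftz (fun z => (c z : ℂ)) ξ‖ ^ 2 := by
    rw [← Finset.sum_image (f := fun ξ => ‖ftz (fun z => (c z : ℂ)) ξ‖ ^ 2) hinj]
    exact Finset.sum_le_sum_of_subset_of_nonneg (Finset.subset_univ _)
      (fun _ _ _ => by positivity)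
  refine h4.trans ?_
  rw [ftz_parseval]
  apply le_of_eq
  congr 1
  refine Finset.sum_congr rfl fun z _ => ?_
  rw [Complex.norm_real, Real.norm_eq_abs, sq_abs]

/-- mass of `G` on `S` in the class `z` -/
noncomputable def mz (G : ℤ → ℝ) (S : Finset ℤ) (z : ZMod D) : ℝ :=
  ∑ n ∈ S.filter (fun n : ℤ => (n : ZMod D) = z), G n

/-- deviation from the product measure -/
noncomputable def cz (G : ℤ → ℝ) (Φ : ℝ) (ψ : ℤ → ℝ) (S : Finset ℤ) (z : ZMod D) : ℝ :=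
  mz G S z - Φ * S.card * ψ (z.val : ℤ) / D

lemma ftz_mz (G : ℤ → ℝ) (S : Finset ℤ) {q a : ℕ} (hq : 1 ≤ q) (hqD : q ∣ D) :
    ftz (fun z => ((mz G S z : ℝ) : ℂ)) ((a * (D / q) : ℕ) : ZMod D) =
      ∑ n ∈ S, (G n : ℂ) * e (-((n : ℝ) * ((a : ℝ) / q))) := by
  classical
  unfold ftz mz
  have h1 : ∀ z : ZMod D, (((∑ n ∈ S.filter (fun n : ℤ => (n : ZMod D) = z), G n : ℝ)) : ℂ) *
      ZMod.stdAddChar (-(z * ((a * (D / q) : ℕ) : ZMod D))) =
      ∑ n ∈ S.filter (fun n : ℤ => (n : ZMod D) = z),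
        (G n : ℂ) * e (-((n : ℝ) * ((a : ℝ) / q))) := by
    intro z
    rw [Complex.ofReal_sum, Finset.sum_mul]
    refine Finset.sum_congr rfl fun n hn => ?_
    rw [← (Finset.mem_filter.1 hn).2, std_int n hq hqD]
  simp_rw [h1]
  exact Finset.sum_fiberwise_of_maps_to (fun n _ => Finset.mem_univ _) _

lemma ftz_ph (ψ : ℤ → ℝ) {q a : ℕ} (hq : 1 ≤ q) (hqD : q ∣ D) :
    ftz (fun z : ZMod D => ((ψ (z.val : ℤ) / D : ℝ) : ℂ)) ((a * (D / q) : ℕ) : ZMod D) =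
      ph ψ D ((a : ℝ) / q) := by
  unfold ftz ph
  rw [Finset.sum_div]
  symm
  refine Finset.sum_bij' (fun x _ => (x : ZMod D)) (fun x _ => x.val) ?_ ?_ ?_ ?_ ?_
  · intro x _; exact mem_univ _
  · intro x _; rw [Finset.mem_range]; exact ZMod.val_lt x
  · intro x hx
    rw [Finset.mem_range] at hx
    exact ZMod.val_cast_of_lt hx
  · intro x _; exact ZMod.natCast_zmod_val x
  · intro x hx
    rw [Finset.mem_range] at hx
    have h1 := std_int (D := D) (x : ℤ) (a := a) hq hqD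
    rw [Int.cast_natCast, Int.cast_natCast] at h1
    rw [h1]
    simp only [ZMod.val_cast_of_lt hx]
    push_cast
    ring

lemma key_sum (G : ℤ → ℝ) (Φ : ℝ) (ψ : ℤ → ℝ) (S : Finset ℤ) (qs : Finset ℕ)
    (hqs : ∀ q ∈ qs, 1 ≤ q ∧ q ∣ D) :
    ∑ q ∈ qs, ∑ a ∈ (range q).filter (Nat.Coprime q),
      ‖∑ n ∈ S, (G n : ℂ) * e (-((n : ℝ) * ((a : ℝ) / q))) -
        (Φ * S.card : ℝ) * ph ψ D ((a : ℝ) / q)‖ ^ 2 ≤ D * ∑ z : ZMod D, cz G Φ ψ S z ^ 2 := by
  refine le_trans (le_of_eq ?_) (parseval (cz G Φ ψ S) qs hqs)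
  refine Finset.sum_congr rfl fun q hq => Finset.sum_congr rfl fun a _ => ?_
  congr 2
  rw [← ftz_mz G S (hqs q hq).1 (hqs q hq).2, ← ftz_ph ψ (hqs q hq).1 (hqs q hq).2]
  unfold ftz
  rw [Finset.mul_sum, ← Finset.sum_sub_distrib]
  refine Finset.sum_congr rfl fun z _ => ?_
  unfold cz
  push_cast
  ring

/-! ### elementary properties of the masses -/

lemma cz_eq (G : ℤ → ℝ) (Φ : ℝ) (ψ : ℤ → ℝ) (S : Finset ℤ) (z : ZMod D) :
    cz G Φ ψ S z =
      ∑ n ∈ S, ((if (n : ZMod D) = z then G n else 0) - Φ * ψ (z.val : ℤ) / D) := by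
  unfold cz mz
  rw [Finset.sum_sub_distrib, Finset.sum_filter, Finset.sum_const, nsmul_eq_mul]
  ring

lemma mz_nonneg {G : ℤ → ℝ} (hG : ∀ n, 0 ≤ G n) (S : Finset ℤ) (z : ZMod D) : 0 ≤ mz G S z :=
  Finset.sum_nonneg fun _ _ => hG _

lemma mz_mono {G : ℤ → ℝ} (hG : ∀ n, 0 ≤ G n) {S T : Finset ℤ} (h : S ⊆ T) (z : ZMod D) :
    mz G S z ≤ mz G T z :=
  Finset.sum_le_sum_of_subset_of_nonneg (Finset.filter_subset_filter _ h) fun _ _ _ => hG _

lemma mz_union_le {G : ℤ → ℝ} (hG : ∀ n, 0 ≤ G n) (S T : Finset ℤ) (z : ZMod D) :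
    mz G (S ∪ T) z ≤ mz G S z + mz G T z := by
  classical
  unfold mz
  rw [Finset.filter_union, ← Finset.sum_union_inter]
  exact le_add_of_nonneg_right (Finset.sum_nonneg fun _ _ => hG _)

lemma mz_window (G : ℤ → ℝ) (y : ℤ) (M : ℕ) (z : ZMod D) :
    mz G (Ioc y (y + M)) z = mass G y M D (z.val : ℤ) := by
  unfold mz mass
  refine Finset.sum_congr ?_ fun _ _ => rfl
  refine Finset.filter_congr fun n _ => ?_
  rw [← ZMod.intCast_eq_intCast_iff, Int.cast_natCast, ZMod.natCast_zmod_val]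

lemma psi_val {ψ : ℤ → ℝ} (hψ : ∀ n, ψ (n + D) = ψ n) (n : ℤ) :
    ψ (((n : ZMod D).val : ℕ) : ℤ) = ψ n := by
  have hper : Function.Periodic ψ (D : ℤ) := hψ
  rw [ZMod.val_intCast]
  have h1 := hper.int_mul (n / D) (n % D)
  rw [← h1]
  congr 1
  have h2 := Int.emod_add_mul_ediv n D
  rw [mul_comm] at h2
  exact h2

lemma sum_psi {ψ : ℤ → ℝ} (hs : ∑ x ∈ range D, ψ x = D) :
    ∑ z : ZMod D, ψ (z.val : ℤ) = D := by
  rw [← hs]
  symm
  refine Finset.sum_bij' (fun x _ => (x : ZMod D)) (fun x _ => x.val) ?_ ?_ ?_ ?_ ?_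
  · intro x _; exact mem_univ _
  · intro x _; rw [Finset.mem_range]; exact ZMod.val_lt x
  · intro x hx
    rw [Finset.mem_range] at hx
    exact ZMod.val_cast_of_lt hx
  · intro x _; exact ZMod.natCast_zmod_val x
  · intro x hx
    rw [Finset.mem_range] at hx
    simp only [ZMod.val_cast_of_lt hx]

end Z

/-! ### tiles -/

/-- the tile with index `j` -/
noncomputable def tl (N' t : ℕ) (j : ℤ) : Finset ℤ :=
  (Icc (1 : ℤ) N').filter (fun n => tile N' t n = j)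

/-- indices of tiles -/
noncomputable def Jt (N' t : ℕ) : Finset ℤ := (Icc (1 : ℤ) N').image (tile N' t)

lemma tl_bd {N' t : ℕ} (ht : 1 ≤ t) {j n : ℤ} (hn : n ∈ tl N' t j) :
    j * t < n ∧ n ≤ j * t + 2 * t := by
  unfold tl at hn
  rw [Finset.mem_filter, Finset.mem_Icc] at hn
  obtain ⟨⟨h1, h2⟩, h3⟩ := hn
  unfold tile at h3
  have ht0 : (0 : ℤ) < t := by exact_mod_cast ht
  constructor
  · have h4 : j ≤ (n - 1) / (t : ℤ) := by rw [← h3]; exact min_le_left _ _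
    have h5 := (Int.le_ediv_iff_mul_le ht0).1 h4
    linarith
  · rcases min_choice ((n - 1) / (t : ℤ)) (((N' / t : ℕ) : ℤ) - 1) with h4 | h4
    · rw [h4] at h3
      have h5 : (n - 1) / (t : ℤ) < j + 1 := by omega
      have h6 := (Int.ediv_lt_iff_lt_mul ht0).1 h5
      nlinarith
    · rw [h4] at h3
      have h5 : (N' : ℤ) < ((N' / t : ℕ) : ℤ) * t + t := by
        have := Nat.lt_div_mul_add (a := N') (b := t) (by omega)
        exact_mod_cast this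
      rw [← h3]
      nlinarith

lemma Jt_bd {N' t : ℕ} (ht : 1 ≤ t) (htN : t ≤ N') {j : ℤ} (hj : j ∈ Jt N' t) :
    0 ≤ j ∧ j ≤ ((N' / t : ℕ) : ℤ) - 1 := by
  unfold Jt at hj
  rw [Finset.mem_image] at hj
  obtain ⟨n, hn, rfl⟩ := hj
  rw [Finset.mem_Icc] at hn
  unfold tile
  have ht0 : (0 : ℤ) < t := by exact_mod_cast ht
  refine ⟨le_min ?_ ?_, min_le_right _ _⟩
  · exact Int.ediv_nonneg (by linarith [hn.1]) ht0.le
  · have h1 : 1 ≤ N' / t := (Nat.one_le_div_iff (by omega)).2 htN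
    have h2 : (1 : ℤ) ≤ ((N' / t : ℕ) : ℤ) := by exact_mod_cast h1
    linarith

lemma tl_sup {N' t : ℕ} (ht : 1 ≤ t) (htN : t ≤ N') {j : ℤ} (hj : j ∈ Jt N' t) :
    Ioc (j * t) (j * t + t) ⊆ tl N' t j := by
  obtain ⟨h0, h1⟩ := Jt_bd ht htN hj
  have ht0 : (0 : ℤ) < t := by exact_mod_cast ht
  intro n hn
  rw [Finset.mem_Ioc] at hn
  unfold tl
  rw [Finset.mem_filter, Finset.mem_Icc]
  have h2 : (((N' / t : ℕ) : ℤ)) * t ≤ N' := by
    exact_mod_cast Nat.div_mul_le_self N' t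
  refine ⟨⟨?_, ?_⟩, ?_⟩
  · nlinarith
  · nlinarith
  · unfold tile
    have h3 : (n - 1) / (t : ℤ) = j := by
      rw [Int.ediv_eq_iff_of_pos ht0]
      constructor <;> nlinarith
    rw [h3]
    exact min_eq_left h1

/-- number of windows that contain a given tile -/
lemma card_windows {N' t : ℕ} (ht : 1 ≤ t) (htN : t ≤ N') {j : ℤ} (hj : j ∈ Jt N' t)
    (Y : Finset ℤ) (y0 : ℤ) (H : ℕ) :
    (Y.filter (fun y => tl N' t j ⊆ Ioc (y + y0) (y + y0 + H))).card ≤ H := by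
  have h1 : Y.filter (fun y => tl N' t j ⊆ Ioc (y + y0) (y + y0 + H)) ⊆
      Ico (j * t + 1 - y0 - H) (j * t + 1 - y0) := by
    intro y hy
    rw [Finset.mem_filter] at hy
    have ht0 : (0 : ℤ) < t := by exact_mod_cast ht
    have h2 : j * t + 1 ∈ tl N' t j := tl_sup ht htN hj (by
      rw [Finset.mem_Ioc]; constructor <;> linarith)
    have h3 := hy.2 h2
    rw [Finset.mem_Ioc] at h3
    rw [Finset.mem_Ico]
    constructor <;> linarith [h3.1, h3.2]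
  refine (Finset.card_le_card h1).trans (le_of_eq ?_)
  rw [Int.card_Ico]
  have : j * t + 1 - y0 - (j * t + 1 - y0 - (H : ℤ)) = H := by ring
  rw [this, Int.toNat_natCast]

/-- number of full tiles in a window of length `m0 t` -/
lemma card_full {N' t m0 : ℕ} (ht : 1 ≤ t) (htN : t ≤ N') (y : ℤ) :
    ((Jt N' t).filter (fun j => tl N' t j ⊆ Ioc y (y + (m0 * t : ℕ)))).card ≤ m0 := by
  classical
  set F := (Jt N' t).filter (fun j => tl N' t j ⊆ Ioc y (y + (m0 * t : ℕ))) with hF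
  have h1 : (F.biUnion (fun j => tl N' t j)).card = ∑ j ∈ F, (tl N' t j).card := by
    apply Finset.card_biUnion
    intro i _ j _ hij
    change Disjoint (tl N' t i) (tl N' t j)
    rw [Finset.disjoint_left]
    intro n hn hn'
    unfold tl at hn hn'
    exact hij ((Finset.mem_filter.1 hn).2.symm.trans (Finset.mem_filter.1 hn').2)
  have h2 : (F.biUnion (fun j => tl N' t j)).card ≤ m0 * t := by
    refine (Finset.card_le_card (t := Ioc y (y + (m0 * t : ℕ))) ?_).trans (le_of_eq ?_)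
    · intro n hn
      rw [Finset.mem_biUnion] at hn
      obtain ⟨j, hj, hn⟩ := hn
      exact (Finset.mem_filter.1 hj).2 hn
    · rw [Int.card_Ioc, add_sub_cancel_left, Int.toNat_natCast]
  have h3 : F.card * t ≤ ∑ j ∈ F, (tl N' t j).card := by
    rw [← smul_eq_mul]
    refine Finset.card_nsmul_le_sum _ _ _ fun j hj => ?_
    have h4 := Finset.card_le_card (tl_sup ht htN (Finset.mem_filter.1 hj).1)
    rwa [Int.card_Ioc, add_sub_cancel_left, Int.toNat_natCast] at h4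
  rw [h1] at h2
  exact Nat.le_of_mul_le_mul_right (h3.trans h2) ht

section R

variable {D : ℕ} [NeZero D] {N' t m0 : ℕ} {G : ℤ → ℝ} {Φ Ms : ℝ} {ψ : ℤ → ℝ}

/-- mass of a set covered by two windows of length `t` -/
lemma mz_two (hG : ∀ n, 0 ≤ G n) (hm : ∀ y x : ℤ, mass G y t D x ≤ Ms * Φ * t / D)
    (y : ℤ) (z : ZMod D) : mz G (Ioc y (y + 2 * t)) z ≤ 2 * (Ms * Φ * t / D) := by
  have h1 : Ioc y (y + 2 * (t : ℤ)) ⊆ Ioc y (y + t) ∪ Ioc (y + t) (y + t + t) := by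
    intro n hn
    rw [Finset.mem_union, Finset.mem_Ioc, Finset.mem_Ioc]
    rw [Finset.mem_Ioc] at hn
    rcases le_or_gt n (y + t) with h | h
    · exact Or.inl ⟨hn.1, h⟩
    · exact Or.inr ⟨h, by linarith [hn.2]⟩
  have h2 := (mz_mono hG h1 z).trans (mz_union_le hG _ _ z)
  rw [mz_window, mz_window] at h2
  linarith [hm y (z.val : ℤ), hm (y + t) (z.val : ℤ)]

lemma mz_tl (hG : ∀ n, 0 ≤ G n) (ht : 1 ≤ t)
    (hm : ∀ y x : ℤ, mass G y t D x ≤ Ms * Φ * t / D)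
    (j : ℤ) (z : ZMod D) : mz G (tl N' t j) z ≤ 2 * (Ms * Φ * t / D) := by
  refine (mz_mono hG ?_ z).trans (mz_two hG hm (j * t) z)
  intro n hn
  rw [Finset.mem_Ioc]
  exact tl_bd ht hn

lemma card_tl (ht : 1 ≤ t) (j : ℤ) : (tl N' t j).card ≤ 2 * t := by
  have h1 : tl N' t j ⊆ Ioc (j * t) (j * t + (2 * t : ℕ)) := by
    intro n hn
    rw [Finset.mem_Ioc]
    have := tl_bd ht hn
    push_cast
    exact this
  refine (Finset.card_le_card h1).trans (le_of_eq ?_)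
  rw [Int.card_Ioc, add_sub_cancel_left, Int.toNat_natCast]

/-- bound for the deviation of a boundary piece -/
lemma cz_bdry (hΦ : 0 < Φ) (hG : ∀ n, 0 ≤ G n)
    (hm : ∀ y x : ℤ, mass G y t D x ≤ Ms * Φ * t / D) (hψ0 : ∀ n, 0 ≤ ψ n)
    (hψM : ∀ n, ψ n ≤ Ms) (y1 y2 : ℤ) (B : Finset ℤ)
    (hB : B ⊆ Ioc y1 (y1 + 2 * t) ∪ Ioc y2 (y2 + 2 * t)) (z : ZMod D) :
    cz G Φ ψ B z ^ 2 ≤ (4 * (Ms * Φ * t / D)) ^ 2 := by
  have hD : (0 : ℝ) < D := by
    have : 0 < D := Nat.pos_of_ne_zero (NeZero.ne D)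
    exact_mod_cast this
  have h1 := (mz_mono hG hB z).trans (mz_union_le hG _ _ z)
  have h2 := mz_two hG hm y1 z
  have h3 := mz_two hG hm y2 z
  have h4 : 0 ≤ mz G B z := mz_nonneg hG B z
  have h5 : B.card ≤ 4 * t := by
    refine (Finset.card_le_card hB).trans ((Finset.card_union_le _ _).trans (le_of_eq ?_))
    rw [Int.card_Ioc, Int.card_Ioc, add_sub_cancel_left, add_sub_cancel_left]
    omega
  have h5' : (B.card : ℝ) ≤ 4 * t := by exact_mod_cast h5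
  have h6 : 0 ≤ Φ * B.card * ψ (z.val : ℤ) / D := by
    have := hψ0 (z.val : ℤ)
    positivity
  have h7 : Φ * B.card * ψ (z.val : ℤ) / D ≤ 4 * (Ms * Φ * t / D) := by
    calc Φ * B.card * ψ (z.val : ℤ) / D ≤ Φ * (4 * t) * Ms / D := by
          have := hψ0 (z.val : ℤ)
          have := hψM (z.val : ℤ)
          gcongr
      _ = 4 * (Ms * Φ * t / D) := by ring
  apply sq_le_sq'
  · unfold cz; linarith
  · unfold cz; linarith

/-- deviation of a tile -/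
lemma cz_tl (hΦ : 0 < Φ) (ht : 1 ≤ t) (hG : ∀ n, 0 ≤ G n)
    (hm : ∀ y x : ℤ, mass G y t D x ≤ Ms * Φ * t / D) (hψ0 : ∀ n, 0 ≤ ψ n)
    (hψ : ∀ n, ψ (n + D) = ψ n)
    (hψM : ∀ n, ψ n ≤ Ms) (hGψ : ∀ n, G n ≠ 0 → ψ n ≠ 0) (j : ℤ) (z : ZMod D) :
    cz G Φ ψ (tl N' t j) z ^ 2 ≤ 2 * (2 * (Ms * Φ * t / D)) *
      (mz G (tl N' t j) z * Real.log (mz G (tl N' t j) z /
        (Φ * (tl N' t j).card * ψ (z.val : ℤ) / D)) - mz G (tl N' t j) z +
        Φ * (tl N' t j).card * ψ (z.val : ℤ) / D) := by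
  have hD : (0 : ℝ) < D := by
    have : 0 < D := Nat.pos_of_ne_zero (NeZero.ne D)
    exact_mod_cast this
  have hψz := hψ0 (z.val : ℤ)
  have hψz' := hψM (z.val : ℤ)
  unfold cz
  refine ent_pt (mz_nonneg hG _ _) ?_ (mz_tl hG ht hm j z) ?_ ?_
  · positivity
  · have h5 := card_tl (N' := N') ht j
    have h5' : ((tl N' t j).card : ℝ) ≤ 2 * t := by exact_mod_cast h5
    calc Φ * (tl N' t j).card * ψ (z.val : ℤ) / D ≤ Φ * (2 * t) * Ms / D := by gcongr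
      _ = 2 * (Ms * Φ * t / D) := by ring
  · intro h0
    unfold mz
    refine Finset.sum_eq_zero fun n hn => ?_
    rw [Finset.mem_filter] at hn
    by_contra hne
    have h1 := hGψ n hne
    have h2 : (tl N' t j).card ≠ 0 := Finset.card_ne_zero_of_mem hn.1
    have h3 : ψ (z.val : ℤ) ≠ 0 := by
      rw [← hn.2, psi_val hψ]
      exact h1
    have h4 : ((tl N' t j).card : ℝ) ≠ 0 := by exact_mod_cast h2
    have h5 : Φ * (tl N' t j).card * ψ (z.val : ℤ) / D ≠ 0 := by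
      have := hΦ.ne'
      have := hD.ne'
      positivity
    exact h5 h0

/-- sum over `[1,N']` as a sum over tiles and classes -/
lemma sum_cells (f : ℤ → ℝ) :
    ∑ n ∈ Icc (1 : ℤ) N', f n =
      ∑ j ∈ Jt N' t, ∑ z : ZMod D, ∑ n ∈ (tl N' t j).filter (fun n : ℤ => (n : ZMod D) = z), f n := by
  classical
  rw [← Finset.sum_fiberwise_of_maps_to (s := Icc (1 : ℤ) N') (t := Jt N' t) (g := tile N' t)
    (fun n hn => Finset.mem_image_of_mem _ hn)]
  refine Finset.sum_congr rfl fun j _ => ?_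
  rw [← Finset.sum_fiberwise_of_maps_to (s := (Icc (1 : ℤ) N').filter (fun n => tile N' t n = j))
    (t := (Finset.univ : Finset (ZMod D))) (g := fun n : ℤ => (n : ZMod D))
    (fun n _ => Finset.mem_univ _)]
  rfl

/-- the relative entropy as a sum over cells -/
lemma kl_id (hN : 0 < (N' : ℝ) * Φ) (hψ : ∀ n, ψ (n + D) = ψ n) :
    N' * Φ * KLt N' t D G Φ ψ = ∑ j ∈ Jt N' t, ∑ z : ZMod D,
      mz G (tl N' t j) z * Real.log (mz G (tl N' t j) z /
        (Φ * (tl N' t j).card * ψ (z.val : ℤ) / D)) := by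
  unfold KLt
  rw [Finset.mul_sum]
  have h1 : ∀ n ∈ Icc (1 : ℤ) N', (N' * Φ) * (G n / (N' * Φ) *
      Real.log (fib N' t D G n / (Φ * tlen N' t n * ψ n / D))) =
      G n * Real.log (fib N' t D G n / (Φ * tlen N' t n * ψ n / D)) := by
    intro n _
    rw [← mul_assoc, mul_div_cancel₀ _ hN.ne']
  rw [Finset.sum_congr rfl h1, sum_cells (D := D) (t := t)]
  refine Finset.sum_congr rfl fun j _ => Finset.sum_congr rfl fun z _ => ?_
  have h0 : mz G (tl N' t j) z * Real.log (mz G (tl N' t j) z /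
        (Φ * (tl N' t j).card * ψ (z.val : ℤ) / D)) =
      ∑ n ∈ (tl N' t j).filter (fun n : ℤ => (n : ZMod D) = z), G n *
        Real.log (mz G (tl N' t j) z / (Φ * (tl N' t j).card * ψ (z.val : ℤ) / D)) := by
    rw [← Finset.sum_mul]
    rfl
  rw [h0]
  refine Finset.sum_congr rfl fun n hn => ?_
  rw [Finset.mem_filter] at hn
  have h2 : tile N' t n = j := by
    have := hn.1
    unfold tl at this
    exact (Finset.mem_filter.1 this).2
  congr 2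
  · have h3 : fib N' t D G n = mz G (tl N' t j) z := by
      unfold fib mz tl
      rw [Finset.filter_filter]
      refine Finset.sum_congr ?_ fun _ _ => rfl
      refine Finset.filter_congr fun n' _ => ?_
      rw [h2, ← hn.2, ← ZMod.intCast_eq_intCast_iff]
    have h4 : tlen N' t n = (tl N' t j).card := by
      unfold tlen tl
      rw [h2]
    have h5 : ψ n = ψ (z.val : ℤ) := by
      rw [← hn.2, psi_val hψ]
    rw [h3, h4, h5]

/-- window inside `[1,N']` -/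
noncomputable def win (N' : ℕ) (y : ℤ) (M : ℕ) : Finset ℤ :=
  (Ioc y (y + M)).filter (fun n : ℤ => 1 ≤ n ∧ n ≤ (N' : ℤ))

/-- boundary piece of a window -/
noncomputable def bd (N' t : ℕ) (y : ℤ) (M : ℕ) : Finset ℤ :=
  (win N' y M).filter (fun n => ¬ tl N' t (tile N' t n) ⊆ Ioc y (y + M))

lemma bd_sub (ht : 1 ≤ t) (y : ℤ) (M : ℕ) :
    bd N' t y M ⊆ Ioc y (y + 2 * t) ∪ Ioc (y + M - 2 * t) (y + M - 2 * t + 2 * t) := by
  intro n hn
  unfold bd win at hn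
  rw [Finset.mem_filter, Finset.mem_filter, Finset.mem_Ioc] at hn
  obtain ⟨⟨⟨h1, h2⟩, h3, h4⟩, h5⟩ := hn
  rw [Finset.not_subset] at h5
  obtain ⟨n', hn', h6⟩ := h5
  have h7 : n ∈ tl N' t (tile N' t n) := by
    unfold tl
    rw [Finset.mem_filter, Finset.mem_Icc]
    exact ⟨⟨h3, h4⟩, rfl⟩
  have h8 := tl_bd ht hn'
  have h9 := tl_bd ht h7
  rw [Finset.mem_Ioc, not_and_or, not_lt, not_le] at h6
  rw [Finset.mem_union, Finset.mem_Ioc, Finset.mem_Ioc]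
  rcases h6 with h6 | h6
  · left
    constructor <;> linarith [h8.1, h8.2, h9.1, h9.2]
  · right
    constructor <;> linarith [h8.1, h8.2, h9.1, h9.2]

/-- decomposition of the deviation of a window -/
lemma cz_win (y : ℤ) (M : ℕ) (z : ZMod D) :
    cz G Φ ψ (win N' y M) z =
      ∑ j ∈ (Jt N' t).filter (fun j => tl N' t j ⊆ Ioc y (y + M)), cz G Φ ψ (tl N' t j) z +
        cz G Φ ψ (bd N' t y M) z := by
  classical
  rw [cz_eq, cz_eq]
  unfold bd
  rw [← Finset.sum_filter_add_sum_filter_not (win N' y M)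
    (fun n => tl N' t (tile N' t n) ⊆ Ioc y (y + M))]
  congr 1
  rw [← Finset.sum_fiberwise_of_maps_to
    (s := (win N' y M).filter (fun n => tl N' t (tile N' t n) ⊆ Ioc y (y + M)))
    (t := (Jt N' t).filter (fun j => tl N' t j ⊆ Ioc y (y + M))) (g := tile N' t)]
  · refine Finset.sum_congr rfl fun j hj => ?_
    rw [cz_eq]
    refine Finset.sum_congr ?_ fun _ _ => rfl
    rw [Finset.mem_filter] at hj
    ext n
    unfold win tl
    simp only [Finset.mem_filter, Finset.mem_Icc]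
    constructor
    · rintro ⟨⟨⟨_, h1⟩, _⟩, h2⟩
      exact ⟨h1, h2⟩
    · rintro ⟨h1, h2⟩
      refine ⟨⟨⟨?_, h1⟩, ?_⟩, h2⟩
      · apply hj.2
        unfold tl
        rw [Finset.mem_filter, Finset.mem_Icc]
        exact ⟨h1, h2⟩
      · rw [h2]
        exact hj.2
  · intro n hn
    unfold win at hn
    rw [Finset.mem_filter, Finset.mem_filter] at hn
    rw [Finset.mem_filter]
    refine ⟨?_, hn.2⟩
    unfold Jt
    exact Finset.mem_image_of_mem _ (Finset.mem_Icc.2 hn.1.2)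

/-- one window -/
lemma win_le (ht : 1 ≤ t) (htN : t ≤ N') (hΦ : 0 < Φ) (hG : ∀ n, 0 ≤ G n)
    (hm : ∀ y x : ℤ, mass G y t D x ≤ Ms * Φ * t / D) (hψ0 : ∀ n, 0 ≤ ψ n)
    (hψM : ∀ n, ψ n ≤ Ms) (y : ℤ) :
    D * ∑ z : ZMod D, cz G Φ ψ (win N' y (m0 * t)) z ^ 2 ≤
      2 * m0 * ∑ j ∈ (Jt N' t).filter (fun j => tl N' t j ⊆ Ioc y (y + (m0 * t : ℕ))),
        (D * ∑ z : ZMod D, cz G Φ ψ (tl N' t j) z ^ 2) + 32 * (Ms * Φ * t) ^ 2 := by
  classical
  have hD : (0 : ℝ) < D := by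
    have : 0 < D := Nat.pos_of_ne_zero (NeZero.ne D)
    exact_mod_cast this
  have h1 : ∀ z : ZMod D, cz G Φ ψ (win N' y (m0 * t)) z ^ 2 ≤
      2 * m0 * ∑ j ∈ (Jt N' t).filter (fun j => tl N' t j ⊆ Ioc y (y + (m0 * t : ℕ))),
        cz G Φ ψ (tl N' t j) z ^ 2 + 2 * (4 * (Ms * Φ * t / D)) ^ 2 := by
    intro z
    rw [cz_win (t := t)]
    have h2 := cz_bdry hΦ hG hm hψ0 hψM y (y + (m0 * t : ℕ) - 2 * t) (bd N' t y (m0 * t))
      (bd_sub ht y (m0 * t)) z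
    have h3 := sq_sum_le_card_mul_sum_sq
      (s := (Jt N' t).filter (fun j => tl N' t j ⊆ Ioc y (y + (m0 * t : ℕ))))
      (f := fun j => cz G Φ ψ (tl N' t j) z)
    have h4 := card_full (m0 := m0) ht htN y
    have h4' : (((Jt N' t).filter (fun j => tl N' t j ⊆ Ioc y (y + (m0 * t : ℕ)))).card : ℝ) ≤
        m0 := by exact_mod_cast h4
    have h5 : 0 ≤ ∑ j ∈ (Jt N' t).filter (fun j => tl N' t j ⊆ Ioc y (y + (m0 * t : ℕ))),
        cz G Φ ψ (tl N' t j) z ^ 2 := Finset.sum_nonneg fun _ _ => sq_nonneg _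
    have h6 := h3.trans (mul_le_mul_of_nonneg_right h4' h5)
    have h7 := add_sq_le (a := ∑ j ∈ (Jt N' t).filter
      (fun j => tl N' t j ⊆ Ioc y (y + (m0 * t : ℕ))), cz G Φ ψ (tl N' t j) z)
      (b := cz G Φ ψ (bd N' t y (m0 * t)) z)
    linarith
  have h2 : D * ∑ z : ZMod D, cz G Φ ψ (win N' y (m0 * t)) z ^ 2 ≤
      D * ∑ z : ZMod D, (2 * m0 *
        ∑ j ∈ (Jt N' t).filter (fun j => tl N' t j ⊆ Ioc y (y + (m0 * t : ℕ))),
        cz G Φ ψ (tl N' t j) z ^ 2 + 2 * (4 * (Ms * Φ * t / D)) ^ 2) :=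
    mul_le_mul_of_nonneg_left (Finset.sum_le_sum fun z _ => h1 z) hD.le
  refine h2.trans (le_of_eq ?_)
  rw [Finset.sum_add_distrib, Finset.sum_const, Finset.card_univ, ZMod.card, nsmul_eq_mul,
    ← Finset.mul_sum, ← Finset.mul_sum, Finset.sum_comm]
  have hD' := hD.ne'
  field_simp
  ring

/-- sum over all tiles -/
lemma tiles_le (ht : 1 ≤ t) (hN : 0 < (N' : ℝ) * Φ) (hΦ : 0 < Φ) (hG : ∀ n, 0 ≤ G n)
    (hGsum : ∑ n ∈ Icc (1 : ℤ) N', G n = N' * Φ)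
    (hm : ∀ y x : ℤ, mass G y t D x ≤ Ms * Φ * t / D) (hψ0 : ∀ n, 0 ≤ ψ n)
    (hψ : ∀ n, ψ (n + D) = ψ n) (hψs : ∑ x ∈ range D, ψ x = D)
    (hψM : ∀ n, ψ n ≤ Ms) (hGψ : ∀ n, G n ≠ 0 → ψ n ≠ 0) :
    ∑ j ∈ Jt N' t, (D * ∑ z : ZMod D, cz G Φ ψ (tl N' t j) z ^ 2) ≤
      4 * Ms * Φ * t * (N' * Φ * KLt N' t D G Φ ψ) := by
  classical
  have hD : (0 : ℝ) < D := by
    have : 0 < D := Nat.pos_of_ne_zero (NeZero.ne D)
    exact_mod_cast this
  have h1 : ∑ j ∈ Jt N' t, ∑ z : ZMod D, mz G (tl N' t j) z = N' * Φ := by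
    rw [← hGsum, sum_cells (D := D) (t := t)]
    rfl
  have h2 : ∑ j ∈ Jt N' t, ∑ z : ZMod D, Φ * (tl N' t j).card * ψ (z.val : ℤ) / D = N' * Φ := by
    have h3 : ∀ j ∈ Jt N' t, ∑ z : ZMod D, Φ * (tl N' t j).card * ψ (z.val : ℤ) / D =
        Φ * (tl N' t j).card := by
      intro j _
      rw [← Finset.sum_div, ← Finset.mul_sum, sum_psi hψs]
      field_simp
    rw [Finset.sum_congr rfl h3, ← Finset.mul_sum, ← Nat.cast_sum]
    have h4 : ∑ j ∈ Jt N' t, (tl N' t j).card = N' := by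
      have h5 := Finset.card_eq_sum_card_fiberwise (s := Icc (1 : ℤ) N') (t := Jt N' t)
        (f := tile N' t) (fun n hn => Finset.mem_image_of_mem _ hn)
      rw [Int.card_Icc] at h5
      have h6 : ((N' : ℤ) + 1 - 1).toNat = N' := by omega
      rw [h6] at h5
      exact h5.symm
    rw [h4]
    ring
  rw [kl_id hN hψ]
  have h3 : ∀ j ∈ Jt N' t, D * ∑ z : ZMod D, cz G Φ ψ (tl N' t j) z ^ 2 ≤
      D * ∑ z : ZMod D, (2 * (2 * (Ms * Φ * t / D)) *
      (mz G (tl N' t j) z * Real.log (mz G (tl N' t j) z /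
        (Φ * (tl N' t j).card * ψ (z.val : ℤ) / D)) - mz G (tl N' t j) z +
        Φ * (tl N' t j).card * ψ (z.val : ℤ) / D)) := by
    intro j _
    exact mul_le_mul_of_nonneg_left
      (Finset.sum_le_sum fun z _ => cz_tl hΦ ht hG hm hψ0 hψ hψM hGψ j z) hD.le
  refine (Finset.sum_le_sum h3).trans (le_of_eq ?_)
  rw [← Finset.mul_sum]
  simp_rw [← Finset.mul_sum]
  simp_rw [Finset.sum_add_distrib, Finset.sum_sub_distrib]
  rw [h1, h2, sub_add_cancel]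
  field_simp
  ring

end R

end KL2

open KL2 in
theorem kl2_holds : KL2Stmt := by
  intro N' t m0 D G Φ Ms ψ qs y0 ht hm0 hN hD hΦ hMs hG0 hGs hGsum hψ0 hψper hψsum hψM hGψ
    hmass hqs
  have : NeZero D := ⟨by omega⟩
  classical
  have htm : t ≤ m0 * t := Nat.le_mul_of_pos_left t hm0
  have htN : t ≤ N' := by
    have h1 : m0 * t ≤ 2 * m0 * t := by
      rw [mul_assoc]; omega
    omega
  have hN1 : 1 ≤ N' := ht.trans htN
  have hNr : (1 : ℝ) ≤ N' := by exact_mod_cast hN1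
  have hNΦ : 0 < (N' : ℝ) * Φ := by positivity
  have hm0r : (0 : ℝ) < m0 := by exact_mod_cast hm0
  -- Fourier side
  have h1 : ∀ y ∈ Icc (-(N' : ℤ)) (2 * N'),
      ∑ q ∈ qs, ∑ a ∈ (range q).filter (Nat.Coprime q),
      ‖Fw G (y + y0) (m0 * t) ((a : ℝ) / q) -
        (Φ * cnt N' (y + y0) (m0 * t) : ℝ) * ph ψ D ((a : ℝ) / q)‖ ^ 2 ≤
      2 * m0 * ∑ j ∈ (Jt N' t).filter
        (fun j => tl N' t j ⊆ Ioc (y + y0) (y + y0 + (m0 * t : ℕ))),
        (D * ∑ z : ZMod D, cz G Φ ψ (tl N' t j) z ^ 2) + 32 * (Ms * Φ * t) ^ 2 := by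
    intro y _
    refine le_trans ?_ (win_le ht htN hΦ hG0 hmass hψ0 hψM (y + y0))
    refine le_trans (le_of_eq ?_) (key_sum G Φ ψ (win N' (y + y0) (m0 * t)) qs hqs)
    refine Finset.sum_congr rfl fun q _ => Finset.sum_congr rfl fun a _ => ?_
    congr 3
    unfold Fw win
    symm
    apply Finset.sum_filter_of_ne
    intro n _ hne
    apply hGs
    intro h0
    apply hne
    rw [h0]
    simp
  refine (Finset.sum_le_sum h1).trans ?_
  rw [Finset.sum_add_distrib, ← Finset.mul_sum, Finset.sum_const, nsmul_eq_mul, Int.card_Icc]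
  have h2 : ∑ y ∈ Icc (-(N' : ℤ)) (2 * N'), ∑ j ∈ (Jt N' t).filter
        (fun j => tl N' t j ⊆ Ioc (y + y0) (y + y0 + (m0 * t : ℕ))),
        (D * ∑ z : ZMod D, cz G Φ ψ (tl N' t j) z ^ 2) ≤
      ((m0 * t : ℕ) : ℝ) * (4 * Ms * Φ * t * (N' * Φ * KLt N' t D G Φ ψ)) := by
    have h3 : ∑ y ∈ Icc (-(N' : ℤ)) (2 * N'), ∑ j ∈ (Jt N' t).filter
        (fun j => tl N' t j ⊆ Ioc (y + y0) (y + y0 + (m0 * t : ℕ))),
        (D * ∑ z : ZMod D, cz G Φ ψ (tl N' t j) z ^ 2) =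
        ∑ j ∈ Jt N' t, ∑ y ∈ (Icc (-(N' : ℤ)) (2 * N')).filter
          (fun y => tl N' t j ⊆ Ioc (y + y0) (y + y0 + (m0 * t : ℕ))),
          (D * ∑ z : ZMod D, cz G Φ ψ (tl N' t j) z ^ 2) := by
      simp_rw [Finset.sum_filter]
      exact Finset.sum_comm
    rw [h3]
    refine le_trans ?_ (mul_le_mul_of_nonneg_left
      (tiles_le ht hNΦ hΦ hG0 hGsum hmass hψ0 hψper hψsum hψM hGψ) (Nat.cast_nonneg _))
    rw [Finset.mul_sum]
    refine Finset.sum_le_sum fun j hj => ?_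
    rw [Finset.sum_const, nsmul_eq_mul]
    refine mul_le_mul_of_nonneg_right ?_ (by positivity)
    exact_mod_cast card_windows ht htN hj (Icc (-(N' : ℤ)) (2 * N')) y0 (m0 * t)
  have h4 : (((2 * (N' : ℤ) + 1 - -(N' : ℤ)).toNat : ℕ) : ℝ) ≤ 4 * N' := by
    have : (2 * (N' : ℤ) + 1 - -(N' : ℤ)).toNat ≤ 4 * N' := by omega
    exact_mod_cast this
  have h5 : (2 * (m0 : ℝ)) * ∑ y ∈ Icc (-(N' : ℤ)) (2 * N'), ∑ j ∈ (Jt N' t).filter
        (fun j => tl N' t j ⊆ Ioc (y + y0) (y + y0 + (m0 * t : ℕ))),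
        (D * ∑ z : ZMod D, cz G Φ ψ (tl N' t j) z ^ 2) ≤
      (2 * (m0 : ℝ)) *
        (((m0 * t : ℕ) : ℝ) * (4 * Ms * Φ * t * (N' * Φ * KLt N' t D G Φ ψ))) :=
    mul_le_mul_of_nonneg_left h2 (by positivity)
  have h6 : (((2 * (N' : ℤ) + 1 - -(N' : ℤ)).toNat : ℕ) : ℝ) * (32 * (Ms * Φ * t) ^ 2) ≤
      4 * N' * (32 * (Ms * Φ * t) ^ 2) := mul_le_mul_of_nonneg_right h4 (by positivity)
  refine (add_le_add h5 h6).trans ?_
  have h7 : (2 * (m0 : ℝ)) *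
        (((m0 * t : ℕ) : ℝ) * (4 * Ms * Φ * t * (N' * Φ * KLt N' t D G Φ ψ))) =
      N' * ((m0 * t : ℕ) : ℝ) ^ 2 * Φ ^ 2 * (8 * Ms * KLt N' t D G Φ ψ) := by
    push_cast; ring
  have h8 : N' * ((m0 * t : ℕ) : ℝ) ^ 2 * Φ ^ 2 * (1000 * Ms ^ 2 / (m0 : ℝ) ^ 2) =
      1000 * (N' * (Ms * Φ * t) ^ 2) := by
    push_cast
    field_simp
  rw [h7, mul_add, h8]
  have h9 : 0 ≤ (N' : ℝ) * (Ms * Φ * t) ^ 2 := by positivity
  linarith

end Vale.Agent.P042.SS
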