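import Vale.Agent.P042.SS.Spec
import Vale.Agent.P042.SS.EntLib

set_option autoImplicit false

/-!
Block PIN, part b: the chain rule `KLChainStmt`.
-/

namespace Vale.Agent.P042.SS

namespace PinB

open Finset

/-- a tile is a window of length at least `t` -/
lemma tile_window {N' t : ℕ} (ht : 1 ≤ t) (htN : t ≤ N') {n : ℤ} (h1 : 1 ≤ n) :
    ∃ y : ℤ, (Icc (1 : ℤ) N').filter (fun n' => tile N' t n' = tile N' t n) =
      Ioc y (y + (tlen N' t n : ℕ)) ∧ t ≤ tlen N' t n := by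
  have ht0 : (0 : ℤ) < (t : ℤ) := by exact_mod_cast ht
  have hT1 : 1 ≤ N' / t := (Nat.one_le_div_iff (by omega)).2 htN
  obtain ⟨T, hT⟩ : ∃ T : ℕ, N' / t = T := ⟨_, rfl⟩
  have hTN : T * t ≤ N' := by rw [← hT]; exact Nat.div_mul_le_self N' t
  have hTN2 : N' < (T + 1) * t := by
    rw [← hT, mul_comm]; exact Nat.lt_mul_div_succ N' (by omega)
  have hTN' : (T : ℤ) * t ≤ N' := by exact_mod_cast hTN
  have hT1' : (1 : ℤ) ≤ T := by rw [hT] at hT1; exact_mod_cast hT1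
  have hlen : ∀ y : ℤ, ∀ L : ℕ,
      (Icc (1 : ℤ) N').filter (fun n' => tile N' t n' = tile N' t n) = Ioc y (y + (L : ℕ)) →
      tlen N' t n = L := by
    intro y L h
    unfold tlen
    rw [h, Int.card_Ioc]
    simp
  by_cases hc : (n - 1) / (t : ℤ) < (T : ℤ) - 1
  · refine ⟨((n - 1) / (t : ℤ)) * t, ?_⟩
    have hset : (Icc (1 : ℤ) N').filter (fun n' => tile N' t n' = tile N' t n) =
        Ioc (((n - 1) / (t : ℤ)) * t) (((n - 1) / (t : ℤ)) * t + (t : ℕ)) := by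
      have hj0 : 0 ≤ (n - 1) / (t : ℤ) := Int.ediv_nonneg (by omega) ht0.le
      ext x
      rw [mem_filter, mem_Icc, mem_Ioc]
      have e1 : tile N' t n = (n - 1) / (t : ℤ) := by
        unfold tile; rw [hT]; exact min_eq_left (by omega)
      rw [e1]
      unfold tile
      rw [hT]
      have hmul : ((n - 1) / (t : ℤ) + 1) * t ≤ ((T : ℤ) - 1) * t :=
        mul_le_mul_of_nonneg_right (by omega) ht0.le
      constructor
      · rintro ⟨⟨hx1, hx2⟩, hx3⟩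
        have hx4 : (x - 1) / (t : ℤ) = (n - 1) / (t : ℤ) := by
          rcases min_choice ((x - 1) / (t : ℤ)) ((T : ℤ) - 1) with h | h
          · rw [h] at hx3; exact hx3
          · rw [h] at hx3; omega
        have h5 := Int.emod_add_mul_ediv (x - 1) t
        have h6 := Int.emod_nonneg (x - 1) ht0.ne'
        have h7 := Int.emod_lt_of_pos (x - 1) ht0
        rw [hx4] at h5
        constructor
        · nlinarith
        · nlinarith
      · rintro ⟨hx1, hx2⟩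
        have hx0 : 1 ≤ x := by
          have : 0 ≤ (n - 1) / (t : ℤ) * t := mul_nonneg hj0 ht0.le
          omega
        have hxN : x ≤ N' := by nlinarith
        refine ⟨⟨hx0, hxN⟩, ?_⟩
        have hx4 : (x - 1) / (t : ℤ) = (n - 1) / (t : ℤ) := by
          rw [Int.ediv_eq_iff_of_pos ht0]
          constructor
          · nlinarith
          · nlinarith
        rw [hx4]
        exact min_eq_left (by omega)
    have := hlen _ _ hset
    rw [this]
    exact ⟨hset, le_refl t⟩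
  · refine ⟨((T : ℤ) - 1) * t, ?_⟩
    have hL : ((N' - (T - 1) * t : ℕ) : ℤ) = (N' : ℤ) - ((T : ℤ) - 1) * t := by
      have h3 : (T - 1) * t ≤ N' := le_trans (Nat.mul_le_mul_right t (Nat.sub_le T 1)) hTN
      rw [Nat.cast_sub h3, Nat.cast_mul, Nat.cast_sub (by exact_mod_cast hT1')]
      simp
    have hset : (Icc (1 : ℤ) N').filter (fun n' => tile N' t n' = tile N' t n) =
        Ioc (((T : ℤ) - 1) * t) (((T : ℤ) - 1) * t + ((N' - (T - 1) * t : ℕ) : ℤ)) := by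
      ext x
      rw [mem_filter, mem_Icc, mem_Ioc, hL]
      have e1 : tile N' t n = (T : ℤ) - 1 := by
        unfold tile; rw [hT]; exact min_eq_right (by omega)
      rw [e1]
      unfold tile
      rw [hT]
      have hj0 : 0 ≤ ((T : ℤ) - 1) * t := mul_nonneg (by omega) ht0.le
      constructor
      · rintro ⟨⟨hx1, hx2⟩, hx3⟩
        have hx4 : (T : ℤ) - 1 ≤ (x - 1) / (t : ℤ) := by
          rw [← hx3]; exact min_le_left _ _
        have := (Int.le_ediv_iff_mul_le ht0).1 hx4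
        constructor
        · omega
        · omega
      · rintro ⟨hx1, hx2⟩
        refine ⟨⟨by omega, by omega⟩, ?_⟩
        refine min_eq_right ?_
        rw [Int.le_ediv_iff_mul_le ht0]
        omega
    have hl := hlen _ _ hset
    rw [hl]
    refine ⟨hset, ?_⟩
    have h4 : (T - 1) * t + t ≤ N' := by
      have : (T - 1) * t + t = T * t := by
        have hT2 : 1 ≤ T := by exact_mod_cast hT1'
        obtain ⟨u, rfl⟩ : ∃ u, T = u + 1 := ⟨T - 1, by omega⟩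
        simp only [Nat.add_sub_cancel]
        ring
      rw [this]; exact hTN
    omega

/-- congruence modulo `r ∏ S` -/
lemma modEq_iff {r : ℕ} {S W : Finset ℕ} (hS : S ⊆ W) (hp : ∀ p ∈ W, p.Prime)
    (hr : ∀ p ∈ W, Nat.Coprime p r) (a b : ℤ) :
    a ≡ b [ZMOD (r * ∏ p ∈ S, p : ℕ)] ↔ (∀ p ∈ S, a % (p : ℤ) = b % (p : ℤ)) ∧
      a % (r : ℤ) = b % (r : ℤ) := by
  constructor
  · intro h
    rw [Int.modEq_iff_dvd] at h
    constructor
    · intro p hpS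
      have h1 : (p : ℤ) ∣ b - a := by
        refine dvd_trans ?_ h
        exact_mod_cast dvd_mul_of_dvd_right (Finset.dvd_prod_of_mem (fun p => p) hpS) r
      exact (Int.modEq_iff_dvd.2 h1)
    · have h1 : (r : ℤ) ∣ b - a := by
        refine dvd_trans ?_ h
        exact_mod_cast Dvd.intro _ rfl
      exact (Int.modEq_iff_dvd.2 h1)
  · rintro ⟨h1, h2⟩
    rw [Int.modEq_iff_dvd]
    push_cast
    refine IsCoprime.mul_dvd ?_ (Int.modEq_iff_dvd.1 h2) ?_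
    · refine IsCoprime.prod_right (fun p hpS => ?_)
      exact (Nat.isCoprime_iff_coprime.2 (hr p (hS hpS))).symm
    · refine Finset.prod_dvd_of_coprime ?_ ?_
      · intro p hpS q hqS hpq
        simp only [Function.onFun]
        rw [Nat.isCoprime_iff_coprime]
        exact (Nat.coprime_primes (hp p (hS hpS)) (hp q (hS hqS))).2 hpq
      · intro p hpS
        exact Int.modEq_iff_dvd.1 (h1 p hpS)

/-- the fibre mass as a probability -/
lemma pr_eq_fib {N' t r : ℕ} {G : ℤ → ℝ} {Φ : ℝ} {S W : Finset ℕ} (hS : S ⊆ W)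
    (hp : ∀ p ∈ W, p.Prime) (hr : ∀ p ∈ W, Nat.Coprime p r) (n : ℤ) :
    pr (Icc (1 : ℤ) N') (fun n => G n / (N' * Φ))
      (fun n => (XV Xr S n, (Xr r n, tile N' t n))) n =
      fib N' t (r * ∏ p ∈ S, p) G n / (N' * Φ) := by
  classical
  rw [pr_def', ← Finset.sum_div]
  congr 1
  unfold fib
  refine Finset.sum_congr ?_ (fun _ _ => rfl)
  ext x
  rw [mem_filter, mem_filter]
  refine and_congr_right (fun _ => ?_)
  rw [Prod.mk.injEq, Prod.mk.injEq, XV_eq_iff, modEq_iff hS hp hr]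
  unfold Xr
  constructor
  · rintro ⟨h1, h2, h3⟩
    exact ⟨h3, h1, h2⟩
  · rintro ⟨h1, h2, h3⟩
    exact ⟨h2, h3, h1⟩

/-- the fibre as the mass in a window -/
lemma fib_eq_mass {N' t D : ℕ} {G : ℤ → ℝ} (ht : 1 ≤ t) (htN : t ≤ N') {n : ℤ}
    (h1 : 1 ≤ n) :
    ∃ y : ℤ, fib N' t D G n = mass G y (tlen N' t n) D n ∧ t ≤ tlen N' t n := by
  obtain ⟨y, hy, hl⟩ := tile_window ht htN h1
  refine ⟨y, ?_, hl⟩
  unfold fib mass
  rw [← hy]
  refine Finset.sum_congr ?_ (fun _ _ => rfl)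
  ext x
  simp only [mem_filter, and_assoc]

/-- the marginal probability -/
lemma pr_Xr {k N' Nmin : ℕ} {W : Finset ℕ} {τ η Φ : ℝ} {G : ℤ → ℝ} {ν : ℕ → ℤ → ℝ}
    (h : Pinned k N' Nmin W τ η Φ G ν) (hN : 1 ≤ N') {p : ℕ} (hp : p ∈ W) (n : ℤ) :
    pr (Icc (1 : ℤ) N') (fun n => G n / (N' * Φ)) (Xr p) n = ν p n / p := by
  classical
  have hN0 : (0 : ℝ) < N' := by exact_mod_cast hN
  have hΦ := h.Φpos
  rw [pr_def', ← Finset.sum_div]
  have e : ∑ x ∈ (Icc (1 : ℤ) N').filter (fun x => Xr p x = Xr p n), G x = mass G 0 N' p n := by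
    unfold mass
    refine Finset.sum_congr ?_ (fun _ _ => rfl)
    ext x
    rw [mem_filter, mem_filter, mem_Icc, mem_Ioc]
    constructor
    · rintro ⟨⟨h1, h2⟩, h3⟩
      exact ⟨⟨by omega, by omega⟩, h3⟩
    · rintro ⟨⟨h1, h2⟩, h3⟩
      exact ⟨⟨by omega, by omega⟩, h3⟩
  rw [e, h.marg p hp n]
  have h1 : (N' : ℝ) * Φ ≠ 0 := by positivity
  field_simp

/-- the entropy of `n mod p` is at most `log p` -/
lemma Ent_Xr_le {N' : ℕ} {μ : ℤ → ℝ} (hμ : ∀ n ∈ Icc (1 : ℤ) N', 0 ≤ μ n)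
    (h1 : ∑ n ∈ Icc (1 : ℤ) N', μ n = 1) {p : ℕ} (hp : 1 ≤ p) :
    Ent (Icc (1 : ℤ) N') μ (Xr p) ≤ Real.log p := by
  have h := Ent_le_log_of_subset hμ h1 (Xr p) (Ico (0 : ℤ) p) (by
    intro n _
    rw [mem_Ico]
    have hp0 : (0 : ℤ) < p := by exact_mod_cast hp
    exact ⟨Int.emod_nonneg n hp0.ne', Int.emod_lt_of_pos n hp0⟩)
  simpa using h

/-- the primes of `W` dividing `r ∏ S` -/
lemma filter_dvd {r : ℕ} {S W : Finset ℕ} (hS : S ⊆ W) (hp : ∀ p ∈ W, p.Prime)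
    (hr : ∀ p ∈ W, Nat.Coprime p r) : W.filter (fun p => p ∣ r * ∏ p ∈ S, p) = S := by
  ext p
  rw [mem_filter]
  constructor
  · rintro ⟨h1, h2⟩
    have h3 := (hr p h1).dvd_of_dvd_mul_left h2
    obtain ⟨q, hq, hpq⟩ := ((hp p h1).prime.dvd_finsetProd_iff (fun p => p)).1 h3
    have := (Nat.prime_dvd_prime_iff_eq (hp p h1) (hp q (hS hq))).1 hpq
    rw [this]; exact hq
  · intro h
    exact ⟨hS h, dvd_mul_of_dvd_right (Finset.dvd_prod_of_mem (fun p => p) h) r⟩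

/-- logarithm of the fibre ratio -/
lemma log_ratio {N Φ A D1 P2 L ψ1 ψ2 : ℝ} (hN : 0 < N) (hΦ : 0 < Φ) (hA : 0 < A)
    (hD1 : 0 < D1) (hP2 : 0 < P2) (hL : 0 < L) (hψ1 : 0 < ψ1) (hψ2 : 0 < ψ2) :
    Real.log (N * Φ * A / (Φ * L * (ψ1 * ψ2) / (D1 * P2))) =
      Real.log N + Real.log A + Real.log D1 + Real.log P2 - Real.log L - Real.log ψ1 -
        Real.log ψ2 := by
  rw [Real.log_div (by positivity) (by positivity),
    Real.log_mul (by positivity) (by positivity),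
    Real.log_mul (by positivity) (by positivity),
    Real.log_div (by positivity) (by positivity),
    Real.log_mul (by positivity) (by positivity),
    Real.log_mul (by positivity) (by positivity),
    Real.log_mul (by positivity) (by positivity),
    Real.log_mul (by positivity) (by positivity)]
  ring

/-- logarithm of the sup bound -/
lemma log_bd {N Φ B D1 K L t η Pτ : ℝ} (hN : 0 < N) (hΦ : 0 < Φ) (hB : 0 < B)
    (hD1 : 0 < D1) (hK : 0 < K) (ht : 0 < t) (hL : t ≤ L) (hη : 0 < η) (hP : 0 < Pτ)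
    (h : N * Φ * B ≤ L / D1 * Φ * (1 + K / L) * ((N * K / L) ^ η) * Pτ) :
    Real.log N + Real.log B + Real.log D1 - Real.log L ≤
      K / t + η * Real.log (N * K / t) + Real.log Pτ := by
  have hL0 : 0 < L := lt_of_lt_of_le ht hL
  have h0 := Real.log_le_log (by positivity) h
  rw [Real.log_mul (by positivity) (by positivity),
    Real.log_mul (by positivity) (by positivity),
    Real.log_mul (by positivity) (by positivity),
    Real.log_mul (by positivity) (by positivity),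
    Real.log_mul (by positivity) (by positivity),
    Real.log_mul (by positivity) (by positivity),
    Real.log_div (by positivity) (by positivity),
    Real.log_rpow (by positivity)] at h0
  have h1 : Real.log (1 + K / L) ≤ K / t := by
    have h2 : Real.log (1 + K / L) ≤ K / L := by
      have := Real.log_le_sub_one_of_pos (show 0 < 1 + K / L by positivity)
      linarith
    exact h2.trans (div_le_div_of_nonneg_left hK.le ht hL)
  have h2 : η * Real.log (N * K / L) ≤ η * Real.log (N * K / t) := by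
    refine mul_le_mul_of_nonneg_left ?_ hη.le
    refine Real.log_le_log (by positivity) ?_
    exact div_le_div_of_nonneg_left (by positivity) ht hL
  linarith

section main

variable {k N' Nmin t r : ℕ} {W : Finset ℕ} {τ η Φ : ℝ} {G : ℤ → ℝ} {ν : ℕ → ℤ → ℝ}
  {S1 S2 : Finset ℕ}

/-- the weights are positive on the support -/
lemma ν_pos (h : Pinned k N' Nmin W τ η Φ G ν) (hN : 1 ≤ N') {n : ℤ}
    (hn : n ∈ Icc (1 : ℤ) N') (hn0 : 0 < G n / (N' * Φ)) {p : ℕ} (hp : p ∈ W) : 0 < ν p n := by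
  have hN0 : (0 : ℝ) < N' := by exact_mod_cast hN
  have hNΦ : (0 : ℝ) < N' * Φ := mul_pos hN0 h.Φpos
  have hμ : ∀ n ∈ Icc (1 : ℤ) N', 0 ≤ (fun n => G n / (N' * Φ)) n :=
    fun n _ => div_nonneg (h.G0 n) hNΦ.le
  have h1 := pr_pos hμ (Xr p) hn hn0
  rw [pr_Xr h hN hp n] at h1
  by_contra hc
  have h3 : ν p n = 0 := le_antisymm (not_lt.1 hc) (h.wts.nn p n)
  rw [h3, zero_div] at h1
  exact lt_irrefl _ h1

/-- pointwise bound -/
lemma point (h : Pinned k N' Nmin W τ η Φ G ν) (hη : 0 < η) (ht : 1 ≤ t)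
    (htN : t ≤ N') (hr : 1 ≤ r) (hS1 : S1 ⊆ W) (hS2 : S2 ⊆ W) (hd : Disjoint S1 S2)
    (hcop : ∀ p ∈ W, Nat.Coprime p r) (hNmin : (r * ∏ p ∈ S1, p) ^ k * Nmin ≤ t)
    {n : ℤ} (hn : n ∈ Icc (1 : ℤ) N') (hn0 : 0 < G n / (N' * Φ)) :
    Real.log (fib N' t (r * ∏ p ∈ S1 ∪ S2, p) G n /
        (Φ * tlen N' t n * psi ν (S1 ∪ S2) n / ((r * ∏ p ∈ S1 ∪ S2, p : ℕ) : ℝ))) ≤
      (((r * ∏ p ∈ S1, p : ℕ) : ℝ) ^ k / t +
        η * Real.log (N' * ((r * ∏ p ∈ S1, p : ℕ) : ℝ) ^ k / t) +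
          ∑ p ∈ S1, (τ - 1) * Real.log (ν p n)) +
        (Real.log (pr (Icc (1 : ℤ) N') (fun n => G n / (N' * Φ))
            (fun n => (XV Xr (S1 ∪ S2) n, (Xr r n, tile N' t n))) n) -
          Real.log (pr (Icc (1 : ℤ) N') (fun n => G n / (N' * Φ))
            (fun n => (XV Xr S1 n, (Xr r n, tile N' t n))) n) -
          ∑ p ∈ S2, Real.log (pr (Icc (1 : ℤ) N') (fun n => G n / (N' * Φ)) (Xr p) n)) := by
  have hN : 1 ≤ N' := le_trans ht htN
  have hN0 : (0 : ℝ) < N' := by exact_mod_cast hN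
  have hΦ := h.Φpos
  have hNΦ : (0 : ℝ) < N' * Φ := mul_pos hN0 hΦ
  have ht0 : (0 : ℝ) < t := by exact_mod_cast ht
  have hμ : ∀ n ∈ Icc (1 : ℤ) N', 0 ≤ (fun n => G n / (N' * Φ)) n :=
    fun n _ => div_nonneg (h.G0 n) hNΦ.le
  have hS : S1 ∪ S2 ⊆ W := Finset.union_subset hS1 hS2
  have hpp : ∀ p ∈ W, (0 : ℝ) < p := fun p hp => by exact_mod_cast (h.prime p hp).pos
  have hn1 : 1 ≤ n := (mem_Icc.1 hn).1
  obtain ⟨A, hAe⟩ : ∃ A, pr (Icc (1 : ℤ) N') (fun n => G n / (N' * Φ))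
      (fun n => (XV Xr (S1 ∪ S2) n, (Xr r n, tile N' t n))) n = A := ⟨_, rfl⟩
  obtain ⟨B, hBe⟩ : ∃ B, pr (Icc (1 : ℤ) N') (fun n => G n / (N' * Φ))
      (fun n => (XV Xr S1 n, (Xr r n, tile N' t n))) n = B := ⟨_, rfl⟩
  have hA : 0 < A := hAe ▸ pr_pos hμ _ hn hn0
  have hB : 0 < B := hBe ▸ pr_pos hμ _ hn hn0
  rw [hAe, hBe]
  rw [pr_eq_fib (t := t) hS h.prime hcop n, div_eq_iff hNΦ.ne'] at hAe
  rw [pr_eq_fib (t := t) hS1 h.prime hcop n, div_eq_iff hNΦ.ne'] at hBe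
  obtain ⟨y, hy, hl⟩ := fib_eq_mass (D := r * ∏ p ∈ S1, p) (G := G) ht htN hn1
  have hD1pos : 1 ≤ r * ∏ p ∈ S1, p :=
    Nat.mul_pos hr (Finset.prod_pos (fun p hp => (h.prime p (hS1 hp)).pos))
  have hsb := h.sb (r * ∏ p ∈ S1, p) (tlen N' t n) y n hD1pos (le_trans hNmin hl)
    (le_trans hNmin htN)
  rw [← hy, hBe, filter_dvd hS1 h.prime hcop] at hsb
  have hDD : ((r * ∏ p ∈ S1 ∪ S2, p : ℕ) : ℝ) =
      ((r * ∏ p ∈ S1, p : ℕ) : ℝ) * ∏ p ∈ S2, (p : ℝ) := by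
    rw [Finset.prod_union hd]
    push_cast
    ring
  rw [hDD]
  have hD10 : (0 : ℝ) < ((r * ∏ p ∈ S1, p : ℕ) : ℝ) := by exact_mod_cast hD1pos
  generalize ((r * ∏ p ∈ S1, p : ℕ) : ℝ) = D1 at hsb hD10 ⊢
  have hl' : (t : ℝ) ≤ tlen N' t n := by exact_mod_cast hl
  have hl0 : (0 : ℝ) < tlen N' t n := lt_of_lt_of_le ht0 hl'
  have hν : ∀ p ∈ W, 0 < ν p n := fun p hp => ν_pos h hN hn hn0 hp
  have hψ1 : 0 < ∏ p ∈ S1, ν p n := Finset.prod_pos (fun p hp => hν p (hS1 hp))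
  have hψ2 : 0 < ∏ p ∈ S2, ν p n := Finset.prod_pos (fun p hp => hν p (hS2 hp))
  have hψ : psi ν (S1 ∪ S2) n = (∏ p ∈ S1, ν p n) * ∏ p ∈ S2, ν p n := by
    unfold psi; rw [Finset.prod_union hd]
  have hP2 : (0 : ℝ) < ∏ p ∈ S2, (p : ℝ) := Finset.prod_pos (fun p hp => hpp p (hS2 hp))
  have hprod : (0 : ℝ) < ∏ p ∈ S1, (ν p n) ^ τ :=
    Finset.prod_pos (fun p hp => Real.rpow_pos_of_pos (hν p (hS1 hp)) τ)
  have hAe' : fib N' t (r * ∏ p ∈ S1 ∪ S2, p) G n = N' * Φ * A := by rw [hAe]; ring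
  rw [hAe', hψ, log_ratio hN0 hΦ hA hD10 hP2 hl0 hψ1 hψ2]
  have hsb' : N' * Φ * B ≤ (tlen N' t n : ℝ) / D1 * Φ * (1 + D1 ^ k / (tlen N' t n : ℝ)) *
      ((N' * D1 ^ k / (tlen N' t n : ℝ)) ^ η) * ∏ p ∈ S1, (ν p n) ^ τ := by
    refine le_trans (le_of_eq ?_) hsb
    ring
  have hbd := log_bd hN0 hΦ hB hD10 (pow_pos hD10 k) ht0 hl' hη hprod hsb'
  rw [Real.log_prod (fun p hp => (Real.rpow_pos_of_pos (hν p (hS1 hp)) τ).ne')] at hbd
  rw [Real.log_prod (fun p hp => (hν p (hS1 hp)).ne'),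
    Real.log_prod (fun p hp => (hν p (hS2 hp)).ne'),
    Real.log_prod (fun p hp => (hpp p (hS2 hp)).ne')]
  have e2 : ∑ p ∈ S2, Real.log (pr (Icc (1 : ℤ) N') (fun n => G n / (N' * Φ)) (Xr p) n) =
      ∑ p ∈ S2, Real.log (ν p n) - ∑ p ∈ S2, Real.log p := by
    rw [← Finset.sum_sub_distrib]
    refine Finset.sum_congr rfl (fun p hp => ?_)
    rw [pr_Xr h hN (hS2 hp) n, Real.log_div (hν p (hS2 hp)).ne' (hpp p (hS2 hp)).ne']
  have e3 : ∑ p ∈ S1, Real.log (ν p n ^ τ) = ∑ p ∈ S1, τ * Real.log (ν p n) :=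
    Finset.sum_congr rfl (fun p hp => Real.log_rpow (hν p (hS1 hp)) τ)
  have e4 : ∑ p ∈ S1, (τ - 1) * Real.log (ν p n) =
      ∑ p ∈ S1, τ * Real.log (ν p n) - ∑ p ∈ S1, Real.log (ν p n) := by
    rw [← Finset.sum_sub_distrib]
    refine Finset.sum_congr rfl (fun p _ => ?_)
    ring
  rw [e3] at hbd
  rw [e2, e4]
  linarith

/-- the average of the logarithms of the weights is nonnegative -/
lemma avg_log (h : Pinned k N' Nmin W τ η Φ G ν) (hτ1 : τ ≤ 1) (hN : 1 ≤ N')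
    (hS1 : S1 ⊆ W) :
    ∑ n ∈ Icc (1 : ℤ) N', G n / (N' * Φ) * ∑ p ∈ S1, (τ - 1) * Real.log (ν p n) ≤ 0 := by
  have hN0 : (0 : ℝ) < N' := by exact_mod_cast hN
  have hNΦ : (0 : ℝ) < N' * Φ := mul_pos hN0 h.Φpos
  have hμ : ∀ n ∈ Icc (1 : ℤ) N', 0 ≤ (fun n => G n / (N' * Φ)) n :=
    fun n _ => div_nonneg (h.G0 n) hNΦ.le
  have hsum : ∑ n ∈ Icc (1 : ℤ) N', (fun n => G n / (N' * Φ)) n = 1 := by
    simp only
    rw [← Finset.sum_div, h.Gsum, div_self hNΦ.ne']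
  simp_rw [Finset.mul_sum]
  rw [Finset.sum_comm]
  refine Finset.sum_nonpos (fun p hp => ?_)
  have hpW := hS1 hp
  have hp0 : (0 : ℝ) < p := by exact_mod_cast (h.prime p hpW).pos
  have e : ∑ n ∈ Icc (1 : ℤ) N', G n / (N' * Φ) * ((τ - 1) * Real.log (ν p n)) =
      (τ - 1) * (Real.log p - Ent (Icc (1 : ℤ) N') (fun n => G n / (N' * Φ)) (Xr p)) := by
    unfold Ent
    rw [sub_neg_eq_add, mul_add, Finset.mul_sum]
    have e5 : (τ - 1) * Real.log p =
        ∑ n ∈ Icc (1 : ℤ) N', (τ - 1) * (G n / (N' * Φ) * Real.log p) := by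
      rw [← Finset.mul_sum, ← Finset.sum_mul]
      have := hsum
      simp only at this
      rw [this, one_mul]
    rw [e5, ← Finset.sum_add_distrib]
    refine Finset.sum_congr rfl (fun n hn => ?_)
    rcases (hμ n hn).eq_or_lt with h0 | h0
    · have h0' : G n / (N' * Φ) = 0 := h0.symm
      simp only [h0', zero_mul, mul_zero, add_zero]
    · rw [pr_Xr h hN hpW n, Real.log_div (ν_pos h hN hn h0 hpW).ne' hp0.ne']
      ring
  rw [e]
  have h2 := Ent_Xr_le hμ hsum (h.prime p hpW).one_lt.le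
  exact mul_nonpos_of_nonpos_of_nonneg (by linarith) (by linarith)

end main

end PinB

open Finset PinB in
theorem klChain_holds : KLChainStmt := by
  intro k N' Nmin t r W τ η Φ G ν S1 S2 h _ hτ1 hη ht htN hr hS1 hS2 hd hcop _ hNmin
  have hN : 1 ≤ N' := le_trans ht htN
  have hN0 : (0 : ℝ) < N' := by exact_mod_cast hN
  have hNΦ : (0 : ℝ) < N' * Φ := mul_pos hN0 h.Φpos
  have hμ : ∀ n ∈ Icc (1 : ℤ) N', 0 ≤ (fun n => G n / (N' * Φ)) n :=
    fun n _ => div_nonneg (h.G0 n) hNΦ.le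
  have hsum : ∑ n ∈ Icc (1 : ℤ) N', (fun n => G n / (N' * Φ)) n = 1 := by
    simp only
    rw [← Finset.sum_div, h.Gsum, div_self hNΦ.ne']
  have hsecond := Ent_chain_le_sum_MI hμ hsum Xr (fun n => (Xr r n, tile N' t n)) S1 S2 hd
  have hlogν := avg_log (S1 := S1) h hτ1 hN hS1
  have hKL : KLt N' t (r * ∏ p ∈ S1 ∪ S2, p) G Φ (psi ν (S1 ∪ S2)) ≤
      ∑ n ∈ Icc (1 : ℤ) N', G n / (N' * Φ) *
      ((((r * ∏ p ∈ S1, p : ℕ) : ℝ) ^ k / t +
        η * Real.log (N' * ((r * ∏ p ∈ S1, p : ℕ) : ℝ) ^ k / t) +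
          ∑ p ∈ S1, (τ - 1) * Real.log (ν p n)) +
        (Real.log (pr (Icc (1 : ℤ) N') (fun n => G n / (N' * Φ))
            (fun n => (XV Xr (S1 ∪ S2) n, (Xr r n, tile N' t n))) n) -
          Real.log (pr (Icc (1 : ℤ) N') (fun n => G n / (N' * Φ))
            (fun n => (XV Xr S1 n, (Xr r n, tile N' t n))) n) -
          ∑ p ∈ S2, Real.log (pr (Icc (1 : ℤ) N') (fun n => G n / (N' * Φ)) (Xr p) n))) := by
    unfold KLt
    refine Finset.sum_le_sum (fun n hn => ?_)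
    rcases (hμ n hn).eq_or_lt with h0 | h0
    · have h0' : G n / (N' * Φ) = 0 := h0.symm
      rw [h0', zero_mul, zero_mul]
    · exact mul_le_mul_of_nonneg_left
        (point h hη ht htN hr hS1 hS2 hd hcop hNmin hn h0) (le_of_lt h0)
  refine hKL.trans ?_
  generalize ((r * ∏ p ∈ S1, p : ℕ) : ℝ) ^ k / t +
    η * Real.log (N' * ((r * ∏ p ∈ S1, p : ℕ) : ℝ) ^ k / t) = C0
  have e6 : ∑ p ∈ S2, Ent (Icc (1 : ℤ) N') (fun n => G n / (N' * Φ)) (Xr p) =
      - ∑ n ∈ Icc (1 : ℤ) N', G n / (N' * Φ) *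
        ∑ p ∈ S2, Real.log (pr (Icc (1 : ℤ) N') (fun n => G n / (N' * Φ)) (Xr p) n) := by
    simp_rw [Finset.mul_sum]
    rw [Finset.sum_comm, ← Finset.sum_neg_distrib]
    rfl
  rw [e6] at hsecond
  unfold Ent at hsecond
  have e7 : ∑ n ∈ Icc (1 : ℤ) N', G n / (N' * Φ) * C0 = C0 := by
    rw [← Finset.sum_mul]
    have := hsum
    simp only at this
    rw [this, one_mul]
  simp only [mul_add, mul_sub, Finset.sum_add_distrib, Finset.sum_sub_distrib]
  rw [e7]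
  linarith

end Vale.Agent.P042.SS
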