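import Vale.Agent.P042.SS.EntMain

set_option autoImplicit false

/-!
Pinning inequality for mutual informations: `PinEntStmt`.
-/

namespace Vale.Agent.P042.SS.PinE

open Finset EntC

section abs

open scoped Classical

variable {Ω : Type*} {β : Type*}

/-- conditional density ratio of `X` given `Z = Z ω2` -/
noncomputable def Fr (s : Finset Ω) (μ : Ω → ℝ) (X : Ω → ℤ) (Z : Ω → β) (ω2 ω : Ω) : ℝ :=
  (∑ w ∈ s.filter (fun w => X w = X ω ∧ Z w = Z ω2), μ w) / (pr s μ Z ω2 * pr s μ X ω)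

theorem Fr_nonneg (s : Finset Ω) (μ : Ω → ℝ) (hμ : ∀ ω ∈ s, 0 ≤ μ ω) (X : Ω → ℤ) (Z : Ω → β)
    (ω2 ω : Ω) : 0 ≤ Fr s μ X Z ω2 ω := by
  unfold Fr
  refine div_nonneg (Finset.sum_nonneg fun w hw => hμ w (mem_filter.1 hw).1) ?_
  exact mul_nonneg (pr_nonneg' s μ hμ Z ω2) (pr_nonneg' s μ hμ X ω)

theorem Fr_congr (s : Finset Ω) (μ : Ω → ℝ) (X : Ω → ℤ) (Z : Ω → β) (ω2 ω2' ω ω' : Ω)
    (hZ : Z ω2 = Z ω2') (hX : X ω = X ω') : Fr s μ X Z ω2 ω = Fr s μ X Z ω2' ω' := by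
  unfold Fr
  rw [pr_eq_of s μ Z ω2 ω2' hZ, pr_eq_of s μ X ω ω' hX, hZ, hX]

theorem Fr_self (s : Finset Ω) (μ : Ω → ℝ) (X : Ω → ℤ) (Z : Ω → β) (ω : Ω) :
    Fr s μ X Z ω ω = pr s μ (fun ω => (X ω, Z ω)) ω / (pr s μ Z ω * pr s μ X ω) := by
  unfold Fr
  congr 1
  unfold pr
  refine Finset.sum_congr ?_ fun _ _ => rfl
  ext w
  simp only [mem_filter, Prod.mk.injEq]

theorem Fr_sum (s : Finset Ω) (μ : Ω → ℝ) (hμ : ∀ ω ∈ s, 0 ≤ μ ω) (X : Ω → ℤ) (Z : Ω → β)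
    (ω2 : Ω) (h2 : 0 < pr s μ Z ω2) : ∑ ω ∈ s, μ ω * Fr s μ X Z ω2 ω = 1 := by
  have e1 : ∀ ω ∈ s, μ ω * Fr s μ X Z ω2 ω =
      ∑ w ∈ s, if (X w = X ω ∧ Z w = Z ω2) then μ w / pr s μ Z ω2 * (μ ω / pr s μ X ω) else 0 := by
    intro ω _
    unfold Fr
    rw [Finset.sum_filter, Finset.sum_div, Finset.mul_sum]
    refine Finset.sum_congr rfl fun w _ => ?_
    split_ifs
    · rw [div_mul_div_comm]
      ring
    · simp
  rw [Finset.sum_congr rfl e1, Finset.sum_comm]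
  have e2 : ∀ w ∈ s, ∑ ω ∈ s,
      (if (X w = X ω ∧ Z w = Z ω2) then μ w / pr s μ Z ω2 * (μ ω / pr s μ X ω) else 0) =
      if Z w = Z ω2 then μ w / pr s μ Z ω2 else 0 := by
    intro w hw
    by_cases hz : Z w = Z ω2
    · rw [if_pos hz]
      have e3 : ∀ ω ∈ s,
          (if (X w = X ω ∧ Z w = Z ω2) then μ w / pr s μ Z ω2 * (μ ω / pr s μ X ω) else 0) =
          μ w / pr s μ Z ω2 * (if X ω = X w then μ ω / pr s μ X w else 0) := by
        intro ω _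
        by_cases hx : X w = X ω
        · rw [if_pos ⟨hx, hz⟩, if_pos hx.symm, pr_eq_of s μ X ω w hx.symm]
        · rw [if_neg fun h => hx h.1, if_neg fun h => hx h.symm, mul_zero]
      rw [Finset.sum_congr rfl e3, ← Finset.mul_sum, ← Finset.sum_filter, ← Finset.sum_div]
      rcases (hμ w hw).eq_or_lt with h0 | h0
      · rw [← h0]
        simp
      · have hp : 0 < pr s μ X w := h0.trans_le (le_pr' s μ hμ X w hw)
        have e4 : ∑ ω ∈ s.filter (fun ω => X ω = X w), μ ω = pr s μ X w := by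
          unfold pr
          refine Finset.sum_congr ?_ fun _ _ => rfl
          ext w'
          simp only [mem_filter]
        rw [e4, div_self hp.ne', mul_one]
    · rw [if_neg hz]
      refine Finset.sum_eq_zero fun ω _ => ?_
      rw [if_neg fun h => hz h.2]
  rw [Finset.sum_congr rfl e2, ← Finset.sum_filter, ← Finset.sum_div]
  exact div_self h2.ne'

/-- abstract pinning inequality -/
theorem pin_abs (s : Finset Ω) (μ : Ω → ℝ) (hμ : ∀ ω ∈ s, 0 ≤ μ ω) (h1 : ∑ ω ∈ s, μ ω = 1)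
    (U : Finset ℕ) (X : ℕ → Ω → ℤ) (Z : Ω → β) (τ : ℝ)
    (hpin : ∀ F : ℕ → Ω → ℝ, (∀ p ω, 0 ≤ F p ω) →
      (∀ p ∈ U, ∀ ω ω', X p ω = X p ω' → F p ω = F p ω') →
      (∀ p ∈ U, ∑ ω ∈ s, μ ω * F p ω = 1) → ∑ ω ∈ s, μ ω * ∏ p ∈ U, (F p ω) ^ τ ≤ 1) :
    τ * ∑ p ∈ U, MI s μ (X p) Z ≤ MI s μ (XV X U) Z := by
  set pT := pr s μ (fun ω => (XV X U ω, Z ω)) with hpT
  set pU := pr s μ (XV X U) with hpU
  set pZ := pr s μ Z with hpZ
  set φ : Ω → Ω → ℝ := fun ω2 ω => ∏ p ∈ U, (Fr s μ (X p) Z ω2 ω) ^ τ with hφ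
  have hφ0 : ∀ ω2 ω, 0 ≤ φ ω2 ω := fun ω2 ω =>
    Finset.prod_nonneg fun p _ => Real.rpow_nonneg (Fr_nonneg s μ hμ (X p) Z ω2 ω) τ
  have hφc : ∀ ω2 ω2' ω ω', Z ω2 = Z ω2' → XV X U ω = XV X U ω' → φ ω2 ω = φ ω2' ω' := by
    intro ω2 ω2' ω ω' hz hx
    rw [XV_eq_iff] at hx
    refine Finset.prod_congr rfl fun p hp => ?_
    rw [Fr_congr s μ (X p) Z ω2 ω2' ω ω' hz (hx p hp)]
  have ha : ∀ ω2 ∈ s, 0 < μ ω2 → ∑ ω ∈ s, μ ω * φ ω2 ω ≤ 1 := by
    intro ω2 hω2 h0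
    have hz : 0 < pr s μ Z ω2 := h0.trans_le (le_pr' s μ hμ Z ω2 hω2)
    exact hpin (fun p ω => Fr s μ (X p) Z ω2 ω) (fun p ω => Fr_nonneg s μ hμ (X p) Z ω2 ω)
      (fun p _ ω ω' h => Fr_congr s μ (X p) Z ω2 ω2 ω ω' rfl h)
      (fun p _ => Fr_sum s μ hμ (X p) Z ω2 hz)
  -- total mass
  have key : ∑ ω ∈ s, μ ω * (φ ω ω * (pU ω * pZ ω / pT ω)) ≤ 1 := by
    have hU : ∀ ω, pU ω = ∑ ω1 ∈ s, if XV X U ω1 = XV X U ω then μ ω1 else 0 := by
      intro ω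
      rw [hpU]
      unfold pr
      rw [Finset.sum_filter]
    have hZ : ∀ ω, pZ ω = ∑ ω2 ∈ s, if Z ω2 = Z ω then μ ω2 else 0 := by
      intro ω
      rw [hpZ]
      unfold pr
      rw [Finset.sum_filter]
    have e1 : ∑ ω ∈ s, μ ω * (φ ω ω * (pU ω * pZ ω / pT ω)) =
        ∑ ω2 ∈ s, ∑ ω1 ∈ s, ∑ ω ∈ s,
          (if (XV X U ω1 = XV X U ω ∧ Z ω2 = Z ω) then
            μ ω2 * (μ ω1 * φ ω2 ω1) * (μ ω / pT ω) else 0) := by
      have e2 : ∀ ω ∈ s, μ ω * (φ ω ω * (pU ω * pZ ω / pT ω)) =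
          ∑ ω2 ∈ s, ∑ ω1 ∈ s,
          (if (XV X U ω1 = XV X U ω ∧ Z ω2 = Z ω) then
            μ ω2 * (μ ω1 * φ ω2 ω1) * (μ ω / pT ω) else 0) := by
        intro ω _
        rw [mul_comm (pU ω), hU ω, hZ ω, Finset.sum_mul_sum, Finset.sum_div, Finset.mul_sum,
          Finset.mul_sum]
        refine Finset.sum_congr rfl fun ω2 _ => ?_
        rw [Finset.sum_div, Finset.mul_sum, Finset.mul_sum]
        refine Finset.sum_congr rfl fun ω1 _ => ?_
        by_cases ha : XV X U ω1 = XV X U ω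
        · by_cases hb : Z ω2 = Z ω
          · rw [if_pos ha, if_pos hb, if_pos ⟨ha, hb⟩, hφc ω2 ω ω1 ω hb ha]
            ring
          · rw [if_neg hb, if_neg (show ¬ (XV X U ω1 = XV X U ω ∧ Z ω2 = Z ω) from
              fun h => hb h.2)]
            ring
        · rw [if_neg ha, if_neg (show ¬ (XV X U ω1 = XV X U ω ∧ Z ω2 = Z ω) from
              fun h => ha h.1)]
          ring
      rw [Finset.sum_congr rfl e2, Finset.sum_comm]
      refine Finset.sum_congr rfl fun ω2 _ => ?_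
      rw [Finset.sum_comm]
    rw [e1]
    have e3 : ∀ ω2 ∈ s, ∑ ω1 ∈ s, ∑ ω ∈ s,
          (if (XV X U ω1 = XV X U ω ∧ Z ω2 = Z ω) then
            μ ω2 * (μ ω1 * φ ω2 ω1) * (μ ω / pT ω) else 0) ≤ μ ω2 := by
      intro ω2 hω2
      have e4 : ∀ ω1 ∈ s, ∑ ω ∈ s,
          (if (XV X U ω1 = XV X U ω ∧ Z ω2 = Z ω) then
            μ ω2 * (μ ω1 * φ ω2 ω1) * (μ ω / pT ω) else 0) ≤ μ ω2 * (μ ω1 * φ ω2 ω1) := by
        intro ω1 hω1
        have hc : 0 ≤ μ ω2 * (μ ω1 * φ ω2 ω1) :=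
          mul_nonneg (hμ _ hω2) (mul_nonneg (hμ _ hω1) (hφ0 _ _))
        rw [← Finset.sum_filter, ← Finset.mul_sum]
        refine mul_le_of_le_one_right hc ?_
        refine fibre_le_one s μ _ _ (Finset.filter_subset _ _) ?_
        intro ω hω ω' hω'
        rw [mem_filter] at hω
        rw [mem_filter]
        obtain ⟨_, h2, h3⟩ := hω
        simp only [Prod.mk.injEq]
        constructor
        · rintro ⟨h6, h7⟩
          exact ⟨hω', h2.trans h6.symm, h3.trans h7.symm⟩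
        · rintro ⟨_, h6, h7⟩
          exact ⟨h6.symm.trans h2, h7.symm.trans h3⟩
      refine (Finset.sum_le_sum e4).trans ?_
      rw [← Finset.mul_sum]
      rcases (hμ ω2 hω2).eq_or_lt with h0 | h0
      · rw [← h0, zero_mul]
      · exact mul_le_of_le_one_right h0.le (ha ω2 hω2 h0)
    exact (Finset.sum_le_sum e3).trans h1.le
  have hlog : ∀ ω ∈ s, μ ω * (τ * ∑ p ∈ U, (Real.log (pr s μ (fun ω => (X p ω, Z ω)) ω) -
      Real.log (pZ ω) - Real.log (pr s μ (X p) ω)) + Real.log (pU ω) + Real.log (pZ ω) -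
      Real.log (pT ω)) ≤ μ ω * (φ ω ω * (pU ω * pZ ω / pT ω)) - μ ω := by
    intro ω hω
    rcases (hμ ω hω).eq_or_lt with h0 | h0
    · rw [← h0]
      simp
    · have hT : 0 < pT ω := h0.trans_le (le_pr' s μ hμ _ ω hω)
      have hA : 0 < pU ω := h0.trans_le (le_pr' s μ hμ _ ω hω)
      have hZ : 0 < pZ ω := h0.trans_le (le_pr' s μ hμ _ ω hω)
      have hF : ∀ p ∈ U, 0 < Fr s μ (X p) Z ω ω := by
        intro p _
        rw [Fr_self]
        have h2 : 0 < pr s μ (fun ω => (X p ω, Z ω)) ω := h0.trans_le (le_pr' s μ hμ _ ω hω)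
        have h3 : 0 < pr s μ (X p) ω := h0.trans_le (le_pr' s μ hμ _ ω hω)
        have h4 : 0 < pr s μ Z ω := hZ
        positivity
      have hφp : 0 < φ ω ω := Finset.prod_pos fun p hp => Real.rpow_pos_of_pos (hF p hp) τ
      have h2 := Real.log_le_sub_one_of_pos (show 0 < φ ω ω * (pU ω * pZ ω / pT ω) by positivity)
      rw [Real.log_mul hφp.ne' (by positivity), Real.log_div (by positivity) hT.ne',
        Real.log_mul hA.ne' hZ.ne'] at h2
      have h5 : Real.log (φ ω ω) = τ * ∑ p ∈ U,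
          (Real.log (pr s μ (fun ω => (X p ω, Z ω)) ω) - Real.log (pZ ω) -
            Real.log (pr s μ (X p) ω)) := by
        rw [hφ]
        simp only []
        rw [Real.log_prod fun p hp => (Real.rpow_pos_of_pos (hF p hp) τ).ne', Finset.mul_sum]
        refine Finset.sum_congr rfl fun p hp => ?_
        rw [Real.log_rpow (hF p hp), Fr_self]
        have h6 : 0 < pr s μ (fun ω => (X p ω, Z ω)) ω := h0.trans_le (le_pr' s μ hμ _ ω hω)
        have h7 : 0 < pr s μ (X p) ω := h0.trans_le (le_pr' s μ hμ _ ω hω)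
        rw [Real.log_div h6.ne' (mul_pos hZ h7).ne', Real.log_mul hZ.ne' h7.ne']
        ring
      rw [h5] at h2
      have h3 := mul_le_mul_of_nonneg_left h2 h0.le
      nlinarith [h3]
  have hsum := Finset.sum_le_sum hlog
  rw [Finset.sum_sub_distrib, h1] at hsum
  have hMI : ∀ p, MI s μ (X p) Z = ∑ ω ∈ s, μ ω * (Real.log (pr s μ (fun ω => (X p ω, Z ω)) ω) -
      Real.log (pZ ω) - Real.log (pr s μ (X p) ω)) := by
    intro p
    unfold MI Ent
    rw [← hpZ]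
    have : ∑ ω ∈ s, μ ω * (Real.log (pr s μ (fun ω => (X p ω, Z ω)) ω) -
      Real.log (pZ ω) - Real.log (pr s μ (X p) ω)) =
      ∑ ω ∈ s, μ ω * Real.log (pr s μ (fun ω => (X p ω, Z ω)) ω) -
      ∑ ω ∈ s, μ ω * Real.log (pZ ω) - ∑ ω ∈ s, μ ω * Real.log (pr s μ (X p) ω) := by
      rw [← Finset.sum_sub_distrib, ← Finset.sum_sub_distrib]
      refine Finset.sum_congr rfl fun ω _ => ?_
      ring
    rw [this]
    ring
  have e6 : ∑ ω ∈ s, μ ω * (τ * ∑ p ∈ U, (Real.log (pr s μ (fun ω => (X p ω, Z ω)) ω) -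
      Real.log (pZ ω) - Real.log (pr s μ (X p) ω)) + Real.log (pU ω) + Real.log (pZ ω) -
      Real.log (pT ω)) = τ * ∑ p ∈ U, MI s μ (X p) Z - MI s μ (XV X U) Z := by
    rw [Finset.sum_congr rfl fun p _ => hMI p, Finset.sum_comm]
    unfold MI Ent
    rw [← hpZ, ← hpU, ← hpT, Finset.mul_sum]
    have : ∀ ω ∈ s, μ ω * (τ * ∑ p ∈ U, (Real.log (pr s μ (fun ω => (X p ω, Z ω)) ω) -
      Real.log (pZ ω) - Real.log (pr s μ (X p) ω)) + Real.log (pU ω) + Real.log (pZ ω) -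
      Real.log (pT ω)) = τ * ∑ p ∈ U, μ ω * (Real.log (pr s μ (fun ω => (X p ω, Z ω)) ω) -
      Real.log (pZ ω) - Real.log (pr s μ (X p) ω)) + μ ω * Real.log (pU ω) +
      μ ω * Real.log (pZ ω) - μ ω * Real.log (pT ω) := by
      intro ω _
      rw [← Finset.mul_sum]
      ring
    rw [Finset.sum_congr rfl this, Finset.sum_sub_distrib, Finset.sum_add_distrib,
      Finset.sum_add_distrib]
    ring
  rw [e6] at hsum
  linarith

end abs

end Vale.Agent.P042.SS.PinE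

namespace Vale.Agent.P042.SS

open Finset EntC PinE

theorem pinEnt_holds : PinEntStmt := by
  intro k N' Nmin W τ η Φ G ν hP hτ hN' U hU β Z
  have hN0 : (0 : ℝ) < N' * Φ := by
    have : (0 : ℝ) < N' := by exact_mod_cast hN'
    exact mul_pos this hP.Φpos
  refine pin_abs (Icc (1 : ℤ) N') (fun n => G n / (N' * Φ))
    (fun n _ => div_nonneg (hP.G0 n) hN0.le) ?_ U Xr Z τ ?_
  · rw [← Finset.sum_div, hP.Gsum, div_self hN0.ne']
  · intro F hF0 hFc hF1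
    have h2 := hP.pin U F hU hF0 (fun p hp n => hFc p hp _ _ (by simp [Xr])) (fun p hp => by
      have h3 := hF1 p hp
      have h4 : ∑ ω ∈ Icc (1 : ℤ) N', G ω / (N' * Φ) * F p ω =
          (∑ ω ∈ Icc (1 : ℤ) N', G ω * F p ω) / (N' * Φ) := by
        rw [Finset.sum_div]
        refine Finset.sum_congr rfl fun ω _ => ?_
        ring
      rw [h4, div_eq_one_iff_eq hN0.ne'] at h3
      exact h3)
    have h4 : ∑ ω ∈ Icc (1 : ℤ) N', G ω / (N' * Φ) * ∏ p ∈ U, (F p ω) ^ τ =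
        (∑ ω ∈ Icc (1 : ℤ) N', G ω * ∏ p ∈ U, (F p ω) ^ τ) / (N' * Φ) := by
      rw [Finset.sum_div]
      refine Finset.sum_congr rfl fun ω _ => ?_
      ring
    rw [h4, div_le_one hN0]
    exact h2

end Vale.Agent.P042.SS
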