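import Vale.Agent.P042.SS.Spec

set_option autoImplicit false

/-!
Block AUX: random modulus lemma with the bound kept inside, partition into blocks.
-/

namespace Vale.Agent.P042.SS

open Finset

/-- the probability that the random set contains `U` and has cost at most `ℓ0 + 2 X0` is at
least half the probability of containing `U` -/
theorem rm_low (Is : Finset (ℕ × ℕ)) (π ℓ : ℕ × ℕ → ℝ) (ℓ0 X0 : ℝ)
    (h0 : ∀ i ∈ Is, 0 ≤ π i) (h1 : ∀ i ∈ Is, π i ≤ 1) (hℓ : ∀ i ∈ Is, 0 ≤ ℓ i)
    (hX0 : 0 < X0) (hX : ∑ i ∈ Is, π i * ℓ i ≤ X0)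
    (U : Finset (ℕ × ℕ)) (hUj : U ⊆ Is) (hUℓ : ∑ i ∈ U, ℓ i ≤ ℓ0) :
    1 / 2 * (∏ i ∈ U, π i) ≤
      ∑ R ∈ (Is.powerset.filter (fun R => ∑ i ∈ R, ℓ i ≤ ℓ0 + 2 * X0)).filter
        (fun R => U ⊆ R), wtR π Is R := by
  have hm := markovR π ℓ (Is \ U) X0 hX0 (fun i hi => h0 i (Finset.mem_sdiff.1 hi).1)
    (fun i hi => h1 i (Finset.mem_sdiff.1 hi).1) (fun i hi => hℓ i (Finset.mem_sdiff.1 hi).1)
    (by
      refine le_trans ?_ hX
      refine Finset.sum_le_sum_of_subset_of_nonneg Finset.sdiff_subset ?_
      intro i hi _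
      exact mul_nonneg (h0 i hi) (hℓ i hi))
  have hpi : 0 ≤ ∏ i ∈ U, π i := Finset.prod_nonneg fun i hi => h0 i (hUj hi)
  have h3 : (∏ i ∈ U, π i) * ∑ R ∈ (Is \ U).powerset.filter
      (fun R => ∑ i ∈ R, ℓ i ≤ 2 * X0), wtR π (Is \ U) R =
      ∑ R ∈ ((Is \ U).powerset.filter
        (fun R => ∑ i ∈ R, ℓ i ≤ 2 * X0)).image (fun R => U ∪ R), wtR π Is R := by
    rw [Finset.sum_image, Finset.mul_sum]
    · refine Finset.sum_congr rfl fun R hR => ?_
      rw [Finset.mem_filter, Finset.mem_powerset] at hR
      have hd : Disjoint U R := by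
        rw [Finset.disjoint_left]
        intro x hx hx'
        exact (Finset.mem_sdiff.1 (hR.1 hx')).2 hx
      unfold wtR
      rw [Finset.prod_union hd, sdiff_sdiff_left]
      simp only [Finset.sup_eq_union]
      ring
    · intro R hR R' hR' h
      simp only [Finset.coe_filter, Finset.mem_powerset, Set.mem_ofPred_eq] at hR hR'
      have hd : Disjoint U R := by
        rw [Finset.disjoint_left]
        intro x hx hx'
        exact (Finset.mem_sdiff.1 (hR.1 hx')).2 hx
      have hd' : Disjoint U R' := by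
        rw [Finset.disjoint_left]
        intro x hx hx'
        exact (Finset.mem_sdiff.1 (hR'.1 hx')).2 hx
      have e1 : (U ∪ R) \ U = R := Finset.union_sdiff_cancel_left hd
      have e2 : (U ∪ R') \ U = R' := Finset.union_sdiff_cancel_left hd'
      simp only at h
      rw [← e1, ← e2, h]
  calc 1 / 2 * (∏ i ∈ U, π i) = (∏ i ∈ U, π i) * (1 / 2) := mul_comm _ _
    _ ≤ (∏ i ∈ U, π i) * ∑ R ∈ (Is \ U).powerset.filter
        (fun R => ∑ i ∈ R, ℓ i ≤ 2 * X0), wtR π (Is \ U) R :=
        mul_le_mul_of_nonneg_left hm hpi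
    _ = _ := h3
    _ ≤ _ := by
        refine Finset.sum_le_sum_of_subset_of_nonneg ?_ ?_
        · intro R hR
          rw [Finset.mem_image] at hR
          obtain ⟨R', hR', rfl⟩ := hR
          rw [Finset.mem_filter, Finset.mem_powerset] at hR'
          have hd : Disjoint U R' := by
            rw [Finset.disjoint_left]
            intro x hx hx'
            exact (Finset.mem_sdiff.1 (hR'.1 hx')).2 hx
          rw [Finset.mem_filter, Finset.mem_filter, Finset.mem_powerset]
          refine ⟨⟨Finset.union_subset hUj (hR'.1.trans Finset.sdiff_subset), ?_⟩,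
            Finset.subset_union_left⟩
          rw [Finset.sum_union hd]
          linarith only [hR', hUℓ]
        · intro R hR _
          rw [Finset.mem_filter, Finset.mem_filter, Finset.mem_powerset] at hR
          exact wtR_nonneg π Is R hR.1.1 h0 h1

theorem rm_holds : RMStmt := by
  intro Is π ℓ ℓ0 X0 Js U Ψ B h0 h1 hℓ _ hX0 hX hU hUℓ hΨ _ hB
  set G := Is.powerset.filter (fun R => ∑ i ∈ R, ℓ i ≤ ℓ0 + 2 * X0) with hG
  have hswap : ∑ R ∈ G, wtR π Is R * ∑ j ∈ Js.filter (fun j => U j ⊆ R), Ψ j =
      ∑ j ∈ Js, Ψ j * ∑ R ∈ G.filter (fun R => U j ⊆ R), wtR π Is R := by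
    simp_rw [Finset.sum_filter, Finset.mul_sum]
    rw [Finset.sum_comm]
    refine Finset.sum_congr rfl fun j _ => Finset.sum_congr rfl fun R _ => ?_
    split_ifs
    · ring
    · ring
  have hup : ∑ R ∈ G, wtR π Is R * ∑ j ∈ Js.filter (fun j => U j ⊆ R), Ψ j ≤
      ∑ R ∈ G, wtR π Is R * B R := by
    refine Finset.sum_le_sum fun R hR => ?_
    rw [hG, Finset.mem_filter, Finset.mem_powerset] at hR
    exact mul_le_mul_of_nonneg_left (hB R hR.1 hR.2) (wtR_nonneg π Is R hR.1 h0 h1)
  have hlow : ∑ j ∈ Js, (∏ i ∈ U j, π i) * Ψ j ≤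
      2 * ∑ j ∈ Js, Ψ j * ∑ R ∈ G.filter (fun R => U j ⊆ R), wtR π Is R := by
    rw [Finset.mul_sum]
    refine Finset.sum_le_sum fun j hj => ?_
    have h := rm_low Is π ℓ ℓ0 X0 h0 h1 hℓ hX0 hX (U j) (hU j hj) (hUℓ j hj)
    have h' := mul_le_mul_of_nonneg_left h (hΨ j hj)
    rw [← hG] at h'
    linarith
  rw [← hswap] at hlow
  linarith

/-- partition of a set of primes into blocks of bounded total logarithm -/
theorem part_holds : PartStmt := by
  intro W M J hM hW hsum hJ
  have hlog : ∀ p ∈ W, 0 ≤ Real.log p := fun p hp =>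
    Real.log_nonneg (by exact_mod_cast (hW p hp).1)
  set s : ℕ → ℝ := fun p => ∑ q ∈ W.filter (fun q => q < p), Real.log q with hs
  have hs0 : ∀ p, 0 ≤ s p := fun p =>
    Finset.sum_nonneg fun q hq => hlog q (Finset.mem_filter.1 hq).1
  refine ⟨fun p => ⌊s p / M⌋₊, ?_, ?_⟩
  · intro p hp
    have h1 : s p + Real.log p ≤ ∑ q ∈ W, Real.log q := by
      have hsub : insert p (W.filter (fun q => q < p)) ⊆ W := by
        intro q hq
        rw [Finset.mem_insert] at hq
        rcases hq with rfl | hq
        · exact hp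
        · exact (Finset.mem_filter.1 hq).1
      have h2 := Finset.sum_le_sum_of_subset_of_nonneg (f := fun q : ℕ => Real.log q) hsub
        (fun q hq _ => hlog q hq)
      rw [Finset.sum_insert (by simp)] at h2
      simp only [hs]
      linarith
    have h2 : s p / M ≤ (J : ℝ) - 1 := by
      rw [div_le_iff₀ hM]
      have := hlog p hp
      linarith
    have h3 : s p / M < J := by linarith
    have hJ0 : (J : ℕ) ≠ 0 := by omega
    exact (Nat.floor_lt' hJ0).2 h3
  · intro i
    set S := W.filter (fun p => ⌊s p / M⌋₊ = i) with hS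
    rcases S.eq_empty_or_nonempty with he | hne
    · rw [he]
      simp only [Finset.sum_empty]
      linarith
    · set a := S.min' hne with ha
      set b := S.max' hne with hb
      have haS : a ∈ S := S.min'_mem hne
      have hbS : b ∈ S := S.max'_mem hne
      have haW := Finset.mem_filter.1 haS
      have hbW := Finset.mem_filter.1 hbS
      have h1 : (i : ℝ) * M ≤ s a := by
        have := Nat.floor_le (div_nonneg (hs0 a) hM.le)
        rw [haW.2] at this
        rwa [le_div_iff₀ hM] at this
      have h2 : s b ≤ ((i : ℝ) + 1) * M := by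
        have := (Nat.lt_floor_add_one (s b / M)).le
        rw [hbW.2] at this
        rwa [div_le_iff₀ hM] at this
      -- the elements of `S` other than `b` lie in `[a, b)`
      have h3 : s a + ∑ p ∈ S.erase b, Real.log p ≤ s b := by
        have hd : Disjoint (W.filter (fun q => q < a)) (S.erase b) := by
          rw [Finset.disjoint_left]
          intro q hq hq'
          have h4 := S.min'_le q (Finset.mem_of_mem_erase hq')
          have h5 := (Finset.mem_filter.1 hq).2
          rw [← ha] at h4
          omega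
        simp only [hs]
        rw [← Finset.sum_union hd]
        refine Finset.sum_le_sum_of_subset_of_nonneg ?_ ?_
        · intro q hq
          rw [Finset.mem_union] at hq
          rw [Finset.mem_filter]
          rcases hq with hq | hq
          · have h5 := Finset.mem_filter.1 hq
            have h6 : a ≤ b := S.min'_le b hbS
            exact ⟨h5.1, lt_of_lt_of_le h5.2 h6⟩
          · have h5 := Finset.mem_erase.1 hq
            have h6 := S.le_max' q h5.2
            rw [← hb] at h6
            exact ⟨(Finset.mem_filter.1 h5.2).1, lt_of_le_of_ne h6 h5.1⟩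
        · intro q hq _
          exact hlog q (Finset.mem_filter.1 hq).1
      have h4 : ∑ p ∈ S, Real.log p = ∑ p ∈ S.erase b, Real.log p + Real.log b :=
        (Finset.sum_erase_add S _ hbS).symm
      have h5 := (hW b hbW.1).2
      rw [h4]
      nlinarith

end Vale.Agent.P042.SS
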