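import Vale.Agent.P042.SS.Unc4
import Vale.Agent.P042.SS.UncA

set_option autoImplicit false

/-!
Block UNC: level one and uncovered moduli.
-/

namespace Vale.Agent.P042.SS

open Finset Filter

namespace UNC

theorem uncov_cost {k E K p0 Q w : ℕ} {kap : ℕ → ℕ → ℝ} (hK : KapOK k E K p0 kap)
    {u cY X1 eb s P K1 K2 K3 : ℝ} (hK1 : 0 < K1) (hK2 : 0 < K2)
    (hcost1 : ∀ (Y : ℕ) (I : Finset (ℕ × ℕ)),
      (∀ i ∈ I, i.1.Prime ∧ 1 ≤ i.2 ∧ i.1 ≤ Y) →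
      ∑ i ∈ I, kap i.1 i.2 * (i.2 * Real.log i.1) ≤ K1 * (Real.sqrt Y + 1))
    (hcost2 : ∀ (Y : ℕ) (I : Finset (ℕ × ℕ)),
      (∀ i ∈ I, i.1.Prime ∧ 2 ≤ i.2 ∧ i.1 ≤ Y) →
      ∑ i ∈ I, kap i.1 i.2 * (i.2 * Real.log i.1) ≤ K2 * (1 + Real.log (Y + 1)))
    (hcost3 : ∀ (I : Finset (ℕ × ℕ)),
      (∀ i ∈ I, i.1.Prime ∧ 4 * E < i.2) →
      ∑ i ∈ I, kap i.1 i.2 * (i.2 * Real.log i.1) ≤ K3)
    (hcY0 : 0 < cY) (hsqY : Real.sqrt cY = u) (hX1 : X1 = K1 * u + 1)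
    (heb0 : 0 < eb) (heb1 : eb ≤ 1) (hs : s = Real.sqrt P) (hP0 : 0 < P)
    (hf1 : K2 * Real.log (cY * P + 1) / eb ≤ s / 2) (hf2 : K1 + (K2 + K3) / eb ≤ s / 2) :
    ∑ i ∈ Ib ⌊cY * P⌋₊ (4 * E) Q, piI kap w eb i * (i.2 * Real.log i.1) ≤ X1 * s := by
  have hYle : ((⌊cY * P⌋₊ : ℕ) : ℝ) ≤ cY * P := Nat.floor_le (by positivity)
  have h1 := hcost1 ⌊cY * P⌋₊ ((Ib ⌊cY * P⌋₊ (4 * E) Q).filter (fun i => i.1 ≤ ⌊cY * P⌋₊))
    (by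
      intro i hi
      simp only [Ib, mem_filter, mem_product, mem_range] at hi
      exact ⟨hi.1.2.1, hi.1.2.2.1, hi.2⟩)
  have h2 := hcost2 ⌊cY * P⌋₊
    ((Ib ⌊cY * P⌋₊ (4 * E) Q).filter (fun i => i.1 ≤ ⌊cY * P⌋₊ ∧ 2 ≤ i.2))
    (by
      intro i hi
      simp only [Ib, mem_filter, mem_product, mem_range] at hi
      exact ⟨hi.1.2.1, hi.2.2, hi.2.1⟩)
  have h3 := hcost3 ((Ib ⌊cY * P⌋₊ (4 * E) Q).filter (fun i => 4 * E < i.2))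
    (by
      intro i hi
      simp only [Ib, mem_filter, mem_product, mem_range] at hi
      exact ⟨hi.1.2.1, hi.2⟩)
  refine (cost_bound (w := w) hK.nn heb0 heb1 h1 h2 h3).trans ?_
  have h4 : Real.sqrt (⌊cY * P⌋₊ : ℕ) ≤ u * s := by
    rw [← hsqY, hs, ← Real.sqrt_mul hcY0.le]
    exact Real.sqrt_le_sqrt hYle
  have h5 : Real.log (((⌊cY * P⌋₊ : ℕ) : ℝ) + 1) ≤ Real.log (cY * P + 1) :=
    Real.log_le_log (by positivity) (by linarith)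
  have h6 : K1 * (Real.sqrt (⌊cY * P⌋₊ : ℕ) + 1) ≤ K1 * (u * s + 1) :=
    mul_le_mul_of_nonneg_left (by linarith) hK1.le
  have h7 : K2 * (1 + Real.log (((⌊cY * P⌋₊ : ℕ) : ℝ) + 1)) ≤
      K2 * (1 + Real.log (cY * P + 1)) :=
    mul_le_mul_of_nonneg_left (by linarith) hK2.le
  have h8 : (K2 * (1 + Real.log (((⌊cY * P⌋₊ : ℕ) : ℝ) + 1)) + K3) / eb ≤
      (K2 * (1 + Real.log (cY * P + 1)) + K3) / eb :=
    div_le_div_of_nonneg_right (by linarith) heb0.le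
  have h9 : (K2 * (1 + Real.log (cY * P + 1)) + K3) / eb =
      (K2 + K3) / eb + K2 * Real.log (cY * P + 1) / eb := by ring
  have h10 : X1 * s = K1 * (u * s + 1) - K1 + s := by rw [hX1]; ring
  rw [h10]
  linarith

theorem uncov_size {E m : ℕ} {CQ cm X1 s P : ℝ} {Q M : ℕ} (hs0 : 0 < s) (hss : s * s = P)
    (hCQ : 0 < CQ) (hm1 : (m : ℝ) ≤ cm * s) (hcm : cm * (8 * CQ * (4 * E + 1)) = 1)
    (hg : 4 * ((1 + 4 * E) * CQ + 2 * X1) ≤ s) (hQ : (Q : ℝ) ≤ Real.exp (CQ * s))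
    (hM : Real.exp (P / 2) ≤ M) :
    Real.exp (2 * (X1 * s)) * (Q : ℝ) ^ (1 + 4 * E * (2 * m + 1) + 2 * m) ≤ M := by
  refine le_trans ?_ hM
  have h0 : (Q : ℝ) ^ (1 + 4 * E * (2 * m + 1) + 2 * m) ≤
      Real.exp (((1 + 4 * E * (2 * m + 1) + 2 * m : ℕ) : ℝ) * (CQ * s)) := by
    rw [Real.exp_nat_mul]
    exact pow_le_pow_left₀ (Nat.cast_nonneg _) hQ _
  refine (mul_le_mul_of_nonneg_left h0 (Real.exp_pos _).le).trans ?_
  rw [← Real.exp_add]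
  apply Real.exp_le_exp.2
  push_cast
  have h1 : (1 + 4 * (E : ℝ) * (2 * m + 1) + 2 * m) * (CQ * s) =
      (1 + 4 * E) * CQ * s + (m : ℝ) * (2 * (4 * E + 1) * CQ * s) := by ring
  have h2 : (m : ℝ) * (2 * (4 * E + 1) * CQ * s) ≤ (cm * s) * (2 * (4 * E + 1) * CQ * s) :=
    mul_le_mul_of_nonneg_right hm1 (by positivity)
  have h3 : (cm * s) * (2 * (4 * E + 1) * CQ * s) = P / 4 := by
    rw [← hss]
    linear_combination (s * s / 4) * hcm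
  have h4 : 4 * ((1 + 4 * E) * CQ + 2 * X1) * s ≤ P := by
    rw [← hss]
    exact mul_le_mul_of_nonneg_right hg hs0.le
  have h5 : 4 * ((1 + 4 * (E : ℝ)) * CQ + 2 * X1) * s =
      4 * ((1 + 4 * (E : ℝ)) * CQ * s) + 4 * (2 * (X1 * s)) := by ring
  rw [h1]
  linarith

theorem uncov_mass {E : ℕ} {CQ Cg Cs c3 Cc X1 s P Φ Gm : ℝ} {Q M : ℕ} {G : ℤ → ℝ} {y : ℤ}
    (hs0 : 0 < s) (hss : s * s = P) (hs : s = Real.sqrt P) (hCs : 0 < Cs)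
    (hCc : Cc = 2 * X1 + (1 + 4 * E) * CQ) (hh : Cc ≤ c3 * s)
    (hQ : (Q : ℝ) ≤ Real.exp (CQ * s)) (hGm : 0 < Gm) (hM : MassOK P Cg Cs c3 M G y Φ Gm)
    (D : ℕ) (hD : 1 ≤ D)
    (hDle : (D : ℝ) ≤ Real.exp (2 * (X1 * s)) * (Q : ℝ) ^ (1 + 4 * E)) (x : ℤ) :
    mass G y M D x ≤ Gm * (3 * Real.exp (Cc * Cs) * Φ / Gm * (M / D)) := by
  have hΦ := hM.Φpos
  have hDr : (1 : ℝ) ≤ D := by exact_mod_cast hD
  have h0 : (Q : ℝ) ^ (1 + 4 * E) ≤ Real.exp (((1 + 4 * E : ℕ) : ℝ) * (CQ * s)) := by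
    rw [Real.exp_nat_mul]
    exact pow_le_pow_left₀ (Nat.cast_nonneg _) hQ _
  have h1 : (D : ℝ) ≤ Real.exp (Cc * s) := by
    refine hDle.trans ?_
    refine (mul_le_mul_of_nonneg_left h0 (Real.exp_pos _).le).trans ?_
    rw [← Real.exp_add]
    apply Real.exp_le_exp.2
    push_cast
    rw [hCc]
    apply le_of_eq
    ring
  have h2 : (D : ℝ) ≤ Real.exp (c3 * P) := by
    refine h1.trans (Real.exp_le_exp.2 ?_)
    rw [← hss]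
    have := mul_le_mul_of_nonneg_right hh hs0.le
    linarith
  refine (hM.mass_le D hD h2 x).trans ?_
  have h3 : (D : ℝ) ^ (Cs / Real.sqrt P) ≤ Real.exp (Cc * Cs) := by
    rw [← hs, Real.rpow_def_of_pos (by linarith)]
    apply Real.exp_le_exp.2
    have h4 : Real.log D ≤ Cc * s := by
      rw [← Real.log_exp (Cc * s)]
      exact Real.log_le_log (by linarith) h1
    calc Real.log D * (Cs / s) ≤ (Cc * s) * (Cs / s) :=
          mul_le_mul_of_nonneg_right h4 (by positivity)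
      _ = Cc * Cs := by field_simp
  have h5 : Gm * (3 * Real.exp (Cc * Cs) * Φ / Gm * (M / D)) =
      3 * Real.exp (Cc * Cs) * Φ * M / D := by
    field_simp
  rw [h5]
  apply div_le_div_of_nonneg_right _ (by linarith)
  apply mul_le_mul_of_nonneg_right _ (Nat.cast_nonneg _)
  apply mul_le_mul_of_nonneg_right _ hΦ.le
  linarith

theorem uncov_beta {Cg Cs Cc cm s Φ Gm : ℝ} {M m : ℕ} (hCg : 0 < Cg)
    (hcm0 : 0 < cm) (hm0 : (0 : ℝ) < m) (hm3 : cm * s / 2 ≤ m) (hCcs : 0 ≤ Cc * Cs)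
    (hΦ : 0 < Φ) (hGm : 0 < Gm) (hG : Gm ≤ Real.exp (Cg * s) * Φ) :
    Gm ^ 2 * ((M : ℝ) ^ 2 * (2 * (3 * Real.exp (Cc * Cs) * Φ / Gm) ^ 2 *
      (1 + (3 * Real.exp (Cc * Cs) * Φ / Gm) ^ (-(1 / (m : ℝ)))))) ≤
      18 * Real.exp (2 * (Cc * Cs)) * (1 + Real.exp (2 * Cg / cm)) * ((M : ℝ) ^ 2 * Φ ^ 2) := by
  set β : ℝ := 3 * Real.exp (Cc * Cs) * Φ / Gm with hβ
  have hβ0 : 0 < β := by positivity
  have hβm : β ^ (-(1 / (m : ℝ))) ≤ Real.exp (2 * Cg / cm) := by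
    rw [Real.rpow_def_of_pos hβ0]
    apply Real.exp_le_exp.2
    have h1 : -(Cg * s) ≤ Real.log β := by
      have h2 : Real.exp (-(Cg * s)) ≤ β := by
        rw [hβ, le_div_iff₀ hGm]
        have h4 : 1 ≤ Real.exp (Cc * Cs) := Real.one_le_exp hCcs
        calc Real.exp (-(Cg * s)) * Gm ≤ Real.exp (-(Cg * s)) * (Real.exp (Cg * s) * Φ) :=
              mul_le_mul_of_nonneg_left hG (Real.exp_pos _).le
          _ = Φ := by rw [← mul_assoc, ← Real.exp_add, neg_add_cancel, Real.exp_zero, one_mul]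
          _ ≤ 3 * Real.exp (Cc * Cs) * Φ := by nlinarith
      rw [← Real.log_exp (-(Cg * s))]
      exact Real.log_le_log (Real.exp_pos _) h2
    calc Real.log β * (-(1 / (m : ℝ))) = -(Real.log β) * (1 / m) := by ring
      _ ≤ (Cg * s) * (1 / m) := mul_le_mul_of_nonneg_right (by linarith) (by positivity)
      _ ≤ 2 * Cg / cm := by
        rw [mul_one_div, div_le_div_iff₀ hm0 hcm0]
        have : Cg * (cm * s) ≤ Cg * (2 * m) := mul_le_mul_of_nonneg_left (by linarith) hCg.le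
        linarith
  have h1 : Gm ^ 2 * β ^ 2 = 9 * Real.exp (2 * (Cc * Cs)) * Φ ^ 2 := by
    rw [hβ, two_mul (Cc * Cs), Real.exp_add]
    field_simp
    ring
  calc Gm ^ 2 * ((M : ℝ) ^ 2 * (2 * β ^ 2 * (1 + β ^ (-(1 / (m : ℝ)))))) =
      (Gm ^ 2 * β ^ 2) * (2 * (M : ℝ) ^ 2) * (1 + β ^ (-(1 / (m : ℝ)))) := by ring
    _ ≤ (Gm ^ 2 * β ^ 2) * (2 * (M : ℝ) ^ 2) * (1 + Real.exp (2 * Cg / cm)) :=
        mul_le_mul_of_nonneg_left (by linarith) (by positivity)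
    _ = _ := by rw [h1]; ring

theorem uncov_rates {k E K p0 : ℕ} {kap : ℕ → ℕ → ℝ} (hK : KapOK k E K p0 kap)
    {cm cY eb C2 s P : ℝ} {m : ℕ} (hu : 0 < 36 * cm * k) (hcY : cY = (36 * cm * k) ^ 2)
    (heb0 : 0 < eb) (hC2 : C2 = (36 * cm * k / eb) ^ 2) (hcYC2 : cY ≤ C2)
    (hs0 : 0 < s) (hs : s = Real.sqrt P) (hss : s * s = P)
    (hP0 : 0 < P) (hc : (p0 : ℝ) ≤ cY * P) (hd : 36 * cm * k ≤ eb * cY * s)
    (hm0 : (0 : ℝ) < m) (hm1 : (m : ℝ) ≤ cm * s) :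
    (∀ p j : ℕ, p.Prime → ⌊cY * P⌋₊ < p → 1 ≤ j → kap p j ≤ 1 / (36 * m : ℝ)) ∧
    (∀ p j : ℕ, p.Prime → ⌊cY * P⌋₊ < p → 2 ≤ j → kap p j ≤ eb * (1 / (36 * m : ℝ))) ∧
    (∀ p j : ℕ, p.Prime → ⌊C2 * P⌋₊ < p → 1 ≤ j → kap p j ≤ eb * (1 / (36 * m : ℝ))) := by
  have hcY0 : 0 < cY := by rw [hcY]; positivity
  have hC20 : 0 < C2 := by rw [hC2]; positivity
  have hsqY : Real.sqrt cY = 36 * cm * k := by rw [hcY]; exact Real.sqrt_sq hu.le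
  have hsq2 : Real.sqrt C2 = 36 * cm * k / eb := by
    rw [hC2]; exact Real.sqrt_sq (by positivity)
  have h1 : (k : ℝ) * (36 * m) ≤ (36 * cm * k) * s := by
    have : (k : ℝ) * (36 * m) ≤ k * (36 * (cm * s)) := by
      apply mul_le_mul_of_nonneg_left _ (Nat.cast_nonneg _)
      linarith
    linarith
  refine ⟨?_, ?_, ?_⟩
  · intro p j hp hpY hj
    refine (kap_le_of_floor hK hcY0 hP0 hc hp hpY hj).trans ?_
    rw [hsqY, ← hs, div_le_div_iff₀ (by positivity) (by positivity)]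
    linarith
  · intro p j hp hpY hj
    refine (kap_le_of_floor2 hK hcY0 hP0 hc hp hpY hj).trans ?_
    rw [mul_one_div, div_le_div_iff₀ (by positivity) (by positivity)]
    have h2 : (36 * cm * k) * s ≤ (eb * cY * s) * s := mul_le_mul_of_nonneg_right hd hs0.le
    calc (k : ℝ) * (36 * m) ≤ (36 * cm * k) * s := h1
      _ ≤ (eb * cY * s) * s := h2
      _ = eb * (cY * P) := by rw [← hss]; ring
  · intro p j hp hpY hj
    refine (kap_le_of_floor hK hC20 hP0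
      (hc.trans (mul_le_mul_of_nonneg_right hcYC2 hP0.le)) hp hpY hj).trans ?_
    rw [hsq2, ← hs, mul_one_div, div_le_div_iff₀ (by positivity) (by positivity)]
    calc (k : ℝ) * (36 * m) ≤ (36 * cm * k) * s := h1
      _ = eb * (36 * cm * k / eb * s) := by field_simp

theorem uncov_params {k E K p0 : ℕ} {kap : ℕ → ℕ → ℝ} (hLI : LIStmt) (hk : 1 ≤ k)
    (hE : 1 ≤ E) (hK : KapOK k E K p0 kap) {CQ Cg Cs c3 cm cY X1 eb C2 c1 s P K1 K2 K3 : ℝ}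
    (hCQ : 0 < CQ) (hCg : 0 < Cg) (hCs : 0 < Cs) (hK1 : 0 < K1) (hK2 : 0 < K2)
    (hcost1 : ∀ (Y : ℕ) (I : Finset (ℕ × ℕ)),
      (∀ i ∈ I, i.1.Prime ∧ 1 ≤ i.2 ∧ i.1 ≤ Y) →
      ∑ i ∈ I, kap i.1 i.2 * (i.2 * Real.log i.1) ≤ K1 * (Real.sqrt Y + 1))
    (hcost2 : ∀ (Y : ℕ) (I : Finset (ℕ × ℕ)),
      (∀ i ∈ I, i.1.Prime ∧ 2 ≤ i.2 ∧ i.1 ≤ Y) →
      ∑ i ∈ I, kap i.1 i.2 * (i.2 * Real.log i.1) ≤ K2 * (1 + Real.log (Y + 1)))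
    (hcost3 : ∀ (I : Finset (ℕ × ℕ)),
      (∀ i ∈ I, i.1.Prime ∧ 4 * E < i.2) →
      ∑ i ∈ I, kap i.1 i.2 * (i.2 * Real.log i.1) ≤ K3)
    (hcm : cm * (8 * CQ * (4 * E + 1)) = 1) (hcm0 : 0 < cm) (hcY : cY = (36 * cm * k) ^ 2)
    (hX1 : X1 = K1 * (36 * cm * k) + 1) (heb0 : 0 < eb) (heb1 : eb ≤ 1)
    (hC2 : C2 = (36 * cm * k / eb) ^ 2) (hc1 : 0 < c1) (hs : s = Real.sqrt P) (hP1 : 1 ≤ P)
    (hb : 2 ≤ cm * s) (hc : (p0 : ℝ) ≤ cY * P) (hd : 36 * cm * k ≤ eb * cY * s)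
    (he1 : (p0 : ℝ) ≤ c1 * P) (he2 : (k : ℝ) ≤ eb * (c1 * P))
    (hf1 : K2 * Real.log (cY * P + 1) / eb ≤ s / 2) (hf2 : K1 + (K2 + K3) / eb ≤ s / 2)
    (hg : 4 * ((1 + 4 * E) * CQ + 2 * X1) ≤ s) (hh : 2 * X1 + (1 + 4 * E) * CQ ≤ c3 * s)
    {Q M : ℕ} {G : ℤ → ℝ} {y : ℤ} {Φ Gm : ℝ} (hQ1 : 1 ≤ Q)
    (hQ : (Q : ℝ) ≤ Real.exp (CQ * s)) (hGm : 0 < Gm)
    (hM : MassOK P Cg Cs c3 M G y Φ Gm) :
    ∑ q ∈ (Icc 1 Q).filter (fun q => ¬ Cov ⌊c1 * P⌋₊ ⌊C2 * P⌋₊ q),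
        kapProd kap q * enG G y M q ≤
      eb * (2 * (18 * Real.exp (2 * ((2 * X1 + (1 + 4 * E) * CQ) * Cs)) *
        (1 + Real.exp (2 * Cg / cm)) * ((M : ℝ) ^ 2 * Φ ^ 2))) := by
  have hP0 : 0 < P := by linarith
  have hs0 : 0 < s := by rw [hs]; exact Real.sqrt_pos.2 hP0
  have hss : s * s = P := by rw [hs]; exact Real.mul_self_sqrt hP0.le
  have hkr : (1 : ℝ) ≤ k := by exact_mod_cast hk
  have hu : 0 < 36 * cm * k := by positivity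
  have hcY0 : 0 < cY := by rw [hcY]; positivity
  have hX10 : 0 < X1 := by rw [hX1]; positivity
  have hsqY : Real.sqrt cY = 36 * cm * k := by rw [hcY]; exact Real.sqrt_sq hu.le
  have hcYC2 : cY ≤ C2 := by
    rw [hcY, hC2]
    apply pow_le_pow_left₀ hu.le
    rw [le_div_iff₀ heb0]
    calc 36 * cm * k * eb ≤ 36 * cm * k * 1 := mul_le_mul_of_nonneg_left heb1 hu.le
      _ = _ := mul_one _
  -- the exponent m
  set m : ℕ := ⌊cm * s⌋₊ with hm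
  have hm1 : (m : ℝ) ≤ cm * s := Nat.floor_le (by positivity)
  have hm2 : 2 ≤ m := by
    rw [hm]
    exact Nat.le_floor (by exact_mod_cast hb)
  have hm3 : cm * s / 2 ≤ m := by
    have := Nat.lt_floor_add_one (cm * s)
    rw [← hm] at this
    linarith
  have hmr : (2 : ℝ) ≤ m := by exact_mod_cast hm2
  have hm0 : (0 : ℝ) < m := by linarith
  obtain ⟨hc0', hc2', hc1'⟩ := uncov_rates hK hu hcY heb0 hC2 hcYC2 hs0 hs hss hP0 hc hd hm0 hm1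
  have hYw1 : ⌊cY * P⌋₊ ≤ ⌊C2 * P⌋₊ :=
    Nat.floor_le_floor (mul_le_mul_of_nonneg_right hcYC2 hP0.le)
  have hpi1 : ∀ i ∈ Ib ⌊cY * P⌋₊ (4 * E) Q, piI kap ⌊c1 * P⌋₊ eb i ≤ 1 := by
    intro i hi
    simp only [Ib, mem_filter, mem_product, mem_range] at hi
    unfold piI
    split_ifs with h
    · rw [div_le_one heb0]
      refine (kap_le_of_floor2 hK hc1 hP0 he1 hi.2.1 h.1 h.2).trans ?_
      rw [div_le_iff₀ (by positivity)]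
      exact he2
    · exact hK.le1 _ _
  have hX : ∑ i ∈ Ib ⌊cY * P⌋₊ (4 * E) Q, piI kap ⌊c1 * P⌋₊ eb i * (i.2 * Real.log i.1) ≤
      X1 * s :=
    uncov_cost hK hK1 hK2 hcost1 hcost2 hcost3 hcY0 hsqY hX1 heb0 heb1 hs hP0 hf1 hf2
  have hCc0 : 0 ≤ (2 * X1 + (1 + 4 * (E : ℝ)) * CQ) * Cs := by positivity
  have hΦ := hM.Φpos
  have hcore := unc_core hLI (kap := kap) (w := ⌊c1 * P⌋₊) (w1 := ⌊C2 * P⌋₊) (Y := ⌊cY * P⌋₊)
    (J := 4 * E) (Q := Q) (M := M) (m := m) (eb := eb) (X0 := X1 * s)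
    (β := 3 * Real.exp ((2 * X1 + (1 + 4 * (E : ℝ)) * CQ) * Cs) * Φ / Gm) (Gm := Gm)
    (G := G) (y := y) hK.nn heb0 heb1 hc0' hc2' hc1' hYw1 (by omega) hm2 hpi1 (by positivity) hX
    (by positivity) hM.G0 hGm hM.Gle hQ1
    (uncov_size hs0 hss hCQ hm1 hcm hg hQ hM.M_ge)
    (uncov_mass hs0 hss hs hCs rfl hh hQ hGm hM)
  refine hcore.trans ?_
  apply mul_le_mul_of_nonneg_left _ heb0.le
  apply mul_le_mul_of_nonneg_left _ (by norm_num)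
  exact uncov_beta hCg hcm0 hm0 hm3 hCc0 hΦ hGm (by rw [hs]; exact hM.Gm_le)

/-- uncovered moduli -/
theorem uncov_of (hLI : LIStmt) (hC : CostStmt) (h2 : Cost2Stmt) (h3 : Cost3Stmt)
    (k E K p0 : ℕ) (kap : ℕ → ℕ → ℝ) (hk : 1 ≤ k) (hE : 1 ≤ E) (hK : KapOK k E K p0 kap)
    (CQ Cg Cs c3 : ℝ) (hCQ : 0 < CQ) (hCg : 0 < Cg) (hCs : 0 < Cs) (hc3 : 0 < c3)
    (ε : ℝ) (hε : 0 < ε) :
    ∃ C2 : ℝ, 0 < C2 ∧ ∀ c1 : ℝ, 0 < c1 → ∃ P0 : ℝ, ∀ P : ℝ, P0 ≤ P →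
      ∀ (Q M : ℕ) (G : ℤ → ℝ) (y : ℤ) (Φ Gm : ℝ), (Q : ℝ) ≤ Real.exp (CQ * Real.sqrt P) →
      MassOK P Cg Cs c3 M G y Φ Gm →
      ∑ q ∈ (Icc 1 Q).filter (fun q => ¬ Cov ⌊c1 * P⌋₊ ⌊C2 * P⌋₊ q),
        kapProd kap q * enG G y M q ≤ ε * (M : ℝ) ^ 2 * Φ ^ 2 := by
  obtain ⟨K1, hK1, hcost1⟩ := hC k E K p0 kap hk hE hK
  obtain ⟨K2, hK2, hcost2⟩ := h2 k E K p0 kap hk hE hK
  obtain ⟨K3, hK3, hcost3⟩ := h3 k E K p0 kap hk hE hK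
  have hkr : (1 : ℝ) ≤ k := by exact_mod_cast hk
  set cm : ℝ := 1 / (8 * CQ * (4 * E + 1)) with hcm
  have hcm0 : 0 < cm := by positivity
  have hcm1 : cm * (8 * CQ * (4 * E + 1)) = 1 := by
    rw [hcm]
    exact one_div_mul_cancel (by positivity)
  set u : ℝ := 36 * cm * k with hu
  have hu0 : 0 < u := by positivity
  set cY : ℝ := u ^ 2 with hcY
  have hcY0 : 0 < cY := by positivity
  set X1 : ℝ := K1 * u + 1 with hX1
  have hX10 : 0 < X1 := by positivity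
  set CB : ℝ := 2 * (18 * Real.exp (2 * ((2 * X1 + (1 + 4 * E) * CQ) * Cs)) *
        (1 + Real.exp (2 * Cg / cm))) with hCB
  have hCB0 : 0 < CB := by positivity
  set eb : ℝ := min 1 (ε / CB) with heb
  have heb0 : 0 < eb := lt_min one_pos (by positivity)
  have heb1 : eb ≤ 1 := min_le_left _ _
  have hebε : eb * CB ≤ ε := by
    have : eb ≤ ε / CB := min_le_right _ _
    rwa [le_div_iff₀ hCB0] at this
  refine ⟨(u / eb) ^ 2, by positivity, fun c1 hc1 => ?_⟩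
  have hsq : Tendsto Real.sqrt atTop atTop := Real.tendsto_sqrt_atTop
  have hev : ∀ᶠ P : ℝ in atTop, 1 ≤ P ∧ 2 / cm ≤ Real.sqrt P ∧ (p0 : ℝ) / cY ≤ P ∧
      u / (eb * cY) ≤ Real.sqrt P ∧ (p0 : ℝ) / c1 ≤ P ∧ (k : ℝ) / (eb * c1) ≤ P ∧
      Real.log (cY * P + 1) ≤ eb / (2 * K2) * Real.sqrt P ∧
      2 * (K1 + (K2 + K3) / eb) ≤ Real.sqrt P ∧
      4 * ((1 + 4 * E) * CQ + 2 * X1) ≤ Real.sqrt P ∧
      (2 * X1 + (1 + 4 * E) * CQ) / c3 ≤ Real.sqrt P := by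
    filter_upwards [eventually_ge_atTop (1 : ℝ), hsq.eventually_ge_atTop (2 / cm),
      eventually_ge_atTop ((p0 : ℝ) / cY), hsq.eventually_ge_atTop (u / (eb * cY)),
      eventually_ge_atTop ((p0 : ℝ) / c1), eventually_ge_atTop ((k : ℝ) / (eb * c1)),
      ev_log cY hcY0 (eb / (2 * K2)) (by positivity),
      hsq.eventually_ge_atTop (2 * (K1 + (K2 + K3) / eb)),
      hsq.eventually_ge_atTop (4 * ((1 + 4 * E) * CQ + 2 * X1)),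
      hsq.eventually_ge_atTop ((2 * X1 + (1 + 4 * E) * CQ) / c3)]
      with P a1 a2 a3 a4 a5 a6 a7 a8 a9 a10
    exact ⟨a1, a2, a3, a4, a5, a6, a7, a8, a9, a10⟩
  obtain ⟨P0, hP0⟩ := eventually_atTop.1 hev
  refine ⟨P0, fun P hP Q M G y Φ Gm hQ hM => ?_⟩
  obtain ⟨a1, a2, a3, a4, a5, a6, a7, a8, a9, a10⟩ := hP0 P hP
  have hPpos : 0 < P := by linarith
  have hΦ := hM.Φpos
  have hR0 : 0 ≤ ε * (M : ℝ) ^ 2 * Φ ^ 2 := by positivity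
  rcases Nat.eq_zero_or_pos Q with hQ0 | hQ1
  · rw [hQ0]
    simpa using hR0
  rcases le_or_gt Gm 0 with hG | hG
  · have hG0 : ∀ n, G n = 0 := fun n => le_antisymm ((hM.Gle n).trans hG) (hM.G0 n)
    rw [Finset.sum_eq_zero fun q _ => by rw [enG_zero hG0, mul_zero]]
    exact hR0
  have hmain := uncov_params (c3 := c3) (K3 := K3) (c1 := c1) (eb := eb) (cm := cm)
    (X1 := X1) (cY := cY) (C2 := (u / eb) ^ 2) (s := Real.sqrt P) (P := P)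
    hLI hk hE hK hCQ hCg hCs hK1 hK2 hcost1 hcost2 hcost3 hcm1 hcm0 hcY
    hX1 heb0 heb1 rfl hc1 rfl a1
    (by rw [div_le_iff₀ hcm0] at a2; linarith)
    (by rw [div_le_iff₀ hcY0] at a3; linarith)
    (by rw [div_le_iff₀ (by positivity)] at a4; linarith)
    (by rw [div_le_iff₀ hc1] at a5; linarith)
    (by rw [div_le_iff₀ (by positivity)] at a6; linarith)
    (by
      rw [div_le_iff₀ heb0]
      have h1 := mul_le_mul_of_nonneg_left a7 hK2.le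
      have h2 : K2 * (eb / (2 * K2) * Real.sqrt P) = Real.sqrt P / 2 * eb := by
        field_simp
      linarith)
    (by linarith) a9
    (by rw [div_le_iff₀ hc3] at a10; linarith)
    hQ1 hQ hG hM
  refine hmain.trans ?_
  have h5 : 0 ≤ (M : ℝ) ^ 2 * Φ ^ 2 := by positivity
  calc eb * (2 * (18 * Real.exp (2 * ((2 * X1 + (1 + 4 * E) * CQ) * Cs)) *
        (1 + Real.exp (2 * Cg / cm)) * ((M : ℝ) ^ 2 * Φ ^ 2)))
      = (eb * CB) * ((M : ℝ) ^ 2 * Φ ^ 2) := by rw [hCB]; ring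
    _ ≤ ε * ((M : ℝ) ^ 2 * Φ ^ 2) := mul_le_mul_of_nonneg_right hebε h5
    _ = ε * (M : ℝ) ^ 2 * Φ ^ 2 := by ring

end UNC

/-- block UNC -/
theorem unc_of (hLI : LIStmt) (hC : CostStmt) (h2 : Cost2Stmt) (h3 : Cost3Stmt) : UncStmt := by
  intro k E K p0 kap hk hE hK CQ Cg Cs c3 hCQ hCg hCs hc3
  refine ⟨1296, 18 * Real.exp (2 * Cs) * (1 + Real.exp (2 * Cg)), by norm_num, by positivity,
    ?_, ?_⟩
  · intro C2 hC2
    exact level_one_of hLI Cg Cs c3 hCg hCs hc3 C2 hC2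
  · intro ε hε
    exact UNC.uncov_of hLI hC h2 h3 k E K p0 kap hk hE hK CQ Cg Cs c3 hCQ hCg hCs hc3 ε hε

end Vale.Agent.P042.SS
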