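import Vale.Agent.P042.SS.ANHolds
import Vale.Agent.P042.SS.Cost
import Vale.Agent.P042.SS.Defect
import Vale.Agent.P042.SS.EKL
import Vale.Agent.P042.SS.EntMain
import Vale.Agent.P042.SS.ExtA
import Vale.Agent.P042.SS.FinG
import Vale.Agent.P042.SS.FinH
import Vale.Agent.P042.SS.KL2
import Vale.Agent.P042.SS.MainMT
import Vale.Agent.P042.SS.PinB
import Vale.Agent.P042.SS.PinEnt
import Vale.Agent.P042.SS.RM
import Vale.Agent.P042.SS.Unc

set_option autoImplicit false

/-!
The final theorem from the level inequality.
-/

namespace Vale.Agent.P042.SS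

theorem final_of_li (hLI : LIStmt) : FinalStmt :=
  final_of
    (scale_holds ext_holds nu_holds kl2_holds pihat_holds main_holds th_holds thEn_holds part_holds
      rm_holds)
    (unc_of hLI cost_holds cost2_holds cost3_holds)
    (ekl_of ent_holds pinEnt_holds defect_holds klChain_holds cost_holds part_holds)
    an_holds cost_holds

end Vale.Agent.P042.SS
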