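import Vale.Agent.P042.SS.LIa
import Vale.Agent.P042.SS.KL2

set_option autoImplicit false

/-!
Block LI, concrete part: coordinates are prime powers, the density is a weight.
-/

namespace Vale.Agent.P042.SS

open Finset Vale.Agent.P042

namespace LI

section Concrete

variable (W : ℕ) (P : Finset ℕ) (g : ℕ → ℕ)

/-- total modulus -/
def bigG : ℕ := W * ∏ p ∈ P, p ^ g p

/-- coordinate subgroups -/
def HG (p : P) : AddSubgroup (ZMod (bigG W P g)) :=
  AddSubgroup.zmultiples ((bigG W P g / (p : ℕ) ^ g p : ℕ) : ZMod (bigG W P g))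

variable {W P g}

theorem prodG_pos (hP : ∀ p ∈ P, Nat.Prime p) (S : Finset P) : 0 < ∏ p ∈ S, (p : ℕ) ^ g p :=
  Finset.prod_pos fun p _ => pow_pos (hP p p.2).pos _

theorem coprimeG (hP : ∀ p ∈ P, Nat.Prime p) {p : P} {V : Finset P} (h : p ∉ V) :
    Nat.Coprime ((p : ℕ) ^ g p) (∏ q ∈ V, (q : ℕ) ^ g q) := by
  apply Nat.Coprime.prod_right
  intro q hq
  apply Nat.Coprime.pow
  rw [Nat.coprime_primes (hP p p.2) (hP q q.2)]
  intro h'
  exact h (by rw [Subtype.ext h']; exact hq)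

theorem bigG_eq (S : Finset P) :
    bigG W P g = (W * ∏ p ∈ S, (p : ℕ) ^ g p) * ∏ p ∈ Sᶜ, (p : ℕ) ^ g p := by
  have h1 : bigG W P g = W * ∏ p : P, (p : ℕ) ^ g p := by
    unfold bigG
    congr 1
    exact (Finset.prod_coe_sort P (fun p => p ^ g p)).symm
  rw [h1, mul_assoc, Finset.prod_mul_prod_compl]

theorem prod_dvd_bigG (V : Finset P) : ∏ p ∈ V, (p : ℕ) ^ g p ∣ bigG W P g := by
  rw [bigG_eq V]
  exact Dvd.intro_left W rfl |>.mul_right _

theorem bigG_pos (hP : ∀ p ∈ P, Nat.Prime p) (hW : 1 ≤ W) : 0 < bigG W P g := by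
  rw [bigG_eq ∅]
  have := prodG_pos (g := g) hP (∅ : Finset P)ᶜ
  simp only [Finset.prod_empty, mul_one]
  positivity

theorem sup_HG (hP : ∀ p ∈ P, Nat.Prime p) (V : Finset P) :
    V.sup (HG W P g) = AddSubgroup.zmultiples ((bigG W P g / ∏ p ∈ V, (p : ℕ) ^ g p : ℕ) :
      ZMod (bigG W P g)) := by
  classical
  induction V using Finset.induction_on with
  | empty => simp only [sup_empty, prod_empty, Nat.div_one, CharP.cast_eq_zero, AddSubgroup.zmultiples_zero_eq_bot]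
  | insert p V hp ih =>
    rw [Finset.sup_insert, ih, Finset.prod_insert hp]
    have hd : (p : ℕ) ^ g p * ∏ q ∈ V, (q : ℕ) ^ g q ∣ bigG W P g := by
      have h0 := prod_dvd_bigG (W := W) (g := g) (insert p V)
      rwa [Finset.prod_insert hp] at h0
    obtain ⟨c, hc⟩ := hd
    have h1 := pow_pos (hP p p.2).pos (g p)
    have h2 := prodG_pos (g := g) hP V
    have e1 : bigG W P g / (p : ℕ) ^ g p = (∏ q ∈ V, (q : ℕ) ^ g q) * c := by
      rw [hc, mul_assoc, Nat.mul_div_cancel_left _ h1]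
    have e2 : bigG W P g / (∏ q ∈ V, (q : ℕ) ^ g q) = (p : ℕ) ^ g p * c := by
      rw [hc, mul_comm ((p : ℕ) ^ g p), mul_assoc, Nat.mul_div_cancel_left _ h2]
    have e3 : bigG W P g / ((p : ℕ) ^ g p * ∏ q ∈ V, (q : ℕ) ^ g q) = c := by
      rw [hc, Nat.mul_div_cancel_left _ (Nat.mul_pos h1 h2)]
    unfold HG
    rw [e1, e2, e3, Nat.cast_mul, Nat.cast_mul, ← nsmul_eq_mul, ← nsmul_eq_mul]
    exact zmultiples_sup_coprime ((c : ℕ) : ZMod (bigG W P g)) (coprimeG hP hp).symm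

theorem sup_HG_compl (hP : ∀ p ∈ P, Nat.Prime p) (S : Finset P) :
    (Sᶜ).sup (HG W P g) = AddSubgroup.zmultiples
      ((W * ∏ p ∈ S, (p : ℕ) ^ g p : ℕ) : ZMod (bigG W P g)) := by
  rw [sup_HG hP]
  have h2 := prodG_pos (g := g) hP Sᶜ
  congr 2
  rw [bigG_eq S, Nat.mul_div_cancel _ h2]

theorem modG_dvd (S : Finset P) : W * ∏ p ∈ S, (p : ℕ) ^ g p ∣ bigG W P g := by
  rw [bigG_eq S]
  exact Dvd.intro _ rfl

/-- normalised density of a weight -/
noncomputable def cg (n N1 : ℕ) (G : ℤ → ℝ) (B : Finset ℤ) (z : ZMod n) : ℝ :=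
  (n : ℝ) / N1 * ∑ x ∈ B.filter (fun n' : ℤ => (n' : ZMod n) = z), G x

theorem avg_cg {n d : ℕ} [NeZero n] (hdvd : d ∣ n) (N1 : ℕ) (G : ℤ → ℝ) (B : Finset ℤ)
    (x : ZMod n) :
    avg (AddSubgroup.zmultiples ((d : ℕ) : ZMod n)) (cg n N1 G B) x =
      (d : ℝ) / N1 *
      ∑ n' ∈ B.filter (fun n' : ℤ => n' ≡ (x.val : ℤ) [ZMOD (d : ℕ)]), G n' := by
  classical
  have hP : 0 < n := Nat.pos_of_ne_zero (NeZero.ne _)
  have hd0 : 0 < d := Nat.pos_of_dvd_of_pos hdvd hP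
  unfold avg
  rw [card_zmultiples_dvd hdvd]
  have h1 : ∀ h : ZMod n,
      (if h ∈ AddSubgroup.zmultiples ((d : ℕ) : ZMod n) then cg n N1 G B (x + h) else 0)
      = (n : ℝ) / N1 * ∑ n' ∈ B, if h ∈ AddSubgroup.zmultiples ((d : ℕ) : ZMod n) ∧
        (n' : ZMod n) - x = h then G n' else 0 := by
    intro h
    by_cases hh : h ∈ AddSubgroup.zmultiples ((d : ℕ) : ZMod n)
    · simp only [hh, if_true, true_and]
      unfold cg
      rw [Finset.sum_filter]
      congr 1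
      refine Finset.sum_congr rfl fun n' _ => ?_
      have : ((n' : ZMod n) = x + h) ↔ ((n' : ZMod n) - x = h) := by
        rw [sub_eq_iff_eq_add']
      simp only [this]
    · simp [hh]
  simp_rw [h1]
  rw [← Finset.mul_sum, Finset.sum_comm]
  have h2 : ∀ n' : ℤ, (∑ h : ZMod n,
      if h ∈ AddSubgroup.zmultiples ((d : ℕ) : ZMod n) ∧
        (n' : ZMod n) - x = h then G n' else 0) =
      if n' ≡ (x.val : ℤ) [ZMOD (d : ℕ)] then G n' else 0 := by
    intro n'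
    have h3 : ((n' : ZMod n) - x ∈
        AddSubgroup.zmultiples ((d : ℕ) : ZMod n)) ↔ n' ≡ (x.val : ℤ) [ZMOD (d : ℕ)] := by
      have h4 : (n' : ZMod n) - x = ((n' - x.val : ℤ) : ZMod n) := by
        push_cast
        rw [ZMod.natCast_zmod_val]
      rw [h4, intCast_mem_zmultiples hdvd, Int.modEq_comm, Int.modEq_iff_dvd]
    by_cases hm : (n' : ZMod n) - x ∈
        AddSubgroup.zmultiples ((d : ℕ) : ZMod n)
    · rw [if_pos (h3.1 hm)]
      rw [Finset.sum_eq_single ((n' : ZMod n) - x)]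
      · simp [hm]
      · intro b _ hb
        rw [if_neg]
        rintro ⟨_, h5⟩
        exact hb h5.symm
      · simp
    · rw [if_neg (fun h => hm (h3.2 h))]
      apply Finset.sum_eq_zero
      intro b _
      rw [if_neg]
      rintro ⟨h5, h6⟩
      rw [h6] at hm
      exact hm h5
  simp_rw [h2]
  rw [← Finset.sum_filter]
  have hd0' : (d : ℝ) ≠ 0 := by exact_mod_cast hd0.ne'
  have hP' : (n : ℝ) ≠ 0 := by exact_mod_cast hP.ne'
  rw [Nat.cast_div hdvd hd0']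
  by_cases hN : (N1 : ℝ) = 0
  · simp only [hN, div_zero, zero_mul, zero_div]
  · field_simp

theorem EE_cg [NeZero (bigG W P g)] (hP : ∀ p ∈ P, Nat.Prime p) (N1 : ℕ) (G : ℤ → ℝ)
    (B : Finset ℤ) (S : Finset P) (x : ZMod (bigG W P g)) :
    EE (HG W P g) Sᶜ (cg (bigG W P g) N1 G B) x =
      ((W * ∏ p ∈ S, (p : ℕ) ^ g p : ℕ) : ℝ) / N1 *
      ∑ n ∈ B.filter (fun n : ℤ => n ≡ (x.val : ℤ)
        [ZMOD (W * ∏ p ∈ S, (p : ℕ) ^ g p : ℕ)]), G n := by
  unfold EE
  rw [sup_HG_compl hP, avg_cg (modG_dvd S)]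

theorem goodg_dvd (hP : ∀ p ∈ P, Nat.Prime p) (hW : 1 ≤ W) {q : ℕ} (hq1 : 1 ≤ q)
    (hg : goodg P g W q) : q ∣ bigG W P g := by
  have hn := bigG_pos (g := g) hP hW
  rw [← Nat.factorization_prime_le_iff_dvd (by omega) (by omega)]
  intro p hp
  by_cases hpq : p ∈ q.primeFactors
  · rw [← hp.pow_dvd_iff_le_factorization (by omega)]
    rcases hg p hpq with h | ⟨h, h'⟩
    · exact h.trans (Dvd.intro _ rfl)
    · exact (pow_dvd_pow p h').trans
        ((Finset.dvd_prod_of_mem (fun p => p ^ g p) h).trans (Dvd.intro_left _ rfl))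
  · rw [← Nat.support_factorization, Finsupp.mem_support_iff, not_not] at hpq
    rw [hpq]
    exact Nat.zero_le _

theorem fact_bigG (hP : ∀ p ∈ P, Nat.Prime p) (hW : 1 ≤ W) (p : P) :
    (bigG W P g).factorization p = W.factorization p + g p := by
  have h1 : bigG W P g = (W * (p : ℕ) ^ g p) * ∏ r ∈ ({p} : Finset P)ᶜ, (r : ℕ) ^ g r := by
    have := bigG_eq (W := W) (g := g) ({p} : Finset P)
    simpa only [prod_singleton] using this
  have hpp := hP p p.2
  have hR : 0 < ∏ r ∈ ({p} : Finset P)ᶜ, (r : ℕ) ^ g r := prodG_pos hP _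
  have hpw : 0 < (p : ℕ) ^ g p := pow_pos hpp.pos _
  have hco : Nat.Coprime (p : ℕ) (∏ r ∈ ({p} : Finset P)ᶜ, (r : ℕ) ^ g r) := by
    apply Nat.Coprime.prod_right
    intro q hq
    apply Nat.Coprime.pow_right
    rw [Nat.coprime_primes (hP p p.2) (hP q q.2)]
    intro h'
    rw [Finset.mem_compl, Finset.mem_singleton] at hq
    exact hq (Subtype.ext h').symm
  rw [h1, Nat.factorization_mul (Nat.mul_pos (by omega) hpw).ne' hR.ne',
    Nat.factorization_mul (by omega) hpw.ne']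
  simp only [Finsupp.coe_add, Pi.add_apply]
  rw [hpp.factorization_pow, Finsupp.single_eq_same, Nat.factorization_eq_zero_of_not_dvd
    ((Nat.Prime.coprime_iff_not_dvd hpp).1 hco), add_zero]

theorem TG_iff_g [NeZero (bigG W P g)] (hP : ∀ p ∈ P, Nat.Prime p) (hW : 1 ≤ W) {q a : ℕ}
    (hq1 : 1 ≤ q) (hg : goodg P g W q) (hco : Nat.Coprime q a) (p : P) :
    TG (HG W P g) ((a * (bigG W P g / q) : ℕ) : ZMod (bigG W P g)) p ↔
      ¬ ((p : ℕ) ∈ q.primeFactors ∧ ¬ (p : ℕ) ^ q.factorization p ∣ W) := by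
  have hPpos := bigG_pos (g := g) hP hW
  have hpp := hP p p.2
  have hqd := goodg_dvd hP hW hq1 hg
  have hpw : 0 < (p : ℕ) ^ g p := pow_pos hpp.pos _
  have hpd : (p : ℕ) ^ g p ∣ bigG W P g :=
    (Finset.dvd_prod_of_mem (fun p => p ^ g p) p.2).trans (Dvd.intro_left _ rfl)
  have step1 : TG (HG W P g) ((a * (bigG W P g / q) : ℕ) : ZMod (bigG W P g)) p ↔
      (p : ℕ) ^ g p ∣ a * (bigG W P g / q) := by
    have h0 : (ZMod.stdAddChar (0 : ZMod (bigG W P g)) : ℂ) = 1 := AddChar.map_zero_eq_one _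
    obtain ⟨c, hc⟩ := hpd
    have hc0 : 0 < c := by
      rcases Nat.eq_zero_or_pos c with h | h
      · rw [h, mul_zero] at hc; omega
      · exact h
    have e1 : bigG W P g / (p : ℕ) ^ g p = c := by
      rw [hc, Nat.mul_div_cancel_left _ hpw]
    have h2 : (p : ℕ) ^ g p ∣ a * (bigG W P g / q) ↔
        ((c * (a * (bigG W P g / q)) : ℕ) : ZMod (bigG W P g)) = 0 := by
      rw [ZMod.natCast_eq_zero_iff]
      generalize a * (bigG W P g / q) = X
      rw [hc, mul_comm ((p : ℕ) ^ g p) c]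
      exact (Nat.mul_dvd_mul_iff_left hc0).symm
    rw [h2]
    unfold TG HG
    rw [e1]
    constructor
    · intro h
      have h3 := h ((c : ℕ) : ZMod (bigG W P g)) (AddSubgroup.mem_zmultiples _)
      rw [← h0, (ZMod.injective_stdAddChar).eq_iff] at h3
      rw [Nat.cast_mul]
      exact h3
    · intro h z hz
      obtain ⟨k, rfl⟩ := AddSubgroup.mem_zmultiples_iff.1 hz
      rw [smul_mul_assoc, ← Nat.cast_mul, h, smul_zero]
      exact h0
  rw [step1]
  have hq0 : q ≠ 0 := by omega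
  have hqdpos : 0 < bigG W P g / q := Nat.div_pos (Nat.le_of_dvd hPpos hqd) (by omega)
  by_cases hpq : (p : ℕ) ∣ q
  · have hmem : (p : ℕ) ∈ q.primeFactors := by
      rw [Nat.mem_primeFactors]
      exact ⟨hpp, hpq, hq0⟩
    simp only [hmem, true_and, not_not]
    have hpa : Nat.Coprime ((p : ℕ) ^ g p) a :=
      Nat.Coprime.pow_left _ (Nat.Coprime.coprime_dvd_left hpq hco)
    rw [hpa.dvd_mul_left, hpp.pow_dvd_iff_le_factorization hqdpos.ne', Nat.factorization_div hqd,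
      Finsupp.tsub_apply, fact_bigG hP hW, hpp.pow_dvd_iff_le_factorization (by omega)]
    have hle : q.factorization p ≤ (bigG W P g).factorization p :=
      (Nat.factorization_le_iff_dvd hq0 hPpos.ne').2 hqd p
    rw [fact_bigG hP hW] at hle
    omega
  · have hmem : ¬ (p : ℕ) ∈ q.primeFactors := by
      rw [Nat.mem_primeFactors]
      exact fun h => hpq h.2.1
    simp only [hmem, false_and, not_false_eq_true, iff_true]
    apply Dvd.dvd.mul_left
    have hcop : Nat.Coprime ((p : ℕ) ^ g p) q :=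
      Nat.Coprime.pow_left _ ((Nat.Prime.coprime_iff_not_dvd hpp).2 hpq)
    obtain ⟨c, hc⟩ := hqd
    rw [hc, Nat.mul_div_cancel_left _ (by omega)]
    rw [hc] at hpd
    exact Nat.Coprime.dvd_of_dvd_mul_left hcop hpd

open Classical in
/-- coordinates on which `ξ` is nontrivial -/
noncomputable def UfG [NeZero (bigG W P g)] (ξ : ZMod (bigG W P g)) : Finset P :=
  Finset.univ.filter (fun p => ¬ TG (HG W P g) ξ p)

theorem map_UfG [NeZero (bigG W P g)] (hP : ∀ p ∈ P, Nat.Prime p) (hW : 1 ≤ W) {q a : ℕ}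
    (hq1 : 1 ≤ q) (hg : goodg P g W q) (hco : Nat.Coprime q a) :
    (UfG ((a * (bigG W P g / q) : ℕ) : ZMod (bigG W P g))).map (Function.Embedding.subtype _) =
      Ug W q := by
  classical
  unfold Ug
  ext r
  simp only [Finset.mem_map, UfG, Finset.mem_filter, Finset.mem_univ, true_and,
    Function.Embedding.coe_subtype, Subtype.exists, exists_and_right, exists_eq_right]
  constructor
  · rintro ⟨hr, h⟩
    rw [TG_iff_g hP hW hq1 hg hco, not_not] at h
    exact h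
  · rintro ⟨h1, h2⟩
    have hr : r ∈ P := by
      rcases hg r h1 with h | h
      · exact absurd h h2
      · exact h.1
    refine ⟨hr, ?_⟩
    rw [TG_iff_g hP hW hq1 hg hco, not_not]
    exact ⟨h1, h2⟩

lemma prod_map_sub (S : Finset P) :
    ∏ p ∈ S.map (Function.Embedding.subtype _), p ^ g p = ∏ p ∈ S, (p : ℕ) ^ g p := by
  rw [Finset.prod_map]; rfl

/-- the union of the sets -/
lemma prod_sup_le (hP : ∀ p ∈ P, Nat.Prime p) {M : ℕ} (D : ℕ) (t : Fin M → Finset P)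
    (ht : ∀ i, ∏ p ∈ t i, (p : ℕ) ^ g p ≤ D) :
    ∏ p ∈ Finset.univ.sup t, (p : ℕ) ^ g p ≤ D ^ M := by
  have h31 : ∏ p ∈ Finset.univ.sup t, (p : ℕ) ^ g p ≤ ∏ i, ∏ p ∈ t i, (p : ℕ) ^ g p := by
    have h32 : ∀ I : Finset (Fin M),
        ∏ p ∈ I.sup t, (p : ℕ) ^ g p ≤ ∏ i ∈ I, ∏ p ∈ t i, (p : ℕ) ^ g p := by
      intro I
      induction I using Finset.induction_on with
      | empty => simp only [sup_empty, bot_eq_empty, prod_empty, Std.le_refl]
      | insert i I hi ih =>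
        rw [Finset.sup_insert, Finset.prod_insert hi]
        refine le_trans ?_ (Nat.mul_le_mul_left _ ih)
        have h33 : (∏ p ∈ t i ∪ I.sup t, (p : ℕ) ^ g p) * ∏ p ∈ t i ∩ I.sup t, (p : ℕ) ^ g p =
            (∏ p ∈ t i, (p : ℕ) ^ g p) * ∏ p ∈ I.sup t, (p : ℕ) ^ g p :=
          Finset.prod_union_inter
        have h34 := prodG_pos (g := g) hP (t i ∩ I.sup t)
        calc ∏ p ∈ t i ⊔ I.sup t, (p : ℕ) ^ g p
            = (∏ p ∈ t i ∪ I.sup t, (p : ℕ) ^ g p) * 1 := by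
              rw [mul_one]; rfl
          _ ≤ (∏ p ∈ t i ∪ I.sup t, (p : ℕ) ^ g p) * ∏ p ∈ t i ∩ I.sup t, (p : ℕ) ^ g p :=
              Nat.mul_le_mul_left _ h34
          _ = _ := h33
    exact h32 _
  calc ∏ p ∈ Finset.univ.sup t, (p : ℕ) ^ g p ≤ ∏ i, ∏ p ∈ t i, (p : ℕ) ^ g p := h31
    _ ≤ ∏ _i : Fin M, D := Finset.prod_le_prod' fun i _ => ht i
    _ = D ^ M := by simp only [prod_const, card_univ, Fintype.card_fin]

/-- Fourier transform of the density -/
lemma ftz_cg {n : ℕ} [NeZero n] (N1 : ℕ) (G : ℤ → ℝ) (y : ℤ) {q a : ℕ} (hq1 : 1 ≤ q)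
    (hqn : q ∣ n) :
    ftz (fun z => (cg n N1 G (Ioc y (y + N1)) z : ℂ)) ((a * (n / q) : ℕ) : ZMod n) =
      ((n : ℝ) / N1 : ℝ) * Fw G y N1 ((a : ℝ) / q) := by
  unfold Fw
  rw [← KL2.ftz_mz G (Ioc y (y + N1)) hq1 hqn]
  unfold ftz
  rw [Finset.mul_sum]
  refine Finset.sum_congr rfl fun z _ => ?_
  unfold cg KL2.mz
  push_cast
  ring

end Concrete

end LI

open LI in
theorem li_holds : LIStmt := by
  intro P g W D m N1 β ρ G y Fm Qs hP hg1 hW hm hβ hρ0 hρ hG0 hG1 hFmP hFmd hFmD hN1 hmass hQs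
  classical
  rcases Fm.eq_empty_or_nonempty with hemp | ⟨S1, hS1⟩
  · have hQe : Qs = ∅ := by
      rw [Finset.eq_empty_iff_forall_notMem]
      intro q hq
      have := (hQs q hq).2.2
      rw [hemp] at this
      exact Finset.notMem_empty _ this
    rw [hQe, Finset.sum_empty]
    have hrβ : 0 < β ^ (-(1 / (m : ℝ))) := Real.rpow_pos_of_pos hβ _
    positivity
  have hempty : ∅ ∈ Fm := hFmd S1 hS1 ∅ (Finset.empty_subset _)
  have hD1 : 1 ≤ D := by
    have := hFmD ∅ hempty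
    simpa using this
  have hcard1 : 1 ≤ Fm.card := Finset.card_pos.2 ⟨_, hempty⟩
  have hPpos : 0 < bigG W P g := bigG_pos hP hW
  have : NeZero (bigG W P g) := ⟨hPpos.ne'⟩
  have hN1pos : 0 < N1 := by
    have : 0 < W * D ^ (2 * m + 1) * Fm.card ^ (2 * m) := by positivity
    omega
  have hN1r : (0 : ℝ) < N1 := by exact_mod_cast hN1pos
  have hPr : (0 : ℝ) < bigG W P g := by exact_mod_cast hPpos
  set J := Finset.Ioc y (y + N1) with hJ
  have hmodpos : ∀ S : Finset P, 0 < W * ∏ p ∈ S, (p : ℕ) ^ g p := fun S =>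
    Nat.mul_pos (by omega) (prodG_pos hP S)
  -- the family on the subtype
  set Fs : Finset (Finset P) :=
    Finset.univ.filter (fun S => S.map (Function.Embedding.subtype _) ∈ Fm) with hFs
  have hFsmem : ∀ S : Finset P, S ∈ Fs ↔ S.map (Function.Embedding.subtype _) ∈ Fm := by
    intro S
    rw [hFs, Finset.mem_filter]
    exact ⟨fun h => h.2, fun h => ⟨Finset.mem_univ _, h⟩⟩
  have hFsd : ∀ S ∈ Fs, ∀ T, T ⊆ S → T ∈ Fs := by
    intro S hS T hT
    rw [hFsmem] at hS ⊢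
    exact hFmd _ hS _ (Finset.map_subset_map.2 hT)
  have hFscard : Fs.card ≤ Fm.card := by
    apply Finset.card_le_card_of_injOn (fun S : Finset P => S.map (Function.Embedding.subtype _))
    · intro S hS
      exact (hFsmem S).1 hS
    · intro S _ S' _ h
      exact Finset.map_injective _ h
  have hFsD : ∀ S ∈ Fs, ∏ p ∈ S, (p : ℕ) ^ g p ≤ D := by
    intro S hS
    rw [← prod_map_sub]
    exact hFmD _ ((hFsmem S).1 hS)
  have hlev := sharp_level_gen' (HG W P g) (cg (bigG W P g) N1 G J)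
    (cg (bigG W P g) N1 (fun _ => 1) J) Fs hFsd m β ((W : ℝ) * (D : ℝ) ^ (2 * m + 1) / N1) ρ
    hm hρ0 hρ hβ
    (by
      intro x
      unfold cg
      exact mul_nonneg (by positivity) (Finset.sum_nonneg fun _ _ => hG0 _))
    (by
      intro x
      unfold cg
      apply mul_le_mul_of_nonneg_left _ (by positivity)
      exact Finset.sum_le_sum fun _ _ => hG1 _)
    (by
      intro S hS x
      rw [EE_cg hP]
      have h1 := hmass _ ((hFsmem S).1 hS) (x.val : ℤ)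
      rw [prod_map_sub] at h1
      unfold mass at h1
      rw [← hJ] at h1
      have hmr : (0 : ℝ) < (W * ∏ p ∈ S, (p : ℕ) ^ g p : ℕ) := by
        exact_mod_cast hmodpos S
      calc _ ≤ ((W * ∏ p ∈ S, (p : ℕ) ^ g p : ℕ) : ℝ) / N1 *
            (β * (N1 / (W * ∏ p ∈ S, (p : ℕ) ^ g p : ℕ))) :=
            mul_le_mul_of_nonneg_left h1 (by positivity)
        _ = β := by field_simp
        _ ≤ 2 ^ S.card * β := by
          have : (1 : ℝ) ≤ 2 ^ S.card := one_le_pow₀ (by norm_num)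
          nlinarith only [hβ, this])
    (by
      intro t ht x
      rw [EE_cg hP]
      set d := W * ∏ p ∈ Finset.univ.sup t, (p : ℕ) ^ g p with hd
      have hdpos : 0 < d := hmodpos _
      have hdr : (0 : ℝ) < d := by exact_mod_cast hdpos
      have hdle : (d : ℝ) ≤ (W : ℝ) * (D : ℝ) ^ (2 * m + 1) := by
        have h3 : d ≤ W * D ^ (2 * m + 1) := by
          rw [hd]
          exact Nat.mul_le_mul_left _ (prod_sup_le hP D t fun i => hFsD _ (ht i))
        exact_mod_cast h3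
      have h5 := count_mod (N1 := N1) hdpos y (x.val : ℤ)
      rw [← hJ] at h5
      rw [Finset.sum_const, nsmul_eq_mul, mul_one]
      set cnt := (((J.filter (fun n : ℤ => n ≡ (x.val : ℤ) [ZMOD (d : ℕ)])).card : ℕ) : ℝ)
      have h6 : (d : ℝ) / N1 * cnt - 1 = (d : ℝ) / N1 * (cnt - (N1 : ℝ) / d) := by
        field_simp
      rw [h6, abs_mul, abs_of_nonneg (by positivity : (0 : ℝ) ≤ (d : ℝ) / N1)]
      calc (d : ℝ) / N1 * |cnt - (N1 : ℝ) / d| ≤ (d : ℝ) / N1 * 1 :=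
            mul_le_mul_of_nonneg_left h5 (by positivity)
        _ = (d : ℝ) / N1 := mul_one _
        _ ≤ _ := by gcongr)
    (by
      have hcard : (Fs.card : ℝ) ≤ Fm.card := by exact_mod_cast hFscard
      rw [div_mul_eq_mul_div, div_le_one hN1r]
      calc (W : ℝ) * (D : ℝ) ^ (2 * m + 1) * (Fs.card : ℝ) ^ (2 * m)
          ≤ (W : ℝ) * (D : ℝ) ^ (2 * m + 1) * (Fm.card : ℝ) ^ (2 * m) := by gcongr
        _ ≤ N1 := by exact_mod_cast hN1)
  -- the frequencies
  let T : Finset (Σ _ : ℕ, ℕ) := Qs.sigma (fun q => (Finset.range q).filter (Nat.Coprime q))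
  let ξf : (Σ _ : ℕ, ℕ) → ZMod (bigG W P g) := fun t =>
    ((t.2 * (bigG W P g / t.1) : ℕ) : ZMod (bigG W P g))
  have hT : ∀ t ∈ T, 1 ≤ t.1 ∧ t.2 < t.1 ∧ Nat.Coprime t.1 t.2 ∧ goodg P g W t.1 ∧
      Ug W t.1 ∈ Fm := by
    intro t ht
    simp only [T, Finset.mem_sigma, Finset.mem_filter, Finset.mem_range] at ht
    have h1 := hQs t.1 ht.1
    exact ⟨h1.1, ht.2.1, ht.2.2, h1.2.1, h1.2.2⟩
  have hinj : Set.InjOn ξf T := by
    apply freq_inj
    intro t ht
    have h1 := hT t ht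
    exact ⟨h1.1, goodg_dvd hP hW h1.1 h1.2.2.2.1, h1.2.1, h1.2.2.1⟩
  have hmap : ∀ t ∈ T, (UfG (ξf t)).map (Function.Embedding.subtype _) = Ug W t.1 := by
    intro t ht
    have h1 := hT t ht
    exact map_UfG hP hW h1.1 h1.2.2.2.1 h1.2.2.1
  have hbes := bessel_g (HG W P g) (cg (bigG W P g) N1 G J) Fs ρ
    (2 * β ^ 2 * (1 + β ^ (-(1 / (m : ℝ)))))
    (T.image ξf) UfG (by
      intro ξ _ p
      simp only [UfG, Finset.mem_filter, Finset.mem_univ, true_and])
    (by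
      intro ξ hξ
      rw [Finset.mem_image] at hξ
      obtain ⟨t, ht, rfl⟩ := hξ
      rw [hFsmem, hmap t ht]
      exact (hT t ht).2.2.2.2)
    hρ0 hlev
  rw [Finset.sum_image hinj] at hbes
  have hsum : ∑ q ∈ Qs, ρ ^ (Ug W q).card * enG G y N1 q =
      ∑ t ∈ T, ρ ^ (Ug W t.1).card * ‖Fw G y N1 ((t.2 : ℝ) / t.1)‖ ^ 2 := by
    simp only [T]
    rw [Finset.sum_sigma]
    refine Finset.sum_congr rfl fun q _ => ?_
    unfold enG
    rw [Finset.mul_sum]
  rw [hsum]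
  have hterm : ∀ t ∈ T, ρ ^ (Ug W t.1).card * ‖Fw G y N1 ((t.2 : ℝ) / t.1)‖ ^ 2 =
      ((N1 : ℝ) / (bigG W P g : ℝ)) ^ 2 * (ρ ^ (UfG (ξf t)).card *
        ‖ftz (fun z => (cg (bigG W P g) N1 G J z : ℂ)) (ξf t)‖ ^ 2) := by
    intro t ht
    have h1 := hT t ht
    have h2 : (UfG (ξf t)).card = (Ug W t.1).card := by
      rw [← hmap t ht, Finset.card_map]
    rw [h2]
    simp only [ξf]
    rw [hJ, ftz_cg N1 G y h1.1 (goodg_dvd hP hW h1.1 h1.2.2.2.1), norm_mul, Complex.norm_real,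
      Real.norm_eq_abs, abs_of_nonneg (by positivity), mul_pow]
    generalize ‖Fw G y N1 ((t.2 : ℝ) / t.1)‖ = Z
    field_simp
  rw [Finset.sum_congr rfl hterm, ← Finset.mul_sum]
  calc ((N1 : ℝ) / (bigG W P g : ℝ)) ^ 2 * _ ≤ ((N1 : ℝ) / (bigG W P g : ℝ)) ^ 2 *
        ((bigG W P g : ℝ) ^ 2 * (2 * β ^ 2 * (1 + β ^ (-(1 / (m : ℝ)))))) :=
        mul_le_mul_of_nonneg_left hbes (by positivity)
    _ = (N1 : ℝ) ^ 2 * (2 * β ^ 2 * (1 + β ^ (-(1 / (m : ℝ))))) := by field_simp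

end Vale.Agent.P042.SS
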