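import Vale.Agent.P042.SS.FinLI
import Vale.Agent.P042.SS.LI

set_option autoImplicit false

/-!
Theorem S: `r_h(N) ≤ C N exp(-A √(log N))` for every intersective `h` and every `A > 0`.
-/

namespace Vale.Agent.P042.SS

theorem final_holds : FinalStmt := final_of_li li_holds

end Vale.Agent.P042.SS
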