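import Vale.Agent.P042.SS.Spec

set_option autoImplicit false

/-!
Block LI, abstract part: the sharp level inequality without `1 ≤ β exp (2m)`.
-/

namespace Vale.Agent.P042.SS

open Finset Vale.Agent.P042

namespace LI

lemma final_scalar' (m : ℕ) (hm : 1 ≤ m) (a b : ℝ) (ha : 0 ≤ a) (hb : 0 < b)
    (h : a ^ (2 * m) ≤ b ^ (2 * m - 1) * (a ^ m + b ^ (2 * m))) :
    a ≤ 2 * b ^ 2 * (1 + b ^ (-(1 / (m : ℝ)))) := by
  have hm0 : m ≠ 0 := by omega
  have hm0r : (m : ℝ) ≠ 0 := by exact_mod_cast hm0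
  have hr : 0 < b ^ (-(1 / (m : ℝ))) := Real.rpow_pos_of_pos hb _
  rcases le_or_gt (a ^ m) (b ^ (2 * m)) with h1 | h1
  · rw [pow_mul] at h1
    have h2 := (pow_le_pow_iff_left₀ ha (by positivity) hm0).mp h1
    have h3 : 0 ≤ b ^ 2 * b ^ (-(1 / (m : ℝ))) := by positivity
    nlinarith [sq_nonneg b]
  · have hapos : 0 < a ^ m := lt_of_le_of_lt (by positivity) h1
    have h2 : a ^ m * a ^ m ≤ (2 * b ^ (2 * m - 1)) * a ^ m := by
      have e1 : a ^ (2 * m) = a ^ m * a ^ m := by rw [← pow_add]; congr 1; omega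
      rw [e1] at h
      refine h.trans ?_
      have : 0 < b ^ (2 * m - 1) := by positivity
      nlinarith only [h1, this]
    have h3 : a ^ m ≤ 2 * b ^ (2 * m - 1) := le_of_mul_le_mul_right h2 hapos
    have e2 : b ^ (2 * m) = b ^ (2 * m - 1) * b := by
      rw [← pow_succ]; congr 1; omega
    have e3 : (b ^ (-(1 / (m : ℝ)))) ^ m = b⁻¹ := by
      rw [← Real.rpow_natCast, ← Real.rpow_mul hb.le]
      have : -(1 / (m : ℝ)) * (m : ℝ) = -1 := by field_simp
      rw [this, Real.rpow_neg_one]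
    have e4 : b ^ (2 * m - 1) = (b ^ 2 * b ^ (-(1 / (m : ℝ)))) ^ m := by
      rw [mul_pow, ← pow_mul, e3, e2]
      field_simp
    have h5 : (2 : ℝ) ≤ 2 ^ m := by
      calc (2 : ℝ) = 2 ^ 1 := (pow_one 2).symm
        _ ≤ 2 ^ m := pow_le_pow_right₀ (by norm_num) hm
    have h6 : a ^ m ≤ (2 * (b ^ 2 * b ^ (-(1 / (m : ℝ))))) ^ m := by
      rw [mul_pow]
      rw [e4] at h3
      refine h3.trans ?_
      exact mul_le_mul_of_nonneg_right h5 (by positivity)
    have h7 := (pow_le_pow_iff_left₀ ha (by positivity) hm0).mp h6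
    nlinarith [sq_nonneg b]

open Vale.Agent.P042.Sharp in
/-- General form: any noise weight `0 ≤ q ≤ 1 / (36 m)`. -/
theorem sharp_level_gen' {G ι : Type*} [AddCommGroup G] [Fintype G] [Fintype ι] [DecidableEq ι]
    (Hs : ι → AddSubgroup G) (F ν : G → ℝ) (Fm : Finset (Finset ι))
    (hFm : ∀ S ∈ Fm, ∀ T, T ⊆ S → T ∈ Fm) (m : ℕ) (β ε q : ℝ)
    (hm : 2 ≤ m) (hq0 : 0 ≤ q) (hq : 36 * m * q ≤ 1)
    (hβ : 0 < β)
    (hF : ∀ x, 0 ≤ F x) (hFν : ∀ x, F x ≤ ν x)
    (h2 : ∀ S ∈ Fm, ∀ x, EE Hs Sᶜ F x ≤ 2 ^ S.card * β)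
    (hν : ∀ 𝒯 : Fin (2 * m + 1) → Finset ι, (∀ i, 𝒯 i ∈ Fm) →
      ∀ x, |EE Hs (Finset.univ.sup 𝒯)ᶜ ν x - 1| ≤ ε)
    (hε : ε * (Fm.card : ℝ) ^ (2 * m) ≤ 1) :
    ∀ x, ∑ U ∈ Fm, q ^ U.card *
      EE Hs Finset.univ (fun z => (gg Hs F ∅ U z) ^ 2) x ≤
        2 * β ^ 2 * (1 + β ^ (-(1 / (m : ℝ)))) := by
  intro x
  have hrβ : 0 < β ^ (-(1 / (m : ℝ))) := Real.rpow_pos_of_pos hβ _
  rcases Fm.eq_empty_or_nonempty with hemp | ⟨S1, hS1⟩
  · rw [hemp, Finset.sum_empty]; positivity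
  have hempty : ∅ ∈ Fm := hFm S1 hS1 ∅ (Finset.empty_subset _)
  have hm' : (2 : ℝ) ≤ m := by exact_mod_cast hm
  simp only [← act_Aop] at h2 hν
  -- parameters
  set sm : ℝ := Real.sqrt m with hsm
  have hsm2 : sm ^ 2 = m := Real.sq_sqrt (by linarith only [])
  have hsm0 : 0 < sm := Real.sqrt_pos.mpr (by linarith only [hm'])
  set r : ℝ := (2 * sm)⁻¹ with hr
  set σ : ℝ := 2 * sm * q with hσ
  have hr1 : 4 * m * r ^ 2 = 1 := by
    rw [hr, ← hsm2]; field_simp; norm_num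
  have hrσ : r * σ = q := by
    rw [hr, hσ]; (clear * - hsm0; field_simp)
  have hσ2 : σ ^ 2 = 4 * m * q ^ 2 := by
    rw [hσ, ← hsm2]; ring
  have hσq : 2 * σ ^ 2 ≤ q := by
    rw [hσ2]
    nlinarith only [hq0, hq]
  have hq3 : 3 * q ≤ 1 := by nlinarith only [hq, hm']
  have hcon : (4 * m : ℝ) ^ m * (9 * σ ^ 2) ^ (m - 1) ≤ 1 := const_bound m hm q σ hq0 hq hσ2
  have hε0 : 0 ≤ ε := (abs_nonneg _).trans (hν (fun _ => ∅) (fun _ => hempty) 0)
  obtain ⟨⟨S, x0⟩, hmem, hmax⟩ := Finset.exists_max_image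
    (Fm ×ˢ (Finset.univ : Finset G))
    (fun p => Phi Hs F q Fm p.1 p.2 / 4 ^ p.1.card) ⟨(∅, 0), by simp only [mem_product, hempty, mem_univ, and_self]⟩
  have hSF : S ∈ Fm := by
    simp only [Finset.mem_product, Finset.mem_univ, and_true] at hmem
    exact hmem
  set K : ℝ := Phi Hs F q Fm S x0 / 4 ^ S.card with hKdef
  have hK0 : 0 ≤ K := div_nonneg (Phi_nonneg Hs F q hq0 Fm S x0) (by positivity)
  have hK : ∀ S x, Phi Hs F q Fm S x ≤ K * 4 ^ S.card := by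
    intro S' x'
    by_cases hS' : S' ∈ Fm
    · have := hmax (S', x') (by simp only [mem_product, hS', mem_univ, and_self])
      simp only at this
      rw [div_le_iff₀ (by positivity)] at this
      exact this
    · have h0 : Phi Hs F q Fm S' x' = 0 := by
        rw [Phi]
        apply Finset.sum_eq_zero
        intro W hW
        exact absurd (hFm _ (mem_fam.mp hW).2 S' Finset.subset_union_left) hS'
      rw [h0]
      (clear * - hK0; positivity)
  have hKeq : Phi Hs F q Fm S x0 = K * 4 ^ S.card := by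
    rw [hKdef, div_mul_cancel₀]
    positivity
  -- the key inequality at the maximiser
  have hmom := A6 Hs F m (by omega) r σ q K hr1 hrσ hσq hcon Fm hFm hK S x0
  have hfinal := key_at_max Hs F ν Fm hFm m β ε q K hm hq0 hq3 hε0 hβ hF hFν h2 hν hε S x0 hSF
    hKeq hmom
  have hb0 : 0 < 2 ^ S.card * β := by positivity
  have hβ' : β ≤ 2 ^ S.card * β := by
    have : (1 : ℝ) ≤ 2 ^ S.card := one_le_pow₀ (by norm_num)
    nlinarith only [hβ, this]
  have hKβ := final_scalar' m (by omega) (K * 4 ^ S.card) (2 ^ S.card * β)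
    (by (clear * - hK0; positivity)) hb0 hfinal
  have hK36 : K ≤ 2 * β ^ 2 * (1 + β ^ (-(1 / (m : ℝ)))) := by
    have e1 : (2 ^ S.card * β) ^ 2 = 4 ^ S.card * β ^ 2 := by
      rw [mul_pow, ← pow_mul, mul_comm S.card 2, pow_mul]
      norm_num
    rw [e1] at hKβ
    have h10 : (2 ^ S.card * β) ^ (-(1 / (m : ℝ))) ≤ β ^ (-(1 / (m : ℝ))) := by
      apply Real.rpow_le_rpow_of_nonpos hβ hβ'
      have : (0 : ℝ) ≤ 1 / m := by positivity
      linarith
    have h11 : (0 : ℝ) < 4 ^ S.card := by positivity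
    have h12 : K * 4 ^ S.card ≤ (2 * β ^ 2 * (1 + β ^ (-(1 / (m : ℝ))))) * 4 ^ S.card := by
      refine hKβ.trans ?_
      have h13 : 2 * (4 ^ S.card * β ^ 2) * (1 + (2 ^ S.card * β) ^ (-(1 / (m : ℝ)))) ≤
          2 * (4 ^ S.card * β ^ 2) * (1 + β ^ (-(1 / (m : ℝ)))) := by
        apply mul_le_mul_of_nonneg_left _ (by positivity)
        linarith only [h10]
      refine h13.trans (le_of_eq ?_)
      ring
    exact le_of_mul_le_mul_right h12 h11
  -- conclude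
  have hlast := hK ∅ x
  rw [Finset.card_empty, pow_zero, mul_one] at hlast
  refine le_trans (le_of_eq ?_) (hlast.trans hK36)
  rw [Phi]
  have hfam : fam Fm (∅ : Finset ι) = Fm := by
    ext U
    simp only [fam, empty_union, compl_empty, powerset_univ, subset_univ, filter_mem_eq_of_subset]
  rw [hfam]
  refine Finset.sum_congr rfl fun U _ => ?_
  rw [← act_Aop, Finset.compl_empty]
  congr 2
  simp only [act_gg, Pop, Finset.empty_union, Finset.compl_eq_univ_sdiff]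

end LI

end Vale.Agent.P042.SS
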