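import Vale.Agent.P042.SS.Defs

set_option autoImplicit false

/-!
Statements of the blocks of Theorem S.  Each block `XStmt` is to be proved as
`theorem x_holds : XStmt` in its own file.
-/

namespace Vale.Agent.P042.SS

open Polynomial Finset

/-! ### block LI: level inequality for weights -/

def LIStmt : Prop :=
  ∀ (P : Finset ℕ) (g : ℕ → ℕ) (W D m N1 : ℕ) (β ρ : ℝ) (G : ℤ → ℝ) (y : ℤ)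
    (Fm : Finset (Finset ℕ)) (Qs : Finset ℕ),
    (∀ p ∈ P, p.Prime) → (∀ p ∈ P, 1 ≤ g p) → 1 ≤ W → 2 ≤ m → 0 < β → 0 ≤ ρ →
    36 * m * ρ ≤ 1 → (∀ n, 0 ≤ G n) → (∀ n, G n ≤ 1) →
    (∀ S ∈ Fm, S ⊆ P) → (∀ S ∈ Fm, ∀ T, T ⊆ S → T ∈ Fm) →
    (∀ S ∈ Fm, ∏ p ∈ S, p ^ g p ≤ D) →
    W * D ^ (2 * m + 1) * Fm.card ^ (2 * m) ≤ N1 →
    (∀ S ∈ Fm, ∀ x : ℤ, mass G y N1 (W * ∏ p ∈ S, p ^ g p) x ≤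
      β * (N1 / ((W * ∏ p ∈ S, p ^ g p : ℕ) : ℝ))) →
    (∀ q ∈ Qs, 1 ≤ q ∧ goodg P g W q ∧ Ug W q ∈ Fm) →
    ∑ q ∈ Qs, ρ ^ (Ug W q).card * enG G y N1 q ≤
      (N1 : ℝ) ^ 2 * (2 * β ^ 2 * (1 + β ^ (-(1 / (m : ℝ)))))

/-! ### block UNC: level one and uncovered moduli -/

/-- standing hypotheses on the weight in a window -/
structure MassOK (P Cg Cs c3 : ℝ) (M : ℕ) (G : ℤ → ℝ) (y : ℤ) (Φ Gm : ℝ) : Prop where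
  Φpos : 0 < Φ
  G0 : ∀ n, 0 ≤ G n
  Gle : ∀ n, G n ≤ Gm
  Gm_le : Gm ≤ Real.exp (Cg * Real.sqrt P) * Φ
  M_ge : Real.exp (P / 2) ≤ M
  mass_le : ∀ D : ℕ, 1 ≤ D → (D : ℝ) ≤ Real.exp (c3 * P) → ∀ x : ℤ,
    mass G y M D x ≤ 3 * (D : ℝ) ^ (Cs / Real.sqrt P) * Φ * M / D

def UncStmt : Prop :=
  ∀ (k E K p0 : ℕ) (kap : ℕ → ℕ → ℝ), 1 ≤ k → 1 ≤ E → KapOK k E K p0 kap →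
  ∀ CQ Cg Cs c3 : ℝ, 0 < CQ → 0 < Cg → 0 < Cs → 0 < c3 →
  ∃ cY CM : ℝ, 0 < cY ∧ 0 < CM ∧
    (∀ C2 : ℝ, 0 < C2 → ∃ P0 : ℝ, ∀ P : ℝ, P0 ≤ P →
      ∀ (M : ℕ) (G : ℤ → ℝ) (y : ℤ) (Φ Gm : ℝ), MassOK P Cg Cs c3 M G y Φ Gm →
      ∑ p ∈ Wp ⌊cY * P⌋₊ ⌊C2 * P⌋₊, 1 / Real.sqrt p * enG G y M p ≤
        CM * (M : ℝ) ^ 2 * Φ ^ 2) ∧
    (∀ ε : ℝ, 0 < ε → ∃ C2 : ℝ, 0 < C2 ∧ ∀ c1 : ℝ, 0 < c1 → ∃ P0 : ℝ, ∀ P : ℝ, P0 ≤ P →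
      ∀ (Q M : ℕ) (G : ℤ → ℝ) (y : ℤ) (Φ Gm : ℝ), (Q : ℝ) ≤ Real.exp (CQ * Real.sqrt P) →
      MassOK P Cg Cs c3 M G y Φ Gm →
      ∑ q ∈ (Icc 1 Q).filter (fun q => ¬ Cov ⌊c1 * P⌋₊ ⌊C2 * P⌋₊ q),
        kapProd kap q * enG G y M q ≤ ε * (M : ℝ) ^ 2 * Φ ^ 2)

/-! ### block EXT: the extremal state -/

def ExtStmt : Prop :=
  ∀ (h : ℤ[X]) (lam : ℕ → ℕ) (r : ℕ → ℤ) (Hh : ℕ → ℤ[X]) (R : ℕ), AuxData h lam r Hh R →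
  1 ≤ h.natDegree →
  ∀ (N Nmin J : ℕ) (A : Finset ℤ) (α η : ℝ) (W : Finset ℕ) (blk : ℕ → ℕ),
    A ⊆ Icc (1 : ℤ) N → DiffFree h A → 0 < α → α * N ≤ A.card → 2 ≤ Nmin → Nmin ≤ N →
    0 < η → η ≤ 1 → 2 ≤ J → (∀ p ∈ W, p.Prime ∧ blk p < J) →
    (∀ i < J, ∏ p ∈ W.filter (fun p => blk p = i), p ≤ Nmin) →
    ∃ (d N' : ℕ) (Φ : ℝ) (G : ℤ → ℝ) (ν : ℕ → ℤ → ℝ), 1 ≤ d ∧ Nmin ≤ N' ∧ N' ≤ N ∧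
      d * (N' - 1) ≤ N ∧ α ≤ Φ ∧ Φ ≤ 2 ∧ α * (N : ℝ) ^ η ≤ Φ * (N' : ℝ) ^ η ∧
      Pinned h.natDegree N' Nmin W (1 / (J : ℝ)) η Φ G ν ∧
      (∀ n m : ℤ, G n ≠ 0 → G m ≠ 0 → ∀ x : ℕ, 1 ≤ x → n - m = (Hh d).eval (x : ℤ) → n = m)

/-- sup bound for the weights (from `marg` and `sb`) -/
def NuStmt : Prop :=
  ∀ (k N' Nmin : ℕ) (W : Finset ℕ) (τ η Φ : ℝ) (G : ℤ → ℝ) (ν : ℕ → ℤ → ℝ),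
    Pinned k N' Nmin W τ η Φ G ν → 0 < τ → τ ≤ 1 / 2 → 0 < η → 1 ≤ N' → ∀ p ∈ W,
    p ^ k * Nmin ≤ N' → ∀ x, ν p x ≤ ((1 + (p : ℝ) ^ k / N') * ((p : ℝ) ^ k) ^ η) ^ 2

/-! ### block ENT: abstract entropy estimate -/

def EntStmt : Prop :=
  ∀ (Ω β : Type) (s : Finset Ω) (μ : Ω → ℝ) (X : ℕ → Ω → ℤ) (W W' : Finset ℕ) (τ Dm : ℝ)
    (sz π : ℕ → ℝ) (bk : ℕ → ℕ) (sb : ℕ → ℝ) (J : ℕ) (Gc : Finset ℕ → Prop)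
    [DecidablePred Gc] (Z : Ω → β),
    (∀ ω ∈ s, 0 ≤ μ ω) → ∑ ω ∈ s, μ ω = 1 → 0 < τ → 0 ≤ Dm →
    (∀ p ∈ W, Ent s μ (X p) ≤ sz p) →
    (∀ p ∈ W, 0 ≤ π p ∧ π p ≤ 1 / 4 ∧ π p ≤ sb (bk p) ∧ bk p < J) → (∀ b, 0 ≤ sb b) →
    (∀ S T : Finset ℕ, T ⊆ S → Gc S → Gc T) →
    (∀ U ⊆ W, ∀ (β' : Type) (Z' : Ω → β'),
      τ * ∑ p ∈ U, MI s μ (X p) Z' ≤ MI s μ (XV X U) Z') →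
    (∀ S ⊆ W, Gc S → ∀ b c : ℕ, ∀ U ⊆ W.filter (fun p => bk p = b),
      ∀ V ⊆ W.filter (fun p => bk p = c),
      ∑ p ∈ S ∪ U ∪ V, sz p - Ent s μ (XV X (S ∪ U ∪ V)) ≤ Dm) →
    W' ⊆ W →
    ∑ S ∈ W.powerset.filter Gc, wtR π W S *
        ∑ p ∈ S ∩ W', MI s μ (X p) (fun ω => (XV X (S.erase p) ω, Z ω)) ≤
      4 / τ * (∑ b ∈ W'.image bk, sb b) * (4 * Dm * (∑ b ∈ range J, sb b) + Ent s μ Z)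

/-! ### block PIN: from the pinned state to entropies -/

/-- pinning inequality for mutual informations -/
def PinEntStmt : Prop :=
  ∀ (k N' Nmin : ℕ) (W : Finset ℕ) (τ η Φ : ℝ) (G : ℤ → ℝ) (ν : ℕ → ℤ → ℝ),
    Pinned k N' Nmin W τ η Φ G ν → 0 < τ → 1 ≤ N' → ∀ U ⊆ W, ∀ (β : Type) (Z : ℤ → β),
    τ * ∑ p ∈ U, MI (Icc (1 : ℤ) N') (fun n => G n / (N' * Φ)) (Xr p) Z ≤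
      MI (Icc (1 : ℤ) N') (fun n => G n / (N' * Φ)) (XV Xr U) Z

/-- defect bound from the sup bound of `G` -/
def DefectStmt : Prop :=
  ∀ (k N' Nmin : ℕ) (W : Finset ℕ) (τ η Φ : ℝ) (G : ℤ → ℝ) (ν : ℕ → ℤ → ℝ) (Gm : ℝ),
    Pinned k N' Nmin W τ η Φ G ν → 1 ≤ N' → (∀ n, G n ≤ Gm) →
    ∀ V ⊆ W, ∏ p ∈ V, p ≤ N' →
    ∑ p ∈ V, Real.log p - Ent (Icc (1 : ℤ) N') (fun n => G n / (N' * Φ)) (XV Xr V) ≤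
      Real.log (2 * Gm / Φ)

/-- chain rule -/
def KLChainStmt : Prop :=
  ∀ (k N' Nmin t r : ℕ) (W : Finset ℕ) (τ η Φ : ℝ) (G : ℤ → ℝ) (ν : ℕ → ℤ → ℝ)
    (S1 S2 : Finset ℕ), Pinned k N' Nmin W τ η Φ G ν → 0 < τ → τ ≤ 1 → 0 < η → 1 ≤ t →
    t ≤ N' → 1 ≤ r → S1 ⊆ W → S2 ⊆ W → Disjoint S1 S2 → (∀ p ∈ W, Nat.Coprime p r) →
    1 ≤ k → (r * ∏ p ∈ S1, p) ^ k * Nmin ≤ t →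
    KLt N' t (r * ∏ p ∈ S1 ∪ S2, p) G Φ (psi ν (S1 ∪ S2)) ≤
      ((r * ∏ p ∈ S1, p : ℕ) : ℝ) ^ k / t +
      η * Real.log (N' * ((r * ∏ p ∈ S1, p : ℕ) : ℝ) ^ k / t) +
      ∑ p ∈ S2, MI (Icc (1 : ℤ) N') (fun n => G n / (N' * Φ)) (Xr p)
        (fun n => (XV Xr ((S1 ∪ S2).erase p) n, (Xr r n, tile N' t n)))

/-! ### block EKL: the averaged relative entropy is small -/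

def EKLStmt : Prop :=
  ∀ (k E K p0 : ℕ) (kap : ℕ → ℕ → ℝ), 1 ≤ k → 1 ≤ E → KapOK k E K p0 kap →
  ∀ (C2 Ce Cg Cc : ℝ) (J m0 : ℕ), 0 < C2 → 0 < Ce → 0 < Cg → 0 < Cc → 2 ≤ J → 1 ≤ m0 →
  ∀ ε : ℝ, 0 < ε → ∃ c1 : ℝ, 0 < c1 ∧ c1 < C2 ∧ ∃ P0 : ℝ, ∀ P : ℝ, P0 ≤ P →
    ∀ (N' Nmin t Q : ℕ) (Φ : ℝ) (G : ℤ → ℝ) (ν : ℕ → ℤ → ℝ),
    Real.exp (7 / 8 * P) ≤ N' → (N' : ℝ) ≤ Real.exp P → (Nmin : ℝ) ≤ Real.exp (P / 2) + 1 →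
    1 ≤ t → t ≤ N' → N' ≤ 16 * m0 * t → (Q : ℝ) ≤ Real.exp (Cc * Real.sqrt P) →
    Pinned k N' Nmin (Wp ⌊c1 * P⌋₊ ⌊C2 * P⌋₊) (1 / (J : ℝ)) (Ce / Real.sqrt P) Φ G ν →
    (∀ n, G n ≤ Real.exp (Cg * Real.sqrt P) * Φ) →
    ∑ R ∈ (Ic ⌊c1 * P⌋₊ ⌊C2 * P⌋₊ Q).powerset.filter
        (fun R => cost R ≤ Cc * Real.sqrt P),
      wtR (fun i => kap i.1 i.2) (Ic ⌊c1 * P⌋₊ ⌊C2 * P⌋₊ Q) R *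
        KLt N' t (WR R) G Φ (psi ν (SOf ⌊c1 * P⌋₊ R)) ≤ ε

/-! ### block KL2: from relative entropy to square means -/

def KL2Stmt : Prop :=
  ∀ (N' t m0 D : ℕ) (G : ℤ → ℝ) (Φ Ms : ℝ) (ψ : ℤ → ℝ) (qs : Finset ℕ) (y0 : ℤ),
    1 ≤ t → 1 ≤ m0 → 2 * m0 * t ≤ N' → 1 ≤ D → 0 < Φ → 1 ≤ Ms →
    (∀ n, 0 ≤ G n) → (∀ n, G n ≠ 0 → 1 ≤ n ∧ n ≤ N') →
    ∑ n ∈ Icc (1 : ℤ) N', G n = N' * Φ →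
    (∀ n, 0 ≤ ψ n) → (∀ n, ψ (n + D) = ψ n) → ∑ x ∈ range D, ψ x = D →
    (∀ n, ψ n ≤ Ms) → (∀ n, G n ≠ 0 → ψ n ≠ 0) →
    (∀ y x : ℤ, mass G y t D x ≤ Ms * Φ * t / D) →
    (∀ q ∈ qs, 1 ≤ q ∧ q ∣ D) →
    ∑ y ∈ Icc (-(N' : ℤ)) (2 * N'), ∑ q ∈ qs, ∑ a ∈ (range q).filter (Nat.Coprime q),
      ‖Fw G (y + y0) (m0 * t) ((a : ℝ) / q) -
        (Φ * cnt N' (y + y0) (m0 * t) : ℝ) * ph ψ D ((a : ℝ) / q)‖ ^ 2 ≤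
      N' * ((m0 * t : ℕ) : ℝ) ^ 2 * Φ ^ 2 * (8 * Ms * KLt N' t D G Φ ψ +
        1000 * Ms ^ 2 / (m0 : ℝ) ^ 2)

/-! ### block AN: circle method, single scale, uniform in the polynomial -/

def ANStmt : Prop :=
  ∀ k : ℕ, 2 ≤ k → ∃ E : ℕ, 1 ≤ E ∧ ∀ R : ℕ, 1 ≤ R → ∃ K : ℕ, 1 ≤ K ∧
  ∀ (f : ℤ[X]) (N' H Q : ℕ) (δ B : ℝ) (G : ℤ → ℝ), f.natDegree = k → 0 < f.leadingCoeff →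
    (∀ g : ℤ, (∀ j : ℕ, 1 ≤ j → g ∣ f.coeff j) → g ∣ (R : ℤ)) →
    0 < δ → δ ≤ 1 → 1 ≤ B → (∀ j : ℕ, |(f.coeff j : ℝ)| ≤ B) →
    8 * H ≤ N' → N' ≤ 16 * H → (K / δ) ^ E ≤ (Q : ℝ) → (K * B * Q / δ) ^ E ≤ (N' : ℝ) →
    (∀ n, 0 ≤ G n) → (∀ n, G n ≠ 0 → 1 ≤ n ∧ n ≤ N') →
    (∀ n m : ℤ, G n ≠ 0 → G m ≠ 0 → ∀ x : ℕ, 1 ≤ x → n - m = f.eval (x : ℤ) → n = m) →
    ‖∑ q ∈ Icc 1 Q, ∑ a ∈ (range q).filter (Nat.Coprime q),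
      Gam f a q * Bil G N' H ((a : ℝ) / q)‖ ≤
      δ * (H : ℝ) ^ 2 * ∑ n ∈ Icc (1 : ℤ) N', G n ^ 2

/-! ### block MT: product structure and main term -/

/-- the Fourier coefficients of the product measure -/
def PihatStmt : Prop :=
  ∀ (W : Finset ℕ) (ν : ℕ → ℤ → ℝ), (∀ p ∈ W, p.Prime) → Wts W ν →
  ∀ (S : Finset ℕ) (r q a : ℕ), S ⊆ W → 1 ≤ r → (∀ p ∈ W, Nat.Coprime p r) → 1 ≤ q →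
    q ∣ r * ∏ p ∈ S, p → Nat.Coprime q a →
    ph (psi ν S) (r * ∏ p ∈ S, p) ((a : ℝ) / q) = pihat W ν q a

def MainStmt : Prop :=
  ∀ (f : ℤ[X]) (kap : ℕ → ℕ → ℝ) (w w1 Q : ℕ) (ν : ℕ → ℤ → ℝ) (C0 : ℝ),
    (∀ p j, 0 ≤ kap p j) → Wts (Wp w w1) ν → 2 ≤ w1 → 1 ≤ Q →
    (∀ (q : ℕ) (a : ℤ), 1 ≤ q → IsCoprime a (q : ℤ) → ‖Gam f a q‖ ≤ kapProd kap q) →
    ∑ p ∈ Wp w w1, kap p 1 * th ν p ≤ C0 → (∀ p ∈ Wp w w1, kap p 1 * th ν p ≤ 1 / 2) →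
    Real.exp (-(2 * C0)) - Real.exp (3 * C0 - Real.log Q / Real.log w1) ≤
      (∑ q ∈ (Icc 1 Q).filter (Cov w w1), ∑ a ∈ (range q).filter (Nat.Coprime q),
        Gam f a q * ((‖pihat (Wp w w1) ν q a‖ ^ 2 : ℝ) : ℂ)).re ∧
    ∑ q ∈ (Icc 1 Q).filter (Cov w w1), kapProd kap q *
      ∑ a ∈ (range q).filter (Nat.Coprime q), ‖pihat (Wp w w1) ν q a‖ ^ 2 ≤ Real.exp C0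

/-- Parseval for the weight of one prime -/
def ThStmt : Prop :=
  ∀ (p : ℕ) (ν : ℕ → ℤ → ℝ) (b : ℝ), p.Prime → (∀ n, 0 ≤ ν p n) →
    (∀ n, ν p (n + p) = ν p n) → ∑ x ∈ range p, ν p x = p → (∀ n, ν p n ≤ b) →
    0 ≤ th ν p ∧ th ν p ≤ b - 1

/-- the level one energy of the pinned state is the energy of the weights -/
def ThEnStmt : Prop :=
  ∀ (k N' Nmin : ℕ) (W : Finset ℕ) (τ η Φ : ℝ) (G : ℤ → ℝ) (ν : ℕ → ℤ → ℝ),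
    Pinned k N' Nmin W τ η Φ G ν → ∀ p ∈ W, enG G 0 N' p = (N' * Φ) ^ 2 * th ν p

/-! ### block AUX: costs, partition into blocks, random modulus -/

def CostStmt : Prop :=
  ∀ (k E K p0 : ℕ) (kap : ℕ → ℕ → ℝ), 1 ≤ k → 1 ≤ E → KapOK k E K p0 kap →
  ∃ C : ℝ, 0 < C ∧ ∀ (Y : ℕ) (I : Finset (ℕ × ℕ)),
    (∀ i ∈ I, i.1.Prime ∧ 1 ≤ i.2 ∧ i.1 ≤ Y) →
    ∑ i ∈ I, kap i.1 i.2 * (i.2 * Real.log i.1) ≤ C * (Real.sqrt Y + 1)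

/-- items with exponent at least two -/
def Cost2Stmt : Prop :=
  ∀ (k E K p0 : ℕ) (kap : ℕ → ℕ → ℝ), 1 ≤ k → 1 ≤ E → KapOK k E K p0 kap →
  ∃ C : ℝ, 0 < C ∧ ∀ (Y : ℕ) (I : Finset (ℕ × ℕ)),
    (∀ i ∈ I, i.1.Prime ∧ 2 ≤ i.2 ∧ i.1 ≤ Y) →
    ∑ i ∈ I, kap i.1 i.2 * (i.2 * Real.log i.1) ≤ C * (1 + Real.log (Y + 1))

/-- items with exponent larger than `4E` -/
def Cost3Stmt : Prop :=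
  ∀ (k E K p0 : ℕ) (kap : ℕ → ℕ → ℝ), 1 ≤ k → 1 ≤ E → KapOK k E K p0 kap →
  ∃ C : ℝ, 0 < C ∧ ∀ (I : Finset (ℕ × ℕ)),
    (∀ i ∈ I, i.1.Prime ∧ 4 * E < i.2) →
    ∑ i ∈ I, kap i.1 i.2 * (i.2 * Real.log i.1) ≤ C

def PartStmt : Prop :=
  ∀ (W : Finset ℕ) (M : ℝ) (J : ℕ), 0 < M → (∀ p ∈ W, 1 ≤ p ∧ Real.log p ≤ M) →
    ∑ p ∈ W, Real.log p ≤ (J - 1) * M → 1 ≤ J →
    ∃ bk : ℕ → ℕ, (∀ p ∈ W, bk p < J) ∧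
      ∀ i, ∑ p ∈ W.filter (fun p => bk p = i), Real.log p ≤ 2 * M

def RMStmt : Prop :=
  ∀ (Is : Finset (ℕ × ℕ)) (π ℓ : ℕ × ℕ → ℝ) (ℓ0 X0 : ℝ) (Js : Finset ℕ)
    (U : ℕ → Finset (ℕ × ℕ)) (Ψ : ℕ → ℝ) (B : Finset (ℕ × ℕ) → ℝ),
    (∀ i ∈ Is, 0 ≤ π i) → (∀ i ∈ Is, π i ≤ 1) → (∀ i ∈ Is, 0 ≤ ℓ i) → 0 ≤ ℓ0 → 0 < X0 →
    ∑ i ∈ Is, π i * ℓ i ≤ X0 → (∀ j ∈ Js, U j ⊆ Is) → (∀ j ∈ Js, ∑ i ∈ U j, ℓ i ≤ ℓ0) →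
    (∀ j ∈ Js, 0 ≤ Ψ j) → (∀ R, 0 ≤ B R) →
    (∀ R ⊆ Is, ∑ i ∈ R, ℓ i ≤ ℓ0 + 2 * X0 → ∑ j ∈ Js.filter (fun j => U j ⊆ R), Ψ j ≤ B R) →
    ∑ j ∈ Js, (∏ i ∈ U j, π i) * Ψ j ≤
      2 * ∑ R ∈ Is.powerset.filter (fun R => ∑ i ∈ R, ℓ i ≤ ℓ0 + 2 * X0), wtR π Is R * B R

/-! ### the final theorem -/

def FinalStmt : Prop :=
  ∀ h : ℤ[X], 2 ≤ h.natDegree → 0 < h.leadingCoeff → Intersective h → ∀ A : ℝ, 0 < A →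
    ∃ C : ℝ, 0 < C ∧ ∀ N : ℕ, 1 ≤ N →
      (rMax h N : ℝ) ≤ C * N * Real.exp (-(A * Real.sqrt (Real.log N)))

end Vale.Agent.P042.SS
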