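import Vale.Agent.P042.SS.Spec

set_option autoImplicit false

/-!
Block UNC, part 1: items, splitting of the weight, the gain for uncovered moduli.
-/

namespace Vale.Agent.P042.SS.UNC

open Finset

/-- base items: small primes or large exponents -/
def Ib (Y J Q : ℕ) : Finset (ℕ × ℕ) :=
  ((range (Q + 1)) ×ˢ (range (Q + 1))).filter
    (fun i => i.1.Prime ∧ 1 ≤ i.2 ∧ i.1 ^ i.2 ≤ Q ∧ (i.1 ≤ Y ∨ J < i.2))

/-- base items of `q` -/
def Ub (Y J q : ℕ) : Finset (ℕ × ℕ) :=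
  (q.primeFactors.filter (fun p => p ≤ Y ∨ J < q.factorization p)).image
    (fun p => (p, q.factorization p))

/-- coordinates of `q` -/
def Tq (Y J q : ℕ) : Finset ℕ :=
  q.primeFactors.filter (fun p => ¬ (p ≤ Y ∨ J < q.factorization p))

/-- inflated rates -/
noncomputable def piI (kap : ℕ → ℕ → ℝ) (w : ℕ) (eb : ℝ) (i : ℕ × ℕ) : ℝ :=
  if w < i.1 ∧ 2 ≤ i.2 then kap i.1 i.2 / eb else kap i.1 i.2

variable {kap : ℕ → ℕ → ℝ} {w w1 Y J Q q : ℕ} {eb ρ : ℝ}

theorem fact_pos {p : ℕ} (hp : p ∈ q.primeFactors) : 1 ≤ q.factorization p := by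
  have : q.factorization p ≠ 0 := by
    rw [← Finsupp.mem_support_iff, Nat.support_factorization]; exact hp
  omega

theorem kapProd_split : kapProd kap q =
    (∏ i ∈ Ub Y J q, kap i.1 i.2) * ∏ p ∈ Tq Y J q, kap p (q.factorization p) := by
  unfold kapProd Ub Tq
  rw [Finset.prod_image, Finset.prod_filter_mul_prod_filter_not]
  intro a _ b _ h
  exact (Prod.mk.inj h).1

theorem Ub_subset (hq1 : 1 ≤ q) (hqQ : q ≤ Q) : Ub Y J q ⊆ Ib Y J Q := by
  intro i hi
  unfold Ub at hi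
  rw [Finset.mem_image] at hi
  obtain ⟨p, hp, rfl⟩ := hi
  rw [Finset.mem_filter] at hp
  have hpp := Nat.prime_of_mem_primeFactors hp.1
  have hv : 1 ≤ q.factorization p := fact_pos hp.1
  have h1 : p ^ q.factorization p ≤ q := Nat.ordProj_le p (by omega)
  have h2 : q.factorization p < p ^ q.factorization p := Nat.lt_pow_self hpp.one_lt
  have h3 : p ≤ p ^ q.factorization p := Nat.le_self_pow (by omega) p
  simp only [Ib, mem_filter, mem_product, mem_range]
  exact ⟨⟨by omega, by omega⟩, hpp, hv, by omega, hp.2⟩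

theorem log_eq_sum (hq1 : 1 ≤ q) :
    ∑ p ∈ q.primeFactors, ((q.factorization p : ℕ) : ℝ) * Real.log p = Real.log q := by
  conv_rhs => rw [← Nat.prod_factorization_pow_eq_self (by omega : q ≠ 0)]
  rw [Finsupp.prod, Nat.support_factorization]
  push_cast
  rw [Real.log_prod]
  · refine Finset.sum_congr rfl fun p _ => ?_
    rw [Real.log_pow]
  · intro p hp
    have := (Nat.prime_of_mem_primeFactors hp).pos
    positivity

theorem cost_Ub (hq1 : 1 ≤ q) : cost (Ub Y J q) ≤ Real.log q := by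
  unfold cost Ub
  rw [Finset.sum_image (by intro a _ b _ h; exact (Prod.mk.inj h).1)]
  rw [← log_eq_sum hq1]
  refine Finset.sum_le_sum_of_subset_of_nonneg (Finset.filter_subset _ _) ?_
  intro p _ _
  have : 0 ≤ Real.log p := Real.log_natCast_nonneg p
  positivity

theorem WR_pos' {R : Finset (ℕ × ℕ)} (hR : R ⊆ Ib Y J Q) : 1 ≤ WR R := by
  unfold WR
  show 0 < _
  apply Finset.prod_pos
  intro i hi
  have := hR hi
  simp only [Ib, Finset.mem_filter] at this
  exact pow_pos this.2.1.pos _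

theorem log_WR' {R : Finset (ℕ × ℕ)} (hR : R ⊆ Ib Y J Q) :
    Real.log (WR R) = cost R := by
  unfold WR cost
  push_cast
  rw [Real.log_prod]
  · refine Finset.sum_congr rfl fun i _ => ?_
    rw [Real.log_pow]
  · intro i hi
    have := hR hi
    simp only [Ib, Finset.mem_filter] at this
    have := this.2.1.pos
    positivity

theorem dvd_WR_of_mem {R : Finset (ℕ × ℕ)} {p : ℕ} (hUR : Ub Y J q ⊆ R)
    (hp : p ∈ q.primeFactors) (h : p ≤ Y ∨ J < q.factorization p) :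
    p ^ q.factorization p ∣ WR R := by
  have h1 : (p, q.factorization p) ∈ Ub Y J q := by
    unfold Ub
    rw [Finset.mem_image]
    exact ⟨p, by rw [Finset.mem_filter]; exact ⟨hp, h⟩, rfl⟩
  unfold WR
  exact Finset.dvd_prod_of_mem (fun i : ℕ × ℕ => i.1 ^ i.2) (hUR h1)

theorem Ug_subset_Tq {R : Finset (ℕ × ℕ)} (hUR : Ub Y J q ⊆ R) :
    Ug (WR R) q ⊆ Tq Y J q := by
  intro p hp
  unfold Ug at hp
  rw [Finset.mem_filter] at hp
  unfold Tq
  rw [Finset.mem_filter]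
  exact ⟨hp.1, fun h => hp.2 (dvd_WR_of_mem hUR hp.1 h)⟩

theorem prod_gain {ι : Type*} [DecidableEq ι] (s : Finset ι) (f g : ι → ℝ) (c : ℝ)
    (hf : ∀ i ∈ s, 0 ≤ f i) (hfg : ∀ i ∈ s, f i ≤ g i) (hc : 0 ≤ c) {i0 : ι} (hi0 : i0 ∈ s)
    (h0 : f i0 ≤ c * g i0) : ∏ i ∈ s, f i ≤ c * ∏ i ∈ s, g i := by
  rw [← Finset.mul_prod_erase s f hi0, ← Finset.mul_prod_erase s g hi0, ← mul_assoc]
  apply mul_le_mul h0
  · apply Finset.prod_le_prod
    · intro i hi
      exact hf i (Finset.mem_of_mem_erase hi)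
    · intro i hi
      exact hfg i (Finset.mem_of_mem_erase hi)
  · apply Finset.prod_nonneg
    intro i hi
    exact hf i (Finset.mem_of_mem_erase hi)
  · exact mul_nonneg hc ((hf i0 hi0).trans (hfg i0 hi0))

theorem kap_le_piI (hk0 : ∀ p j, 0 ≤ kap p j) (heb0 : 0 < eb) (heb1 : eb ≤ 1) (i : ℕ × ℕ) :
    kap i.1 i.2 ≤ piI kap w eb i := by
  unfold piI
  split_ifs with h
  · rw [le_div_iff₀ heb0]
    nlinarith [hk0 i.1 i.2]
  · exact le_rfl

theorem piI_nonneg (hk0 : ∀ p j, 0 ≤ kap p j) (heb0 : 0 < eb) (i : ℕ × ℕ) :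
    0 ≤ piI kap w eb i := by
  unfold piI
  split_ifs with h
  · exact div_nonneg (hk0 _ _) heb0.le
  · exact hk0 _ _

/-- the gain for uncovered moduli -/
theorem key_unc (hk0 : ∀ p j, 0 ≤ kap p j) (heb0 : 0 < eb) (heb1 : eb ≤ 1)
    (hc0 : ∀ p j : ℕ, p.Prime → Y < p → 1 ≤ j → kap p j ≤ ρ)
    (hc2 : ∀ p j : ℕ, p.Prime → Y < p → 2 ≤ j → kap p j ≤ eb * ρ)
    (hc1 : ∀ p j : ℕ, p.Prime → w1 < p → 1 ≤ j → kap p j ≤ eb * ρ)
    (hYw1 : Y ≤ w1) (hJ : 1 ≤ J) (hunc : ¬ Cov w w1 q) :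
    kapProd kap q ≤ eb * ((∏ i ∈ Ub Y J q, piI kap w eb i) * ρ ^ (Tq Y J q).card) := by
  rw [kapProd_split (Y := Y) (J := J), ← Finset.prod_const]
  have hTle : ∀ p ∈ Tq Y J q, kap p (q.factorization p) ≤ ρ := by
    intro p hp
    unfold Tq at hp
    rw [Finset.mem_filter] at hp
    have h := hp.2
    push Not at h
    exact hc0 p _ (Nat.prime_of_mem_primeFactors hp.1) h.1 (fact_pos hp.1)
  unfold Cov at hunc
  push Not at hunc
  obtain ⟨p, hp, hwp, hp2⟩ := hunc
  have hpp := Nat.prime_of_mem_primeFactors hp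
  have hv := fact_pos hp
  by_cases hb : p ≤ Y ∨ J < q.factorization p
  · -- a bad base item
    have hmem : (p, q.factorization p) ∈ Ub Y J q := by
      unfold Ub
      rw [Finset.mem_image]
      exact ⟨p, by rw [Finset.mem_filter]; exact ⟨hp, hb⟩, rfl⟩
    have hv2 : 2 ≤ q.factorization p := by
      rcases hb with hb | hb
      · have := hp2 (by omega)
        omega
      · omega
    have h1 : ∏ i ∈ Ub Y J q, kap i.1 i.2 ≤ eb * ∏ i ∈ Ub Y J q, piI kap w eb i := by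
      apply prod_gain _ _ _ _ (fun i _ => hk0 _ _) (fun i _ => kap_le_piI hk0 heb0 heb1 i)
        heb0.le hmem
      unfold piI
      rw [if_pos ⟨hwp, hv2⟩, mul_div_cancel₀ _ heb0.ne']
    have h2 : ∏ p ∈ Tq Y J q, kap p (q.factorization p) ≤ ∏ _p ∈ Tq Y J q, ρ :=
      Finset.prod_le_prod (fun p _ => hk0 _ _) hTle
    rw [← mul_assoc]
    apply mul_le_mul h1 h2 (Finset.prod_nonneg fun p _ => hk0 _ _)
    exact mul_nonneg heb0.le (Finset.prod_nonneg fun i _ => piI_nonneg hk0 heb0 i)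
  · -- a bad coordinate
    have hmem : p ∈ Tq Y J q := by
      unfold Tq
      rw [Finset.mem_filter]
      exact ⟨hp, hb⟩
    have hb' := hb
    push Not at hb'
    have hbad : kap p (q.factorization p) ≤ eb * ρ := by
      by_cases hv2 : 2 ≤ q.factorization p
      · exact hc2 p _ hpp hb'.1 hv2
      · apply hc1 p _ hpp _ hv
        by_contra hcon
        push Not at hcon
        have := hp2 hcon
        omega
    have h1 : ∏ i ∈ Ub Y J q, kap i.1 i.2 ≤ ∏ i ∈ Ub Y J q, piI kap w eb i :=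
      Finset.prod_le_prod (fun i _ => hk0 _ _) (fun i _ => kap_le_piI hk0 heb0 heb1 i)
    have h2 : ∏ p ∈ Tq Y J q, kap p (q.factorization p) ≤ eb * ∏ _p ∈ Tq Y J q, ρ :=
      prod_gain _ _ _ _ (fun i _ => hk0 _ _) hTle heb0.le hmem hbad
    calc (∏ i ∈ Ub Y J q, kap i.1 i.2) * ∏ p ∈ Tq Y J q, kap p (q.factorization p)
        ≤ (∏ i ∈ Ub Y J q, piI kap w eb i) * (eb * ∏ _p ∈ Tq Y J q, ρ) := by
          apply mul_le_mul h1 h2 (Finset.prod_nonneg fun p _ => hk0 _ _)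
          exact Finset.prod_nonneg fun i _ => piI_nonneg hk0 heb0 i
      _ = _ := by ring

end Vale.Agent.P042.SS.UNC
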