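import Vale.Agent.P042.SS.Unc1

set_option autoImplicit false

/-!
Block UNC, part 2: application of the level inequality.
-/

namespace Vale.Agent.P042.SS.UNC

open Finset

/-- sets of primes with product at most `Q` -/
def fm (Q : ℕ) : Finset (Finset ℕ) :=
  ((Icc 1 Q).filter Nat.Prime).powerset.filter (fun S => ∏ p ∈ S, p ≤ Q)

theorem card_fm (Q : ℕ) : (fm Q).card ≤ Q := by
  have h1 : (fm Q).card ≤ (Icc 1 Q).card := by
    apply Finset.card_le_card_of_injOn (fun S : Finset ℕ => ∏ p ∈ S, p)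
    · intro S hS
      simp only [fm, Finset.coe_filter, Finset.mem_powerset, Set.mem_ofPred_eq] at hS
      simp only [Finset.coe_Icc, Set.mem_Icc]
      refine ⟨?_, hS.2⟩
      exact Finset.prod_pos fun p hp => (Finset.mem_filter.1 (hS.1 hp)).2.pos
    · intro S hS S' hS' h
      simp only [fm, Finset.coe_filter, Finset.mem_powerset, Set.mem_ofPred_eq] at hS hS'
      have e1 : (∏ p ∈ S, p).primeFactors = S :=
        Nat.primeFactors_prod fun p hp => (Finset.mem_filter.1 (hS.1 hp)).2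
      have e2 : (∏ p ∈ S', p).primeFactors = S' :=
        Nat.primeFactors_prod fun p hp => (Finset.mem_filter.1 (hS'.1 hp)).2
      simp only at h
      rw [← e1, ← e2, h]
  simpa using h1

theorem enG_div (G : ℤ → ℝ) (c : ℝ) (y : ℤ) (M q : ℕ) :
    enG (fun n => G n / c) y M q = enG G y M q / c ^ 2 := by
  unfold enG
  rw [Finset.sum_div]
  refine Finset.sum_congr rfl fun a _ => ?_
  have : Fw (fun n => G n / c) y M ((a : ℝ) / q) = Fw G y M ((a : ℝ) / q) / (c : ℂ) := by
    unfold Fw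
    rw [Finset.sum_div]
    refine Finset.sum_congr rfl fun n _ => ?_
    push_cast
    ring
  rw [this, norm_div, Complex.norm_real, Real.norm_eq_abs, div_pow, sq_abs]

theorem mass_div (G : ℤ → ℝ) (c : ℝ) (y : ℤ) (M D : ℕ) (x : ℤ) :
    mass (fun n => G n / c) y M D x = mass G y M D x / c := by
  unfold mass
  rw [Finset.sum_div]

theorem enG_nonneg (G : ℤ → ℝ) (y : ℤ) (M q : ℕ) : 0 ≤ enG G y M q :=
  Finset.sum_nonneg fun _ _ => by positivity

theorem li_app (hLI : LIStmt) {J Q M m W : ℕ} {β : ℝ} {G : ℤ → ℝ} {y : ℤ} {Gm : ℝ}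
    (hJ : 1 ≤ J) (hm : 2 ≤ m) (hβ : 0 < β) (hG0 : ∀ n, 0 ≤ G n) (hGm : 0 < Gm)
    (hGle : ∀ n, G n ≤ Gm) (hW : 1 ≤ W)
    (hM : W * (Q ^ J) ^ (2 * m + 1) * Q ^ (2 * m) ≤ M)
    (hmass : ∀ D : ℕ, 1 ≤ D → D ≤ W * Q ^ J → ∀ x : ℤ, mass G y M D x ≤ Gm * (β * (M / D)))
    (Qs : Finset ℕ)
    (hQs : ∀ q ∈ Qs, 1 ≤ q ∧ q ≤ Q ∧
      ∀ p ∈ q.primeFactors, p ^ q.factorization p ∣ W ∨ q.factorization p ≤ J) :
    ∑ q ∈ Qs, (1 / (36 * m : ℝ)) ^ (Ug W q).card * enG G y M q ≤
      Gm ^ 2 * ((M : ℝ) ^ 2 * (2 * β ^ 2 * (1 + β ^ (-(1 / (m : ℝ)))))) := by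
  have hmr : (2 : ℝ) ≤ m := by exact_mod_cast hm
  have h := hLI ((Icc 1 Q).filter Nat.Prime) (fun _ => J) W (Q ^ J) m M β (1 / (36 * m : ℝ))
    (fun n => G n / Gm) y (fm Q) Qs
    (fun p hp => (Finset.mem_filter.1 hp).2) (fun _ _ => hJ) hW hm hβ (by positivity)
    (by rw [mul_one_div, div_self (by positivity)])
    (fun n => div_nonneg (hG0 n) hGm.le)
    (fun n => by rw [div_le_one hGm]; exact hGle n)
    (fun S hS => by
      unfold fm at hS
      rw [Finset.mem_filter, Finset.mem_powerset] at hS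
      exact hS.1)
    (fun S hS T hT => by
      unfold fm at hS ⊢
      rw [Finset.mem_filter, Finset.mem_powerset] at hS ⊢
      refine ⟨hT.trans hS.1, le_trans ?_ hS.2⟩
      exact Finset.prod_le_prod_of_subset_of_one_le' hT
        (fun p hp _ => (Finset.mem_filter.1 (hS.1 hp)).2.one_le))
    (fun S hS => by
      unfold fm at hS
      rw [Finset.mem_filter, Finset.mem_powerset] at hS
      rw [Finset.prod_pow]
      exact Nat.pow_le_pow_left hS.2 J)
    (by
      refine le_trans ?_ hM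
      exact Nat.mul_le_mul_left _ (Nat.pow_le_pow_left (card_fm Q) _))
    (fun S hS x => by
      unfold fm at hS
      rw [Finset.mem_filter, Finset.mem_powerset] at hS
      rw [mass_div, div_le_iff₀ hGm, mul_comm _ Gm]
      apply hmass
      · rw [Finset.prod_pow]
        have h1 : 0 < ∏ p ∈ S, p :=
          Finset.prod_pos fun p hp => (Finset.mem_filter.1 (hS.1 hp)).2.pos
        exact Nat.mul_pos hW (pow_pos h1 J)
      · rw [Finset.prod_pow]
        exact Nat.mul_le_mul_left _ (Nat.pow_le_pow_left hS.2 J))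
    (fun q hq => by
      obtain ⟨h1, h2, h3⟩ := hQs q hq
      refine ⟨h1, ?_, ?_⟩
      · intro p hp
        rcases h3 p hp with h4 | h4
        · exact Or.inl h4
        · right
          refine ⟨?_, h4⟩
          have hpp := Nat.prime_of_mem_primeFactors hp
          rw [Finset.mem_filter, Finset.mem_Icc]
          exact ⟨⟨hpp.one_le, (Nat.le_of_mem_primeFactors hp).trans h2⟩, hpp⟩
      · unfold fm
        rw [Finset.mem_filter, Finset.mem_powerset]
        constructor
        · intro p hp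
          unfold Ug at hp
          rw [Finset.mem_filter] at hp
          have hpp := Nat.prime_of_mem_primeFactors hp.1
          rw [Finset.mem_filter, Finset.mem_Icc]
          exact ⟨⟨hpp.one_le, (Nat.le_of_mem_primeFactors hp.1).trans h2⟩, hpp⟩
        · calc ∏ p ∈ Ug W q, p ≤ ∏ p ∈ q.primeFactors, p :=
                Finset.prod_le_prod_of_subset_of_one_le' (Finset.filter_subset _ _)
                  (fun p hp _ => (Nat.prime_of_mem_primeFactors hp).one_le)
            _ ≤ q := Nat.le_of_dvd h1 (Nat.prod_primeFactors_dvd q)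
            _ ≤ Q := h2)
  simp only [enG_div] at h
  have h2 : ∑ q ∈ Qs, (1 / (36 * m : ℝ)) ^ (Ug W q).card * (enG G y M q / Gm ^ 2) =
      (∑ q ∈ Qs, (1 / (36 * m : ℝ)) ^ (Ug W q).card * enG G y M q) / Gm ^ 2 := by
    rw [Finset.sum_div]
    refine Finset.sum_congr rfl fun q _ => ?_
    ring
  rw [h2, div_le_iff₀ (by positivity)] at h
  linarith [h]

end Vale.Agent.P042.SS.UNC
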