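import Vale.Agent.P042.SS.Unc2

set_option autoImplicit false

/-!
Block UNC, part 3: the bound for uncovered moduli with fixed parameters.
-/

namespace Vale.Agent.P042.SS.UNC

open Finset

theorem unc_core (hLI : LIStmt) {kap : ℕ → ℕ → ℝ} {w w1 Y J Q M m : ℕ} {eb X0 β Gm : ℝ}
    {G : ℤ → ℝ} {y : ℤ}
    (hk0 : ∀ p j, 0 ≤ kap p j) (heb0 : 0 < eb) (heb1 : eb ≤ 1)
    (hc0 : ∀ p j : ℕ, p.Prime → Y < p → 1 ≤ j → kap p j ≤ 1 / (36 * m : ℝ))
    (hc2 : ∀ p j : ℕ, p.Prime → Y < p → 2 ≤ j → kap p j ≤ eb * (1 / (36 * m : ℝ)))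
    (hc1 : ∀ p j : ℕ, p.Prime → w1 < p → 1 ≤ j → kap p j ≤ eb * (1 / (36 * m : ℝ)))
    (hYw1 : Y ≤ w1) (hJ : 1 ≤ J) (hm : 2 ≤ m)
    (hpi1 : ∀ i ∈ Ib Y J Q, piI kap w eb i ≤ 1) (hX0 : 0 < X0)
    (hX : ∑ i ∈ Ib Y J Q, piI kap w eb i * (i.2 * Real.log i.1) ≤ X0)
    (hβ : 0 < β) (hG0 : ∀ n, 0 ≤ G n) (hGm : 0 < Gm) (hGle : ∀ n, G n ≤ Gm) (hQ : 1 ≤ Q)
    (hM : Real.exp (2 * X0) * (Q : ℝ) ^ (1 + J * (2 * m + 1) + 2 * m) ≤ M)
    (hmass : ∀ D : ℕ, 1 ≤ D → (D : ℝ) ≤ Real.exp (2 * X0) * (Q : ℝ) ^ (1 + J) → ∀ x : ℤ,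
      mass G y M D x ≤ Gm * (β * (M / D))) :
    ∑ q ∈ (Icc 1 Q).filter (fun q => ¬ Cov w w1 q), kapProd kap q * enG G y M q ≤
      eb * (2 * (Gm ^ 2 * ((M : ℝ) ^ 2 * (2 * β ^ 2 * (1 + β ^ (-(1 / (m : ℝ)))))))) := by
  classical
  set B : ℝ := Gm ^ 2 * ((M : ℝ) ^ 2 * (2 * β ^ 2 * (1 + β ^ (-(1 / (m : ℝ)))))) with hB
  have hmr : (2 : ℝ) ≤ m := by exact_mod_cast hm
  have hQr : (1 : ℝ) ≤ Q := by exact_mod_cast hQ
  have hQ0 : (0 : ℝ) < Q := by linarith
  have hρ0 : (0 : ℝ) ≤ 1 / (36 * m : ℝ) := by positivity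
  have hρ1 : 1 / (36 * m : ℝ) ≤ 1 := by
    rw [div_le_one (by positivity)]
    linarith
  set Js := (Icc 1 Q).filter (fun q => ¬ Cov w w1 q) with hJs
  have hJsQ : ∀ q ∈ Js, 1 ≤ q ∧ q ≤ Q := by
    intro q hq
    rw [hJs, Finset.mem_filter, Finset.mem_Icc] at hq
    exact hq.1
  have hmain : ∀ R ⊆ Ib Y J Q, ∑ i ∈ R, ((i.2 : ℝ) * Real.log i.1) ≤ Real.log Q + 2 * X0 →
      ∑ q ∈ Js.filter (fun q => Ub Y J q ⊆ R),
        (1 / (36 * m : ℝ)) ^ (Tq Y J q).card * enG G y M q ≤ B := by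
    intro R hR hcost
    have hWpos : 1 ≤ WR R := WR_pos' hR
    have hW : (WR R : ℝ) ≤ Q * Real.exp (2 * X0) := by
      have h1 := log_WR' hR
      unfold cost at h1
      rw [← h1] at hcost
      have hWr : (0 : ℝ) < WR R := by exact_mod_cast hWpos
      rw [← Real.log_le_log_iff hWr (by positivity), Real.log_mul (by positivity) (by positivity),
        Real.log_exp]
      exact hcost
    have h1 := li_app hLI (Gm := Gm) (G := G) (y := y) (β := β) (W := WR R) (M := M) (m := m)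
      (J := J) (Q := Q) hJ hm hβ hG0 hGm hGle hWpos
      (by
        have : ((WR R * (Q ^ J) ^ (2 * m + 1) * Q ^ (2 * m) : ℕ) : ℝ) ≤ M := by
          push_cast
          calc (WR R : ℝ) * ((Q : ℝ) ^ J) ^ (2 * m + 1) * (Q : ℝ) ^ (2 * m) ≤
              (Q * Real.exp (2 * X0)) * ((Q : ℝ) ^ J) ^ (2 * m + 1) * (Q : ℝ) ^ (2 * m) := by
                apply mul_le_mul_of_nonneg_right _ (by positivity)
                exact mul_le_mul_of_nonneg_right hW (by positivity)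
            _ = Real.exp (2 * X0) * (Q : ℝ) ^ (1 + J * (2 * m + 1) + 2 * m) := by
                rw [← pow_mul, pow_add, pow_add, pow_one]; ring
            _ ≤ M := hM
        exact_mod_cast this)
      (by
        intro D hD hDW x
        apply hmass D hD
        have h2 : (D : ℝ) ≤ WR R * (Q : ℝ) ^ J := by exact_mod_cast hDW
        calc (D : ℝ) ≤ WR R * (Q : ℝ) ^ J := h2
          _ ≤ (Q * Real.exp (2 * X0)) * (Q : ℝ) ^ J := mul_le_mul_of_nonneg_right hW (by positivity)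
          _ = _ := by rw [pow_add, pow_one]; ring)
      (Js.filter (fun q => Ub Y J q ⊆ R))
      (by
        intro q hq
        rw [Finset.mem_filter] at hq
        refine ⟨(hJsQ q hq.1).1, (hJsQ q hq.1).2, ?_⟩
        intro p hp
        by_cases h : p ≤ Y ∨ J < q.factorization p
        · exact Or.inl (dvd_WR_of_mem hq.2 hp h)
        · right
          push Not at h
          exact h.2)
    refine (Finset.sum_le_sum ?_).trans h1
    intro q hq
    rw [Finset.mem_filter] at hq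
    apply mul_le_mul_of_nonneg_right _ (enG_nonneg _ _ _ _)
    exact pow_le_pow_of_le_one hρ0 hρ1 (Finset.card_le_card (Ug_subset_Tq hq.2))
  have hrm := random_modulus (Ib Y J Q) (piI kap w eb)
    (fun i => (i.2 : ℝ) * Real.log i.1) (Real.log Q) X0 (fun i _ => piI_nonneg hk0 heb0 i)
    hpi1
    (fun i _ => mul_nonneg (Nat.cast_nonneg _) (Real.log_natCast_nonneg _))
    (Real.log_natCast_nonneg _) hX0 hX
    Js (Ub Y J) (fun q => (1 / (36 * m : ℝ)) ^ (Tq Y J q).card * enG G y M q)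
    (fun q hq => Ub_subset (hJsQ q hq).1 (hJsQ q hq).2)
    (fun q hq => by
      refine (cost_Ub (hJsQ q hq).1).trans ?_
      apply Real.log_le_log
      · have : 0 < q := (hJsQ q hq).1
        exact_mod_cast this
      · exact_mod_cast (hJsQ q hq).2)
    (fun q _ => mul_nonneg (pow_nonneg hρ0 _) (enG_nonneg _ _ _ _))
    B hmain
  refine le_trans ?_ (mul_le_mul_of_nonneg_left hrm heb0.le)
  rw [Finset.mul_sum]
  refine Finset.sum_le_sum fun q hq => ?_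
  have hunc : ¬ Cov w w1 q := by
    rw [hJs, Finset.mem_filter] at hq
    exact hq.2
  have h3 := key_unc (q := q) (w := w) (w1 := w1) (Y := Y) (J := J) hk0 heb0 heb1 hc0 hc2 hc1
    hYw1 hJ hunc
  calc kapProd kap q * enG G y M q ≤
      (eb * ((∏ i ∈ Ub Y J q, piI kap w eb i) * (1 / (36 * m : ℝ)) ^ (Tq Y J q).card)) *
        enG G y M q := mul_le_mul_of_nonneg_right h3 (enG_nonneg _ _ _ _)
    _ = _ := by ring

end Vale.Agent.P042.SS.UNC
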