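import Vale.Agent.P042.SS.Unc3

set_option autoImplicit false

/-!
Block UNC, part 4: cost of the inflated items; the rates outside the base.
-/

namespace Vale.Agent.P042.SS.UNC

open Finset

theorem cost_bound {kap : ℕ → ℕ → ℝ} {w Y J Q : ℕ} {eb A1 A2 A3 : ℝ}
    (hk0 : ∀ p j, 0 ≤ kap p j) (heb0 : 0 < eb) (heb1 : eb ≤ 1)
    (h1 : ∑ i ∈ (Ib Y J Q).filter (fun i => i.1 ≤ Y), kap i.1 i.2 * (i.2 * Real.log i.1) ≤ A1)
    (h2 : ∑ i ∈ (Ib Y J Q).filter (fun i => i.1 ≤ Y ∧ 2 ≤ i.2),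
      kap i.1 i.2 * (i.2 * Real.log i.1) ≤ A2)
    (h3 : ∑ i ∈ (Ib Y J Q).filter (fun i => J < i.2),
      kap i.1 i.2 * (i.2 * Real.log i.1) ≤ A3) :
    ∑ i ∈ Ib Y J Q, piI kap w eb i * (i.2 * Real.log i.1) ≤ A1 + (A2 + A3) / eb := by
  rw [Finset.sum_filter] at h1 h2 h3
  have h4 : ∑ i ∈ Ib Y J Q, piI kap w eb i * (i.2 * Real.log i.1) ≤
      ∑ i ∈ Ib Y J Q, ((if i.1 ≤ Y then kap i.1 i.2 * (i.2 * Real.log i.1) else 0) +
        ((if i.1 ≤ Y ∧ 2 ≤ i.2 then kap i.1 i.2 * (i.2 * Real.log i.1) else 0) +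
        (if J < i.2 then kap i.1 i.2 * (i.2 * Real.log i.1) else 0)) / eb) := by
    apply Finset.sum_le_sum
    intro i hi
    have hc : 0 ≤ (i.2 : ℝ) * Real.log i.1 :=
      mul_nonneg (Nat.cast_nonneg _) (Real.log_natCast_nonneg _)
    have hk := hk0 i.1 i.2
    have hkc : 0 ≤ kap i.1 i.2 * (i.2 * Real.log i.1) := mul_nonneg hk hc
    have hkce : kap i.1 i.2 * (i.2 * Real.log i.1) ≤ kap i.1 i.2 * (i.2 * Real.log i.1) / eb := by
      rw [le_div_iff₀ heb0]
      nlinarith
    have hpe : piI kap w eb i * (i.2 * Real.log i.1) ≤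
        kap i.1 i.2 * (i.2 * Real.log i.1) / eb := by
      unfold piI
      split_ifs with h
      · rw [div_mul_eq_mul_div]
      · exact hkce
    simp only [Ib, mem_filter, mem_product, mem_range] at hi
    by_cases hY : i.1 ≤ Y
    · by_cases h2 : 2 ≤ i.2
      · rw [if_pos hY, if_pos ⟨hY, h2⟩]
        have h5 : 0 ≤ (if J < i.2 then kap i.1 i.2 * (i.2 * Real.log i.1) else 0) := by
          split_ifs
          · exact hkc
          · exact le_rfl
        have h6 : kap i.1 i.2 * (i.2 * Real.log i.1) / eb ≤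
            (kap i.1 i.2 * (i.2 * Real.log i.1) +
              (if J < i.2 then kap i.1 i.2 * (i.2 * Real.log i.1) else 0)) / eb := by
          apply div_le_div_of_nonneg_right _ heb0.le
          linarith
        linarith
      · rw [if_pos hY, if_neg (by tauto)]
        have h5 : 0 ≤ (if J < i.2 then kap i.1 i.2 * (i.2 * Real.log i.1) else 0) := by
          split_ifs
          · exact hkc
          · exact le_rfl
        have h6 : piI kap w eb i = kap i.1 i.2 := by
          unfold piI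
          rw [if_neg (by tauto)]
        rw [h6]
        have h7 : 0 ≤ (0 + (if J < i.2 then kap i.1 i.2 * (i.2 * Real.log i.1) else 0)) / eb := by
          apply div_nonneg _ heb0.le
          linarith
        linarith
    · have hJ : J < i.2 := by tauto
      rw [if_neg hY, if_neg (by tauto), if_pos hJ]
      have e1 : (0 : ℝ) + (0 + kap i.1 i.2 * (i.2 * Real.log i.1)) / eb =
          kap i.1 i.2 * (i.2 * Real.log i.1) / eb := by ring
      rw [e1]
      exact hpe
  refine h4.trans ?_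
  rw [Finset.sum_add_distrib, ← Finset.sum_div, Finset.sum_add_distrib]
  have h5 := div_le_div_of_nonneg_right (add_le_add h2 h3) heb0.le
  linarith

variable {k E K p0 : ℕ} {kap : ℕ → ℕ → ℝ}

/-- all rates of a large prime are at most `k / √p` -/
theorem kap_le_sqrt (hK : KapOK k E K p0 kap) {p j : ℕ} (hp : p.Prime) (hp0 : p0 < p)
    (hj : 1 ≤ j) : kap p j ≤ k / Real.sqrt p := by
  rcases Nat.lt_or_ge j 2 with h | h
  · have : j = 1 := by omega
    rw [this]
    exact hK.one p hp hp0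
  · refine (hK.two p j hp hp0 h).trans ?_
    have h1 : (1 : ℝ) ≤ p := by exact_mod_cast hp.one_le
    have h2 : Real.sqrt p ≤ p := by
      rw [Real.sqrt_le_left (by linarith)]
      nlinarith
    have h3 : 0 < Real.sqrt p := Real.sqrt_pos.2 (by linarith)
    exact div_le_div_of_nonneg_left (Nat.cast_nonneg _) h3 h2

/-- rates beyond `c P` -/
theorem kap_le_of_floor (hK : KapOK k E K p0 kap) {c P : ℝ} (hc : 0 < c) (hP : 0 < P)
    (hcP : (p0 : ℝ) ≤ c * P) {p j : ℕ} (hp : p.Prime) (hpY : ⌊c * P⌋₊ < p) (hj : 1 ≤ j) :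
    kap p j ≤ k / (Real.sqrt c * Real.sqrt P) := by
  have h1 : c * P < p := (Nat.floor_lt (by positivity)).1 hpY
  have h2 : p0 < p := by
    have : (p0 : ℝ) < p := lt_of_le_of_lt hcP h1
    exact_mod_cast this
  refine (kap_le_sqrt hK hp h2 hj).trans ?_
  rw [← Real.sqrt_mul hc.le]
  apply div_le_div_of_nonneg_left (Nat.cast_nonneg _) (Real.sqrt_pos.2 (by positivity))
  exact Real.sqrt_le_sqrt h1.le

theorem kap_le_of_floor2 (hK : KapOK k E K p0 kap) {c P : ℝ} (hc : 0 < c) (hP : 0 < P)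
    (hcP : (p0 : ℝ) ≤ c * P) {p j : ℕ} (hp : p.Prime) (hpY : ⌊c * P⌋₊ < p) (hj : 2 ≤ j) :
    kap p j ≤ k / (c * P) := by
  have h1 : c * P < p := (Nat.floor_lt (by positivity)).1 hpY
  have h2 : p0 < p := by
    have : (p0 : ℝ) < p := lt_of_le_of_lt hcP h1
    exact_mod_cast this
  refine (hK.two p j hp h2 hj).trans ?_
  exact div_le_div_of_nonneg_left (Nat.cast_nonneg _) (by positivity) h1.le

end Vale.Agent.P042.SS.UNC
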